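import Vale.Agent.Lib.P062.Core

namespace Vale.Agent.Lib.P062.CT
open Vale.Agent.Lib.P062.Core
set_option maxRecDepth 100000
set_option linter.all false

noncomputable def D579 : OP := win (nat_lit 7) (nat_lit 6) (nat_lit 7) (nat_lit 4)
noncomputable def D1376 : OP := win (nat_lit 7) (nat_lit 6) (nat_lit 6) (nat_lit 5)
noncomputable def D1378 : OP := orK (nat_lit 146) (fin (add (start D1376) D579))
noncomputable def D1382 : OP := win (nat_lit 3) (nat_lit 7) (nat_lit 7) (nat_lit 4)
noncomputable def D1381 : OP := win (nat_lit 3) (nat_lit 7) (nat_lit 6) (nat_lit 5)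
noncomputable def D1384 : OP := orK (nat_lit 148) (fin (add (start D1381) D1382))
noncomputable def D1386 : OP := orK (nat_lit 147) (fin (add (start D1384) D1378))
noncomputable def D851 : OP := win (nat_lit 6) (nat_lit 7) (nat_lit 7) (nat_lit 5)
noncomputable def D1379 : AP := fin (add (start D851) D1378)
noncomputable def D1380 : OP := orK (nat_lit 147) D1379
noncomputable def D1369 : OP := win (nat_lit 6) (nat_lit 7) (nat_lit 9) (nat_lit 5)
noncomputable def D1368 : OP := win (nat_lit 6) (nat_lit 7) (nat_lit 8) (nat_lit 4)
noncomputable def D1371 : OP := orK (nat_lit 248) (fin (add (start D1368) D1369))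
noncomputable def D1308 : OP := win (nat_lit 3) (nat_lit 7) (nat_lit 8) (nat_lit 4)
noncomputable def D1307 : OP := win (nat_lit 3) (nat_lit 7) (nat_lit 7) (nat_lit 5)
noncomputable def D1310 : OP := orK (nat_lit 168) (fin (add (start D1307) D1308))
noncomputable def D1372 : AP := fin (add (start D1310) D1371)
noncomputable def D1373 : OP := orK (nat_lit 247) D1372
noncomputable def D18 : OP := win (nat_lit 5) (nat_lit 6) (nat_lit 10) (nat_lit 5)
noncomputable def D19 : OP := win (nat_lit 2) (nat_lit 6) (nat_lit 9) (nat_lit 5)
noncomputable def D1392 : OP := orK (nat_lit 187) (fin (add (start D19) (orK (nat_lit 227) (fin (add (start D18) (orK (nat_lit 167) (fin (add (add (start D1373) D1380) D1386))))))))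
noncomputable def D11 : OP := win (nat_lit 4) (nat_lit 7) (nat_lit 9) (nat_lit 5)
noncomputable def D29714 : OP := orK (nat_lit 190) (fin (add (start D11) D1392))
noncomputable def D10 : OP := win (nat_lit 4) (nat_lit 6) (nat_lit 9) (nat_lit 4)
noncomputable def D13 : OP := orK (nat_lit 190) (fin (add (start D10) D11))
noncomputable def D1 : OP := win (nat_lit 0) (nat_lit 6) (nat_lit 10) (nat_lit 4)
noncomputable def D14 : AP := fin (add (start D1) D13)
noncomputable def D15 : OP := orK (nat_lit 206) D14
noncomputable def D3 : OP := win (nat_lit 2) (nat_lit 6) (nat_lit 9) (nat_lit 4)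
noncomputable def D2 : OP := win (nat_lit 2) (nat_lit 5) (nat_lit 9) (nat_lit 5)
noncomputable def D5 : OP := orK (nat_lit 186) (fin (add (start D2) D3))
noncomputable def D6 : AP := fin (add (start D1) D5)
noncomputable def D7 : OP := orK (nat_lit 206) D6
noncomputable def D416 : OP := win (nat_lit 7) (nat_lit 7) (nat_lit 6) (nat_lit 5)
noncomputable def D3276 : OP := win (nat_lit 2) (nat_lit 7) (nat_lit 7) (nat_lit 0)
noncomputable def D27100 : AP := fin (add (start D3276) D416)
noncomputable def D417 : OP := win (nat_lit 7) (nat_lit 7) (nat_lit 7) (nat_lit 4)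
noncomputable def D308 : OP := win (nat_lit 3) (nat_lit 8) (nat_lit 7) (nat_lit 5)
noncomputable def D260 : OP := win (nat_lit 7) (nat_lit 9) (nat_lit 7) (nat_lit 5)
noncomputable def D752 : OP := win (nat_lit 6) (nat_lit 10) (nat_lit 8) (nat_lit 5)
noncomputable def D733 : OP := win (nat_lit 0) (nat_lit 8) (nat_lit 8) (nat_lit 5)
noncomputable def D732 : OP := win (nat_lit 0) (nat_lit 7) (nat_lit 8) (nat_lit 0)
noncomputable def D734 : AP := fin (add (start D732) D733)
noncomputable def D1946 : OP := win (nat_lit 5) (nat_lit 10) (nat_lit 8) (nat_lit 0)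
noncomputable def D286 : OP := win (nat_lit 4) (nat_lit 10) (nat_lit 7) (nat_lit 5)
noncomputable def D285 : OP := win (nat_lit 4) (nat_lit 9) (nat_lit 7) (nat_lit 4)
noncomputable def D11945 : OP := orK (nat_lit 153) (fin (add (start D285) (orK (nat_lit 173) (fin (add (start D286) (orK (nat_lit 191) (fin (add (start D1946) (orK (nat_lit 168) D734)))))))))
noncomputable def D1935 : OP := win (nat_lit 5) (nat_lit 10) (nat_lit 8) (nat_lit 4)
noncomputable def D1934 : OP := win (nat_lit 0) (nat_lit 11) (nat_lit 8) (nat_lit 5)
noncomputable def D1933 : OP := win (nat_lit 0) (nat_lit 10) (nat_lit 8) (nat_lit 4)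
noncomputable def D288 : OP := orK (nat_lit 153) (fin (add (start D285) D286))
noncomputable def D280 : OP := win (nat_lit 0) (nat_lit 10) (nat_lit 8) (nat_lit 5)
noncomputable def D279 : OP := win (nat_lit 0) (nat_lit 9) (nat_lit 8) (nat_lit 4)
noncomputable def D981 : OP := orK (nat_lit 193) (fin (add (start D279) (orK (nat_lit 173) (fin (add (start D280) D288)))))
noncomputable def D984 : OP := win (nat_lit 2) (nat_lit 7) (nat_lit 7) (nat_lit 4)
noncomputable def D29840 : OP := orK (nat_lit 147) (fin (add (start D984) D417))
noncomputable def D983 : OP := win (nat_lit 0) (nat_lit 8) (nat_lit 8) (nat_lit 4)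
noncomputable def D982 : OP := win (nat_lit 0) (nat_lit 9) (nat_lit 8) (nat_lit 5)
noncomputable def D1565 : OP := win (nat_lit 4) (nat_lit 9) (nat_lit 7) (nat_lit 5)
noncomputable def D1564 : OP := win (nat_lit 4) (nat_lit 8) (nat_lit 7) (nat_lit 4)
noncomputable def D1567 : OP := orK (nat_lit 152) (fin (add (start D1564) D1565))
noncomputable def D1054 : OP := orK (nat_lit 192) (fin (add (start D983) D982))
noncomputable def D1568 : AP := fin (add (start D1054) D1567)
noncomputable def D1989 : OP := orK (nat_lit 172) D1568
noncomputable def D45 : OP := win (nat_lit 3) (nat_lit 10) (nat_lit 7) (nat_lit 5)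
noncomputable def D954 : OP := win (nat_lit 5) (nat_lit 8) (nat_lit 8) (nat_lit 0)
noncomputable def D316 : OP := win (nat_lit 5) (nat_lit 7) (nat_lit 9) (nat_lit 0)
noncomputable def D388 : OP := win (nat_lit 3) (nat_lit 8) (nat_lit 8) (nat_lit 0)
noncomputable def D492 : OP := win (nat_lit 1) (nat_lit 8) (nat_lit 6) (nat_lit 0)
noncomputable def D493 : OP := win (nat_lit 3) (nat_lit 8) (nat_lit 7) (nat_lit 3)
noncomputable def D2698 : OP := win (nat_lit 7) (nat_lit 9) (nat_lit 6) (nat_lit 4)
noncomputable def D2697 : OP := win (nat_lit 7) (nat_lit 9) (nat_lit 5) (nat_lit 5)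
noncomputable def D2700 : OP := orK (nat_lit 129) (fin (add (start D2697) D2698))
noncomputable def D779 : OP := win (nat_lit 3) (nat_lit 10) (nat_lit 5) (nat_lit 5)
noncomputable def D780 : OP := win (nat_lit 3) (nat_lit 10) (nat_lit 6) (nat_lit 4)
noncomputable def D6226 : OP := orK (nat_lit 131) (fin (add (start D780) (orK (nat_lit 130) (fin (add (start D779) D2700)))))
noncomputable def D770 : OP := win (nat_lit 6) (nat_lit 10) (nat_lit 5) (nat_lit 4)
noncomputable def D769 : OP := win (nat_lit 3) (nat_lit 10) (nat_lit 4) (nat_lit 5)
noncomputable def D768 : OP := win (nat_lit 3) (nat_lit 10) (nat_lit 5) (nat_lit 4)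
noncomputable def D2962 : OP := orK (nat_lit 111) (fin (add (start D768) (orK (nat_lit 110) (fin (add (start D769) D770)))))
noncomputable def D1591 : OP := win (nat_lit 6) (nat_lit 10) (nat_lit 5) (nat_lit 0)
noncomputable def D22 : OP := win (nat_lit 3) (nat_lit 10) (nat_lit 7) (nat_lit 4)
noncomputable def D21 : OP := win (nat_lit 3) (nat_lit 10) (nat_lit 6) (nat_lit 5)
noncomputable def D24 : OP := orK (nat_lit 151) (fin (add (start D21) D22))
noncomputable def D27052 : OP := orK (nat_lit 150) (fin (add (add (add (start D24) (orK (nat_lit 171) (fin (add (start D45) (orK (nat_lit 130) (fin (add (start D1591) D2700))))))) (orK (nat_lit 129) (fin (add (start D2698) (orK (nat_lit 130) (fin (add (start D2697) D2962))))))) D6226))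
noncomputable def D2625 : OP := win (nat_lit 5) (nat_lit 7) (nat_lit 9) (nat_lit 2)
noncomputable def D252 : OP := win (nat_lit 7) (nat_lit 9) (nat_lit 6) (nat_lit 5)
noncomputable def D6520 : OP := win (nat_lit 5) (nat_lit 7) (nat_lit 7) (nat_lit 3)
noncomputable def D6522 : OP := orK (nat_lit 149) (fin (add (start D6520) D252))
noncomputable def D342 : OP := win (nat_lit 7) (nat_lit 7) (nat_lit 7) (nat_lit 5)
noncomputable def D343 : OP := win (nat_lit 7) (nat_lit 7) (nat_lit 8) (nat_lit 4)
noncomputable def D6864 : OP := win (nat_lit 6) (nat_lit 10) (nat_lit 8) (nat_lit 0)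
noncomputable def D120 : OP := win (nat_lit 6) (nat_lit 8) (nat_lit 11) (nat_lit 5)
noncomputable def D119 : OP := win (nat_lit 6) (nat_lit 8) (nat_lit 10) (nat_lit 4)
noncomputable def D109 : OP := win (nat_lit 1) (nat_lit 7) (nat_lit 10) (nat_lit 5)
noncomputable def D110 : OP := win (nat_lit 1) (nat_lit 7) (nat_lit 9) (nat_lit 4)
noncomputable def D68 : OP := win (nat_lit 7) (nat_lit 7) (nat_lit 9) (nat_lit 0)
noncomputable def D216 : OP := win (nat_lit 7) (nat_lit 7) (nat_lit 8) (nat_lit 5)
noncomputable def D400 : AP := fin (add (start D216) D68)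
noncomputable def D401 : OP := orK (nat_lit 187) D400
noncomputable def D389 : OP := win (nat_lit 5) (nat_lit 6) (nat_lit 9) (nat_lit 3)
noncomputable def D128 : OP := win (nat_lit 4) (nat_lit 5) (nat_lit 9) (nat_lit 0)
noncomputable def D824 : OP := orK (nat_lit 189) (fin (add (start D316) (orK (nat_lit 206) (fin (add (start D128) D389)))))
noncomputable def D158 : OP := win (nat_lit 1) (nat_lit 7) (nat_lit 6) (nat_lit 0)
noncomputable def D26046 : AP := fin (add (start D158) D416)
noncomputable def D26047 : OP := orK (nat_lit 148) D26046
noncomputable def D9698 : OP := win (nat_lit 4) (nat_lit 5) (nat_lit 8) (nat_lit 5)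
noncomputable def D356 : OP := win (nat_lit 0) (nat_lit 4) (nat_lit 9) (nat_lit 0)
noncomputable def D26044 : AP := fin (add (start D356) D9698)
noncomputable def D26045 : OP := orK (nat_lit 185) D26044
noncomputable def D370 : OP := win (nat_lit 6) (nat_lit 6) (nat_lit 6) (nat_lit 0)
noncomputable def D17385 : OP := win (nat_lit 3) (nat_lit 6) (nat_lit 6) (nat_lit 5)
noncomputable def D26055 : OP := orK (nat_lit 146) (fin (add (start D17385) D370))
noncomputable def D369 : OP := win (nat_lit 2) (nat_lit 5) (nat_lit 8) (nat_lit 5)
noncomputable def D26057 : OP := orK (nat_lit 166) (fin (add (start D369) D26055))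
noncomputable def D358 : OP := win (nat_lit 2) (nat_lit 5) (nat_lit 8) (nat_lit 4)
noncomputable def D357 : OP := win (nat_lit 2) (nat_lit 4) (nat_lit 8) (nat_lit 5)
noncomputable def D362 : OP := orK (nat_lit 185) (fin (add (start D356) (orK (nat_lit 165) (fin (add (start D357) D358)))))
noncomputable def D29152 : OP := orK (nat_lit 186) (fin (add (add (start D362) D26057) (orK (nat_lit 168) (fin (add (start D26045) D26047)))))
noncomputable def D25967 : OP := win (nat_lit 6) (nat_lit 7) (nat_lit 7) (nat_lit 1)
noncomputable def D31 : OP := win (nat_lit 6) (nat_lit 7) (nat_lit 7) (nat_lit 0)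
noncomputable def D352 : OP := win (nat_lit 2) (nat_lit 6) (nat_lit 8) (nat_lit 5)
noncomputable def D129 : OP := win (nat_lit 5) (nat_lit 6) (nat_lit 9) (nat_lit 0)
noncomputable def D131 : OP := orK (nat_lit 206) (fin (add (start D128) D129))
noncomputable def D127 : OP := win (nat_lit 3) (nat_lit 8) (nat_lit 8) (nat_lit 5)
noncomputable def D133 : OP := orK (nat_lit 189) (fin (add (start D127) D131))
noncomputable def D351 : OP := orK (nat_lit 248) (fin (add (start D68) D133))
noncomputable def D335 : OP := win (nat_lit 7) (nat_lit 7) (nat_lit 8) (nat_lit 0)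
noncomputable def D336 : AP := fin (add (start D31) D335)
noncomputable def D337 : OP := orK (nat_lit 167) D336
noncomputable def D524 : OP := win (nat_lit 7) (nat_lit 7) (nat_lit 6) (nat_lit 4)
noncomputable def D523 : OP := win (nat_lit 7) (nat_lit 7) (nat_lit 5) (nat_lit 5)
noncomputable def D526 : OP := orK (nat_lit 127) (fin (add (start D523) D524))
noncomputable def D522 : OP := win (nat_lit 1) (nat_lit 7) (nat_lit 6) (nat_lit 4)
noncomputable def D528 : OP := orK (nat_lit 128) (fin (add (start D522) D526))
noncomputable def D159 : OP := win (nat_lit 3) (nat_lit 8) (nat_lit 6) (nat_lit 5)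
noncomputable def D160 : OP := win (nat_lit 3) (nat_lit 8) (nat_lit 7) (nat_lit 4)
noncomputable def D532 : OP := orK (nat_lit 149) (fin (add (start D160) (orK (nat_lit 148) (fin (add (start D159) D528)))))
noncomputable def D25976 : OP := orK (nat_lit 187) (fin (add (start D158) (orK (nat_lit 248) D400)))
noncomputable def D25984 : OP := orK (nat_lit 149) (fin (add (start D160) (orK (nat_lit 148) (fin (add (start D159) D25976)))))
noncomputable def D23847 : AP := fin (add (start D522) D523)
noncomputable def D419 : OP := orK (nat_lit 147) (fin (add (start D416) D417))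
noncomputable def D25978 : OP := orK (nat_lit 148) (fin (add (add (start D419) D25976) (orK (nat_lit 127) (fin (add (start D524) (orK (nat_lit 128) D23847))))))
noncomputable def D5556 : OP := win (nat_lit 5) (nat_lit 6) (nat_lit 8) (nat_lit 0)
noncomputable def D2021 : OP := win (nat_lit 4) (nat_lit 5) (nat_lit 8) (nat_lit 0)
noncomputable def D5558 : OP := orK (nat_lit 186) (fin (add (start D2021) D5556))
noncomputable def D6678 : OP := orK (nat_lit 169) (fin (add (start D308) D5558))
noncomputable def D423 : OP := orK (nat_lit 149) (fin (add (start D160) (orK (nat_lit 148) (fin (add (start D159) D419)))))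
noncomputable def D253 : OP := win (nat_lit 7) (nat_lit 9) (nat_lit 7) (nat_lit 4)
noncomputable def D254 : AP := fin (add (start D252) D253)
noncomputable def D255 : OP := orK (nat_lit 149) D254
noncomputable def D259 : OP := orK (nat_lit 151) (fin (add (start D22) (orK (nat_lit 150) (fin (add (start D21) D255)))))
noncomputable def D200 : OP := win (nat_lit 2) (nat_lit 7) (nat_lit 10) (nat_lit 2)
noncomputable def D95 : OP := win (nat_lit 7) (nat_lit 7) (nat_lit 8) (nat_lit 3)
noncomputable def D96 : AP := fin (add (start D31) D95)
noncomputable def D97 : OP := orK (nat_lit 167) D96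
noncomputable def D15882 : OP := win (nat_lit 3) (nat_lit 5) (nat_lit 9) (nat_lit 3)
noncomputable def D13393 : OP := win (nat_lit 1) (nat_lit 5) (nat_lit 9) (nat_lit 2)
noncomputable def D138 : OP := win (nat_lit 5) (nat_lit 4) (nat_lit 12) (nat_lit 5)
noncomputable def D140 : OP := win (nat_lit 7) (nat_lit 6) (nat_lit 8) (nat_lit 5)
noncomputable def D136 : OP := win (nat_lit 2) (nat_lit 4) (nat_lit 11) (nat_lit 5)
noncomputable def D135 : OP := win (nat_lit 4) (nat_lit 4) (nat_lit 11) (nat_lit 0)
noncomputable def D134 : OP := win (nat_lit 1) (nat_lit 6) (nat_lit 9) (nat_lit 5)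
noncomputable def D85 : OP := win (nat_lit 1) (nat_lit 7) (nat_lit 8) (nat_lit 0)
noncomputable def D78 : OP := win (nat_lit 1) (nat_lit 7) (nat_lit 9) (nat_lit 5)
noncomputable def D162 : OP := orK (nat_lit 149) (fin (add (start D159) D160))
noncomputable def D157 : OP := win (nat_lit 1) (nat_lit 7) (nat_lit 8) (nat_lit 4)
noncomputable def D168 : OP := orK (nat_lit 247) (fin (add (start D78) (orK (nat_lit 168) (fin (add (start D157) (orK (nat_lit 148) (fin (add (start D158) D162))))))))
noncomputable def D69 : OP := win (nat_lit 6) (nat_lit 7) (nat_lit 8) (nat_lit 3)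
noncomputable def D70 : AP := fin (add (start D31) D69)
noncomputable def D71 : OP := orK (nat_lit 167) D70
noncomputable def D99 : OP := orK (nat_lit 187) (fin (add (start D68) D97))
noncomputable def D189 : OP := win (nat_lit 3) (nat_lit 7) (nat_lit 11) (nat_lit 0)
noncomputable def D187 : OP := win (nat_lit 1) (nat_lit 7) (nat_lit 9) (nat_lit 0)
noncomputable def D192 : AP := fin (add (start D187) (orK (nat_lit 287) (fin (add (start (win (nat_lit 1) (nat_lit 7) (nat_lit 10) (nat_lit 3))) D189))))
noncomputable def D330 : OP := win (nat_lit 1) (nat_lit 7) (nat_lit 7) (nat_lit 5)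
noncomputable def D29692 : OP := orK (nat_lit 148) (fin (add (start D330) D419))
noncomputable def D307 : OP := win (nat_lit 3) (nat_lit 8) (nat_lit 8) (nat_lit 4)
noncomputable def D29696 : OP := orK (nat_lit 169) (fin (add (start D307) (orK (nat_lit 168) (fin (add (start D308) D29692)))))
noncomputable def D104 : OP := win (nat_lit 7) (nat_lit 7) (nat_lit 10) (nat_lit 4)
noncomputable def D124 : OP := orK (nat_lit 289) (fin (add (start D119) (orK (nat_lit 288) (fin (add (start D120) D104)))))
noncomputable def D29727 : OP := orK (nat_lit 267) (fin (add (add (start (orK (nat_lit 268) (fin (add (start D109) D124)))) (orK (nat_lit 188) (fin (add (start D110) D29696)))) (orK (nat_lit 247) D192)))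
noncomputable def D103 : OP := win (nat_lit 1) (nat_lit 7) (nat_lit 11) (nat_lit 5)
noncomputable def D102 : OP := win (nat_lit 1) (nat_lit 7) (nat_lit 10) (nat_lit 4)
noncomputable def D108 : OP := orK (nat_lit 287) (fin (add (start D102) (orK (nat_lit 288) (fin (add (start D103) D104)))))
noncomputable def D201 : OP := win (nat_lit 7) (nat_lit 7) (nat_lit 9) (nat_lit 5)
noncomputable def D2221 : OP := orK (nat_lit 268) (fin (add (start D201) D108))
noncomputable def D79 : OP := win (nat_lit 4) (nat_lit 5) (nat_lit 11) (nat_lit 0)
noncomputable def D2216 : AP := fin (add (start D69) D95)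
noncomputable def D61 : OP := win (nat_lit 2) (nat_lit 7) (nat_lit 10) (nat_lit 0)
noncomputable def D63 : OP := win (nat_lit 2) (nat_lit 6) (nat_lit 10) (nat_lit 3)
noncomputable def D62 : OP := win (nat_lit 0) (nat_lit 5) (nat_lit 10) (nat_lit 0)
noncomputable def D64 : AP := fin (add (start D62) D63)
noncomputable def D67 : OP := orK (nat_lit 229) (fin (add (start D61) (orK (nat_lit 206) D64)))
noncomputable def D29878 : AP := fin (add (add (add (start D67) (orK (nat_lit 229) (fin (add (start D61) (orK (nat_lit 248) (fin (add (add (add (start D2221) D29727) D99) (orK (nat_lit 167) (fin (add (add (add (start (orK (nat_lit 187) D70)) (orK (nat_lit 187) D2216)) (orK (nat_lit 247) (fin (add (start (orK (nat_lit 246) (fin (add (start D79) (win (nat_lit 5) (nat_lit 6) (nat_lit 11) (nat_lit 3)))))) (orK (nat_lit 188) (fin (add (start D78) (orK (nat_lit 169) (fin (add (start D307) (orK (nat_lit 168) (fin (add (start D308) D342))))))))))))) (orK (nat_lit 187) D96))))))))))) (orK (nat_lit 248) (fin (add (add (add (start D2221) D29727) D99) (orK (nat_lit 187) (fin (add (add (start D71) (orK (nat_lit 188) (fin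 (add (add (start D133) D168) (orK (nat_lit 247) (fin (add (start D78) (orK (nat_lit 227) (fin (add (start D85) (orK (nat_lit 246) (fin (add (start D134) (orK (nat_lit 245) (fin (add (start D135) (orK (nat_lit 225) (fin (add (start D136) (orK (nat_lit 186) (fin (add (start D140) (orK (nat_lit 265) (fin (add (start D138) (orK (nat_lit 206) (fin (add (start D13393) D15882)))))))))))))))))))))))))))) D97))))))) (orK (nat_lit 231) (fin (add (start D200) (orK (nat_lit 188) (fin (add (add (add (add (start (orK (nat_lit 190) (fin (add (start D824) (orK (nat_lit 170) (fin (add (start D752) D259))))))) (orK (nat_lit 168) (fin (add (add (add (add (start D423) (orK (nat_lit 167) (fin (add (start D342) (orK (nat_lit 187) (fin (add (start D335) D6678))))))) D25978) D25984) D532)))) (orK (nat_lit 187) (fin (add (add (start D337) D351) (orK (nat_lit 189) (fin (add (add (start D131) (orK (nat_lit 190) (fin (add (start D316) (orK (nat_lit 167) (fin (add (start D352) D31))))))) (orK (nat_lit 147) (fin (add (start D25967) (orK (nat_lit 206) (fin (add (start D128) D29152))))))))))))) (orK (nat_lit 190) (fin (add (add (start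 D824) (orK (nat_lit 248) (fin (add (add (start D401) (orK (nat_lit 267) (fin (add (start D110) (orK (nat_lit 268) (fin (add (start D109) (orK (nat_lit 289) (fin (add (start D119) (orK (nat_lit 288) (fin (add (start D120) (orK (nat_lit 291) (fin (add (start (win (nat_lit 2) (nat_lit 7) (nat_lit 13) (nat_lit 1))) (orK (nat_lit 251) (fin (add (start D6864) (win (nat_lit 7) (nat_lit 10) (nat_lit 10) (nat_lit 1))))))))))))))))))))) (orK (nat_lit 170) (fin (add (start D752) (orK (nat_lit 151) (fin (add (start D22) (orK (nat_lit 150) (fin (add (start D21) (orK (nat_lit 167) (fin (add (start D343) (orK (nat_lit 168) (fin (add (start D342) D6522))))))))))))))))))) (orK (nat_lit 191) (fin (add (start D2625) (orK (nat_lit 170) (fin (add (start D752) D27052)))))))))) (orK (nat_lit 169) (fin (add (add (start (orK (nat_lit 149) (fin (add (start D493) (orK (nat_lit 189) (fin (add (start D492) D388))))))) (orK (nat_lit 189) (fin (add (start D388) (orK (nat_lit 190) (fin (add (start D316) (orK (nat_lit 170) (fin (add (start D752) (orK (nat_lit 171) (fin (add (start D45) D954))))))))))))) (orK (nat_lit 170) (fin (add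 (add (start (orK (nat_lit 171) (fin (add (add (start (orK (nat_lit 190) (fin (add (start D45) D752)))) (orK (nat_lit 168) (fin (add (start D29840) D1989)))) (orK (nat_lit 172) (fin (add (add (add (start (orK (nat_lit 192) (fin (add (start D982) (orK (nat_lit 168) (fin (add (start D983) D29840))))))) D981) (orK (nat_lit 153) (fin (add (start D285) (orK (nat_lit 173) (fin (add (start D286) (orK (nat_lit 194) (fin (add (start D1933) (orK (nat_lit 174) (fin (add (start D1934) (orK (nat_lit 190) (fin (add (start D1935) D752)))))))))))))))) (orK (nat_lit 190) (fin (add (start D752) D11945)))))))))) (orK (nat_lit 190) (fin (add (start D752) D260)))) (orK (nat_lit 168) (fin (add (start D308) (orK (nat_lit 147) (fin (add (start D417) (orK (nat_lit 148) D27100))))))))))))))))))))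
noncomputable def D0 : OP := win (nat_lit 0) (nat_lit 7) (nat_lit 10) (nat_lit 5)
noncomputable def D16 : AP := fin (add (start D0) D15)
noncomputable def D17 : OP := orK (nat_lit 209) D16
noncomputable def D8 : AP := fin (add (start D0) D7)
noncomputable def D9 : OP := orK (nat_lit 209) D8
noncomputable def D247 : OP := orK (nat_lit 186) (fin (add (start D3) (orK (nat_lit 206) (fin (add (start D2) D13)))))
noncomputable def D282 : OP := orK (nat_lit 193) (fin (add (start D279) D280))
noncomputable def D290 : OP := orK (nat_lit 173) (fin (add (start D282) D288))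
noncomputable def D273 : OP := win (nat_lit 7) (nat_lit 8) (nat_lit 7) (nat_lit 2)
noncomputable def D265 : OP := win (nat_lit 2) (nat_lit 7) (nat_lit 7) (nat_lit 5)
noncomputable def D275 : OP := orK (nat_lit 148) (fin (add (start D265) D273))
noncomputable def D270 : OP := win (nat_lit 5) (nat_lit 8) (nat_lit 8) (nat_lit 4)
noncomputable def D269 : OP := win (nat_lit 5) (nat_lit 7) (nat_lit 8) (nat_lit 5)
noncomputable def D272 : OP := orK (nat_lit 188) (fin (add (start D269) D270))
noncomputable def D28 : OP := win (nat_lit 1) (nat_lit 9) (nat_lit 8) (nat_lit 5)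
noncomputable def D27 : OP := win (nat_lit 1) (nat_lit 9) (nat_lit 7) (nat_lit 0)
noncomputable def D29 : AP := fin (add (start D27) D28)
noncomputable def D30 : OP := orK (nat_lit 229) D29
noncomputable def D302 : OP := orK (nat_lit 190) (fin (add (start D11) (orK (nat_lit 170) (fin (add (add (start D30) D259) (orK (nat_lit 229) (fin (add (start D28) (orK (nat_lit 169) (fin (add (start D260) (orK (nat_lit 171) (fin (add (start D45) (orK (nat_lit 172) (fin (add (start (orK (nat_lit 168) (fin (add (add (start (orK (nat_lit 148) (fin (add (start D265) (win (nat_lit 6) (nat_lit 8) (nat_lit 7) (nat_lit 2)))))) D272) D275)))) D290)))))))))))))))))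
noncomputable def D1432 : OP := orK (nat_lit 187) (fin (add (start D19) D302))
noncomputable def D1433 : AP := fin (add (add (add (start D7) D15) D1432) D247)
noncomputable def D2330 : OP := orK (nat_lit 209) D1433
noncomputable def D235 : OP := orK (nat_lit 226) (fin (add (start (win (nat_lit 5) (nat_lit 5) (nat_lit 10) (nat_lit 5))) (win (nat_lit 5) (nat_lit 6) (nat_lit 10) (nat_lit 4))))
noncomputable def D242 : AP := fin (add (start D0) (orK (nat_lit 186) (fin (add (start D3) (orK (nat_lit 206) (fin (add (start D2) (orK (nat_lit 189) (fin (add (start (win (nat_lit 4) (nat_lit 6) (nat_lit 9) (nat_lit 5))) D235))))))))))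
noncomputable def D243 : OP := orK (nat_lit 209) D242
noncomputable def D502 : OP := win (nat_lit 0) (nat_lit 6) (nat_lit 8) (nat_lit 5)
noncomputable def D501 : OP := win (nat_lit 0) (nat_lit 5) (nat_lit 8) (nat_lit 0)
noncomputable def D508 : OP := orK (nat_lit 169) (fin (add (start D308) (orK (nat_lit 189) (fin (add (start D388) (orK (nat_lit 166) (fin (add (start D501) D502))))))))
noncomputable def D510 : OP := orK (nat_lit 168) (fin (add (start D342) D508))
noncomputable def D500 : OP := orK (nat_lit 187) D336
noncomputable def D542 : OP := win (nat_lit 0) (nat_lit 6) (nat_lit 8) (nat_lit 3)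
noncomputable def D543 : AP := fin (add (start D501) D542)
noncomputable def D541 : OP := win (nat_lit 2) (nat_lit 6) (nat_lit 8) (nat_lit 3)
noncomputable def D495 : OP := orK (nat_lit 149) (fin (add (start D492) D493))
noncomputable def D497 : OP := orK (nat_lit 169) (fin (add (start D388) D495))
noncomputable def D483 : AP := fin (add (start (win (nat_lit 6) (nat_lit 7) (nat_lit 7) (nat_lit 2))) (win (nat_lit 7) (nat_lit 7) (nat_lit 7) (nat_lit 3)))
noncomputable def D484 : OP := orK (nat_lit 147) D483
noncomputable def D75 : OP := win (nat_lit 6) (nat_lit 8) (nat_lit 9) (nat_lit 5)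
noncomputable def D317 : OP := win (nat_lit 1) (nat_lit 9) (nat_lit 8) (nat_lit 0)
noncomputable def D319 : OP := orK (nat_lit 249) (fin (add (start D317) D75))
noncomputable def D323 : OP := orK (nat_lit 189) (fin (add (start D127) (orK (nat_lit 190) (fin (add (start D316) D319)))))
noncomputable def D536 : OP := orK (nat_lit 248) (fin (add (start D401) D323))
noncomputable def D521 : OP := win (nat_lit 6) (nat_lit 8) (nat_lit 8) (nat_lit 5)
noncomputable def D515 : OP := win (nat_lit 3) (nat_lit 9) (nat_lit 10) (nat_lit 0)
noncomputable def D518 : OP := orK (nat_lit 269) (fin (add (start D515) (win (nat_lit 6) (nat_lit 8) (nat_lit 9) (nat_lit 3))))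
noncomputable def D74 : OP := win (nat_lit 6) (nat_lit 8) (nat_lit 8) (nat_lit 0)
noncomputable def D520 : OP := orK (nat_lit 249) (fin (add (start D74) D518))
noncomputable def D175 : OP := win (nat_lit 0) (nat_lit 5) (nat_lit 10) (nat_lit 1)
noncomputable def D558 : OP := orK (nat_lit 229) (fin (add (start D61) (orK (nat_lit 205) (fin (add (start D175) (orK (nat_lit 188) (fin (add (add (add (start D520) (orK (nat_lit 168) (fin (add (start D521) D532)))) D536) (orK (nat_lit 167) (fin (add (add (add (start D484) (orK (nat_lit 189) (fin (add (add (start (orK (nat_lit 190) (fin (add (start D316) (orK (nat_lit 187) (fin (add (start D352) D335))))))) D497) (orK (nat_lit 190) (fin (add (start D316) (orK (nat_lit 166) (fin (add (start D541) (orK (nat_lit 168) D543))))))))))) D500) D510)))))))))))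
noncomputable def D6255 : OP := win (nat_lit 3) (nat_lit 8) (nat_lit 6) (nat_lit 4)
noncomputable def D6254 : OP := win (nat_lit 3) (nat_lit 8) (nat_lit 5) (nat_lit 5)
noncomputable def D6259 : OP := orK (nat_lit 128) (fin (add (start D522) (orK (nat_lit 129) (fin (add (start D6254) D6255)))))
noncomputable def D345 : OP := orK (nat_lit 167) (fin (add (start D342) D343))
noncomputable def D111 : OP := win (nat_lit 6) (nat_lit 8) (nat_lit 9) (nat_lit 4)
noncomputable def D390 : AP := fin (add (start D389) D316)
noncomputable def D391 : OP := orK (nat_lit 190) D390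
noncomputable def D392 : AP := fin (add (start D128) D391)
noncomputable def D393 : OP := orK (nat_lit 206) D392
noncomputable def D2303 : OP := orK (nat_lit 189) (fin (add (start D127) D393))
noncomputable def D112 : OP := win (nat_lit 6) (nat_lit 8) (nat_lit 10) (nat_lit 5)
noncomputable def D2614 : OP := orK (nat_lit 268) (fin (add (start D112) D108))
noncomputable def D24289 : OP := win (nat_lit 7) (nat_lit 8) (nat_lit 11) (nat_lit 0)
noncomputable def D675 : OP := win (nat_lit 6) (nat_lit 8) (nat_lit 10) (nat_lit 3)
noncomputable def D688 : OP := win (nat_lit 6) (nat_lit 8) (nat_lit 9) (nat_lit 0)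
noncomputable def D341 : OP := orK (nat_lit 169) (fin (add (start D308) D307))
noncomputable def D333 : AP := fin (add (start D158) D330)
noncomputable def D334 : OP := orK (nat_lit 148) D333
noncomputable def D332 : OP := orK (nat_lit 148) (fin (add (start D330) D162))
noncomputable def D25818 : AP := fin (add (start D61) (orK (nat_lit 188) (fin (add (add (add (start D520) (orK (nat_lit 168) (fin (add (start D521) D332)))) D536) (orK (nat_lit 168) (fin (add (add (start D332) (orK (nat_lit 187) (fin (add (start D334) D337)))) (orK (nat_lit 248) (fin (add (start D341) D345))))))))))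
noncomputable def D2275 : OP := orK (nat_lit 209) (fin (add (start D0) D1432))
noncomputable def D32 : OP := win (nat_lit 6) (nat_lit 7) (nat_lit 8) (nat_lit 5)
noncomputable def D33 : AP := fin (add (start D31) D32)
noncomputable def D34 : OP := orK (nat_lit 228) D33
noncomputable def D572 : OP := win (nat_lit 6) (nat_lit 7) (nat_lit 10) (nat_lit 5)
noncomputable def D571 : OP := win (nat_lit 6) (nat_lit 7) (nat_lit 9) (nat_lit 4)
noncomputable def D574 : OP := orK (nat_lit 268) (fin (add (start D571) D572))
noncomputable def D1302 : OP := win (nat_lit 1) (nat_lit 6) (nat_lit 10) (nat_lit 5)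
noncomputable def D1301 : OP := win (nat_lit 1) (nat_lit 6) (nat_lit 9) (nat_lit 4)
noncomputable def D1304 : OP := orK (nat_lit 266) (fin (add (start D1301) D1302))
noncomputable def D1306 : OP := orK (nat_lit 267) (fin (add (start D1304) D574))
noncomputable def D42 : OP := win (nat_lit 3) (nat_lit 7) (nat_lit 9) (nat_lit 0)
noncomputable def D41 : OP := win (nat_lit 3) (nat_lit 7) (nat_lit 8) (nat_lit 5)
noncomputable def D43 : AP := fin (add (start D41) D42)
noncomputable def D1155 : OP := orK (nat_lit 188) D43
noncomputable def D1316 : OP := orK (nat_lit 187) (fin (add (start D19) (orK (nat_lit 247) (fin (add (add (start D1155) D1306) (orK (nat_lit 167) (fin (add (start D1310) D34))))))))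
noncomputable def D1318 : OP := orK (nat_lit 227) (fin (add (start D18) D1316))
noncomputable def D2168 : OP := orK (nat_lit 190) (fin (add (start D11) D1318))
noncomputable def D2166 : OP := orK (nat_lit 186) (fin (add (start D3) (orK (nat_lit 206) (fin (add (start D2) D235)))))
noncomputable def D974 : OP := orK (nat_lit 206) (fin (add (start D10) D235))
noncomputable def D1049 : AP := fin (add (start D11) D974)
noncomputable def D1288 : OP := orK (nat_lit 190) D1049
noncomputable def D2169 : AP := fin (add (add (add (start D247) D1288) D2166) D2168)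
noncomputable def D2524 : AP := fin (add (start D95) D68)
noncomputable def D2525 : OP := orK (nat_lit 248) D2524
noncomputable def D2526 : AP := fin (add (start D31) D2525)
noncomputable def D29036 : OP := orK (nat_lit 228) D2526
noncomputable def D2520 : AP := fin (add (start D69) D68)
noncomputable def D2521 : OP := orK (nat_lit 248) D2520
noncomputable def D2522 : AP := fin (add (start D31) D2521)
noncomputable def D29051 : OP := orK (nat_lit 228) D2522
noncomputable def D7660 : OP := win (nat_lit 6) (nat_lit 5) (nat_lit 7) (nat_lit 4)
noncomputable def D22374 : OP := win (nat_lit 1) (nat_lit 4) (nat_lit 7) (nat_lit 4)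
noncomputable def D5770 : OP := win (nat_lit 4) (nat_lit 4) (nat_lit 10) (nat_lit 1)
noncomputable def D443 : OP := win (nat_lit 2) (nat_lit 4) (nat_lit 7) (nat_lit 5)
noncomputable def D2035 : OP := win (nat_lit 1) (nat_lit 6) (nat_lit 8) (nat_lit 5)
noncomputable def D28610 : OP := orK (nat_lit 226) (fin (add (start D2035) (orK (nat_lit 145) (fin (add (start D443) (orK (nat_lit 224) (fin (add (start D5770) (orK (nat_lit 205) (fin (add (start D22374) D7660)))))))))))
noncomputable def D5551 : OP := win (nat_lit 0) (nat_lit 5) (nat_lit 8) (nat_lit 5)
noncomputable def D444 : OP := win (nat_lit 5) (nat_lit 4) (nat_lit 8) (nat_lit 5)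
noncomputable def D4170 : OP := win (nat_lit 5) (nat_lit 4) (nat_lit 8) (nat_lit 4)
noncomputable def D4171 : OP := win (nat_lit 5) (nat_lit 3) (nat_lit 8) (nat_lit 5)
noncomputable def D4177 : OP := orK (nat_lit 184) (fin (add (start D4171) D4170))
noncomputable def D461 : OP := win (nat_lit 2) (nat_lit 3) (nat_lit 7) (nat_lit 5)
noncomputable def D462 : OP := win (nat_lit 2) (nat_lit 4) (nat_lit 7) (nat_lit 4)
noncomputable def D4181 : OP := orK (nat_lit 144) (fin (add (start D462) (orK (nat_lit 164) (fin (add (start D461) D4177)))))
noncomputable def D5550 : OP := win (nat_lit 0) (nat_lit 4) (nat_lit 8) (nat_lit 0)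
noncomputable def D5552 : AP := fin (add (start D5550) D5551)
noncomputable def D6174 : OP := orK (nat_lit 188) D5552
noncomputable def D1484 : OP := win (nat_lit 7) (nat_lit 6) (nat_lit 7) (nat_lit 5)
noncomputable def D4976 : AP := fin (add (start D134) D1369)
noncomputable def D872 : OP := win (nat_lit 1) (nat_lit 6) (nat_lit 8) (nat_lit 4)
noncomputable def D4208 : OP := win (nat_lit 7) (nat_lit 6) (nat_lit 6) (nat_lit 4)
noncomputable def D4207 : OP := win (nat_lit 7) (nat_lit 6) (nat_lit 5) (nat_lit 5)
noncomputable def D4210 : OP := orK (nat_lit 126) (fin (add (start D4207) D4208))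
noncomputable def D26354 : OP := win (nat_lit 6) (nat_lit 7) (nat_lit 6) (nat_lit 4)
noncomputable def D26381 : OP := orK (nat_lit 127) (fin (add (start D26354) D4210))
noncomputable def D3202 : OP := win (nat_lit 1) (nat_lit 6) (nat_lit 7) (nat_lit 4)
noncomputable def D17322 : OP := orK (nat_lit 226) (fin (add (start D3202) (orK (nat_lit 227) (fin (add (start D2035) D1384)))))
noncomputable def D945 : OP := win (nat_lit 0) (nat_lit 7) (nat_lit 8) (nat_lit 5)
noncomputable def D5893 : AP := fin (add (start D945) D260)
noncomputable def D5894 : OP := orK (nat_lit 190) D5893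
noncomputable def D1063 : OP := win (nat_lit 5) (nat_lit 6) (nat_lit 8) (nat_lit 5)
noncomputable def D5895 : AP := fin (add (start D1063) D5894)
noncomputable def D5896 : OP := orK (nat_lit 170) D5895
noncomputable def D1064 : OP := win (nat_lit 5) (nat_lit 7) (nat_lit 8) (nat_lit 4)
noncomputable def D29636 : OP := orK (nat_lit 170) (fin (add (start D1063) (orK (nat_lit 190) (fin (add (start D945) (orK (nat_lit 171) (fin (add (start D45) D1064))))))))
noncomputable def D17123 : OP := win (nat_lit 5) (nat_lit 8) (nat_lit 7) (nat_lit 0)
noncomputable def D17124 : AP := fin (add (start D6520) D17123)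
noncomputable def D6985 : OP := win (nat_lit 4) (nat_lit 6) (nat_lit 7) (nat_lit 0)
noncomputable def D17126 : AP := fin (add (start D6985) (orK (nat_lit 151) D17124))
noncomputable def D27571 : OP := orK (nat_lit 150) D17126
noncomputable def D25252 : OP := win (nat_lit 3) (nat_lit 8) (nat_lit 7) (nat_lit 2)
noncomputable def D867 : OP := win (nat_lit 7) (nat_lit 6) (nat_lit 8) (nat_lit 4)
noncomputable def D1743 : OP := orK (nat_lit 166) (fin (add (start D1484) D867))
noncomputable def D570 : OP := win (nat_lit 3) (nat_lit 7) (nat_lit 10) (nat_lit 0)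
noncomputable def D2053 : OP := win (nat_lit 7) (nat_lit 6) (nat_lit 7) (nat_lit 0)
noncomputable def D436 : OP := win (nat_lit 2) (nat_lit 5) (nat_lit 7) (nat_lit 5)
noncomputable def D2054 : AP := fin (add (start D436) D2053)
noncomputable def D8207 : OP := orK (nat_lit 146) D2054
noncomputable def D1485 : OP := win (nat_lit 4) (nat_lit 6) (nat_lit 7) (nat_lit 5)
noncomputable def D28825 : OP := orK (nat_lit 166) (fin (add (start D1485) D8207))
noncomputable def D7367 : OP := win (nat_lit 1) (nat_lit 7) (nat_lit 6) (nat_lit 3)
noncomputable def D7366 : OP := win (nat_lit 1) (nat_lit 7) (nat_lit 5) (nat_lit 0)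
noncomputable def D7368 : AP := fin (add (start D7366) D7367)
noncomputable def D7369 : OP := orK (nat_lit 128) D7368
noncomputable def D1579 : OP := win (nat_lit 3) (nat_lit 7) (nat_lit 7) (nat_lit 0)
noncomputable def D7370 : AP := fin (add (start D1579) D7369)
noncomputable def D7371 : OP := orK (nat_lit 148) D7370
noncomputable def D6071 : OP := win (nat_lit 3) (nat_lit 7) (nat_lit 6) (nat_lit 4)
noncomputable def D6072 : OP := win (nat_lit 3) (nat_lit 7) (nat_lit 5) (nat_lit 5)
noncomputable def D7326 : OP := orK (nat_lit 128) (fin (add (start D6072) D6071))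
noncomputable def D7330 : AP := fin (add (start D7326) D4210)
noncomputable def D7331 : OP := orK (nat_lit 127) D7330
noncomputable def D3204 : OP := orK (nat_lit 226) (fin (add (start D3202) D2035))
noncomputable def D3207 : AP := fin (add (start D3204) D1378)
noncomputable def D7329 : OP := orK (nat_lit 227) D3207
noncomputable def D1445 : OP := win (nat_lit 1) (nat_lit 6) (nat_lit 7) (nat_lit 5)
noncomputable def D4206 : OP := win (nat_lit 1) (nat_lit 6) (nat_lit 6) (nat_lit 4)
noncomputable def D7324 : OP := orK (nat_lit 206) (fin (add (start D4206) D1445))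
noncomputable def D7333 : OP := orK (nat_lit 147) (fin (add (add (start (orK (nat_lit 127) (fin (add (start D7324) D7326)))) D7329) D7331))
noncomputable def D7878 : OP := win (nat_lit 4) (nat_lit 6) (nat_lit 8) (nat_lit 5)
noncomputable def D364 : OP := win (nat_lit 5) (nat_lit 4) (nat_lit 9) (nat_lit 5)
noncomputable def D26133 : AP := fin (add (start D356) D364)
noncomputable def D29138 : OP := orK (nat_lit 185) D26133
noncomputable def D363 : OP := win (nat_lit 4) (nat_lit 5) (nat_lit 9) (nat_lit 1)
noncomputable def D6229 : OP := win (nat_lit 4) (nat_lit 6) (nat_lit 8) (nat_lit 0)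
noncomputable def D6089 : OP := win (nat_lit 4) (nat_lit 7) (nat_lit 8) (nat_lit 5)
noncomputable def D6232 : AP := fin (add (start D6089) (orK (nat_lit 169) (fin (add (start D6229) D260))))
noncomputable def D23965 : OP := orK (nat_lit 170) D6232
noncomputable def D26106 : OP := orK (nat_lit 190) (fin (add (start D316) D23965))
noncomputable def D29150 : OP := orK (nat_lit 189) (fin (add (add (start D131) D26106) (orK (nat_lit 205) (fin (add (start D363) (orK (nat_lit 186) (fin (add (start D29138) (orK (nat_lit 169) (fin (add (start D7878) (orK (nat_lit 149) (fin (add (start D492) (orK (nat_lit 228) (fin (add (start D493) D388)))))))))))))))))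
noncomputable def D1553 : OP := win (nat_lit 7) (nat_lit 9) (nat_lit 7) (nat_lit 2)
noncomputable def D1826 : OP := win (nat_lit 5) (nat_lit 7) (nat_lit 8) (nat_lit 0)
noncomputable def D29296 : OP := orK (nat_lit 170) (fin (add (start D1826) D1553))
noncomputable def D6367 : OP := win (nat_lit 3) (nat_lit 8) (nat_lit 7) (nat_lit 0)
noncomputable def D29298 : OP := orK (nat_lit 149) (fin (add (start D6367) D29296))
noncomputable def D25130 : OP := win (nat_lit 4) (nat_lit 5) (nat_lit 8) (nat_lit 1)
noncomputable def D3031 : OP := win (nat_lit 7) (nat_lit 4) (nat_lit 7) (nat_lit 4)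
noncomputable def D3030 : OP := win (nat_lit 7) (nat_lit 4) (nat_lit 6) (nat_lit 5)
noncomputable def D3033 : OP := orK (nat_lit 144) (fin (add (start D3030) D3031))
noncomputable def D3028 : OP := win (nat_lit 3) (nat_lit 5) (nat_lit 7) (nat_lit 4)
noncomputable def D3029 : OP := win (nat_lit 3) (nat_lit 5) (nat_lit 6) (nat_lit 5)
noncomputable def D7658 : OP := orK (nat_lit 146) (fin (add (start D3029) D3028))
noncomputable def D26635 : OP := orK (nat_lit 145) (fin (add (start D7658) D3033))
noncomputable def D3074 : OP := win (nat_lit 7) (nat_lit 4) (nat_lit 8) (nat_lit 4)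
noncomputable def D3073 : OP := win (nat_lit 7) (nat_lit 4) (nat_lit 7) (nat_lit 5)
noncomputable def D3076 : OP := orK (nat_lit 164) (fin (add (start D3073) D3074))
noncomputable def D3070 : OP := win (nat_lit 1) (nat_lit 4) (nat_lit 9) (nat_lit 5)
noncomputable def D880 : OP := win (nat_lit 1) (nat_lit 4) (nat_lit 8) (nat_lit 4)
noncomputable def D3072 : OP := orK (nat_lit 244) (fin (add (start D880) D3070))
noncomputable def D3077 : AP := fin (add (start D3072) D3076)
noncomputable def D3078 : OP := orK (nat_lit 245) D3077
noncomputable def D3064 : OP := win (nat_lit 1) (nat_lit 4) (nat_lit 8) (nat_lit 5)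
noncomputable def D22376 : OP := orK (nat_lit 224) (fin (add (start D22374) D3064))
noncomputable def D22393 : AP := fin (add (start D22376) D7658)
noncomputable def D27916 : OP := orK (nat_lit 165) (fin (add (add (start (orK (nat_lit 145) D22393)) D3078) D26635))
noncomputable def D4592 : OP := win (nat_lit 7) (nat_lit 4) (nat_lit 9) (nat_lit 4)
noncomputable def D4370 : OP := win (nat_lit 7) (nat_lit 4) (nat_lit 8) (nat_lit 5)
noncomputable def D4594 : OP := orK (nat_lit 184) (fin (add (start D4370) D4592))
noncomputable def D4589 : OP := win (nat_lit 1) (nat_lit 4) (nat_lit 10) (nat_lit 5)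
noncomputable def D4481 : OP := win (nat_lit 1) (nat_lit 4) (nat_lit 9) (nat_lit 4)
noncomputable def D4591 : OP := orK (nat_lit 264) (fin (add (start D4481) D4589))
noncomputable def D4595 : AP := fin (add (start D4591) D4594)
noncomputable def D4596 : OP := orK (nat_lit 265) D4595
noncomputable def D3040 : OP := win (nat_lit 6) (nat_lit 5) (nat_lit 9) (nat_lit 5)
noncomputable def D4373 : OP := win (nat_lit 6) (nat_lit 5) (nat_lit 8) (nat_lit 0)
noncomputable def D4374 : AP := fin (add (start D4373) D3040)
noncomputable def D4375 : OP := orK (nat_lit 246) D4374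
noncomputable def D21754 : OP := win (nat_lit 5) (nat_lit 4) (nat_lit 11) (nat_lit 0)
noncomputable def D21932 : AP := fin (add (start D3070) D21754)
noncomputable def D21933 : OP := orK (nat_lit 244) D21932
noncomputable def D881 : OP := win (nat_lit 6) (nat_lit 5) (nat_lit 8) (nat_lit 4)
noncomputable def D3042 : OP := orK (nat_lit 246) (fin (add (start D881) D3040))
noncomputable def D26156 : AP := fin (add (start D3042) D3076)
noncomputable def D27912 : OP := orK (nat_lit 165) D26156
noncomputable def D3051 : OP := win (nat_lit 3) (nat_lit 4) (nat_lit 10) (nat_lit 0)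
noncomputable def D3050 : OP := win (nat_lit 1) (nat_lit 4) (nat_lit 9) (nat_lit 3)
noncomputable def D3049 : OP := win (nat_lit 1) (nat_lit 4) (nat_lit 8) (nat_lit 0)
noncomputable def D3055 : OP := orK (nat_lit 244) (fin (add (start D3049) (orK (nat_lit 264) (fin (add (start D3050) D3051)))))
noncomputable def D4425 : OP := win (nat_lit 4) (nat_lit 4) (nat_lit 10) (nat_lit 2)
noncomputable def D29503 : OP := orK (nat_lit 224) (fin (add (start D4425) D3055))
noncomputable def D137 : OP := win (nat_lit 0) (nat_lit 5) (nat_lit 11) (nat_lit 5)
noncomputable def D2466 : OP := win (nat_lit 2) (nat_lit 4) (nat_lit 10) (nat_lit 5)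
noncomputable def D2230 : OP := win (nat_lit 4) (nat_lit 4) (nat_lit 10) (nat_lit 0)
noncomputable def D29509 : OP := orK (nat_lit 225) (fin (add (add (add (start (orK (nat_lit 226) (fin (add (start D2230) (orK (nat_lit 228) (fin (add (start D2466) (orK (nat_lit 248) (fin (add (start D137) D68)))))))))) D29503) (orK (nat_lit 245) (fin (add (add (start D27912) (orK (nat_lit 226) (fin (add (start D21933) D4375)))) D4596)))) D27916))
noncomputable def D3082 : OP := win (nat_lit 6) (nat_lit 4) (nat_lit 6) (nat_lit 0)
noncomputable def D3081 : OP := win (nat_lit 7) (nat_lit 4) (nat_lit 8) (nat_lit 0)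
noncomputable def D3087 : OP := orK (nat_lit 164) (fin (add (start D3081) (orK (nat_lit 144) (fin (add (start D3082) (win (nat_lit 7) (nat_lit 4) (nat_lit 7) (nat_lit 3)))))))
noncomputable def D4369 : OP := win (nat_lit 2) (nat_lit 4) (nat_lit 9) (nat_lit 2)
noncomputable def D26697 : OP := orK (nat_lit 184) (fin (add (start D4369) D3087))
noncomputable def D3061 : OP := win (nat_lit 5) (nat_lit 4) (nat_lit 10) (nat_lit 5)
noncomputable def D3060 : OP := win (nat_lit 2) (nat_lit 4) (nat_lit 9) (nat_lit 5)
noncomputable def D26691 : OP := orK (nat_lit 206) (fin (add (start D3060) D3061))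
noncomputable def D4501 : OP := win (nat_lit 6) (nat_lit 5) (nat_lit 9) (nat_lit 3)
noncomputable def D2305 : OP := win (nat_lit 3) (nat_lit 6) (nat_lit 10) (nat_lit 0)
noncomputable def D21966 : OP := orK (nat_lit 246) (fin (add (start D4373) (orK (nat_lit 266) (fin (add (start D2305) D4501)))))
noncomputable def D21810 : OP := win (nat_lit 2) (nat_lit 4) (nat_lit 10) (nat_lit 0)
noncomputable def D21955 : OP := win (nat_lit 4) (nat_lit 4) (nat_lit 9) (nat_lit 2)
noncomputable def D21889 : OP := win (nat_lit 3) (nat_lit 4) (nat_lit 9) (nat_lit 3)
noncomputable def D22035 : AP := fin (add (start D3049) (orK (nat_lit 264) (fin (add (start D3050) D21889))))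
noncomputable def D27874 : OP := orK (nat_lit 224) (fin (add (start D4425) (orK (nat_lit 244) D22035)))
noncomputable def D4426 : OP := win (nat_lit 5) (nat_lit 4) (nat_lit 10) (nat_lit 2)
noncomputable def D4428 : OP := orK (nat_lit 224) (fin (add (start D4425) D4426))
noncomputable def D2363 : OP := win (nat_lit 4) (nat_lit 4) (nat_lit 9) (nat_lit 0)
noncomputable def D27871 : OP := orK (nat_lit 206) (fin (add (start D2363) D3061))
noncomputable def D26128 : AP := fin (add (start D3060) D2363)
noncomputable def D26129 : OP := orK (nat_lit 206) D26128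
noncomputable def D37 : OP := win (nat_lit 1) (nat_lit 7) (nat_lit 7) (nat_lit 0)
noncomputable def D3092 : OP := win (nat_lit 6) (nat_lit 5) (nat_lit 8) (nat_lit 3)
noncomputable def D27861 : OP := orK (nat_lit 247) (fin (add (start D42) (orK (nat_lit 248) (fin (add (start D1369) (orK (nat_lit 186) (fin (add (start D140) (orK (nat_lit 185) (fin (add (start D356) (orK (nat_lit 246) (fin (add (start D134) (orK (nat_lit 165) (fin (add (start D357) (orK (nat_lit 205) (fin (add (start D364) (orK (nat_lit 226) (fin (add (start D3092) (win (nat_lit 7) (nat_lit 5) (nat_lit 8) (nat_lit 2)))))))))))))))))))))))))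
noncomputable def D38 : OP := win (nat_lit 3) (nat_lit 7) (nat_lit 8) (nat_lit 0)
noncomputable def D40 : OP := orK (nat_lit 168) (fin (add (start D37) D38))
noncomputable def D25713 : OP := orK (nat_lit 226) (fin (add (start D137) D2466))
noncomputable def D26040 : AP := fin (add (start D127) D68)
noncomputable def D627 : OP := win (nat_lit 5) (nat_lit 4) (nat_lit 12) (nat_lit 4)
noncomputable def D626 : OP := win (nat_lit 5) (nat_lit 3) (nat_lit 12) (nat_lit 5)
noncomputable def D629 : OP := orK (nat_lit 264) (fin (add (start D626) D627))
noncomputable def D2381 : OP := win (nat_lit 2) (nat_lit 4) (nat_lit 11) (nat_lit 4)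
noncomputable def D2382 : OP := win (nat_lit 2) (nat_lit 3) (nat_lit 11) (nat_lit 5)
noncomputable def D5634 : OP := orK (nat_lit 224) (fin (add (start D2382) D2381))
noncomputable def D5636 : OP := orK (nat_lit 244) (fin (add (start D5634) D629))
noncomputable def D624 : OP := win (nat_lit 2) (nat_lit 5) (nat_lit 11) (nat_lit 4)
noncomputable def D5002 : OP := orK (nat_lit 225) (fin (add (start D136) D624))
noncomputable def D2459 : OP := win (nat_lit 0) (nat_lit 6) (nat_lit 12) (nat_lit 5)
noncomputable def D4978 : OP := win (nat_lit 0) (nat_lit 5) (nat_lit 12) (nat_lit 4)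
noncomputable def D5638 : OP := orK (nat_lit 269) (fin (add (start D4978) D2459))
noncomputable def D5640 : OP := orK (nat_lit 249) (fin (add (start D5638) D5002))
noncomputable def D4571 : OP := win (nat_lit 0) (nat_lit 5) (nat_lit 12) (nat_lit 5)
noncomputable def D22845 : OP := win (nat_lit 0) (nat_lit 4) (nat_lit 12) (nat_lit 4)
noncomputable def D23061 : OP := orK (nat_lit 244) (fin (add (start (orK (nat_lit 268) (fin (add (start D22845) D4571)))) D629))
noncomputable def D22878 : OP := orK (nat_lit 268) (fin (add (start D4571) (orK (nat_lit 244) (fin (add (start D22845) D629)))))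
noncomputable def D22849 : OP := orK (nat_lit 268) (fin (add (start D4571) (orK (nat_lit 244) (fin (add (start D22845) D5634)))))
noncomputable def D2342 : OP := win (nat_lit 0) (nat_lit 3) (nat_lit 11) (nat_lit 0)
noncomputable def D2341 : OP := win (nat_lit 2) (nat_lit 5) (nat_lit 11) (nat_lit 0)
noncomputable def D2347 : OP := orK (nat_lit 225) (fin (add (start D2341) (orK (nat_lit 224) (fin (add (start D2342) (win (nat_lit 2) (nat_lit 4) (nat_lit 11) (nat_lit 3)))))))
noncomputable def D708 : OP := win (nat_lit 3) (nat_lit 6) (nat_lit 9) (nat_lit 0)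
noncomputable def D18295 : OP := win (nat_lit 4) (nat_lit 4) (nat_lit 12) (nat_lit 3)
noncomputable def D4918 : OP := win (nat_lit 4) (nat_lit 3) (nat_lit 12) (nat_lit 0)
noncomputable def D4612 : OP := win (nat_lit 5) (nat_lit 5) (nat_lit 12) (nat_lit 0)
noncomputable def D2362 : OP := win (nat_lit 3) (nat_lit 6) (nat_lit 9) (nat_lit 2)
noncomputable def D27824 : OP := orK (nat_lit 227) D43
noncomputable def D15004 : OP := win (nat_lit 4) (nat_lit 7) (nat_lit 6) (nat_lit 0)
noncomputable def D29522 : OP := orK (nat_lit 170) (fin (add (start D6229) D1826))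
noncomputable def D29478 : OP := orK (nat_lit 248) (fin (add (start D78) D68))
noncomputable def D6466 : OP := win (nat_lit 3) (nat_lit 5) (nat_lit 7) (nat_lit 0)
noncomputable def D7643 : OP := win (nat_lit 1) (nat_lit 5) (nat_lit 6) (nat_lit 0)
noncomputable def D7645 : OP := orK (nat_lit 146) (fin (add (start D7643) D6466))
noncomputable def D12694 : OP := win (nat_lit 2) (nat_lit 5) (nat_lit 8) (nat_lit 0)
noncomputable def D26141 : OP := orK (nat_lit 165) (fin (add (start D357) (orK (nat_lit 166) (fin (add (start D12694) D7645)))))
noncomputable def D26212 : OP := orK (nat_lit 186) (fin (add (start D356) D26141))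
noncomputable def D26143 : OP := orK (nat_lit 186) (fin (add (start D364) D26141))
noncomputable def D26134 : OP := orK (nat_lit 186) D26133
noncomputable def D3117 : OP := win (nat_lit 7) (nat_lit 5) (nat_lit 9) (nat_lit 0)
noncomputable def D3093 : OP := win (nat_lit 7) (nat_lit 5) (nat_lit 8) (nat_lit 3)
noncomputable def D3121 : OP := orK (nat_lit 246) (fin (add (start D3093) D3117))
noncomputable def D3024 : OP := win (nat_lit 6) (nat_lit 5) (nat_lit 7) (nat_lit 0)
noncomputable def D3145 : AP := fin (add (start D3024) D3121)
noncomputable def D3146 : OP := orK (nat_lit 226) D3145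
noncomputable def D3119 : OP := orK (nat_lit 246) (fin (add (start D3092) D3117))
noncomputable def D3143 : AP := fin (add (start D3024) D3119)
noncomputable def D3144 : OP := orK (nat_lit 226) D3143
noncomputable def D3038 : OP := win (nat_lit 3) (nat_lit 5) (nat_lit 7) (nat_lit 5)
noncomputable def D3122 : OP := win (nat_lit 1) (nat_lit 5) (nat_lit 8) (nat_lit 1)
noncomputable def D3065 : OP := win (nat_lit 4) (nat_lit 3) (nat_lit 10) (nat_lit 0)
noncomputable def D3067 : OP := orK (nat_lit 224) (fin (add (start D3064) D3065))
noncomputable def D3105 : OP := win (nat_lit 7) (nat_lit 4) (nat_lit 5) (nat_lit 5)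
noncomputable def D3108 : OP := orK (nat_lit 124) (fin (add (start D3105) (win (nat_lit 7) (nat_lit 4) (nat_lit 6) (nat_lit 4))))
noncomputable def D3100 : OP := win (nat_lit 6) (nat_lit 5) (nat_lit 6) (nat_lit 4)
noncomputable def D3110 : OP := orK (nat_lit 125) (fin (add (start D3100) D3108))
noncomputable def D3099 : OP := win (nat_lit 3) (nat_lit 5) (nat_lit 5) (nat_lit 5)
noncomputable def D3098 : OP := win (nat_lit 3) (nat_lit 5) (nat_lit 6) (nat_lit 4)
noncomputable def D3104 : OP := orK (nat_lit 126) (fin (add (start D3098) (orK (nat_lit 125) (fin (add (start D3099) D3100)))))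
noncomputable def D3148 : OP := orK (nat_lit 165) (fin (add (add (add (start (orK (nat_lit 145) (fin (add (add (start D3104) D3110) (orK (nat_lit 146) (fin (add (start D3029) (orK (nat_lit 225) (fin (add (start D3028) D3033)))))))))) (orK (nat_lit 226) (fin (add (add (start D3119) D3121) (orK (nat_lit 225) (fin (add (start D3067) (orK (nat_lit 245) (fin (add (start (orK (nat_lit 166) (fin (add (start D3122) D3038)))) D3076)))))))))) D3144) D3146))
noncomputable def D3010 : OP := win (nat_lit 2) (nat_lit 4) (nat_lit 9) (nat_lit 0)
noncomputable def D3089 : OP := orK (nat_lit 184) (fin (add (start D3010) D3087))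
noncomputable def D3025 : OP := win (nat_lit 6) (nat_lit 5) (nat_lit 8) (nat_lit 5)
noncomputable def D3026 : AP := fin (add (start D3024) D3025)
noncomputable def D3027 : OP := orK (nat_lit 226) D3026
noncomputable def D3019 : OP := win (nat_lit 4) (nat_lit 3) (nat_lit 10) (nat_lit 3)
noncomputable def D3021 : OP := orK (nat_lit 223) (fin (add (start (win (nat_lit 4) (nat_lit 2) (nat_lit 10) (nat_lit 0))) D3019))
noncomputable def D3017 : OP := win (nat_lit 5) (nat_lit 4) (nat_lit 10) (nat_lit 0)
noncomputable def D3023 : OP := orK (nat_lit 224) (fin (add (start D3017) D3021))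
noncomputable def D3039 : OP := win (nat_lit 3) (nat_lit 5) (nat_lit 8) (nat_lit 4)
noncomputable def D3037 : OP := orK (nat_lit 146) (fin (add (start D3028) (orK (nat_lit 145) (fin (add (start D3029) D3033)))))
noncomputable def D3059 : OP := orK (nat_lit 225) (fin (add (add (start D3023) (orK (nat_lit 165) (fin (add (add (start D3027) D3037) (orK (nat_lit 166) (fin (add (start D3038) (orK (nat_lit 245) (fin (add (start D3039) D3042)))))))))) (orK (nat_lit 224) (fin (add (start D3017) D3055)))))
noncomputable def D3012 : OP := win (nat_lit 0) (nat_lit 3) (nat_lit 9) (nat_lit 3)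
noncomputable def D3011 : OP := win (nat_lit 0) (nat_lit 2) (nat_lit 9) (nat_lit 0)
noncomputable def D3014 : OP := orK (nat_lit 183) (fin (add (start D3011) D3012))
noncomputable def D3016 : OP := orK (nat_lit 184) (fin (add (start D3010) D3014))
noncomputable def D3150 : OP := orK (nat_lit 185) (fin (add (add (add (start D3016) D3059) (orK (nat_lit 225) (fin (add (add (start D3023) (orK (nat_lit 165) (fin (add (start D3027) D3078)))) D3089)))) D3148))
noncomputable def D2364 : OP := win (nat_lit 4) (nat_lit 5) (nat_lit 9) (nat_lit 5)
noncomputable def D29167 : OP := orK (nat_lit 206) (fin (add (start D2364) D3150))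
noncomputable def D25757 : OP := orK (nat_lit 185) (fin (add (start D3060) D3059))
noncomputable def D4739 : OP := win (nat_lit 5) (nat_lit 4) (nat_lit 10) (nat_lit 4)
noncomputable def D4738 : OP := win (nat_lit 5) (nat_lit 3) (nat_lit 10) (nat_lit 5)
noncomputable def D4741 : OP := orK (nat_lit 224) (fin (add (start D4738) D4739))
noncomputable def D24667 : OP := win (nat_lit 4) (nat_lit 4) (nat_lit 9) (nat_lit 4)
noncomputable def D26022 : OP := orK (nat_lit 204) (fin (add (start D24667) D4741))
noncomputable def D4939 : OP := win (nat_lit 2) (nat_lit 3) (nat_lit 9) (nat_lit 5)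
noncomputable def D4938 : OP := win (nat_lit 2) (nat_lit 4) (nat_lit 9) (nat_lit 4)
noncomputable def D26023 : AP := fin (add (add (start (orK (nat_lit 184) (fin (add (start D4938) (orK (nat_lit 204) (fin (add (start D4939) D24667))))))) D26022) D25757)
noncomputable def D29165 : OP := orK (nat_lit 206) D26023
noncomputable def D2365 : AP := fin (add (start D2363) D2364)
noncomputable def D2388 : OP := orK (nat_lit 206) D2365
noncomputable def D2489 : OP := win (nat_lit 7) (nat_lit 5) (nat_lit 8) (nat_lit 1)
noncomputable def D9562 : OP := win (nat_lit 4) (nat_lit 6) (nat_lit 8) (nat_lit 3)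
noncomputable def D24518 : OP := orK (nat_lit 170) (fin (add (start D9562) D1826))
noncomputable def D24519 : AP := fin (add (start D2021) D24518)
noncomputable def D371 : OP := win (nat_lit 6) (nat_lit 6) (nat_lit 7) (nat_lit 5)
noncomputable def D373 : OP := orK (nat_lit 146) (fin (add (start D370) D371))
noncomputable def D368 : OP := orK (nat_lit 185) (fin (add (start D356) (orK (nat_lit 205) (fin (add (start D363) D364)))))
noncomputable def D379 : OP := orK (nat_lit 186) (fin (add (add (start D362) D368) (orK (nat_lit 166) (fin (add (start D369) (orK (nat_lit 206) (fin (add (start D128) D373))))))))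
noncomputable def D29414 : OP := orK (nat_lit 189) (fin (add (add (start D131) D26106) D379))
noncomputable def D29626 : AP := fin (add (add (add (add (add (add (start D29414) (orK (nat_lit 168) (fin (add (add (start D334) (orK (nat_lit 247) (fin (add (start (win (nat_lit 3) (nat_lit 7) (nat_lit 8) (nat_lit 1))) (orK (nat_lit 228) (fin (add (start D29478) (orK (nat_lit 169) (fin (add (start D308) (orK (nat_lit 186) D24519))))))))))) (orK (nat_lit 148) (fin (add (start D158) (orK (nat_lit 149) (fin (add (start D159) (orK (nat_lit 169) (fin (add (start D6367) (orK (nat_lit 185) (fin (add (start D25130) D29296)))))))))))))))) (orK (nat_lit 227) (fin (add (add (start D40) (orK (nat_lit 247) (fin (add (start D42) (orK (nat_lit 248) (fin (add (start D1369) (orK (nat_lit 186) (fin (add (start D140) (orK (nat_lit 185) (fin (add (start D356) (orK (nat_lit 205) (fin (add (start D364) (orK (nat_lit 206) (fin (add (start D2364) (orK (nat_lit 246) (fin (add (start D134) (orK (nat_lit 165) (fin (add (start D357) D2489))))))))))))))))))))))))) (orK (nat_lit 168) (fin (add (start D37) (orK (nat_lit 205) (fin (add (add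 (add (start D2388) D29165) D29167) (orK (nat_lit 185) (fin (add (add (add (start D26134) D26143) D29509) D26212))))))))))))) (orK (nat_lit 189) (fin (add (add (start D131) D26106) (orK (nat_lit 168) (fin (add (add (start D334) (orK (nat_lit 205) (fin (add (start D363) (orK (nat_lit 228) (fin (add (start (orK (nat_lit 247) (fin (add (start D157) D29478)))) (orK (nat_lit 169) (fin (add (start D308) D29522)))))))))) (orK (nat_lit 148) (fin (add (start D158) (orK (nat_lit 149) (fin (add (start D159) (orK (nat_lit 169) (fin (add (start D6367) (orK (nat_lit 205) (fin (add (start D363) D29522))))))))))))))))))) (orK (nat_lit 189) (fin (add (add (start D131) (orK (nat_lit 190) (fin (add (start D316) (orK (nat_lit 170) (fin (add (start D6089) (orK (nat_lit 149) (fin (add (start D253) (orK (nat_lit 150) (fin (add (start D252) (orK (nat_lit 131) (fin (add (start D780) (orK (nat_lit 130) (fin (add (start D779) (orK (nat_lit 148) (fin (add (start D15004) (orK (nat_lit 168) D333))))))))))))))))))))))) (orK (nat_lit 247) (fin (add (add (start D27824) (orK (nat_lit 248) (fin (add (add (start (orK (nat_lit 228) (fin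 (add (start D78) D127)))) (orK (nat_lit 246) (fin (add (add (add (start (orK (nat_lit 206) (fin (add (start D128) (orK (nat_lit 266) (fin (add (start D2362) (orK (nat_lit 265) (fin (add (start D4612) (orK (nat_lit 264) (fin (add (start D4918) D18295))))))))))))) (orK (nat_lit 206) (fin (add (start D128) (orK (nat_lit 226) (fin (add (start D708) D2347))))))) (orK (nat_lit 245) (fin (add (add (start D22849) (orK (nat_lit 205) (fin (add (start D363) (orK (nat_lit 225) (fin (add (start D136) (orK (nat_lit 265) (fin (add (start D138) (orK (nat_lit 185) (fin (add (start D3040) D4594))))))))))))) D22878)))) (orK (nat_lit 245) (fin (add (add (start D23061) D5640) D5636))))))) (orK (nat_lit 228) D26040))))) (orK (nat_lit 227) (fin (add (start D41) (orK (nat_lit 205) (fin (add (start D363) (orK (nat_lit 248) (fin (add (start D1369) (orK (nat_lit 228) (fin (add (start D127) (orK (nat_lit 246) (fin (add (start D134) (orK (nat_lit 245) (fin (add (start D135) (orK (nat_lit 225) (fin (add (start D136) D25713)))))))))))))))))))))))))))) (orK (nat_lit 227) (fin (add (add (start D40) D27861) (orK (nat_lit 168) (fin (add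 (start D37) (orK (nat_lit 185) (fin (add (add (start (orK (nat_lit 186) D26044)) (orK (nat_lit 205) (fin (add (add (add (start D26129) (orK (nat_lit 225) (fin (add (add (add (start D27871) D4428) D27874) (orK (nat_lit 204) (fin (add (start D21955) (orK (nat_lit 226) (fin (add (start D21810) D21966)))))))))) (orK (nat_lit 225) (fin (add (add (start D26691) D29503) D26697)))) D29509)))) (orK (nat_lit 169) (fin (add (start D25130) D29298))))))))))))) D29150)
noncomputable def D2250 : OP := orK (nat_lit 188) (fin (add (start D216) D133))
noncomputable def D139 : OP := win (nat_lit 1) (nat_lit 5) (nat_lit 9) (nat_lit 1)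
noncomputable def D144 : OP := orK (nat_lit 265) (fin (add (start D138) (orK (nat_lit 186) (fin (add (start D139) D140)))))
noncomputable def D1803 : OP := win (nat_lit 7) (nat_lit 6) (nat_lit 9) (nat_lit 4)
noncomputable def D1805 : OP := orK (nat_lit 186) (fin (add (start D140) D1803))
noncomputable def D2238 : OP := orK (nat_lit 267) (fin (add (start D570) D1805))
noncomputable def D2236 : OP := orK (nat_lit 266) (fin (add (start D1301) (orK (nat_lit 267) (fin (add (start D1302) D570)))))
noncomputable def D2232 : OP := orK (nat_lit 225) (fin (add (start D137) D2230))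
noncomputable def D2197 : OP := win (nat_lit 6) (nat_lit 7) (nat_lit 8) (nat_lit 0)
noncomputable def D2248 : OP := orK (nat_lit 227) (fin (add (start D2197) (orK (nat_lit 226) (fin (add (start D2232) (orK (nat_lit 247) (fin (add (add (start D2236) D2238) (orK (nat_lit 246) (fin (add (start D134) (orK (nat_lit 245) (fin (add (start D135) D144))))))))))))))
noncomputable def D170 : OP := orK (nat_lit 188) (fin (add (add (start D133) (orK (nat_lit 247) (fin (add (start D78) (orK (nat_lit 227) (fin (add (start D85) (orK (nat_lit 246) (fin (add (start D134) (orK (nat_lit 245) (fin (add (start D135) (orK (nat_lit 225) (fin (add (start D136) (orK (nat_lit 226) (fin (add (start D137) D144))))))))))))))))))) D168))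
noncomputable def D2020 : OP := win (nat_lit 5) (nat_lit 6) (nat_lit 8) (nat_lit 3)
noncomputable def D2387 : OP := win (nat_lit 6) (nat_lit 5) (nat_lit 9) (nat_lit 0)
noncomputable def D2535 : OP := win (nat_lit 5) (nat_lit 4) (nat_lit 11) (nat_lit 5)
noncomputable def D3935 : OP := win (nat_lit 1) (nat_lit 6) (nat_lit 8) (nat_lit 0)
noncomputable def D21950 : OP := orK (nat_lit 246) (fin (add (start D708) D4373))
noncomputable def D9695 : OP := win (nat_lit 0) (nat_lit 4) (nat_lit 8) (nat_lit 3)
noncomputable def D28224 : AP := fin (add (start D3038) (orK (nat_lit 164) (fin (add (start D9695) D3073))))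
noncomputable def D615 : OP := win (nat_lit 3) (nat_lit 6) (nat_lit 9) (nat_lit 3)
noncomputable def D4355 : AP := fin (add (start D615) D2305)
noncomputable def D4411 : OP := orK (nat_lit 266) D4355
noncomputable def D9547 : AP := fin (add (start D3935) D4411)
noncomputable def D9565 : OP := orK (nat_lit 246) D9547
noncomputable def D27887 : OP := win (nat_lit 1) (nat_lit 7) (nat_lit 7) (nat_lit 1)
noncomputable def D879 : OP := win (nat_lit 4) (nat_lit 4) (nat_lit 11) (nat_lit 1)
noncomputable def D309 : OP := win (nat_lit 1) (nat_lit 7) (nat_lit 8) (nat_lit 5)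
noncomputable def D310 : AP := fin (add (start D37) D309)
noncomputable def D403 : OP := orK (nat_lit 168) D310
noncomputable def D2217 : OP := orK (nat_lit 167) D2216
noncomputable def D2218 : AP := fin (add (start D68) D2217)
noncomputable def D6111 : OP := orK (nat_lit 127) (fin (add (start D6072) D4210))
noncomputable def D6113 : OP := orK (nat_lit 128) (fin (add (start D6071) D6111))
noncomputable def D7904 : OP := win (nat_lit 7) (nat_lit 5) (nat_lit 6) (nat_lit 5)
noncomputable def D7713 : OP := win (nat_lit 1) (nat_lit 5) (nat_lit 7) (nat_lit 5)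
noncomputable def D26367 : OP := win (nat_lit 0) (nat_lit 4) (nat_lit 7) (nat_lit 5)
noncomputable def D6398 : OP := win (nat_lit 0) (nat_lit 3) (nat_lit 7) (nat_lit 0)
noncomputable def D26725 : OP := orK (nat_lit 144) (fin (add (start D6398) D26367))
noncomputable def D18474 : OP := win (nat_lit 5) (nat_lit 5) (nat_lit 7) (nat_lit 0)
noncomputable def D4212 : OP := orK (nat_lit 127) (fin (add (start D4206) D4210))
noncomputable def D7345 : OP := orK (nat_lit 127) (fin (add (start D4206) D7326))
noncomputable def D7948 : OP := win (nat_lit 4) (nat_lit 5) (nat_lit 8) (nat_lit 4)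
noncomputable def D26061 : OP := orK (nat_lit 189) (fin (add (start D129) (orK (nat_lit 186) (fin (add (start (orK (nat_lit 169) (fin (add (start D7878) (orK (nat_lit 185) (fin (add (start D356) D7948))))))) D26057)))))
noncomputable def D2366 : OP := orK (nat_lit 205) D2365
noncomputable def D7346 : AP := fin (add (start D1445) D7345)
noncomputable def D26358 : OP := orK (nat_lit 128) (fin (add (start D6071) (orK (nat_lit 127) (fin (add (start D6072) D26354)))))
noncomputable def D27336 : AP := fin (add (start D1445) D26358)
noncomputable def D24669 : OP := orK (nat_lit 188) (fin (add (start D24667) D2364))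
noncomputable def D27335 : OP := orK (nat_lit 205) (fin (add (add (start (orK (nat_lit 184) (fin (add (start D4938) (orK (nat_lit 204) (fin (add (start D4939) D24669))))))) D25757) (orK (nat_lit 188) (fin (add (start D2364) D26022)))))
noncomputable def D7347 : OP := orK (nat_lit 206) D7346
noncomputable def D29108 : AP := fin (add (start D851) D7347)
noncomputable def D26772 : OP := orK (nat_lit 205) (fin (add (start D364) D7645))
noncomputable def D26778 : OP := orK (nat_lit 185) (fin (add (start D356) (orK (nat_lit 165) (fin (add (start D357) (orK (nat_lit 166) (fin (add (start D12694) D26772))))))))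
noncomputable def D9057 : OP := win (nat_lit 5) (nat_lit 7) (nat_lit 6) (nat_lit 0)
noncomputable def D18593 : OP := win (nat_lit 5) (nat_lit 6) (nat_lit 6) (nat_lit 3)
noncomputable def D7253 : OP := win (nat_lit 4) (nat_lit 5) (nat_lit 6) (nat_lit 0)
noncomputable def D6562 : OP := win (nat_lit 7) (nat_lit 9) (nat_lit 6) (nat_lit 1)
noncomputable def D4051 : OP := win (nat_lit 0) (nat_lit 7) (nat_lit 7) (nat_lit 5)
noncomputable def D4050 : OP := win (nat_lit 0) (nat_lit 6) (nat_lit 7) (nat_lit 4)
noncomputable def D29270 : OP := orK (nat_lit 170) (fin (add (start D4050) (orK (nat_lit 150) (fin (add (start D4051) D6562)))))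
noncomputable def D7104 : OP := win (nat_lit 2) (nat_lit 5) (nat_lit 6) (nat_lit 4)
noncomputable def D7103 : OP := win (nat_lit 2) (nat_lit 4) (nat_lit 6) (nat_lit 5)
noncomputable def D7109 : OP := win (nat_lit 4) (nat_lit 5) (nat_lit 6) (nat_lit 4)
noncomputable def D6617 : OP := win (nat_lit 4) (nat_lit 6) (nat_lit 6) (nat_lit 5)
noncomputable def D29253 : OP := orK (nat_lit 206) (fin (add (start D17385) (orK (nat_lit 205) (fin (add (start D7713) D2363)))))
noncomputable def D18811 : OP := win (nat_lit 2) (nat_lit 4) (nat_lit 6) (nat_lit 3)
noncomputable def D18542 : OP := win (nat_lit 0) (nat_lit 3) (nat_lit 6) (nat_lit 0)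
noncomputable def D19646 : OP := orK (nat_lit 124) (fin (add (start D18542) D18811))
noncomputable def D18832 : OP := win (nat_lit 2) (nat_lit 5) (nat_lit 6) (nat_lit 0)
noncomputable def D21338 : OP := win (nat_lit 6) (nat_lit 6) (nat_lit 6) (nat_lit 2)
noncomputable def D24527 : OP := win (nat_lit 5) (nat_lit 4) (nat_lit 7) (nat_lit 3)
noncomputable def D4163 : OP := win (nat_lit 0) (nat_lit 3) (nat_lit 8) (nat_lit 0)
noncomputable def D29216 : OP := orK (nat_lit 164) (fin (add (start D4163) D24527))
noncomputable def D6615 : OP := win (nat_lit 0) (nat_lit 6) (nat_lit 7) (nat_lit 5)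
noncomputable def D3277 : OP := win (nat_lit 0) (nat_lit 5) (nat_lit 7) (nat_lit 0)
noncomputable def D26409 : AP := fin (add (start D3277) D6615)
noncomputable def D26410 : OP := orK (nat_lit 146) D26409
noncomputable def D29245 : OP := orK (nat_lit 149) (fin (add (start D159) (orK (nat_lit 169) (fin (add (start D6367) D26410)))))
noncomputable def D26237 : OP := orK (nat_lit 168) D26046
noncomputable def D7668 : OP := orK (nat_lit 126) (fin (add (start D3099) D3098))
noncomputable def D7670 : OP := orK (nat_lit 125) (fin (add (start D7668) D3108))
noncomputable def D7652 : OP := win (nat_lit 6) (nat_lit 5) (nat_lit 7) (nat_lit 5)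
noncomputable def D7651 : OP := win (nat_lit 6) (nat_lit 5) (nat_lit 6) (nat_lit 0)
noncomputable def D7653 : AP := fin (add (start D7651) D7652)
noncomputable def D7654 : OP := orK (nat_lit 206) D7653
noncomputable def D7663 : AP := fin (add (start D7658) (orK (nat_lit 226) (fin (add (start D7660) D3025))))
noncomputable def D7676 : OP := orK (nat_lit 205) (fin (add (start D364) (orK (nat_lit 165) (fin (add (start D357) (orK (nat_lit 145) (fin (add (add (start (orK (nat_lit 225) D7663)) D7654) D7670))))))))
noncomputable def D7111 : OP := orK (nat_lit 129) (fin (add (start D7109) D6617))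
noncomputable def D7106 : OP := orK (nat_lit 125) (fin (add (start D7103) D7104))
noncomputable def D27027 : AP := fin (add (start D7106) D7111)
noncomputable def D7351 : OP := win (nat_lit 5) (nat_lit 4) (nat_lit 7) (nat_lit 4)
noncomputable def D7350 : OP := win (nat_lit 5) (nat_lit 3) (nat_lit 7) (nat_lit 5)
noncomputable def D7353 : OP := orK (nat_lit 164) (fin (add (start D7350) D7351))
noncomputable def D7348 : OP := win (nat_lit 2) (nat_lit 4) (nat_lit 6) (nat_lit 4)
noncomputable def D7349 : OP := win (nat_lit 2) (nat_lit 3) (nat_lit 6) (nat_lit 5)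
noncomputable def D19050 : OP := orK (nat_lit 124) (fin (add (start D7349) D7348))
noncomputable def D16448 : OP := win (nat_lit 4) (nat_lit 5) (nat_lit 6) (nat_lit 5)
noncomputable def D16577 : OP := win (nat_lit 4) (nat_lit 4) (nat_lit 6) (nat_lit 4)
noncomputable def D19034 : OP := orK (nat_lit 128) (fin (add (start D16577) D16448))
noncomputable def D29169 : AP := fin (add (start D12694) D18474)
noncomputable def D7147 : OP := win (nat_lit 5) (nat_lit 4) (nat_lit 7) (nat_lit 5)
noncomputable def D18810 : OP := win (nat_lit 0) (nat_lit 4) (nat_lit 6) (nat_lit 3)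
noncomputable def D1587 : OP := win (nat_lit 4) (nat_lit 8) (nat_lit 6) (nat_lit 5)
noncomputable def D6060 : OP := win (nat_lit 4) (nat_lit 7) (nat_lit 6) (nat_lit 4)
noncomputable def D6062 : OP := orK (nat_lit 131) (fin (add (start D6060) D1587))
noncomputable def D6059 : OP := win (nat_lit 0) (nat_lit 8) (nat_lit 7) (nat_lit 5)
noncomputable def D6058 : OP := win (nat_lit 0) (nat_lit 7) (nat_lit 7) (nat_lit 4)
noncomputable def D7240 : OP := orK (nat_lit 171) (fin (add (start D6058) D6059))
noncomputable def D7242 : OP := orK (nat_lit 151) (fin (add (start D7240) D6062))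
noncomputable def D6616 : OP := win (nat_lit 2) (nat_lit 5) (nat_lit 6) (nat_lit 5)
noncomputable def D26815 : AP := fin (add (start D6616) D21338)
noncomputable def D6014 : OP := win (nat_lit 2) (nat_lit 6) (nat_lit 6) (nat_lit 4)
noncomputable def D26816 : OP := orK (nat_lit 126) D26815
noncomputable def D26298 : OP := win (nat_lit 3) (nat_lit 8) (nat_lit 6) (nat_lit 2)
noncomputable def D26878 : OP := orK (nat_lit 168) (fin (add (start D159) D416))
noncomputable def D21492 : AP := fin (add (start (win (nat_lit 4) (nat_lit 6) (nat_lit 6) (nat_lit 3))) D9057)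
noncomputable def D21494 : AP := fin (add (start D7253) (orK (nat_lit 130) D21492))
noncomputable def D21240 : OP := win (nat_lit 1) (nat_lit 7) (nat_lit 6) (nat_lit 2)
noncomputable def D782 : OP := orK (nat_lit 131) (fin (add (start D779) D780))
noncomputable def D26244 : AP := fin (add (start D4051) D252)
noncomputable def D26251 : OP := orK (nat_lit 150) (fin (add (add (start (orK (nat_lit 148) (fin (add (start D26237) D24)))) (orK (nat_lit 148) (fin (add (start (orK (nat_lit 149) D26244)) D26237)))) (orK (nat_lit 130) (fin (add (start D782) D2700)))))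
noncomputable def D1010 : OP := win (nat_lit 6) (nat_lit 10) (nat_lit 8) (nat_lit 4)
noncomputable def D26236 : OP := orK (nat_lit 169) (fin (add (start D260) (orK (nat_lit 168) (fin (add (start D1826) D26047)))))
noncomputable def D1199 : OP := win (nat_lit 5) (nat_lit 7) (nat_lit 8) (nat_lit 2)
noncomputable def D26232 : OP := orK (nat_lit 171) (fin (add (start D45) (orK (nat_lit 168) (fin (add (start D1199) D26047)))))
noncomputable def D26228 : OP := orK (nat_lit 149) (fin (add (start D253) (orK (nat_lit 150) (fin (add (start D252) (orK (nat_lit 131) (fin (add (start D780) (orK (nat_lit 130) (fin (add (start D779) (win (nat_lit 4) (nat_lit 7) (nat_lit 6) (nat_lit 1)))))))))))))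
noncomputable def D1396 : OP := win (nat_lit 5) (nat_lit 7) (nat_lit 8) (nat_lit 3)
noncomputable def D5572 : OP := orK (nat_lit 169) (fin (add (start D1396) D260))
noncomputable def D26220 : OP := orK (nat_lit 171) (fin (add (start D45) D5572))
noncomputable def D26255 : OP := orK (nat_lit 170) (fin (add (add (add (add (start D26220) D26228) D26232) D26236) (orK (nat_lit 251) (fin (add (start D1010) D26251)))))
noncomputable def D353 : OP := win (nat_lit 5) (nat_lit 6) (nat_lit 9) (nat_lit 5)
noncomputable def D25630 : AP := fin (add (start D353) D316)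
noncomputable def D26570 : OP := orK (nat_lit 190) (fin (add (start (orK (nat_lit 189) D25630)) D26255))
noncomputable def D26024 : OP := orK (nat_lit 205) D26023
noncomputable def D29305 : AP := fin (add (add (add (add (add (add (start D29150) (orK (nat_lit 206) (fin (add (add (start D2366) (orK (nat_lit 189) (fin (add (start D129) D29152)))) D26024)))) D26570) (orK (nat_lit 189) (fin (add (add (start D131) D26106) (orK (nat_lit 186) (fin (add (add (start D362) D368) (orK (nat_lit 166) (fin (add (start D369) (orK (nat_lit 206) (fin (add (start D128) D26055))))))))))))) (orK (nat_lit 205) (fin (add (add (add (start D2388) D29165) D29167) (orK (nat_lit 186) (fin (add (start D29138) (orK (nat_lit 148) (fin (add (add (add (start D26237) (orK (nat_lit 128) (fin (add (start D21240) (orK (nat_lit 146) (fin (add (add (start (orK (nat_lit 129) D21494)) (orK (nat_lit 166) (fin (add (start D370) (orK (nat_lit 165) D29169))))) (orK (nat_lit 165) (fin (add (start (orK (nat_lit 166) (fin (add (start D12694) D370)))) (orK (nat_lit 145) (fin (add (start D16448) D7147))))))))))))) (orK (nat_lit 149) (fin (add (add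 (start D26878) (orK (nat_lit 129) (fin (add (start D26298) (orK (nat_lit 146) (fin (add (start D6617) D26816))))))) (orK (nat_lit 150) (fin (add (start (orK (nat_lit 126) (fin (add (start D6014) (orK (nat_lit 146) D26815))))) D7242))))))) (orK (nat_lit 146) (fin (add (add (add (start (orK (nat_lit 126) (fin (add (start D21338) (orK (nat_lit 125) (fin (add (start D18832) (orK (nat_lit 124) (fin (add (start D18542) D18810)))))))))) (orK (nat_lit 145) (fin (add (start (orK (nat_lit 144) (fin (add (start D19050) D19034)))) (orK (nat_lit 165) (fin (add (start D7147) (orK (nat_lit 166) D29169)))))))) (orK (nat_lit 166) (fin (add (start D370) (orK (nat_lit 165) (fin (add (start D12694) D29216))))))) (orK (nat_lit 145) (fin (add (add (start (orK (nat_lit 144) (fin (add (start D19034) D7353)))) (orK (nat_lit 144) (fin (add (start D19050) D7353)))) (orK (nat_lit 149) D27027))))))))))))))))) (orK (nat_lit 186) (fin (add (add (start (orK (nat_lit 185) (fin (add (start D356) (orK (nat_lit 168) (fin (add (start D9698) D26047))))))) (orK (nat_lit 185) (fin (add (start D356) D7676)))) (orK (nat_lit 148) (fin (add (add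 (add (start D26237) (orK (nat_lit 168) (fin (add (start D158) D29245)))) (orK (nat_lit 168) (fin (add (start D416) D29245)))) (orK (nat_lit 146) (fin (add (add (add (start (orK (nat_lit 166) (fin (add (start D29253) (orK (nat_lit 165) (fin (add (start D18474) D29216))))))) (orK (nat_lit 126) (fin (add (start D21338) (orK (nat_lit 125) (fin (add (start D18832) D19646))))))) (orK (nat_lit 166) (fin (add (start D370) D29253)))) (orK (nat_lit 129) (fin (add (add (start (orK (nat_lit 149) (fin (add (start D6617) D29270)))) (orK (nat_lit 145) (fin (add (start D7109) (orK (nat_lit 125) (fin (add (start D7103) (orK (nat_lit 149) (fin (add (start D7104) D29270)))))))))) (orK (nat_lit 128) (fin (add (start D7253) (orK (nat_lit 130) (fin (add (start D18593) D9057))))))))))))))))))) (orK (nat_lit 168) (fin (add (start D26047) (orK (nat_lit 186) (fin (add (add (start D26045) (orK (nat_lit 169) (fin (add (add (start D24518) (orK (nat_lit 228) (fin (add (start D308) (orK (nat_lit 248) (fin (add (start D307) D68))))))) D29298)))) D26778)))))))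
noncomputable def D7724 : OP := win (nat_lit 3) (nat_lit 5) (nat_lit 7) (nat_lit 3)
noncomputable def D26547 : OP := win (nat_lit 1) (nat_lit 5) (nat_lit 7) (nat_lit 2)
noncomputable def D27340 : OP := orK (nat_lit 166) (fin (add (start D26547) D7724))
noncomputable def D27338 : OP := orK (nat_lit 188) D2365
noncomputable def D27274 : AP := fin (add (start D1445) (orK (nat_lit 127) (fin (add (start D4206) D26354))))
noncomputable def D27275 : OP := orK (nat_lit 206) D27274
noncomputable def D2537 : OP := win (nat_lit 3) (nat_lit 5) (nat_lit 8) (nat_lit 3)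
noncomputable def D2545 : OP := orK (nat_lit 225) (fin (add (start D2230) (orK (nat_lit 205) (fin (add (start D2466) (orK (nat_lit 245) (fin (add (start D2535) (orK (nat_lit 186) (fin (add (start (win (nat_lit 1) (nat_lit 5) (nat_lit 8) (nat_lit 2))) D2537)))))))))))
noncomputable def D4098 : OP := orK (nat_lit 246) (fin (add (start D872) (orK (nat_lit 247) (fin (add (start D134) D1743)))))
noncomputable def D5887 : AP := fin (add (start D1369) D1743)
noncomputable def D5890 : OP := orK (nat_lit 248) (fin (add (start D1368) (orK (nat_lit 247) D5887)))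
noncomputable def D7548 : OP := orK (nat_lit 246) (fin (add (start D872) (orK (nat_lit 247) (fin (add (start D134) D1371)))))
noncomputable def D850 : OP := win (nat_lit 6) (nat_lit 7) (nat_lit 6) (nat_lit 0)
noncomputable def D4954 : OP := orK (nat_lit 184) (fin (add (start D4938) (orK (nat_lit 204) (fin (add (start D4939) D4741)))))
noncomputable def D707 : OP := win (nat_lit 3) (nat_lit 6) (nat_lit 8) (nat_lit 3)
noncomputable def D709 : AP := fin (add (start D707) D708)
noncomputable def D4140 : OP := win (nat_lit 1) (nat_lit 6) (nat_lit 7) (nat_lit 0)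
noncomputable def D17264 : AP := fin (add (start D4140) (orK (nat_lit 246) D709))
noncomputable def D5950 : OP := win (nat_lit 2) (nat_lit 6) (nat_lit 8) (nat_lit 0)
noncomputable def D6324 : OP := win (nat_lit 2) (nat_lit 5) (nat_lit 8) (nat_lit 3)
noncomputable def D6325 : AP := fin (add (start D6324) D5950)
noncomputable def D6327 : AP := fin (add (start D5550) (orK (nat_lit 189) D6325))
noncomputable def D23712 : OP := orK (nat_lit 188) D6327
noncomputable def D464 : OP := orK (nat_lit 144) (fin (add (start D461) D462))
noncomputable def D6189 : OP := orK (nat_lit 164) (fin (add (start D464) D4177))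
noncomputable def D445 : OP := win (nat_lit 5) (nat_lit 5) (nat_lit 8) (nat_lit 4)
noncomputable def D447 : OP := orK (nat_lit 185) (fin (add (start D444) D445))
noncomputable def D3360 : OP := win (nat_lit 4) (nat_lit 5) (nat_lit 7) (nat_lit 4)
noncomputable def D6440 : OP := orK (nat_lit 149) (fin (add (start D3360) D1485))
noncomputable def D17238 : AP := fin (add (start D6440) D447)
noncomputable def D27317 : OP := orK (nat_lit 169) D17238
noncomputable def D442 : OP := win (nat_lit 2) (nat_lit 5) (nat_lit 7) (nat_lit 4)
noncomputable def D6438 : OP := orK (nat_lit 145) (fin (add (start D443) D442))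
noncomputable def D6441 : AP := fin (add (start D6438) D6440)
noncomputable def D27314 : OP := orK (nat_lit 169) D6441
noncomputable def D6446 : OP := win (nat_lit 4) (nat_lit 5) (nat_lit 7) (nat_lit 5)
noncomputable def D26703 : OP := orK (nat_lit 148) (fin (add (start D158) D6446))
noncomputable def D5906 : OP := win (nat_lit 0) (nat_lit 5) (nat_lit 8) (nat_lit 4)
noncomputable def D6181 : OP := orK (nat_lit 189) (fin (add (start D5906) D502))
noncomputable def D27316 : OP := orK (nat_lit 168) (fin (add (add (start (orK (nat_lit 169) (fin (add (start D6181) D6438)))) (orK (nat_lit 188) (fin (add (start D5551) D26703)))) D27314))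
noncomputable def D27323 : OP := orK (nat_lit 165) (fin (add (add (start D27316) (orK (nat_lit 168) (fin (add (add (start D27314) D27317) D6189)))) D23712))
noncomputable def D5553 : OP := orK (nat_lit 165) D5552
noncomputable def D12816 : OP := orK (nat_lit 168) (fin (add (start D1307) (orK (nat_lit 188) (fin (add (start D38) D5553)))))
noncomputable def D17620 : OP := orK (nat_lit 246) (fin (add (start D872) (orK (nat_lit 247) (fin (add (start D134) D867)))))
noncomputable def D27297 : OP := orK (nat_lit 227) (fin (add (start D1307) D17620))
noncomputable def D6185 : OP := orK (nat_lit 169) (fin (add (start D6181) D447))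
noncomputable def D27295 : OP := orK (nat_lit 165) (fin (add (add (start D6185) D6174) D6189))
noncomputable def D6387 : OP := win (nat_lit 6) (nat_lit 6) (nat_lit 6) (nat_lit 3)
noncomputable def D6386 : OP := win (nat_lit 6) (nat_lit 6) (nat_lit 5) (nat_lit 0)
noncomputable def D6388 : AP := fin (add (start D6386) D6387)
noncomputable def D6389 : OP := orK (nat_lit 126) D6388
noncomputable def D6390 : AP := fin (add (start D2053) D6389)
noncomputable def D6789 : OP := orK (nat_lit 146) D6390
noncomputable def D27325 : OP := orK (nat_lit 166) (fin (add (add (add (start D6789) (orK (nat_lit 168) (fin (add (add (start D27295) D7371) D27297)))) (orK (nat_lit 227) (fin (add (start D1484) (orK (nat_lit 226) (fin (add (start D2035) D12816))))))) D27323))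
noncomputable def D17210 : OP := orK (nat_lit 226) (fin (add (start D3202) (orK (nat_lit 227) (fin (add (start D2035) D1378)))))
noncomputable def D27285 : OP := orK (nat_lit 147) (fin (add (add (start D27275) D17210) D26381))
noncomputable def D27277 : OP := orK (nat_lit 147) (fin (add (add (start D27275) D17322) D26358))
noncomputable def D27356 : OP := orK (nat_lit 167) (fin (add (add (add (add (add (start D7333) D27277) (orK (nat_lit 147) (fin (add (add (start D26358) D26381) (orK (nat_lit 148) (fin (add (start D1381) (orK (nat_lit 227) (fin (add (start D1382) D1378)))))))))) D27285) D27325) (orK (nat_lit 206) (fin (add (add (add (start (orK (nat_lit 226) D17264)) D27335) (orK (nat_lit 147) D27336)) (orK (nat_lit 205) (fin (add (add (start D27338) D4954) (orK (nat_lit 225) (fin (add (start D3061) (orK (nat_lit 185) (fin (add (start D3060) (orK (nat_lit 188) (fin (add (start D2364) (orK (nat_lit 147) (fin (add (start D850) (orK (nat_lit 146) (fin (add (start D1376) D27340)))))))))))))))))))))))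
noncomputable def D4639 : OP := win (nat_lit 6) (nat_lit 5) (nat_lit 11) (nat_lit 5)
noncomputable def D4641 : OP := orK (nat_lit 286) (fin (add (start (win (nat_lit 6) (nat_lit 5) (nat_lit 10) (nat_lit 4))) D4639))
noncomputable def D4635 : OP := win (nat_lit 1) (nat_lit 4) (nat_lit 11) (nat_lit 5)
noncomputable def D4634 : OP := win (nat_lit 1) (nat_lit 4) (nat_lit 10) (nat_lit 4)
noncomputable def D4795 : OP := win (nat_lit 3) (nat_lit 5) (nat_lit 9) (nat_lit 4)
noncomputable def D25278 : OP := orK (nat_lit 284) (fin (add (start D4634) (orK (nat_lit 285) (fin (add (start D4635) D4641)))))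
noncomputable def D5897 : OP := win (nat_lit 4) (nat_lit 5) (nat_lit 8) (nat_lit 3)
noncomputable def D5884 : OP := orK (nat_lit 247) (fin (add (start D1308) D1371))
noncomputable def D5886 : OP := orK (nat_lit 168) (fin (add (start D1307) D5884))
noncomputable def D6168 : OP := orK (nat_lit 246) (fin (add (start D872) (orK (nat_lit 247) (fin (add (start D134) D1310)))))
noncomputable def D17628 : OP := orK (nat_lit 248) (fin (add (start D1368) (orK (nat_lit 247) (fin (add (start D1369) D867)))))
noncomputable def D6171 : OP := win (nat_lit 0) (nat_lit 4) (nat_lit 8) (nat_lit 5)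
noncomputable def D6187 : OP := orK (nat_lit 164) (fin (add (start D6171) D464))
noncomputable def D6191 : OP := orK (nat_lit 165) (fin (add (add (start D6185) D6187) D6189))
noncomputable def D6392 : OP := win (nat_lit 7) (nat_lit 6) (nat_lit 6) (nat_lit 3)
noncomputable def D8123 : OP := orK (nat_lit 126) (fin (add (start D6386) D6392))
noncomputable def D8125 : OP := orK (nat_lit 146) (fin (add (start D2053) D8123))
noncomputable def D7375 : OP := win (nat_lit 3) (nat_lit 7) (nat_lit 6) (nat_lit 3)
noncomputable def D7376 : AP := fin (add (start D7366) D7375)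
noncomputable def D7377 : OP := orK (nat_lit 128) D7376
noncomputable def D7378 : AP := fin (add (start D1579) D7377)
noncomputable def D7379 : OP := orK (nat_lit 148) D7378
noncomputable def D1296 : OP := orK (nat_lit 188) (fin (add (start D85) D42))
noncomputable def D2549 : OP := orK (nat_lit 166) (fin (add (start D1484) (orK (nat_lit 226) (fin (add (start D2035) D2545)))))
noncomputable def D29681 : AP := fin (add (add (add (add (add (add (add (add (add (start (orK (nat_lit 167) (fin (add (add (add (start D27285) (orK (nat_lit 228) (fin (add (add (start D2521) D2525) (orK (nat_lit 227) (fin (add (add (start (orK (nat_lit 246) (fin (add (start D872) (orK (nat_lit 247) (fin (add (start D134) D1296))))))) D2549) (orK (nat_lit 166) (fin (add (start D1484) (orK (nat_lit 247) (fin (add (start D867) D1296))))))))))))) D29051) D29036)))) (orK (nat_lit 167) (fin (add (add (add (start (orK (nat_lit 166) (fin (add (add (start (orK (nat_lit 168) (fin (add (start D6191) D7379)))) D8125) D27323)))) (orK (nat_lit 166) (fin (add (add (add (start D6789) (orK (nat_lit 168) (fin (add (add (start D6191) D7371) (orK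 (nat_lit 227) (fin (add (start D1307) D17628))))))) (orK (nat_lit 227) (fin (add (start D1484) D5886)))) D27323)))) D29051) D29036)))) (orK (nat_lit 167) (fin (add (add (add (start D27277) (orK (nat_lit 227) (fin (add (add (add (start D6168) D7548) D5886) (orK (nat_lit 168) (fin (add (start D1307) (orK (nat_lit 226) (fin (add (start D2035) (orK (nat_lit 228) (fin (add (start D32) (orK (nat_lit 186) (fin (add (add (start (orK (nat_lit 185) (fin (add (start D356) (orK (nat_lit 169) (fin (add (start D5897) D5556))))))) (orK (nat_lit 185) (fin (add (start D356) (orK (nat_lit 225) (fin (add (start D2230) (orK (nat_lit 205) (fin (add (start D2466) (orK (nat_lit 245) (fin (add (start D2535) (orK (nat_lit 265) (fin (add (start D4795) D25278)))))))))))))))) (orK (nat_lit 225) (fin (add (start D2230) (orK (nat_lit 205) (fin (add (start D2466) (orK (nat_lit 245) (fin (add (start D2535) (orK (nat_lit 265) (fin (add (start D4795) (orK (nat_lit 284) (fin (add (start D4634) (orK (nat_lit 285) (fin (add (start D4635) (orK (nat_lit 169) (fin (add (start D5556) D4641))))))))))))))))))))))))))))))))))))) D29051) D29036))))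 D27356) (orK (nat_lit 167) (fin (add (add (add (start D29051) (orK (nat_lit 147) D29108)) (orK (nat_lit 227) (fin (add (add (add (start D7548) D5890) D4098) (orK (nat_lit 166) (fin (add (start D1484) (orK (nat_lit 226) (fin (add (start D2035) (orK (nat_lit 228) (fin (add (start D32) D2545))))))))))))) D7333)))) (orK (nat_lit 147) (fin (add (add (add (add (add (start (orK (nat_lit 167) (fin (add (start D851) D27275)))) (orK (nat_lit 167) (fin (add (start D851) D26358)))) (orK (nat_lit 167) (fin (add (start D851) (orK (nat_lit 128) (fin (add (start D6071) (orK (nat_lit 206) (fin (add (start D1445) (orK (nat_lit 146) (fin (add (start D1376) (orK (nat_lit 205) (fin (add (start D27338) (orK (nat_lit 185) (fin (add (start D3060) (orK (nat_lit 225) (fin (add (start D3061) D27340)))))))))))))))))))))) (orK (nat_lit 188) D29305)) (orK (nat_lit 167) D29108)) (orK (nat_lit 206) (fin (add (add (add (start D27335) (orK (nat_lit 167) D27336)) (orK (nat_lit 167) D7346)) (orK (nat_lit 188) (fin (add (add (start D2366) D26061) (orK (nat_lit 167) (fin (add (add (add (start D7345) D4212) (orK (nat_lit 148) (fin (add (start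 D1381) (orK (nat_lit 146) (fin (add (start D1376) (orK (nat_lit 205) (fin (add (start D2363) (orK (nat_lit 166) (fin (add (start (orK (nat_lit 165) (fin (add (start D5550) D18474)))) (orK (nat_lit 145) (fin (add (start D26725) (orK (nat_lit 186) (fin (add (start D7713) D7904))))))))))))))))))) D6113))))))))))))) (orK (nat_lit 228) (fin (add (add (add (add (start (orK (nat_lit 248) D2218)) (orK (nat_lit 188) (fin (add (add (add (add (start (orK (nat_lit 168) (fin (add (start D334) (orK (nat_lit 169) (fin (add (start D308) (orK (nat_lit 170) (fin (add (start D1826) (orK (nat_lit 186) (fin (add (start D9562) D2020))))))))))))) (orK (nat_lit 227) (fin (add (add (start D403) (orK (nat_lit 247) (fin (add (start D42) (orK (nat_lit 246) (fin (add (start D134) (orK (nat_lit 226) (fin (add (start D3935) (orK (nat_lit 225) (fin (add (start D2230) (orK (nat_lit 205) (fin (add (start D2466) (orK (nat_lit 244) (fin (add (start D879) (orK (nat_lit 206) (fin (add (start D2364) (orK (nat_lit 185) (fin (add (start D3060) D4373))))))))))))))))))))))))) (orK (nat_lit 148) (fin (add (start D27887) (orK (nat_lit 226) (fin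 (add (add (add (start D9565) (orK (nat_lit 225) (fin (add (start D2230) (orK (nat_lit 205) (fin (add (start D2466) (orK (nat_lit 206) (fin (add (start D2364) (orK (nat_lit 185) (fin (add (start D3060) (orK (nat_lit 245) (fin (add (start D2535) (orK (nat_lit 165) (fin (add (start D3024) (orK (nat_lit 166) D28224)))))))))))))))))))) (orK (nat_lit 225) (fin (add (start D2230) (orK (nat_lit 205) (fin (add (start D2466) (orK (nat_lit 206) (fin (add (start D2364) (orK (nat_lit 185) (fin (add (start D3060) D21950))))))))))))) (orK (nat_lit 246) (fin (add (start D3935) (orK (nat_lit 225) (fin (add (start D2230) (orK (nat_lit 205) (fin (add (start D2466) (orK (nat_lit 266) (fin (add (start D2305) (orK (nat_lit 245) (fin (add (start D2535) D2387))))))))))))))))))))))))) D29414) (orK (nat_lit 168) (fin (add (start D334) (orK (nat_lit 169) (fin (add (start D308) (orK (nat_lit 186) (fin (add (start D2021) (orK (nat_lit 170) (fin (add (start D2020) D1826))))))))))))) (orK (nat_lit 189) (fin (add (start D131) (orK (nat_lit 186) (fin (add (start (orK (nat_lit 165) (fin (add (start D358) (orK (nat_lit 185) (fin (add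 (start D356) D357))))))) (orK (nat_lit 169) (fin (add (start D7878) D495))))))))))))) (orK (nat_lit 248) (fin (add (start D68) D170)))) (orK (nat_lit 248) (fin (add (start D68) D2248)))) (orK (nat_lit 248) (fin (add (start D68) D2250))))))) (orK (nat_lit 188) D29626)) (orK (nat_lit 167) (fin (add (add (start D7333) (orK (nat_lit 228) (fin (add (add (start D2521) D2525) (orK (nat_lit 168) (fin (add (add (add (start D7371) (orK (nat_lit 169) (fin (add (add (start (orK (nat_lit 149) (fin (add (start D25252) D28825)))) D29636) D5896)))) (orK (nat_lit 227) (fin (add (start D1307) (orK (nat_lit 246) (fin (add (start D872) (orK (nat_lit 247) (fin (add (start D134) (orK (nat_lit 267) (fin (add (start D570) D1743))))))))))))) (orK (nat_lit 169) (fin (add (add (start (orK (nat_lit 149) (fin (add (start D25252) D27571)))) D29636) D5896)))))))))) D29036)))) (orK (nat_lit 167) (fin (add (add (add (start (orK (nat_lit 147) (fin (add (start D17322) D26381)))) (orK (nat_lit 248) (fin (add (add (add (start (orK (nat_lit 228) D2216)) (orK (nat_lit 228) D2520)) (orK (nat_lit 228) D2524)) (orK (nat_lit 227) (fin (add (add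 (start (orK (nat_lit 246) (fin (add (start D872) (orK (nat_lit 247) D4976))))) (orK (nat_lit 168) (fin (add (start D1307) (orK (nat_lit 247) (fin (add (start D1308) D1369))))))) (orK (nat_lit 166) (fin (add (start D1484) (orK (nat_lit 168) (fin (add (start D1307) (orK (nat_lit 165) (fin (add (add (start D6174) D4181) (orK (nat_lit 185) (fin (add (start D444) (orK (nat_lit 188) (fin (add (start D5551) D28610)))))))))))))))))))))) D29051) D29036))))
noncomputable def D2949 : AP := fin (add (start D0) D2166)
noncomputable def D25863 : OP := orK (nat_lit 209) (fin (add (start D0) D247))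
noncomputable def D1290 : OP := orK (nat_lit 209) (fin (add (start D0) D1288))
noncomputable def D3951 : AP := fin (add (start D0) D19)
noncomputable def D3952 : OP := orK (nat_lit 209) D3951
noncomputable def D5661 : OP := orK (nat_lit 209) (fin (add (start D0) D302))
noncomputable def D7148 : OP := win (nat_lit 5) (nat_lit 5) (nat_lit 7) (nat_lit 4)
noncomputable def D1226 : OP := win (nat_lit 5) (nat_lit 7) (nat_lit 7) (nat_lit 4)
noncomputable def D4053 : OP := win (nat_lit 4) (nat_lit 7) (nat_lit 6) (nat_lit 5)
noncomputable def D4052 : OP := win (nat_lit 4) (nat_lit 6) (nat_lit 6) (nat_lit 4)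
noncomputable def D6037 : OP := win (nat_lit 5) (nat_lit 6) (nat_lit 7) (nat_lit 0)
noncomputable def D7139 : OP := win (nat_lit 5) (nat_lit 5) (nat_lit 7) (nat_lit 5)
noncomputable def D16511 : AP := fin (add (start D7139) D6037)
noncomputable def D16512 : OP := orK (nat_lit 166) D16511
noncomputable def D26375 : OP := orK (nat_lit 149) (fin (add (add (start D16512) (orK (nat_lit 130) (fin (add (start D4052) (orK (nat_lit 150) (fin (add (start D4053) (orK (nat_lit 171) (fin (add (start D6058) (orK (nat_lit 151) (fin (add (start D6059) D1226))))))))))))) (orK (nat_lit 165) (fin (add (start D7148) (orK (nat_lit 145) (fin (add (start D7147) (orK (nat_lit 144) (fin (add (start D26367) D19050)))))))))))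
noncomputable def D26379 : OP := orK (nat_lit 146) (fin (add (start D1376) (orK (nat_lit 148) (fin (add (start D1381) D26375)))))
noncomputable def D26382 : AP := fin (add (add (start D26358) D26379) D26381)
noncomputable def D26684 : OP := orK (nat_lit 147) D26382
noncomputable def D7120 : OP := win (nat_lit 4) (nat_lit 4) (nat_lit 7) (nat_lit 0)
noncomputable def D18478 : OP := orK (nat_lit 166) (fin (add (start D2053) (orK (nat_lit 165) (fin (add (start D7120) D18474)))))
noncomputable def D28757 : OP := orK (nat_lit 147) (fin (add (start D1381) (orK (nat_lit 146) (fin (add (start D1376) D18478)))))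
noncomputable def D28451 : OP := orK (nat_lit 246) (fin (add (start D872) (orK (nat_lit 247) (fin (add (start D134) (orK (nat_lit 248) D5887))))))
noncomputable def D28751 : OP := orK (nat_lit 128) (fin (add (start D7375) (orK (nat_lit 168) (fin (add (start D7366) D1579)))))
noncomputable def D28763 : OP := orK (nat_lit 148) (fin (add (add (add (start D28751) (orK (nat_lit 227) (fin (add (start D1382) D28451)))) D28757) (orK (nat_lit 147) (fin (add (start D1381) (orK (nat_lit 146) (fin (add (start D1376) D26375))))))))
noncomputable def D580 : OP := win (nat_lit 3) (nat_lit 7) (nat_lit 9) (nat_lit 5)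
noncomputable def D27985 : OP := orK (nat_lit 246) (fin (add (start D872) (orK (nat_lit 247) (fin (add (start D134) (orK (nat_lit 267) (fin (add (start D580) D574))))))))
noncomputable def D8140 : OP := win (nat_lit 0) (nat_lit 4) (nat_lit 7) (nat_lit 0)
noncomputable def D8142 : AP := fin (add (start D8140) (win (nat_lit 0) (nat_lit 5) (nat_lit 7) (nat_lit 5)))
noncomputable def D8143 : OP := orK (nat_lit 145) D8142
noncomputable def D8145 : OP := orK (nat_lit 146) (fin (add (start D1376) D8143))
noncomputable def D6076 : OP := win (nat_lit 7) (nat_lit 6) (nat_lit 5) (nat_lit 4)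
noncomputable def D6075 : OP := win (nat_lit 7) (nat_lit 6) (nat_lit 4) (nat_lit 5)
noncomputable def D6078 : OP := orK (nat_lit 106) (fin (add (start D6075) D6076))
noncomputable def D8176 : OP := win (nat_lit 3) (nat_lit 7) (nat_lit 4) (nat_lit 5)
noncomputable def D8175 : OP := win (nat_lit 3) (nat_lit 7) (nat_lit 5) (nat_lit 4)
noncomputable def D17344 : OP := orK (nat_lit 108) (fin (add (start D8175) (orK (nat_lit 107) (fin (add (start D8176) D6078)))))
noncomputable def D17016 : OP := win (nat_lit 7) (nat_lit 6) (nat_lit 4) (nat_lit 4)
noncomputable def D17015 : OP := win (nat_lit 7) (nat_lit 6) (nat_lit 3) (nat_lit 5)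
noncomputable def D17018 : OP := orK (nat_lit 86) (fin (add (start D17015) D17016))
noncomputable def D17099 : OP := win (nat_lit 1) (nat_lit 6) (nat_lit 4) (nat_lit 4)
noncomputable def D16324 : OP := win (nat_lit 1) (nat_lit 6) (nat_lit 5) (nat_lit 5)
noncomputable def D17090 : OP := win (nat_lit 1) (nat_lit 6) (nat_lit 4) (nat_lit 0)
noncomputable def D17723 : AP := fin (add (start D17090) D16324)
noncomputable def D19186 : OP := orK (nat_lit 107) D17723
noncomputable def D28741 : OP := orK (nat_lit 127) (fin (add (add (add (start D4210) (orK (nat_lit 146) (fin (add (start D1376) (orK (nat_lit 166) (fin (add (start D2053) D19186))))))) (orK (nat_lit 108) (fin (add (start D8175) (orK (nat_lit 107) (fin (add (start D8176) (orK (nat_lit 166) (fin (add (start D16324) (orK (nat_lit 87) (fin (add (start D17099) D17018))))))))))))) D17344))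
noncomputable def D6074 : OP := win (nat_lit 1) (nat_lit 6) (nat_lit 5) (nat_lit 4)
noncomputable def D6079 : AP := fin (add (start D6074) D6078)
noncomputable def D6552 : OP := win (nat_lit 5) (nat_lit 7) (nat_lit 7) (nat_lit 0)
noncomputable def D6547 : OP := win (nat_lit 5) (nat_lit 6) (nat_lit 7) (nat_lit 3)
noncomputable def D3470 : OP := win (nat_lit 4) (nat_lit 5) (nat_lit 7) (nat_lit 0)
noncomputable def D6642 : OP := orK (nat_lit 166) (fin (add (start D3470) (orK (nat_lit 150) (fin (add (start D6547) D6552)))))
noncomputable def D5903 : OP := win (nat_lit 5) (nat_lit 5) (nat_lit 8) (nat_lit 3)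
noncomputable def D6716 : OP := win (nat_lit 3) (nat_lit 9) (nat_lit 5) (nat_lit 4)
noncomputable def D6717 : OP := win (nat_lit 3) (nat_lit 9) (nat_lit 4) (nat_lit 5)
noncomputable def D7429 : OP := orK (nat_lit 110) (fin (add (start D6717) D6716))
noncomputable def D6588 : OP := win (nat_lit 6) (nat_lit 9) (nat_lit 6) (nat_lit 4)
noncomputable def D6589 : OP := win (nat_lit 1) (nat_lit 8) (nat_lit 4) (nat_lit 0)
noncomputable def D1584 : OP := win (nat_lit 4) (nat_lit 8) (nat_lit 7) (nat_lit 5)
noncomputable def D1990 : OP := win (nat_lit 4) (nat_lit 7) (nat_lit 7) (nat_lit 4)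
noncomputable def D5939 : OP := orK (nat_lit 151) (fin (add (start D1990) (orK (nat_lit 171) (fin (add (start D1584) D1064)))))
noncomputable def D5941 : OP := orK (nat_lit 170) (fin (add (start D5894) D5939))
noncomputable def D6718 : OP := win (nat_lit 7) (nat_lit 8) (nat_lit 5) (nat_lit 4)
noncomputable def D6590 : OP := win (nat_lit 7) (nat_lit 8) (nat_lit 4) (nat_lit 5)
noncomputable def D6720 : OP := orK (nat_lit 108) (fin (add (start D6590) D6718))
noncomputable def D6724 : OP := orK (nat_lit 110) (fin (add (start D6716) (orK (nat_lit 109) (fin (add (start D6717) D6720)))))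
noncomputable def D6728 : OP := orK (nat_lit 149) (fin (add (start D1485) (orK (nat_lit 129) (fin (add (start (win (nat_lit 1) (nat_lit 8) (nat_lit 6) (nat_lit 4))) D6724)))))
noncomputable def D4026 : OP := win (nat_lit 7) (nat_lit 6) (nat_lit 8) (nat_lit 0)
noncomputable def D452 : OP := win (nat_lit 5) (nat_lit 5) (nat_lit 8) (nat_lit 5)
noncomputable def D6798 : OP := win (nat_lit 5) (nat_lit 3) (nat_lit 8) (nat_lit 4)
noncomputable def D6797 : OP := win (nat_lit 5) (nat_lit 2) (nat_lit 8) (nat_lit 5)
noncomputable def D6800 : OP := orK (nat_lit 183) (fin (add (start D6797) D6798))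
noncomputable def D6796 : OP := win (nat_lit 0) (nat_lit 3) (nat_lit 8) (nat_lit 4)
noncomputable def D6791 : OP := orK (nat_lit 186) (fin (add (start D4163) D452))
noncomputable def D6808 : OP := orK (nat_lit 165) (fin (add (add (add (start D447) (orK (nat_lit 144) (fin (add (start D462) (orK (nat_lit 164) (fin (add (start D461) D6791))))))) (orK (nat_lit 144) (fin (add (start D462) (orK (nat_lit 164) (fin (add (start D461) (orK (nat_lit 163) (fin (add (start D6796) D6800)))))))))) D4181))
noncomputable def D28802 : OP := orK (nat_lit 246) (fin (add (start D872) (orK (nat_lit 247) (fin (add (start D134) D1308)))))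
noncomputable def D28863 : OP := orK (nat_lit 227) (fin (add (start D1307) D28802))
noncomputable def D6401 : OP := orK (nat_lit 144) (fin (add (start D6398) (win (nat_lit 0) (nat_lit 4) (nat_lit 7) (nat_lit 3))))
noncomputable def D6397 : OP := win (nat_lit 2) (nat_lit 5) (nat_lit 7) (nat_lit 0)
noncomputable def D6403 : OP := orK (nat_lit 145) (fin (add (start D6397) D6401))
noncomputable def D6813 : OP := orK (nat_lit 144) (fin (add (start D6398) (win (nat_lit 2) (nat_lit 4) (nat_lit 7) (nat_lit 3))))
noncomputable def D21956 : OP := win (nat_lit 5) (nat_lit 4) (nat_lit 9) (nat_lit 2)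
noncomputable def D5299 : OP := win (nat_lit 1) (nat_lit 4) (nat_lit 7) (nat_lit 5)
noncomputable def D25175 : OP := win (nat_lit 4) (nat_lit 2) (nat_lit 7) (nat_lit 0)
noncomputable def D6445 : OP := win (nat_lit 4) (nat_lit 4) (nat_lit 7) (nat_lit 4)
noncomputable def D28986 : AP := fin (add (add (add (add (add (add (add (start (orK (nat_lit 166) (fin (add (add (start (orK (nat_lit 168) (fin (add (add (start D27295) D28863) D27297)))) D8125) (orK (nat_lit 146) (fin (add (add (start D6389) (orK (nat_lit 168) (fin (add (add (start (orK (nat_lit 165) (fin (add (start D6174) D27317)))) (orK (nat_lit 145) (fin (add (add (start D6401) (orK (nat_lit 165) (fin (add (add (start D6174) (orK (nat_lit 148) (fin (add (start D6446) (orK (nat_lit 164) (fin (add (start D6445) (orK (nat_lit 163) (fin (add (start D6796) D25175)))))))))) (orK (nat_lit 188) (fin (add (start D5551) (orK (nat_lit 185) (fin (add (start D444) (orK (nat_lit 205) (fin (add (start D6466) (orK (nat_lit 204) (fin (add (start D5299) D21956)))))))))))))))) D6813)))) D6403)))) D8123))))))) (orK (nat_lit 168) (fin (add (add (add (start D28863) (orK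 (nat_lit 169) (fin (add (add (add (start D5896) (orK (nat_lit 186) (fin (add (start D5556) (orK (nat_lit 185) (fin (add (start D356) D5897))))))) (orK (nat_lit 166) (fin (add (add (start (orK (nat_lit 189) (fin (add (start D502) (orK (nat_lit 188) (fin (add (start D501) (orK (nat_lit 149) (fin (add (start D492) D1485)))))))))) D6808) (orK (nat_lit 186) (fin (add (start D452) (orK (nat_lit 227) (fin (add (start D4026) (orK (nat_lit 189) (fin (add (start D502) (orK (nat_lit 226) (fin (add (start D2035) D6728)))))))))))))))) D5941)))) D7379) (orK (nat_lit 148) (fin (add (add (start D7369) (orK (nat_lit 149) (fin (add (add (start (orK (nat_lit 129) (fin (add (start (win (nat_lit 3) (nat_lit 8) (nat_lit 6) (nat_lit 1))) (orK (nat_lit 109) (fin (add (start D6589) (orK (nat_lit 169) (fin (add (start (orK (nat_lit 189) (fin (add (start D6588) D7429)))) (orK (nat_lit 186) (fin (add (start D5556) (orK (nat_lit 185) (fin (add (start D356) D5903)))))))))))))))) (orK (nat_lit 188) (fin (add (start D159) (orK (nat_lit 147) (fin (add (start D850) (orK (nat_lit 150) (fin (add (start D6552) (orK (nat_lit 170) (fin (add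 (start D4051) (orK (nat_lit 169) (fin (add (start D1063) D1553)))))))))))))))) D6642)))) D7377))))))) D27325) (orK (nat_lit 147) (fin (add (add (add (add (start D26381) (orK (nat_lit 127) (fin (add (start D26354) (orK (nat_lit 108) (fin (add (start D8175) (orK (nat_lit 107) (fin (add (start D8176) (orK (nat_lit 166) (fin (add (start D16324) (orK (nat_lit 146) (fin (add (start D17090) D2053)))))))))))))))) (orK (nat_lit 146) (fin (add (start D1376) (orK (nat_lit 227) (fin (add (start D579) (orK (nat_lit 246) (fin (add (start D872) (orK (nat_lit 247) (fin (add (start D134) D1155))))))))))))) (orK (nat_lit 127) (fin (add (start D26354) (orK (nat_lit 108) (fin (add (start D8175) (orK (nat_lit 107) (fin (add (start D8176) (orK (nat_lit 186) D6079))))))))))) D28741)))) (orK (nat_lit 147) (fin (add (add (start D26358) (orK (nat_lit 148) (fin (add (start D1381) (orK (nat_lit 168) (fin (add (start D1579) D8145))))))) D26381)))) (orK (nat_lit 147) (fin (add (add (start D26358) (orK (nat_lit 146) (fin (add (start D1376) (orK (nat_lit 227) (fin (add (start D579) D27985))))))) D6113)))) D28763) D26684)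
noncomputable def D1261 : OP := orK (nat_lit 206) (fin (add (start D1) D235))
noncomputable def D1262 : AP := fin (add (start D0) D1261)
noncomputable def D28817 : OP := orK (nat_lit 208) D1262
noncomputable def D14462 : OP := win (nat_lit 3) (nat_lit 7) (nat_lit 3) (nat_lit 5)
noncomputable def D17014 : OP := win (nat_lit 3) (nat_lit 7) (nat_lit 4) (nat_lit 4)
noncomputable def D12184 : OP := win (nat_lit 1) (nat_lit 6) (nat_lit 6) (nat_lit 5)
noncomputable def D3218 : OP := orK (nat_lit 266) (fin (add (start D1301) (orK (nat_lit 267) (fin (add (start D1302) D574)))))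
noncomputable def D6164 : OP := orK (nat_lit 247) (fin (add (start D867) D3218))
noncomputable def D17780 : OP := orK (nat_lit 166) (fin (add (start D1484) D6164))
noncomputable def D28785 : OP := orK (nat_lit 148) (fin (add (add (add (start D28751) (orK (nat_lit 227) (fin (add (start D1382) D17780)))) D28757) (orK (nat_lit 147) (fin (add (start D1381) (orK (nat_lit 126) (fin (add (start D4208) (orK (nat_lit 127) (fin (add (start D4207) (orK (nat_lit 186) (fin (add (start D12184) (orK (nat_lit 107) (fin (add (start D6074) (orK (nat_lit 124) (fin (add (start (win (nat_lit 0) (nat_lit 4) (nat_lit 6) (nat_lit 1))) (orK (nat_lit 88) (fin (add (start D17014) (orK (nat_lit 87) (fin (add (start D14462) (win (nat_lit 6) (nat_lit 7) (nat_lit 4) (nat_lit 5))))))))))))))))))))))))))))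
noncomputable def D17354 : OP := orK (nat_lit 206) (fin (add (start D1445) (orK (nat_lit 127) (fin (add (start D4206) D17344)))))
noncomputable def D6962 : OP := win (nat_lit 6) (nat_lit 7) (nat_lit 5) (nat_lit 5)
noncomputable def D17330 : OP := win (nat_lit 6) (nat_lit 7) (nat_lit 4) (nat_lit 4)
noncomputable def D17340 : OP := orK (nat_lit 106) (fin (add (start D6076) (orK (nat_lit 107) (fin (add (start D6075) (orK (nat_lit 88) (fin (add (start D17014) (orK (nat_lit 87) (fin (add (start D14462) (orK (nat_lit 168) (fin (add (start D17330) D6962))))))))))))))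
noncomputable def D17323 : OP := win (nat_lit 6) (nat_lit 7) (nat_lit 4) (nat_lit 0)
noncomputable def D17324 : AP := fin (add (start D17323) D6962)
noncomputable def D17356 : OP := orK (nat_lit 147) (fin (add (add (add (start D17322) (orK (nat_lit 127) (fin (add (add (add (start D7326) (orK (nat_lit 148) (fin (add (start D1381) (orK (nat_lit 168) (fin (add (start D1579) (orK (nat_lit 107) D17324)))))))) D17340) D17344)))) (orK (nat_lit 206) (fin (add (start D1445) (orK (nat_lit 127) (fin (add (start D4206) D17340))))))) D17354))
noncomputable def D3208 : OP := orK (nat_lit 147) D3207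
noncomputable def D5680 : AP := fin (add (start D1310) D1743)
noncomputable def D10440 : OP := orK (nat_lit 247) D5680
noncomputable def D3210 : OP := orK (nat_lit 246) (fin (add (start D872) D134))
noncomputable def D5696 : AP := fin (add (start D3210) D1310)
noncomputable def D8204 : OP := orK (nat_lit 247) D5696
noncomputable def D28814 : OP := orK (nat_lit 227) (fin (add (add (start D8204) D10440) D3208))
noncomputable def D4213 : AP := fin (add (start D1445) D4212)
noncomputable def D4214 : OP := orK (nat_lit 206) D4213
noncomputable def D27688 : OP := orK (nat_lit 147) (fin (add (add (add (start D7347) (orK (nat_lit 226) (fin (add (start D3202) D26379)))) D4214) D6113))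
noncomputable def D4182 : OP := win (nat_lit 4) (nat_lit 4) (nat_lit 8) (nat_lit 0)
noncomputable def D12541 : OP := win (nat_lit 0) (nat_lit 6) (nat_lit 9) (nat_lit 3)
noncomputable def D1507 : OP := win (nat_lit 6) (nat_lit 9) (nat_lit 7) (nat_lit 0)
noncomputable def D6073 : OP := win (nat_lit 0) (nat_lit 6) (nat_lit 9) (nat_lit 2)
noncomputable def D28453 : OP := orK (nat_lit 227) (fin (add (start D1307) D28451))
noncomputable def D5898 : AP := fin (add (start D4182) D5897)
noncomputable def D5899 : OP := orK (nat_lit 185) D5898
noncomputable def D5901 : OP := orK (nat_lit 186) (fin (add (start D5556) D5899))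
noncomputable def D1552 : OP := win (nat_lit 6) (nat_lit 9) (nat_lit 7) (nat_lit 2)
noncomputable def D3205 : AP := fin (add (start D3204) D1384)
noncomputable def D3206 : OP := orK (nat_lit 147) D3205
noncomputable def D3211 : AP := fin (add (start D3210) D1743)
noncomputable def D3212 : OP := orK (nat_lit 247) D3211
noncomputable def D17318 : OP := orK (nat_lit 227) (fin (add (add (start D3212) D10440) D3206))
noncomputable def D12185 : OP := win (nat_lit 1) (nat_lit 6) (nat_lit 5) (nat_lit 0)
noncomputable def D17066 : AP := fin (add (start D12185) D12184)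
noncomputable def D17839 : OP := orK (nat_lit 127) D17066
noncomputable def D28747 : OP := orK (nat_lit 147) (fin (add (add (add (start D17210) D28741) (orK (nat_lit 227) (fin (add (add (start D3204) (orK (nat_lit 166) (fin (add (start D1484) (orK (nat_lit 186) (fin (add (start D4026) D17839))))))) D4098)))) D17354))
noncomputable def D4263 : AP := fin (add (start D3202) D1378)
noncomputable def D4266 : OP := orK (nat_lit 226) (fin (add (start D2035) (orK (nat_lit 147) D4263)))
noncomputable def D17213 : AP := fin (add (add (add (start (orK (nat_lit 128) (fin (add (start D7375) (orK (nat_lit 168) D7368))))) (orK (nat_lit 227) (fin (add (start D1382) D4266)))) (orK (nat_lit 168) D7370)) (orK (nat_lit 147) (fin (add (start D1381) D17210))))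
noncomputable def D17357 : OP := orK (nat_lit 148) D17213
noncomputable def D4094 : OP := orK (nat_lit 208) D3951
noncomputable def D6442 : OP := orK (nat_lit 165) D6441
noncomputable def D17235 : OP := orK (nat_lit 146) (fin (add (start D436) D370))
noncomputable def D17241 : OP := orK (nat_lit 166) (fin (add (add (start (orK (nat_lit 186) (fin (add (start D452) D17235)))) D6442) (orK (nat_lit 165) D17238)))
noncomputable def D6815 : OP := orK (nat_lit 145) (fin (add (start D6397) D6813))
noncomputable def D20 : OP := win (nat_lit 1) (nat_lit 9) (nat_lit 7) (nat_lit 5)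
noncomputable def D1998 : OP := win (nat_lit 4) (nat_lit 7) (nat_lit 7) (nat_lit 5)
noncomputable def D1997 : OP := win (nat_lit 4) (nat_lit 6) (nat_lit 7) (nat_lit 4)
noncomputable def D28689 : OP := orK (nat_lit 150) (fin (add (start D1997) (orK (nat_lit 170) (fin (add (start D1998) (orK (nat_lit 190) (fin (add (start D945) D20))))))))
noncomputable def D27359 : OP := orK (nat_lit 208) D16
noncomputable def D28476 : OP := orK (nat_lit 227) D3205
noncomputable def D28481 : OP := orK (nat_lit 147) (fin (add (add (start D28476) D7329) D7331))
noncomputable def D7596 : AP := fin (add (start D7324) D4210)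
noncomputable def D7597 : OP := orK (nat_lit 127) D7596
noncomputable def D28478 : OP := orK (nat_lit 147) (fin (add (add (start D28476) D7597) D7331))
noncomputable def D25994 : OP := orK (nat_lit 166) (fin (add (start D3470) D6037))
noncomputable def D17265 : OP := orK (nat_lit 206) D17264
noncomputable def D7316 : OP := win (nat_lit 1) (nat_lit 6) (nat_lit 8) (nat_lit 3)
noncomputable def D17260 : OP := orK (nat_lit 246) (fin (add (start D7316) D708))
noncomputable def D17261 : AP := fin (add (start D4140) D17260)
noncomputable def D17262 : OP := orK (nat_lit 206) D17261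
noncomputable def D17607 : OP := orK (nat_lit 186) (fin (add (start D452) D4026))
noncomputable def D5932 : AP := fin (add (start D4182) D5903)
noncomputable def D7881 : OP := orK (nat_lit 185) D5932
noncomputable def D7882 : AP := fin (add (start D5556) D7881)
noncomputable def D21551 : OP := orK (nat_lit 186) D7882
noncomputable def D1116 : OP := win (nat_lit 0) (nat_lit 6) (nat_lit 8) (nat_lit 4)
noncomputable def D28671 : OP := orK (nat_lit 189) (fin (add (start D502) D1507))
noncomputable def D4139 : OP := win (nat_lit 7) (nat_lit 6) (nat_lit 10) (nat_lit 0)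
noncomputable def D1791 : OP := win (nat_lit 7) (nat_lit 6) (nat_lit 9) (nat_lit 5)
noncomputable def D12723 : AP := fin (add (start D1791) D4139)
noncomputable def D1792 : OP := win (nat_lit 7) (nat_lit 6) (nat_lit 10) (nat_lit 4)
noncomputable def D1794 : OP := orK (nat_lit 206) (fin (add (start D1791) D1792))
noncomputable def D1694 : OP := win (nat_lit 1) (nat_lit 6) (nat_lit 11) (nat_lit 5)
noncomputable def D1693 : OP := win (nat_lit 1) (nat_lit 6) (nat_lit 10) (nat_lit 4)
noncomputable def D4150 : OP := orK (nat_lit 286) (fin (add (start D1693) (orK (nat_lit 287) (fin (add (start D1694) D1794)))))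
noncomputable def D4156 : OP := orK (nat_lit 268) (fin (add (start D571) (orK (nat_lit 267) (fin (add (start D572) D4150)))))
noncomputable def D17778 : OP := orK (nat_lit 247) (fin (add (add (add (start D3210) D3218) D4156) (orK (nat_lit 268) (fin (add (start D571) (orK (nat_lit 267) (fin (add (start D572) (orK (nat_lit 226) (fin (add (start D2035) (orK (nat_lit 206) D12723))))))))))))
noncomputable def D5959 : AP := fin (add (start D452) D5556)
noncomputable def D5960 : OP := orK (nat_lit 186) D5959
noncomputable def D5917 : OP := win (nat_lit 6) (nat_lit 9) (nat_lit 7) (nat_lit 3)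
noncomputable def D19224 : OP := orK (nat_lit 189) (fin (add (start D6588) D5917))
noncomputable def D19226 : OP := orK (nat_lit 129) (fin (add (start D6617) D19224))
noncomputable def D27550 : OP := orK (nat_lit 147) (fin (add (add (start D7347) (orK (nat_lit 148) (fin (add (start D1381) (orK (nat_lit 146) (fin (add (start D1376) (orK (nat_lit 149) (fin (add (start D16512) (orK (nat_lit 169) (fin (add (start D6615) D19226))))))))))))) D4214))
noncomputable def D28592 : OP := orK (nat_lit 226) (fin (add (start D3202) (orK (nat_lit 227) (fin (add (start D2035) (orK (nat_lit 188) (fin (add (start D850) (orK (nat_lit 247) D43)))))))))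
noncomputable def D16911 : OP := win (nat_lit 3) (nat_lit 4) (nat_lit 6) (nat_lit 0)
noncomputable def D11195 : OP := win (nat_lit 1) (nat_lit 4) (nat_lit 5) (nat_lit 0)
noncomputable def D16913 : OP := orK (nat_lit 125) (fin (add (start D11195) D16911))
noncomputable def D16898 : OP := win (nat_lit 2) (nat_lit 4) (nat_lit 7) (nat_lit 0)
noncomputable def D11149 : OP := win (nat_lit 3) (nat_lit 5) (nat_lit 6) (nat_lit 3)
noncomputable def D6457 : OP := win (nat_lit 1) (nat_lit 5) (nat_lit 5) (nat_lit 0)
noncomputable def D11151 : OP := orK (nat_lit 126) (fin (add (start D6457) D11149))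
noncomputable def D11152 : AP := fin (add (start D6466) D11151)
noncomputable def D11153 : OP := orK (nat_lit 146) D11152
noncomputable def D9699 : OP := win (nat_lit 4) (nat_lit 2) (nat_lit 8) (nat_lit 0)
noncomputable def D16884 : OP := win (nat_lit 5) (nat_lit 3) (nat_lit 8) (nat_lit 3)
noncomputable def D6497 : OP := orK (nat_lit 190) (fin (add (start D1116) (orK (nat_lit 170) D5893)))
noncomputable def D16874 : OP := win (nat_lit 5) (nat_lit 4) (nat_lit 8) (nat_lit 0)
noncomputable def D11159 : OP := win (nat_lit 2) (nat_lit 2) (nat_lit 7) (nat_lit 5)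
noncomputable def D11158 : OP := win (nat_lit 2) (nat_lit 3) (nat_lit 7) (nat_lit 4)
noncomputable def D11218 : OP := orK (nat_lit 143) (fin (add (start D11158) (orK (nat_lit 163) (fin (add (start D11159) D6800)))))
noncomputable def D5965 : OP := win (nat_lit 0) (nat_lit 5) (nat_lit 8) (nat_lit 3)
noncomputable def D26202 : OP := orK (nat_lit 189) (fin (add (start D5965) D5950))
noncomputable def D26205 : AP := fin (add (start D5550) D26202)
noncomputable def D6500 : AP := fin (add (start D945) (orK (nat_lit 151) (fin (add (start D22) D1990))))
noncomputable def D6501 : OP := orK (nat_lit 170) D6500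
noncomputable def D6503 : OP := orK (nat_lit 190) (fin (add (start D1116) D6501))
noncomputable def D16865 : AP := fin (add (start D3360) D4181)
noncomputable def D24915 : OP := orK (nat_lit 165) D16865
noncomputable def D28600 : OP := orK (nat_lit 169) (fin (add (add (start D6497) (orK (nat_lit 149) (fin (add (start D1485) D24915)))) D6503))
noncomputable def D6817 : OP := orK (nat_lit 146) (fin (add (start D2053) D6815))
noncomputable def D1263 : OP := orK (nat_lit 209) D1262
noncomputable def D6038 : OP := win (nat_lit 6) (nat_lit 9) (nat_lit 7) (nat_lit 1)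
noncomputable def D1011 : OP := win (nat_lit 1) (nat_lit 9) (nat_lit 6) (nat_lit 0)
noncomputable def D1538 : OP := win (nat_lit 0) (nat_lit 6) (nat_lit 9) (nat_lit 0)
noncomputable def D8161 : OP := win (nat_lit 3) (nat_lit 7) (nat_lit 7) (nat_lit 3)
noncomputable def D8164 : AP := fin (add (start D158) (orK (nat_lit 227) (fin (add (start D8161) D38))))
noncomputable def D8165 : OP := orK (nat_lit 148) D8164
noncomputable def D1537 : OP := win (nat_lit 7) (nat_lit 8) (nat_lit 8) (nat_lit 0)
noncomputable def D1513 : OP := win (nat_lit 3) (nat_lit 9) (nat_lit 7) (nat_lit 5)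
noncomputable def D27421 : AP := fin (add (start D1826) (orK (nat_lit 229) (fin (add (start D1513) D1537))))
noncomputable def D27428 : OP := orK (nat_lit 188) (fin (add (start D1538) (orK (nat_lit 169) (fin (add (start D1507) (orK (nat_lit 168) (fin (add (start (orK (nat_lit 170) D27421)) D8165))))))))
noncomputable def D1910 : OP := win (nat_lit 3) (nat_lit 10) (nat_lit 7) (nat_lit 2)
noncomputable def D27382 : OP := orK (nat_lit 151) (fin (add (start D1910) D1584))
noncomputable def D1111 : OP := win (nat_lit 7) (nat_lit 8) (nat_lit 7) (nat_lit 5)
noncomputable def D1528 : OP := win (nat_lit 1) (nat_lit 8) (nat_lit 10) (nat_lit 5)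
noncomputable def D1527 : OP := win (nat_lit 1) (nat_lit 8) (nat_lit 9) (nat_lit 4)
noncomputable def D1532 : OP := orK (nat_lit 268) (fin (add (start D1527) (orK (nat_lit 269) (fin (add (start D1528) D515)))))
noncomputable def D1649 : OP := win (nat_lit 1) (nat_lit 9) (nat_lit 8) (nat_lit 1)
noncomputable def D1667 : AP := fin (add (start (win (nat_lit 3) (nat_lit 9) (nat_lit 9) (nat_lit 5))) D515)
noncomputable def D1668 : OP := orK (nat_lit 269) D1667
noncomputable def D1670 : OP := win (nat_lit 1) (nat_lit 8) (nat_lit 9) (nat_lit 5)
noncomputable def D1526 : OP := win (nat_lit 7) (nat_lit 8) (nat_lit 8) (nat_lit 4)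
noncomputable def D10482 : OP := win (nat_lit 7) (nat_lit 8) (nat_lit 8) (nat_lit 5)
noncomputable def D2050 : OP := orK (nat_lit 192) (fin (add (start D983) (orK (nat_lit 172) (fin (add (start D982) D1567)))))
noncomputable def D262 : OP := win (nat_lit 5) (nat_lit 9) (nat_lit 8) (nat_lit 0)
noncomputable def D12420 : OP := win (nat_lit 5) (nat_lit 9) (nat_lit 8) (nat_lit 4)
noncomputable def D27398 : OP := orK (nat_lit 171) (fin (add (add (add (start D27382) (orK (nat_lit 192) (fin (add (start D983) (orK (nat_lit 172) (fin (add (start D982) (orK (nat_lit 153) (fin (add (start D285) (orK (nat_lit 173) (fin (add (start D286) D12420))))))))))))) (orK (nat_lit 192) (fin (add (start D983) (orK (nat_lit 172) (fin (add (start D982) (orK (nat_lit 190) (fin (add (start D45) D262)))))))))) D2050))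
noncomputable def D985 : OP := win (nat_lit 2) (nat_lit 6) (nat_lit 7) (nat_lit 5)
noncomputable def D7007 : OP := orK (nat_lit 167) (fin (add (start D1063) (orK (nat_lit 147) (fin (add (start D985) (orK (nat_lit 148) (fin (add (start D3276) D1381))))))))
noncomputable def D28458 : AP := fin (add (start D1063) (orK (nat_lit 190) (fin (add (start D945) (orK (nat_lit 150) (fin (add (start D1011) D1998)))))))
noncomputable def D27402 : AP := fin (add (start D1998) D1063)
noncomputable def D3267 : OP := win (nat_lit 3) (nat_lit 9) (nat_lit 7) (nat_lit 0)
noncomputable def D20849 : AP := fin (add (start D1063) D7379)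
noncomputable def D27399 : OP := orK (nat_lit 167) D20849
noncomputable def D3265 : AP := fin (add (start D1513) D1111)
noncomputable def D3266 : OP := orK (nat_lit 229) D3265
noncomputable def D27407 : OP := orK (nat_lit 168) (fin (add (add (start D3266) D27399) (orK (nat_lit 150) (fin (add (start D3267) (orK (nat_lit 167) D27402))))))
noncomputable def D1858 : OP := win (nat_lit 7) (nat_lit 8) (nat_lit 7) (nat_lit 0)
noncomputable def D6209 : OP := win (nat_lit 1) (nat_lit 9) (nat_lit 5) (nat_lit 0)
noncomputable def D27377 : OP := orK (nat_lit 150) (fin (add (start D3267) (orK (nat_lit 130) (fin (add (start D6209) (win (nat_lit 1) (nat_lit 9) (nat_lit 6) (nat_lit 3)))))))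
noncomputable def D1852 : OP := win (nat_lit 2) (nat_lit 8) (nat_lit 8) (nat_lit 0)
noncomputable def D17980 : OP := orK (nat_lit 191) (fin (add (start (win (nat_lit 2) (nat_lit 7) (nat_lit 8) (nat_lit 5))) D1852))
noncomputable def D27363 : OP := orK (nat_lit 150) (fin (add (start D1011) D20))
noncomputable def D27364 : AP := fin (add (start D6089) D27363)
noncomputable def D27365 : OP := orK (nat_lit 170) D27364
noncomputable def D27366 : AP := fin (add (start D353) D27365)
noncomputable def D27368 : AP := fin (add (start D1538) (orK (nat_lit 190) D27366))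
noncomputable def D27369 : OP := orK (nat_lit 188) D27368
noncomputable def D27432 : OP := orK (nat_lit 208) (fin (add (start D19) D15))
noncomputable def D910 : OP := win (nat_lit 2) (nat_lit 7) (nat_lit 8) (nat_lit 0)
noncomputable def D7884 : OP := win (nat_lit 7) (nat_lit 5) (nat_lit 6) (nat_lit 2)
noncomputable def D7923 : OP := win (nat_lit 6) (nat_lit 5) (nat_lit 6) (nat_lit 3)
noncomputable def D7924 : AP := fin (add (start D7923) D7884)
noncomputable def D27145 : OP := orK (nat_lit 125) (fin (add (start D7103) (orK (nat_lit 165) (fin (add (start D7147) (orK (nat_lit 186) D7924))))))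
noncomputable def D27561 : OP := orK (nat_lit 147) (fin (add (add (add (start D7347) D4214) D6113) (orK (nat_lit 146) (fin (add (start D1376) (orK (nat_lit 148) (fin (add (start D1381) (orK (nat_lit 145) (fin (add (start (orK (nat_lit 168) D8142)) (orK (nat_lit 206) (fin (add (start D1445) D27145))))))))))))))
noncomputable def D833 : OP := win (nat_lit 0) (nat_lit 6) (nat_lit 8) (nat_lit 0)
noncomputable def D8131 : AP := fin (add (start D833) (orK (nat_lit 191) (fin (add (start (win (nat_lit 0) (nat_lit 7) (nat_lit 8) (nat_lit 3))) D1852))))
noncomputable def D27567 : OP := orK (nat_lit 190) D8131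
noncomputable def D9242 : OP := win (nat_lit 1) (nat_lit 7) (nat_lit 5) (nat_lit 1)
noncomputable def D17527 : AP := fin (add (start D436) (orK (nat_lit 186) (fin (add (start D452) D370))))
noncomputable def D27628 : OP := orK (nat_lit 146) D17527
noncomputable def D10677 : OP := orK (nat_lit 190) D6500
noncomputable def D27564 : OP := orK (nat_lit 170) (fin (add (start D1063) D10677))
noncomputable def D1725 : OP := win (nat_lit 7) (nat_lit 6) (nat_lit 9) (nat_lit 0)
noncomputable def D4200 : AP := fin (add (start D140) D1725)
noncomputable def D4201 : OP := orK (nat_lit 247) D4200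
noncomputable def D4199 : OP := win (nat_lit 1) (nat_lit 6) (nat_lit 6) (nat_lit 0)
noncomputable def D4205 : OP := orK (nat_lit 206) (fin (add (start D1445) (orK (nat_lit 186) (fin (add (start D4199) D4201)))))
noncomputable def D4216 : OP := orK (nat_lit 147) (fin (add (add (start D1378) D4205) D4214))
noncomputable def D17781 : AP := fin (add (add (add (start D4266) D17778) D17780) D4216)
noncomputable def D17782 : OP := orK (nat_lit 227) D17781
noncomputable def D27648 : OP := orK (nat_lit 150) (fin (add (start D3267) D1998))
noncomputable def D278 : OP := win (nat_lit 5) (nat_lit 9) (nat_lit 8) (nat_lit 5)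
noncomputable def D794 : OP := win (nat_lit 3) (nat_lit 12) (nat_lit 7) (nat_lit 5)
noncomputable def D793 : OP := win (nat_lit 3) (nat_lit 12) (nat_lit 8) (nat_lit 4)
noncomputable def D792 : OP := win (nat_lit 7) (nat_lit 11) (nat_lit 8) (nat_lit 4)
noncomputable def D791 : OP := win (nat_lit 0) (nat_lit 9) (nat_lit 11) (nat_lit 5)
noncomputable def D790 : OP := win (nat_lit 4) (nat_lit 9) (nat_lit 10) (nat_lit 5)
noncomputable def D804 : OP := orK (nat_lit 212) (fin (add (start D790) (orK (nat_lit 252) (fin (add (start D791) (orK (nat_lit 192) (fin (add (start D792) (orK (nat_lit 173) (fin (add (start D793) (orK (nat_lit 172) (fin (add (start D794) D278))))))))))))))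
noncomputable def D789 : OP := win (nat_lit 2) (nat_lit 9) (nat_lit 10) (nat_lit 0)
noncomputable def D810 : OP := orK (nat_lit 231) (fin (add (start D752) (orK (nat_lit 232) (fin (add (start D789) (orK (nat_lit 171) (fin (add (start D45) D804))))))))
noncomputable def D812 : OP := orK (nat_lit 229) (fin (add (start D28) D810))
noncomputable def D753 : OP := win (nat_lit 1) (nat_lit 9) (nat_lit 6) (nat_lit 4)
noncomputable def D784 : OP := orK (nat_lit 130) (fin (add (start D753) D782))
noncomputable def D756 : OP := win (nat_lit 7) (nat_lit 9) (nat_lit 4) (nat_lit 5)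
noncomputable def D759 : OP := orK (nat_lit 109) (fin (add (start D756) (win (nat_lit 7) (nat_lit 9) (nat_lit 5) (nat_lit 4))))
noncomputable def D778 : OP := orK (nat_lit 130) (fin (add (start D753) (orK (nat_lit 111) (fin (add (start D768) (orK (nat_lit 110) (fin (add (start D769) (orK (nat_lit 191) (fin (add (start D770) D759)))))))))))
noncomputable def D754 : OP := win (nat_lit 6) (nat_lit 10) (nat_lit 5) (nat_lit 5)
noncomputable def D786 : OP := orK (nat_lit 150) (fin (add (add (add (start D24) (orK (nat_lit 130) (fin (add (start D753) (orK (nat_lit 171) (fin (add (start D45) (orK (nat_lit 110) (fin (add (start D754) (orK (nat_lit 91) (fin (add (start (win (nat_lit 3) (nat_lit 10) (nat_lit 4) (nat_lit 4))) D759))))))))))))) D778) D784))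
noncomputable def D1009 : OP := orK (nat_lit 231) (fin (add (start D752) (orK (nat_lit 232) (fin (add (start D789) D786)))))
noncomputable def D3000 : AP := fin (add (add (start D30) D1009) D812)
noncomputable def D7341 : OP := orK (nat_lit 168) (fin (add (start D910) (orK (nat_lit 148) (fin (add (start D158) D1579)))))
noncomputable def D8068 : AP := fin (add (start D353) (orK (nat_lit 167) (fin (add (start D352) D7341))))
noncomputable def D8069 : OP := orK (nat_lit 188) D8068
noncomputable def D27412 : OP := orK (nat_lit 188) D27366
noncomputable def D6158 : OP := win (nat_lit 7) (nat_lit 6) (nat_lit 7) (nat_lit 3)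
noncomputable def D7764 : OP := orK (nat_lit 146) (fin (add (start D370) D6158))
noncomputable def D7803 : OP := win (nat_lit 1) (nat_lit 4) (nat_lit 8) (nat_lit 2)
noncomputable def D4403 : OP := win (nat_lit 5) (nat_lit 3) (nat_lit 11) (nat_lit 5)
noncomputable def D7808 : OP := orK (nat_lit 244) (fin (add (start D4403) (orK (nat_lit 185) (fin (add (start D7803) (win (nat_lit 3) (nat_lit 4) (nat_lit 8) (nat_lit 3)))))))
noncomputable def D7782 : OP := win (nat_lit 7) (nat_lit 5) (nat_lit 7) (nat_lit 5)
noncomputable def D4295 : OP := win (nat_lit 2) (nat_lit 3) (nat_lit 10) (nat_lit 5)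
noncomputable def D7779 : OP := win (nat_lit 1) (nat_lit 5) (nat_lit 8) (nat_lit 5)
noncomputable def D6175 : OP := win (nat_lit 5) (nat_lit 5) (nat_lit 8) (nat_lit 0)
noncomputable def D6177 : OP := orK (nat_lit 185) (fin (add (start D4182) D6175))
noncomputable def D12847 : OP := orK (nat_lit 168) (fin (add (start D1307) D6177))
noncomputable def D453 : OP := win (nat_lit 6) (nat_lit 6) (nat_lit 7) (nat_lit 3)
noncomputable def D7743 : AP := fin (add (start D370) D453)
noncomputable def D7744 : OP := orK (nat_lit 146) D7743
noncomputable def D7766 : OP := orK (nat_lit 166) (fin (add (start D4026) D7764))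
noncomputable def D4041 : OP := win (nat_lit 0) (nat_lit 4) (nat_lit 11) (nat_lit 0)
noncomputable def D4042 : AP := fin (add (start D4041) D2341)
noncomputable def D4043 : OP := orK (nat_lit 225) D4042
noncomputable def D7756 : OP := orK (nat_lit 248) (fin (add (start D1369) D4043))
noncomputable def D7754 : OP := orK (nat_lit 268) (fin (add (start D571) (orK (nat_lit 267) (fin (add (start D572) D1803)))))
noncomputable def D7750 : OP := orK (nat_lit 266) (fin (add (start D1301) (orK (nat_lit 267) (fin (add (start D1302) D1803)))))
noncomputable def D7762 : OP := orK (nat_lit 247) (fin (add (add (start D7750) D7754) (orK (nat_lit 246) (fin (add (start D134) (orK (nat_lit 226) (fin (add (start D3935) D7756))))))))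
noncomputable def D7745 : AP := fin (add (start D4026) D7744)
noncomputable def D7746 : OP := orK (nat_lit 166) D7745
noncomputable def D12415 : OP := win (nat_lit 4) (nat_lit 7) (nat_lit 8) (nat_lit 3)
noncomputable def D27946 : AP := fin (add (start D1538) (orK (nat_lit 169) (fin (add (start D1507) (orK (nat_lit 170) (fin (add (add (add (start (orK (nat_lit 190) D27364)) (orK (nat_lit 171) (fin (add (start D12415) D1396)))) (orK (nat_lit 229) (fin (add (start D1513) (orK (nat_lit 249) (fin (add (start D1649) D10482))))))) (orK (nat_lit 168) D27421))))))))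
noncomputable def D23419 : OP := win (nat_lit 1) (nat_lit 4) (nat_lit 7) (nat_lit 2)
noncomputable def D19561 : OP := win (nat_lit 0) (nat_lit 3) (nat_lit 7) (nat_lit 1)
noncomputable def D7905 : OP := win (nat_lit 4) (nat_lit 3) (nat_lit 9) (nat_lit 0)
noncomputable def D19091 : OP := win (nat_lit 6) (nat_lit 4) (nat_lit 7) (nat_lit 4)
noncomputable def D11277 : OP := win (nat_lit 1) (nat_lit 3) (nat_lit 7) (nat_lit 4)
noncomputable def D25417 : OP := win (nat_lit 4) (nat_lit 3) (nat_lit 10) (nat_lit 1)
noncomputable def D17489 : OP := win (nat_lit 3) (nat_lit 6) (nat_lit 8) (nat_lit 0)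
noncomputable def D18529 : OP := orK (nat_lit 145) (fin (add (start D7904) (win (nat_lit 7) (nat_lit 5) (nat_lit 7) (nat_lit 4))))
noncomputable def D23327 : OP := orK (nat_lit 146) (fin (add (start D370) D18529))
noncomputable def D18635 : OP := win (nat_lit 1) (nat_lit 5) (nat_lit 7) (nat_lit 4)
noncomputable def D28323 : OP := orK (nat_lit 168) D5959
noncomputable def D22566 : OP := orK (nat_lit 227) (fin (add (start D453) D4026))
noncomputable def D22567 : AP := fin (add (start D370) D22566)
noncomputable def D22700 : OP := orK (nat_lit 146) D22567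
noncomputable def D1117 : OP := win (nat_lit 2) (nat_lit 6) (nat_lit 7) (nat_lit 4)
noncomputable def D2057 : OP := orK (nat_lit 146) (fin (add (start D1117) (orK (nat_lit 166) D2054)))
noncomputable def D80 : OP := win (nat_lit 4) (nat_lit 6) (nat_lit 11) (nat_lit 3)
noncomputable def D1473 : OP := orK (nat_lit 248) (fin (add (start D80) D1369))
noncomputable def D17531 : OP := orK (nat_lit 126) (fin (add (start D6392) (orK (nat_lit 166) D6388)))
noncomputable def D2058 : AP := fin (add (start D1063) D2057)
noncomputable def D7544 : OP := orK (nat_lit 168) D2058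
noncomputable def D2059 : OP := orK (nat_lit 167) D2058
noncomputable def D17362 : OP := orK (nat_lit 226) D17261
noncomputable def D946 : AP := fin (add (start D833) D945)
noncomputable def D8099 : OP := orK (nat_lit 168) D946
noncomputable def D7315 : OP := win (nat_lit 5) (nat_lit 6) (nat_lit 9) (nat_lit 2)
noncomputable def D2710 : OP := orK (nat_lit 170) (fin (add (add (start D30) (orK (nat_lit 151) (fin (add (start D22) (orK (nat_lit 150) (fin (add (start D21) (orK (nat_lit 130) (fin (add (start D753) (orK (nat_lit 231) (fin (add (start D752) D2700))))))))))))) D812))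
noncomputable def D2965 : OP := win (nat_lit 5) (nat_lit 9) (nat_lit 9) (nat_lit 0)
noncomputable def D27457 : OP := win (nat_lit 4) (nat_lit 9) (nat_lit 8) (nat_lit 5)
noncomputable def D27456 : OP := win (nat_lit 4) (nat_lit 8) (nat_lit 8) (nat_lit 4)
noncomputable def D26072 : OP := win (nat_lit 2) (nat_lit 7) (nat_lit 8) (nat_lit 4)
noncomputable def D5967 : OP := orK (nat_lit 165) (fin (add (start D5550) D5965))
noncomputable def D354 : AP := fin (add (start D352) D353)
noncomputable def D355 : OP := orK (nat_lit 190) D354
noncomputable def D28406 : AP := fin (add (add (add (add (add (start D27369) (orK (nat_lit 188) (fin (add (start D1538) (orK (nat_lit 167) (fin (add (add (start D355) (orK (nat_lit 166) (fin (add (start D5967) D8125)))) (orK (nat_lit 206) (fin (add (start D129) D17362)))))))))) (orK (nat_lit 190) (fin (add (add (add (start D27412) (orK (nat_lit 188) (fin (add (start D353) (orK (nat_lit 167) (fin (add (start D352) (orK (nat_lit 191) (fin (add (start D26072) (orK (nat_lit 172) (fin (add (start D27456) (orK (nat_lit 192) (fin (add (start D27457) D2965)))))))))))))))) D2710) (orK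 (nat_lit 169) (fin (add (start D1507) (orK (nat_lit 170) (fin (add (start D27363) (orK (nat_lit 206) (fin (add (start D7315) (orK (nat_lit 167) (fin (add (start D8099) D17362)))))))))))))))) (orK (nat_lit 169) (fin (add (start D1507) (orK (nat_lit 170) (fin (add (add (start D27377) (orK (nat_lit 168) (fin (add (start D27398) D2059)))) (orK (nat_lit 167) (fin (add (add (add (start (orK (nat_lit 150) (fin (add (start D3267) (orK (nat_lit 168) D27402))))) D7544) (orK (nat_lit 146) (fin (add (add (start D17531) (orK (nat_lit 227) (fin (add (start D579) (orK (nat_lit 246) (fin (add (start D872) (orK (nat_lit 247) (fin (add (start D134) (orK (nat_lit 229) (fin (add (start D1513) D1473))))))))))))) (orK (nat_lit 150) (fin (add (start D3267) (orK (nat_lit 147) (fin (add (start D1376) (orK (nat_lit 206) (fin (add (start D1445) (orK (nat_lit 127) (fin (add (start D4206) (orK (nat_lit 130) (fin (add (start D6209) (orK (nat_lit 128) (fin (add (start D6072) (win (nat_lit 5) (nat_lit 6) (nat_lit 6) (nat_lit 1)))))))))))))))))))))))) (orK (nat_lit 150) (fin (add (start D3267) (orK (nat_lit 168) (fin (add (start D1998)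 D2057)))))))))))))))) (orK (nat_lit 186) (fin (add (start D6073) (orK (nat_lit 166) (fin (add (add (add (start (orK (nat_lit 227) (fin (add (start D4026) (orK (nat_lit 167) (fin (add (start (orK (nat_lit 169) (fin (add (start D1507) D28323)))) (orK (nat_lit 226) (fin (add (start D2035) (orK (nat_lit 206) (fin (add (start D4140) (orK (nat_lit 225) (fin (add (start D7779) (orK (nat_lit 224) (fin (add (start D3065) (orK (nat_lit 204) (fin (add (start D4295) (orK (nat_lit 165) (fin (add (start D7782) (orK (nat_lit 164) (fin (add (start D4163) (orK (nat_lit 144) (fin (add (start D461) (orK (nat_lit 184) (fin (add (start D4171) D19091)))))))))))))))))))))))))))))))))) D22700) (orK (nat_lit 146) (fin (add (start D370) (orK (nat_lit 227) (fin (add (start D6158) D4026))))))) (orK (nat_lit 169) (fin (add (start D1507) (orK (nat_lit 167) (fin (add (add (start D28323) (orK (nat_lit 206) (fin (add (add (add (start (orK (nat_lit 226) (fin (add (start D17489) (orK (nat_lit 225) (fin (add (start D7779) (orK (nat_lit 146) (fin (add (start D18635) D370)))))))))) (orK (nat_lit 226) (fin (add (start D17489) D23327))))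 (orK (nat_lit 226) (fin (add (start D17489) (orK (nat_lit 225) (fin (add (start D7779) (orK (nat_lit 165) (fin (add (start D7782) (orK (nat_lit 164) (fin (add (start D4163) (orK (nat_lit 144) (fin (add (start D461) (orK (nat_lit 184) (fin (add (start D4171) (orK (nat_lit 223) (fin (add (start D25417) (orK (nat_lit 204) (fin (add (start D11277) D19091))))))))))))))))))))))))) (orK (nat_lit 146) (fin (add (start D370) (orK (nat_lit 205) (fin (add (start D7713) (orK (nat_lit 204) (fin (add (start D7905) (orK (nat_lit 184) (fin (add (start D4939) (orK (nat_lit 145) (fin (add (start D7904) (orK (nat_lit 224) (fin (add (start D4738) (orK (nat_lit 143) (fin (add (start D19561) (orK (nat_lit 165) (fin (add (start D23419) (win (nat_lit 3) (nat_lit 4) (nat_lit 7) (nat_lit 3)))))))))))))))))))))))))))))) (orK (nat_lit 168) (fin (add (start D5556) D17235)))))))))))))))) (orK (nat_lit 188) D27946))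
noncomputable def D13184 : OP := orK (nat_lit 145) D7653
noncomputable def D25665 : OP := orK (nat_lit 165) (fin (add (start D357) D13184))
noncomputable def D7646 : OP := win (nat_lit 3) (nat_lit 5) (nat_lit 8) (nat_lit 0)
noncomputable def D5290 : OP := win (nat_lit 1) (nat_lit 5) (nat_lit 7) (nat_lit 0)
noncomputable def D24731 : OP := orK (nat_lit 166) (fin (add (start D5290) D7646))
noncomputable def D3781 : OP := win (nat_lit 6) (nat_lit 5) (nat_lit 10) (nat_lit 5)
noncomputable def D4482 : OP := win (nat_lit 6) (nat_lit 5) (nat_lit 9) (nat_lit 4)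
noncomputable def D4625 : OP := orK (nat_lit 266) (fin (add (start D4482) D3781))
noncomputable def D27878 : OP := orK (nat_lit 264) (fin (add (start D4481) (orK (nat_lit 265) (fin (add (start D4589) D4625)))))
noncomputable def D25174 : OP := win (nat_lit 2) (nat_lit 4) (nat_lit 8) (nat_lit 2)
noncomputable def D26627 : OP := win (nat_lit 0) (nat_lit 4) (nat_lit 8) (nat_lit 2)
noncomputable def D28184 : OP := orK (nat_lit 226) (fin (add (start D17260) (orK (nat_lit 165) (fin (add (start D3024) (orK (nat_lit 164) (fin (add (start D26627) D25174))))))))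
noncomputable def D26217 : AP := fin (add (start D1445) D850)
noncomputable def D26529 : OP := orK (nat_lit 147) D26217
noncomputable def D10903 : OP := orK (nat_lit 223) (fin (add (start (win (nat_lit 5) (nat_lit 2) (nat_lit 10) (nat_lit 5))) (win (nat_lit 5) (nat_lit 3) (nat_lit 10) (nat_lit 4))))
noncomputable def D28029 : OP := win (nat_lit 0) (nat_lit 3) (nat_lit 10) (nat_lit 5)
noncomputable def D22931 : OP := win (nat_lit 4) (nat_lit 3) (nat_lit 9) (nat_lit 4)
noncomputable def D28176 : OP := orK (nat_lit 184) (fin (add (start D4938) (orK (nat_lit 204) (fin (add (start D4939) (orK (nat_lit 203) (fin (add (start D22931) (orK (nat_lit 226) (fin (add (start D28029) D10903)))))))))))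
noncomputable def D28061 : OP := win (nat_lit 0) (nat_lit 2) (nat_lit 10) (nat_lit 4)
noncomputable def D28168 : OP := orK (nat_lit 184) (fin (add (start D4938) (orK (nat_lit 204) (fin (add (start D4939) (orK (nat_lit 203) (fin (add (start D22931) (orK (nat_lit 226) (fin (add (start D28029) (orK (nat_lit 202) (fin (add (start D28061) (orK (nat_lit 181) (fin (add (start (win (nat_lit 2) (nat_lit 1) (nat_lit 9) (nat_lit 4))) (orK (nat_lit 201) (fin (add (start (win (nat_lit 2) (nat_lit 0) (nat_lit 9) (nat_lit 5))) (orK (nat_lit 221) (fin (add (start (win (nat_lit 5) (nat_lit 0) (nat_lit 10) (nat_lit 5))) (win (nat_lit 5) (nat_lit 1) (nat_lit 10) (nat_lit 4)))))))))))))))))))))))))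
noncomputable def D22937 : OP := orK (nat_lit 203) (fin (add (start D22931) D10903))
noncomputable def D28051 : OP := win (nat_lit 2) (nat_lit 1) (nat_lit 9) (nat_lit 5)
noncomputable def D28050 : OP := win (nat_lit 2) (nat_lit 2) (nat_lit 9) (nat_lit 4)
noncomputable def D28075 : OP := orK (nat_lit 204) (fin (add (add (add (start D4741) (orK (nat_lit 203) (fin (add (start D22931) (orK (nat_lit 182) (fin (add (start D28050) (orK (nat_lit 202) (fin (add (start D28051) (orK (nat_lit 225) (fin (add (start (win (nat_lit 0) (nat_lit 2) (nat_lit 10) (nat_lit 5))) D3061))))))))))))) (orK (nat_lit 203) (fin (add (start D22931) (orK (nat_lit 182) (fin (add (start D28050) (orK (nat_lit 202) (fin (add (start D28051) (orK (nat_lit 226) (fin (add (start D28061) (orK (nat_lit 222) (fin (add (start (win (nat_lit 5) (nat_lit 1) (nat_lit 10) (nat_lit 5))) (win (nat_lit 5) (nat_lit 2) (nat_lit 10) (nat_lit 4)))))))))))))))))) D22937))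
noncomputable def D28046 : OP := orK (nat_lit 167) D17261
noncomputable def D28076 : AP := fin (add (start D26547) D2053)
noncomputable def D28099 : OP := orK (nat_lit 147) (fin (add (start D850) (orK (nat_lit 146) (fin (add (start D1376) (orK (nat_lit 166) D28076))))))
noncomputable def D28079 : OP := orK (nat_lit 226) (fin (add (start D7779) D17489))
noncomputable def D28083 : OP := orK (nat_lit 165) (fin (add (start D5550) D7782))
noncomputable def D28077 : OP := orK (nat_lit 146) D28076
noncomputable def D10894 : OP := win (nat_lit 2) (nat_lit 2) (nat_lit 9) (nat_lit 5)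
noncomputable def D10895 : OP := win (nat_lit 2) (nat_lit 3) (nat_lit 9) (nat_lit 4)
noncomputable def D22935 : OP := orK (nat_lit 183) (fin (add (start D10895) (orK (nat_lit 203) (fin (add (start D10894) D22931)))))
noncomputable def D3127 : OP := win (nat_lit 3) (nat_lit 5) (nat_lit 9) (nat_lit 0)
noncomputable def D23364 : AP := fin (add (start D2537) D3127)
noncomputable def D24502 : OP := orK (nat_lit 245) D23364
noncomputable def D17246 : OP := win (nat_lit 0) (nat_lit 4) (nat_lit 8) (nat_lit 1)
noncomputable def D26286 : OP := orK (nat_lit 164) (fin (add (start D25174) D3073))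
noncomputable def D21755 : OP := win (nat_lit 4) (nat_lit 2) (nat_lit 11) (nat_lit 0)
noncomputable def D4578 : OP := win (nat_lit 3) (nat_lit 5) (nat_lit 8) (nat_lit 5)
noncomputable def D4580 : OP := orK (nat_lit 186) (fin (add (start D4578) D3127))
noncomputable def D7320 : OP := orK (nat_lit 226) (fin (add (start D4140) (orK (nat_lit 246) (fin (add (start D7316) D707)))))
noncomputable def D18482 : OP := orK (nat_lit 146) (fin (add (start D1376) (orK (nat_lit 148) (fin (add (start D1381) D18478)))))
noncomputable def D12490 : OP := orK (nat_lit 286) (fin (add (start D1693) (orK (nat_lit 287) (fin (add (start D1694) D1792)))))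
noncomputable def D6173 : OP := orK (nat_lit 164) (fin (add (start D4163) D6171))
noncomputable def D17267 : OP := orK (nat_lit 165) (fin (add (start D7782) D6173))
noncomputable def D4794 : OP := win (nat_lit 0) (nat_lit 4) (nat_lit 9) (nat_lit 1)
noncomputable def D28246 : AP := fin (add (add (add (add (add (add (add (add (add (add (start (orK (nat_lit 167) (fin (add (add (add (start (orK (nat_lit 147) D27274)) (orK (nat_lit 227) (fin (add (add (add (add (start (orK (nat_lit 226) (fin (add (start D2035) (orK (nat_lit 225) (fin (add (start D2230) (orK (nat_lit 166) (fin (add (start D1484) (orK (nat_lit 186) (fin (add (start D7779) (orK (nat_lit 184) (fin (add (start D4794) D17267)))))))))))))))) D27985) D4098) (orK (nat_lit 166) (fin (add (start D1484) (orK (nat_lit 247) (fin (add (start D867) (orK (nat_lit 266) (fin (add (start D1301) (orK (nat_lit 267) (fin (add (start D1302) D580))))))))))))) (orK (nat_lit 166) (fin (add (start D1484) (orK (nat_lit 247) (fin (add (start D867) (orK (nat_lit 267) (fin (add (start D580) D12490))))))))))))) (orK (nat_lit 147) (fin (add (add (start D26358) D18482) D26381))))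 D7320)))) (orK (nat_lit 205) (fin (add (add (start D27338) D4954) (orK (nat_lit 188) (fin (add (start D2364) (orK (nat_lit 185) (fin (add (start D3060) (orK (nat_lit 225) (fin (add (start D3061) (orK (nat_lit 245) (fin (add (add (start D4580) D27878) (orK (nat_lit 186) (fin (add (start D4578) (orK (nat_lit 246) (fin (add (start D3040) (orK (nat_lit 226) (fin (add (start (win (nat_lit 3) (nat_lit 6) (nat_lit 8) (nat_lit 5))) (orK (nat_lit 244) (fin (add (start D3070) (orK (nat_lit 243) (fin (add (start D21755) (win (nat_lit 4) (nat_lit 3) (nat_lit 11) (nat_lit 5))))))))))))))))))))))))))))))))) (orK (nat_lit 226) (fin (add (add (start (orK (nat_lit 205) (fin (add (add (start D27338) (orK (nat_lit 184) (fin (add (start D4938) (orK (nat_lit 204) (fin (add (start D4939) (orK (nat_lit 203) (fin (add (start D28029) D22931)))))))))) (orK (nat_lit 185) (fin (add (start D3060) (orK (nat_lit 188) (fin (add (start D2364) (orK (nat_lit 225) (fin (add (start D3061) (orK (nat_lit 165) (fin (add (start D3024) D26286)))))))))))))))) D28046) (orK (nat_lit 167) D17264))))) (orK (nat_lit 205) (fin (add (add (start D27338)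 D28075) (orK (nat_lit 188) (fin (add (start D2364) (orK (nat_lit 225) (fin (add (start D3061) (orK (nat_lit 167) (fin (add (add (start D26529) (orK (nat_lit 166) (fin (add (add (start D28077) (orK (nat_lit 186) (fin (add (add (start D28079) (orK (nat_lit 164) (fin (add (start D17246) D24502)))) (orK (nat_lit 226) (fin (add (start D17489) D28083))))))) (orK (nat_lit 165) (fin (add (start D5550) (orK (nat_lit 146) (fin (add (start (win (nat_lit 3) (nat_lit 5) (nat_lit 7) (nat_lit 2))) D2053)))))))))) D28099))))))))))))) (orK (nat_lit 205) (fin (add (add (start D27338) (orK (nat_lit 224) (fin (add (start D4739) (orK (nat_lit 204) (fin (add (start D4738) D22935))))))) (orK (nat_lit 188) (fin (add (start D2364) (orK (nat_lit 225) (fin (add (start D3061) (orK (nat_lit 167) (fin (add (add (start D26529) (orK (nat_lit 166) (fin (add (add (add (start D28077) (orK (nat_lit 226) (fin (add (start D17260) (orK (nat_lit 186) (fin (add (start D7779) D28083))))))) (orK (nat_lit 227) (fin (add (start D1484) (orK (nat_lit 246) (fin (add (start D872) (orK (nat_lit 247) (fin (add (start D134) D42)))))))))) (orK (nat_lit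 186) (fin (add (start D5290) D28079))))))) D28099))))))))))))) (orK (nat_lit 205) (fin (add (add (start D27338) D4954) (orK (nat_lit 225) (fin (add (start D3061) (orK (nat_lit 185) (fin (add (start D3060) (orK (nat_lit 188) (fin (add (start D2364) (orK (nat_lit 226) (fin (add (add (start D21950) (orK (nat_lit 167) (fin (add (start D4140) (orK (nat_lit 165) (fin (add (start D3024) (orK (nat_lit 164) (fin (add (start D26627) D3073)))))))))) D28046)))))))))))))))) (orK (nat_lit 205) (fin (add (add (add (add (start D4954) D25757) D28075) D28168) D28176)))) (orK (nat_lit 205) (fin (add (add (start D27338) D28168) (orK (nat_lit 188) (fin (add (start D2364) (orK (nat_lit 185) (fin (add (start D3060) (orK (nat_lit 167) (fin (add (add (start D26529) D28184) (orK (nat_lit 147) (fin (add (start D850) (orK (nat_lit 146) (fin (add (start D1376) (orK (nat_lit 166) (fin (add (start D2053) (orK (nat_lit 165) (fin (add (start D5550) D6466))))))))))))))))))))))))) (orK (nat_lit 205) (fin (add (add (start D27338) D28176) (orK (nat_lit 188) (fin (add (start D2364) (orK (nat_lit 185) (fin (add (start D3060) (orK (nat_lit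 167) (fin (add (add (start D26529) D28184) (orK (nat_lit 147) (fin (add (start D850) (orK (nat_lit 146) (fin (add (start D1376) (orK (nat_lit 166) (fin (add (start D2053) (orK (nat_lit 165) (fin (add (start D5550) (orK (nat_lit 148) (fin (add (start D1381) D18474)))))))))))))))))))))))))))) (orK (nat_lit 205) (fin (add (add (start D27338) D4954) (orK (nat_lit 188) (fin (add (start D2364) (orK (nat_lit 185) (fin (add (start D3060) (orK (nat_lit 225) (fin (add (start D3061) (orK (nat_lit 166) (fin (add (start (orK (nat_lit 245) (fin (add (start D3039) D27878)))) (orK (nat_lit 165) D28224))))))))))))))))) (orK (nat_lit 205) (fin (add (add (start D27338) D4954) (orK (nat_lit 188) (fin (add (start D2364) (orK (nat_lit 185) (fin (add (start D3060) (orK (nat_lit 225) (fin (add (start D3061) (orK (nat_lit 186) (fin (add (start D24731) D25665))))))))))))))))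
noncomputable def D12503 : OP := win (nat_lit 5) (nat_lit 5) (nat_lit 9) (nat_lit 3)
noncomputable def D12504 : AP := fin (add (start D12503) D129)
noncomputable def D12505 : OP := orK (nat_lit 189) D12504
noncomputable def D12507 : OP := orK (nat_lit 205) (fin (add (start D2363) D12505))
noncomputable def D23960 : OP := win (nat_lit 4) (nat_lit 5) (nat_lit 9) (nat_lit 3)
noncomputable def D24435 : OP := orK (nat_lit 189) (fin (add (start D23960) D129))
noncomputable def D27806 : OP := orK (nat_lit 205) (fin (add (start D2363) D24435))
noncomputable def D24450 : OP := win (nat_lit 0) (nat_lit 4) (nat_lit 9) (nat_lit 5)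
noncomputable def D5231 : OP := win (nat_lit 0) (nat_lit 3) (nat_lit 9) (nat_lit 0)
noncomputable def D24452 : OP := orK (nat_lit 184) (fin (add (start D5231) D24450))
noncomputable def D24499 : OP := orK (nat_lit 169) (fin (add (start D7878) (orK (nat_lit 185) (fin (add (start D7948) D24452)))))
noncomputable def D21890 : AP := fin (add (start D21889) D3051)
noncomputable def D22137 : AP := fin (add (start D3049) (orK (nat_lit 264) D21890))
noncomputable def D25522 : OP := orK (nat_lit 265) (fin (add (start D4591) D4625))
noncomputable def D4626 : AP := fin (add (start D4625) D4594)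
noncomputable def D25726 : OP := orK (nat_lit 265) D4626
noncomputable def D4232 : OP := win (nat_lit 4) (nat_lit 3) (nat_lit 11) (nat_lit 0)
noncomputable def D22382 : OP := orK (nat_lit 245) (fin (add (start D3072) D3042))
noncomputable def D26699 : OP := orK (nat_lit 225) (fin (add (add (start D26691) (orK (nat_lit 165) (fin (add (start D22382) D26635)))) D26697))
noncomputable def D4955 : OP := orK (nat_lit 165) D3026
noncomputable def D2427 : OP := win (nat_lit 3) (nat_lit 5) (nat_lit 10) (nat_lit 0)
noncomputable def D3811 : OP := win (nat_lit 3) (nat_lit 5) (nat_lit 10) (nat_lit 4)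
noncomputable def D5249 : OP := orK (nat_lit 285) (fin (add (start D3811) D4641))
noncomputable def D27823 : OP := orK (nat_lit 165) (fin (add (start D881) D3037))
noncomputable def D5147 : OP := win (nat_lit 0) (nat_lit 4) (nat_lit 9) (nat_lit 2)
noncomputable def D21957 : AP := fin (add (start D21955) D21956)
noncomputable def D26130 : OP := orK (nat_lit 204) D21957
noncomputable def D26135 : AP := fin (add (add (add (start D26129) D26130) (orK (nat_lit 184) (fin (add (start D5147) D4369)))) D26134)
noncomputable def D26609 : OP := orK (nat_lit 205) D26135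
noncomputable def D4628 : OP := win (nat_lit 5) (nat_lit 4) (nat_lit 12) (nat_lit 0)
noncomputable def D936 : OP := win (nat_lit 1) (nat_lit 9) (nat_lit 7) (nat_lit 4)
noncomputable def D6009 : OP := orK (nat_lit 229) (fin (add (start D936) D28))
noncomputable def D6012 : AP := fin (add (start D6009) D24)
noncomputable def D24644 : OP := win (nat_lit 5) (nat_lit 6) (nat_lit 9) (nat_lit 1)
noncomputable def D15393 : OP := orK (nat_lit 205) (fin (add (start D2363) D12503))
noncomputable def D15394 : AP := fin (add (start D129) D15393)
noncomputable def D15395 : OP := orK (nat_lit 206) D15394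
noncomputable def D944 : OP := orK (nat_lit 229) (fin (add (start D28) (orK (nat_lit 150) (fin (add (start D936) D255)))))
noncomputable def D27453 : AP := fin (add (start D353) (orK (nat_lit 170) (fin (add (start D6089) D944))))
noncomputable def D27501 : OP := orK (nat_lit 190) D27453
noncomputable def D10520 : OP := orK (nat_lit 169) (fin (add (start D7948) D7878))
noncomputable def D10524 : OP := orK (nat_lit 165) (fin (add (start D358) (orK (nat_lit 185) (fin (add (start D357) D10520)))))
noncomputable def D6124 : OP := win (nat_lit 0) (nat_lit 6) (nat_lit 9) (nat_lit 4)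
noncomputable def D10525 : AP := fin (add (start D6124) D10524)
noncomputable def D27537 : OP := orK (nat_lit 186) D10525
noncomputable def D27962 : AP := fin (add (add (add (add (add (start (orK (nat_lit 189) (fin (add (add (start D27537) D27501) D15395)))) (orK (nat_lit 209) (fin (add (add (start (orK (nat_lit 208) (fin (add (start D0) (orK (nat_lit 206) (fin (add (start D1) D2366))))))) D4094) (orK (nat_lit 189) D27368))))) (orK (nat_lit 206) (fin (add (add (start D27806) (orK (nat_lit 190) (fin (add (start D24644) (orK (nat_lit 170) (fin (add (add (start (orK (nat_lit 150) D6012)) (orK (nat_lit 150) (fin (add (start D6009) D255)))) (orK (nat_lit 169) (fin (add (start D260) (orK (nat_lit 171) (fin (add (start D45) D1396))))))))))))) (orK (nat_lit 205) (fin (add (start D2363) (orK (nat_lit 208) (fin (add (start (orK (nat_lit 209) (fin (add (start D1) D0)))) (orK (nat_lit 225) (fin (add (start D3061) (orK (nat_lit 185) (fin (add (start D3060) (orK (nat_lit 246) (fin (add (start D27823) (orK (nat_lit 245) (fin (add (start D3040) (orK (nat_lit 264) (fin (add (start D4481) (orK (nat_lit 265) (fin (add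 (start D4589) (orK (nat_lit 247) (fin (add (start D4628) D27824))))))))))))))))))))))))))))))) (orK (nat_lit 208) (fin (add (add (start D3952) (orK (nat_lit 227) (fin (add (add (start D40) D27861) (orK (nat_lit 185) (fin (add (add (add (start (orK (nat_lit 186) (fin (add (start D356) (orK (nat_lit 168) (fin (add (start D37) D9698))))))) D26609) (orK (nat_lit 168) (fin (add (start D37) (orK (nat_lit 186) (fin (add (start D9698) D7676))))))) (orK (nat_lit 205) (fin (add (add (add (start D26129) (orK (nat_lit 225) (fin (add (add (add (start D27871) D4428) D27874) (orK (nat_lit 245) (fin (add (add (add (start D27878) (orK (nat_lit 246) (fin (add (start D3040) D27823)))) (orK (nat_lit 264) (fin (add (start D4481) (orK (nat_lit 265) (fin (add (start D4589) (orK (nat_lit 206) (fin (add (start D2363) D5249)))))))))) (orK (nat_lit 206) (fin (add (start D2363) (orK (nat_lit 264) (fin (add (start D4481) (orK (nat_lit 265) (fin (add (start D4589) (orK (nat_lit 148) (fin (add (start D27887) (orK (nat_lit 226) (fin (add (start D2427) D4955)))))))))))))))))))))) D26699) (orK (nat_lit 225) (fin (add (add (add (add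 (start (orK (nat_lit 226) (fin (add (start D2230) D21966)))) (orK (nat_lit 226) (fin (add (start D2230) (orK (nat_lit 245) (fin (add (add (start (orK (nat_lit 246) (fin (add (start D3040) (orK (nat_lit 244) (fin (add (start D3070) D4232))))))) D25726) D4596))))))) (orK (nat_lit 245) (fin (add (add (start D27912) D25522) D4596)))) D27916) (orK (nat_lit 224) (fin (add (start D4425) (orK (nat_lit 244) D22137))))))))))))))))) D1263)))) (orK (nat_lit 209) (fin (add (add (start (orK (nat_lit 186) (fin (add (start D12541) (win (nat_lit 2) (nat_lit 6) (nat_lit 9) (nat_lit 2)))))) (orK (nat_lit 208) (fin (add (start D0) (orK (nat_lit 227) (fin (add (start D18) D40))))))) (orK (nat_lit 189) D27946))))) (orK (nat_lit 206) (fin (add (add (add (start (orK (nat_lit 189) (fin (add (start D129) (orK (nat_lit 186) (fin (add (start (orK (nat_lit 166) (fin (add (start D369) D373)))) D24499))))))) D27806) (orK (nat_lit 205) (fin (add (start D2363) D3150)))) D12507))))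
noncomputable def D26080 : OP := orK (nat_lit 167) (fin (add (start D352) (orK (nat_lit 191) (fin (add (start D26072) (orK (nat_lit 171) (fin (add (start (win (nat_lit 4) (nat_lit 7) (nat_lit 8) (nat_lit 4))) (win (nat_lit 4) (nat_lit 8) (nat_lit 8) (nat_lit 5))))))))))
noncomputable def D919 : OP := win (nat_lit 6) (nat_lit 7) (nat_lit 5) (nat_lit 0)
noncomputable def D8149 : OP := orK (nat_lit 127) (fin (add (start D919) D4210))
noncomputable def D8137 : OP := orK (nat_lit 127) (fin (add (start D6072) D919))
noncomputable def D8135 : OP := win (nat_lit 1) (nat_lit 7) (nat_lit 6) (nat_lit 1)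
noncomputable def D8155 : OP := orK (nat_lit 167) (fin (add (start D352) (orK (nat_lit 168) (fin (add (start D910) (orK (nat_lit 147) (fin (add (add (start (orK (nat_lit 128) (fin (add (start D8135) D8137)))) (orK (nat_lit 148) (fin (add (start D158) D8145)))) D8149))))))))
noncomputable def D26102 : OP := orK (nat_lit 190) (fin (add (add (start D23965) D8155) D26080))
noncomputable def D7102 : OP := win (nat_lit 0) (nat_lit 5) (nat_lit 7) (nat_lit 4)
noncomputable def D7968 : OP := win (nat_lit 5) (nat_lit 5) (nat_lit 9) (nat_lit 5)
noncomputable def D12660 : OP := orK (nat_lit 205) (fin (add (start D364) (win (nat_lit 5) (nat_lit 5) (nat_lit 9) (nat_lit 4))))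
noncomputable def D15856 : OP := orK (nat_lit 165) (fin (add (start D358) (orK (nat_lit 185) (fin (add (start D357) D12660)))))
noncomputable def D21398 : OP := orK (nat_lit 185) (fin (add (start D7948) D12660))
noncomputable def D21542 : AP := fin (add (start D7878) D21398)
noncomputable def D26081 : AP := fin (add (start D353) D26080)
noncomputable def D26082 : OP := orK (nat_lit 190) D26081
noncomputable def D7636 : OP := win (nat_lit 5) (nat_lit 4) (nat_lit 9) (nat_lit 4)
noncomputable def D5352 : OP := win (nat_lit 5) (nat_lit 3) (nat_lit 9) (nat_lit 5)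
noncomputable def D7638 : OP := orK (nat_lit 204) (fin (add (start D5352) D7636))
noncomputable def D27534 : OP := orK (nat_lit 186) (fin (add (start D6124) (orK (nat_lit 165) (fin (add (start D358) (orK (nat_lit 185) (fin (add (start D357) (orK (nat_lit 168) (fin (add (start D9698) (orK (nat_lit 184) (fin (add (start (win (nat_lit 4) (nat_lit 4) (nat_lit 8) (nat_lit 4))) D7638))))))))))))))
noncomputable def D866 : OP := win (nat_lit 2) (nat_lit 6) (nat_lit 8) (nat_lit 4)
noncomputable def D8170 : AP := fin (add (start D5950) D5967)
noncomputable def D9693 : AP := fin (add (start D6124) D369)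
noncomputable def D27521 : OP := orK (nat_lit 166) (fin (add (add (start (orK (nat_lit 186) D9693)) (orK (nat_lit 167) D8170)) (orK (nat_lit 190) (fin (add (start D866) (orK (nat_lit 170) (fin (add (start D6089) (orK (nat_lit 209) (fin (add (start D1538) D27363)))))))))))
noncomputable def D1486 : OP := win (nat_lit 7) (nat_lit 9) (nat_lit 7) (nat_lit 3)
noncomputable def D5916 : OP := win (nat_lit 6) (nat_lit 9) (nat_lit 6) (nat_lit 0)
noncomputable def D7060 : AP := fin (add (start D5916) D1486)
noncomputable def D8220 : OP := orK (nat_lit 149) D7060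
noncomputable def D5918 : AP := fin (add (start D5916) D5917)
noncomputable def D5919 : OP := orK (nat_lit 149) D5918
noncomputable def D27496 : OP := orK (nat_lit 167) (fin (add (start D352) (orK (nat_lit 168) (fin (add (start D910) (orK (nat_lit 128) (fin (add (start D8135) (orK (nat_lit 169) (fin (add (add (start D5919) (orK (nat_lit 170) (fin (add (start (orK (nat_lit 150) (fin (add (start D1998) (orK (nat_lit 130) (fin (add (start D6209) (win (nat_lit 1) (nat_lit 9) (nat_lit 6) (nat_lit 5))))))))) (orK (nat_lit 147) (fin (add (start D985) D8137))))))) D8220)))))))))))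
noncomputable def D27472 : OP := orK (nat_lit 167) (fin (add (start D352) (orK (nat_lit 191) (fin (add (start D26072) (orK (nat_lit 172) (fin (add (start D27456) (orK (nat_lit 192) (fin (add (start D27457) (orK (nat_lit 213) (fin (add (start (win (nat_lit 0) (nat_lit 9) (nat_lit 9) (nat_lit 4))) (orK (nat_lit 193) (fin (add (start (win (nat_lit 0) (nat_lit 10) (nat_lit 9) (nat_lit 5))) (win (nat_lit 5) (nat_lit 9) (nat_lit 9) (nat_lit 5)))))))))))))))))))
noncomputable def D7635 : OP := win (nat_lit 2) (nat_lit 3) (nat_lit 8) (nat_lit 5)
noncomputable def D7634 : OP := win (nat_lit 2) (nat_lit 4) (nat_lit 8) (nat_lit 4)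
noncomputable def D7642 : OP := orK (nat_lit 164) (fin (add (start D7634) (orK (nat_lit 184) (fin (add (start D7635) D7638)))))
noncomputable def D21588 : AP := fin (add (start D7948) D7642)
noncomputable def D22562 : OP := orK (nat_lit 185) D21588
noncomputable def D27505 : OP := orK (nat_lit 186) (fin (add (start D6124) (orK (nat_lit 169) (fin (add (start D7878) D22562)))))
noncomputable def D6125 : OP := win (nat_lit 4) (nat_lit 6) (nat_lit 8) (nat_lit 4)
noncomputable def D27447 : OP := orK (nat_lit 186) (fin (add (start D6124) (orK (nat_lit 166) (fin (add (start D369) (orK (nat_lit 190) (fin (add (start D866) (orK (nat_lit 170) (fin (add (start D6125) D6089)))))))))))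
noncomputable def D21222 : AP := fin (add (start D6615) D16512)
noncomputable def D7357 : OP := orK (nat_lit 124) (fin (add (start D7348) (orK (nat_lit 144) (fin (add (start D7349) D7353)))))
noncomputable def D7363 : OP := orK (nat_lit 148) (fin (add (start D1381) (orK (nat_lit 146) (fin (add (start D1376) (orK (nat_lit 145) (fin (add (start D7102) D7357))))))))
noncomputable def D7365 : OP := orK (nat_lit 147) (fin (add (add (start D7347) D7363) D4214))
noncomputable def D7883 : OP := orK (nat_lit 168) D7882
noncomputable def D21411 : OP := orK (nat_lit 166) (fin (add (start D369) (orK (nat_lit 206) (fin (add (start D7968) (orK (nat_lit 146) (fin (add (start D370) (orK (nat_lit 147) (fin (add (start D17385) (orK (nat_lit 167) (fin (add (start D1445) (orK (nat_lit 145) (fin (add (start (win (nat_lit 2) (nat_lit 5) (nat_lit 7) (nat_lit 1))) D7904)))))))))))))))))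
noncomputable def D7952 : OP := orK (nat_lit 165) (fin (add (start D358) (orK (nat_lit 185) (fin (add (start D357) D7948)))))
noncomputable def D21412 : AP := fin (add (add (add (start D7952) D21398) D15856) D21411)
noncomputable def D15857 : AP := fin (add (start D7878) D15856)
noncomputable def D21394 : OP := orK (nat_lit 188) D15857
noncomputable def D21282 : OP := orK (nat_lit 188) (fin (add (start D7878) D7952))
noncomputable def D21548 : OP := orK (nat_lit 186) (fin (add (add (add (add (add (start D21282) (orK (nat_lit 188) D21542)) D21394) (orK (nat_lit 188) D21412)) (orK (nat_lit 188) (fin (add (start D7878) D21411)))) (orK (nat_lit 167) (fin (add (add (start D7883) D7365) (orK (nat_lit 147) (fin (add (add (start D7347) (orK (nat_lit 146) (fin (add (start D1376) (orK (nat_lit 148) (fin (add (start D1381) (orK (nat_lit 149) D21222)))))))) D4214))))))))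
noncomputable def D13080 : OP := win (nat_lit 7) (nat_lit 8) (nat_lit 4) (nat_lit 4)
noncomputable def D13079 : OP := win (nat_lit 7) (nat_lit 8) (nat_lit 3) (nat_lit 5)
noncomputable def D13082 : OP := orK (nat_lit 88) (fin (add (start D13079) D13080))
noncomputable def D7458 : OP := win (nat_lit 3) (nat_lit 9) (nat_lit 3) (nat_lit 5)
noncomputable def D7459 : OP := win (nat_lit 3) (nat_lit 9) (nat_lit 4) (nat_lit 4)
noncomputable def D13898 : OP := orK (nat_lit 90) (fin (add (start D7459) (orK (nat_lit 89) (fin (add (start D7458) D13082)))))
noncomputable def D7435 : OP := orK (nat_lit 68) (fin (add (start (win (nat_lit 7) (nat_lit 8) (nat_lit 2) (nat_lit 5))) (win (nat_lit 7) (nat_lit 8) (nat_lit 3) (nat_lit 4))))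
noncomputable def D13499 : AP := fin (add (start (win (nat_lit 1) (nat_lit 8) (nat_lit 3) (nat_lit 4))) D7435)
noncomputable def D13515 : OP := orK (nat_lit 69) D13499
noncomputable def D9101 : OP := win (nat_lit 1) (nat_lit 8) (nat_lit 4) (nat_lit 5)
noncomputable def D21530 : AP := fin (add (start D9101) D13515)
noncomputable def D7213 : OP := win (nat_lit 7) (nat_lit 8) (nat_lit 5) (nat_lit 5)
noncomputable def D8376 : OP := win (nat_lit 1) (nat_lit 8) (nat_lit 3) (nat_lit 0)
noncomputable def D7447 : OP := win (nat_lit 6) (nat_lit 9) (nat_lit 4) (nat_lit 5)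
noncomputable def D7446 : OP := win (nat_lit 6) (nat_lit 9) (nat_lit 3) (nat_lit 4)
noncomputable def D7445 : OP := win (nat_lit 3) (nat_lit 9) (nat_lit 2) (nat_lit 5)
noncomputable def D7444 : OP := win (nat_lit 3) (nat_lit 9) (nat_lit 3) (nat_lit 4)
noncomputable def D7453 : OP := orK (nat_lit 70) (fin (add (start D7444) (orK (nat_lit 69) (fin (add (start D7445) (orK (nat_lit 150) (fin (add (start D7446) D7447))))))))
noncomputable def D16438 : OP := orK (nat_lit 88) (fin (add (start D13080) (orK (nat_lit 89) (fin (add (start D13079) D7453)))))
noncomputable def D13874 : OP := win (nat_lit 6) (nat_lit 9) (nat_lit 3) (nat_lit 0)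
noncomputable def D16120 : AP := fin (add (start D13874) D7447)
noncomputable def D16428 : OP := orK (nat_lit 150) D16120
noncomputable def D6603 : OP := win (nat_lit 3) (nat_lit 9) (nat_lit 5) (nat_lit 5)
noncomputable def D18711 : OP := win (nat_lit 4) (nat_lit 4) (nat_lit 6) (nat_lit 0)
noncomputable def D21496 : AP := fin (add (start D18711) (win (nat_lit 5) (nat_lit 5) (nat_lit 6) (nat_lit 3)))
noncomputable def D13411 : OP := win (nat_lit 5) (nat_lit 6) (nat_lit 6) (nat_lit 0)
noncomputable def D7140 : OP := win (nat_lit 7) (nat_lit 6) (nat_lit 6) (nat_lit 2)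
noncomputable def D13467 : OP := win (nat_lit 0) (nat_lit 6) (nat_lit 6) (nat_lit 5)
noncomputable def D6600 : OP := win (nat_lit 2) (nat_lit 5) (nat_lit 7) (nat_lit 3)
noncomputable def D17462 : OP := orK (nat_lit 145) (fin (add (start D8140) D6600))
noncomputable def D11534 : OP := win (nat_lit 2) (nat_lit 6) (nat_lit 7) (nat_lit 0)
noncomputable def D21431 : OP := orK (nat_lit 168) (fin (add (start D11534) D17462))
noncomputable def D21432 : AP := fin (add (start D1376) D21431)
noncomputable def D13477 : OP := win (nat_lit 5) (nat_lit 5) (nat_lit 6) (nat_lit 5)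
noncomputable def D18903 : AP := fin (add (start D13467) D13477)
noncomputable def D21468 : OP := orK (nat_lit 126) D18903
noncomputable def D16364 : AP := fin (add (start D6615) D7253)
noncomputable def D16399 : OP := orK (nat_lit 146) D16364
noncomputable def D15487 : OP := win (nat_lit 3) (nat_lit 7) (nat_lit 6) (nat_lit 2)
noncomputable def D7121 : OP := win (nat_lit 4) (nat_lit 5) (nat_lit 7) (nat_lit 3)
noncomputable def D7125 : OP := orK (nat_lit 166) (fin (add (start D6037) (orK (nat_lit 165) (fin (add (start D7120) D7121)))))
noncomputable def D7181 : OP := win (nat_lit 5) (nat_lit 8) (nat_lit 6) (nat_lit 0)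
noncomputable def D21359 : OP := win (nat_lit 4) (nat_lit 7) (nat_lit 6) (nat_lit 3)
noncomputable def D21421 : OP := orK (nat_lit 131) (fin (add (start D21359) D7181))
noncomputable def D17730 : OP := win (nat_lit 2) (nat_lit 6) (nat_lit 5) (nat_lit 2)
noncomputable def D17725 : OP := win (nat_lit 5) (nat_lit 6) (nat_lit 6) (nat_lit 2)
noncomputable def D21433 : OP := orK (nat_lit 146) D21432
noncomputable def D6561 : OP := win (nat_lit 4) (nat_lit 6) (nat_lit 6) (nat_lit 0)
noncomputable def D21422 : AP := fin (add (start D6561) D21421)
noncomputable def D21541 : OP := orK (nat_lit 149) (fin (add (start D5917) (orK (nat_lit 129) (fin (add (add (add (add (start D6724) (orK (nat_lit 130) (fin (add (start D6603) (orK (nat_lit 147) (fin (add (add (start (orK (nat_lit 148) D21422)) (orK (nat_lit 167) (fin (add (add (start D21433) (orK (nat_lit 206) (fin (add (start D1445) (orK (nat_lit 127) (fin (add (start D4206) (orK (nat_lit 146) (fin (add (start D17725) D21431)))))))))) (orK (nat_lit 206) (fin (add (start D1445) (orK (nat_lit 127) (fin (add (start D4206) (orK (nat_lit 106) (fin (add (start D6076) (orK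 (nat_lit 107) (fin (add (start D17730) D6075)))))))))))))))) (orK (nat_lit 148) (fin (add (add (start (orK (nat_lit 128) (fin (add (start D15487) D9057)))) D21421) (orK (nat_lit 167) (fin (add (start D1381) D7125))))))))))))) (orK (nat_lit 128) (fin (add (start D7213) (orK (nat_lit 147) (fin (add (add (add (start (orK (nat_lit 148) (fin (add (start D15487) D16399)))) (orK (nat_lit 167) (fin (add (start D6071) (orK (nat_lit 206) (fin (add (start D1445) (orK (nat_lit 127) (fin (add (start D4206) (orK (nat_lit 126) (fin (add (start D13467) D4207))))))))))))) (orK (nat_lit 146) (fin (add (add (add (start (orK (nat_lit 127) (fin (add (start D13411) D21468)))) (orK (nat_lit 167) D21432)) (orK (nat_lit 167) (fin (add (start D21431) (orK (nat_lit 127) (fin (add (start D13411) D7324))))))) (orK (nat_lit 127) (fin (add (start D13411) (orK (nat_lit 126) (fin (add (start D13467) D7140)))))))))) (orK (nat_lit 146) (fin (add (add (add (start (orK (nat_lit 148) D21494)) (orK (nat_lit 145) (fin (add (start (win (nat_lit 4) (nat_lit 5) (nat_lit 6) (nat_lit 3))) (orK (nat_lit 127) D21496))))) (orK (nat_lit 130) (fin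 (add (start D18593) (orK (nat_lit 148) D21492))))) (orK (nat_lit 127) (fin (add (start D13411) (orK (nat_lit 145) D21496)))))))))))))) (orK (nat_lit 109) (fin (add (add (add (start D7429) (orK (nat_lit 88) (fin (add (start D13080) (orK (nat_lit 89) (fin (add (start D13079) (orK (nat_lit 130) (fin (add (start D6603) (orK (nat_lit 148) (fin (add (start D9101) D16428))))))))))))) D16438) D13898)))) (orK (nat_lit 109) (fin (add (add (add (start D6720) (orK (nat_lit 90) (fin (add (start D7459) (orK (nat_lit 89) (fin (add (start D7458) (orK (nat_lit 148) (fin (add (start D9101) (orK (nat_lit 128) (fin (add (start D8376) D7213))))))))))))) (orK (nat_lit 90) (fin (add (start D7459) (orK (nat_lit 89) (fin (add (start D7458) (orK (nat_lit 148) D21530)))))))) D13898))))))))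
noncomputable def D7461 : OP := orK (nat_lit 90) (fin (add (start D7458) D7459))
noncomputable def D7430 : OP := win (nat_lit 1) (nat_lit 8) (nat_lit 4) (nat_lit 4)
noncomputable def D7188 : OP := win (nat_lit 1) (nat_lit 8) (nat_lit 5) (nat_lit 5)
noncomputable def D7465 : OP := orK (nat_lit 168) (fin (add (start D7188) (orK (nat_lit 89) (fin (add (start D7430) D7461)))))
noncomputable def D7475 : OP := orK (nat_lit 108) (fin (add (start D6718) (orK (nat_lit 109) (fin (add (start D6590) D7465)))))
noncomputable def D7457 : OP := orK (nat_lit 168) (fin (add (start D7188) (orK (nat_lit 89) (fin (add (start D7430) D7453)))))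
noncomputable def D7471 : OP := orK (nat_lit 108) (fin (add (start D6718) (orK (nat_lit 109) (fin (add (start D6590) D7457)))))
noncomputable def D7443 : OP := orK (nat_lit 168) (fin (add (start D7188) (orK (nat_lit 89) (fin (add (start D7430) (orK (nat_lit 130) (fin (add (start D6603) (orK (nat_lit 69) (fin (add (start (win (nat_lit 6) (nat_lit 9) (nat_lit 3) (nat_lit 5))) D7435)))))))))))
noncomputable def D7467 : OP := orK (nat_lit 109) (fin (add (add (add (start D7429) D7443) D7457) D7465))
noncomputable def D13478 : OP := win (nat_lit 5) (nat_lit 6) (nat_lit 6) (nat_lit 4)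
noncomputable def D13480 : OP := orK (nat_lit 146) (fin (add (start D13477) D13478))
noncomputable def D7218 : OP := win (nat_lit 2) (nat_lit 6) (nat_lit 5) (nat_lit 4)
noncomputable def D7217 : OP := win (nat_lit 2) (nat_lit 5) (nat_lit 5) (nat_lit 5)
noncomputable def D7220 : OP := orK (nat_lit 106) (fin (add (start D7217) D7218))
noncomputable def D9064 : OP := win (nat_lit 0) (nat_lit 7) (nat_lit 6) (nat_lit 5)
noncomputable def D9063 : OP := win (nat_lit 0) (nat_lit 6) (nat_lit 6) (nat_lit 0)
noncomputable def D9065 : AP := fin (add (start D9063) D9064)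
noncomputable def D9066 : OP := orK (nat_lit 150) D9065
noncomputable def D7408 : OP := win (nat_lit 5) (nat_lit 6) (nat_lit 6) (nat_lit 5)
noncomputable def D7214 : OP := win (nat_lit 0) (nat_lit 8) (nat_lit 6) (nat_lit 5)
noncomputable def D7215 : OP := win (nat_lit 0) (nat_lit 7) (nat_lit 6) (nat_lit 4)
noncomputable def D7407 : OP := orK (nat_lit 151) (fin (add (start D7215) D7214))
noncomputable def D7412 : AP := fin (add (start D7407) (orK (nat_lit 147) (fin (add (start D7408) (win (nat_lit 5) (nat_lit 7) (nat_lit 6) (nat_lit 4))))))
noncomputable def D13488 : OP := orK (nat_lit 128) (fin (add (start D7213) (orK (nat_lit 130) (fin (add (start D6603) (orK (nat_lit 127) (fin (add (add (start (orK (nat_lit 131) D7412)) D9066) (orK (nat_lit 126) (fin (add (start D7220) D13480)))))))))))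
noncomputable def D23930 : AP := fin (add (start D5917) (orK (nat_lit 129) (fin (add (add (add (add (start D6724) D13488) D7467) D7471) D7475))))
noncomputable def D21235 : OP := win (nat_lit 1) (nat_lit 8) (nat_lit 5) (nat_lit 4)
noncomputable def D21239 : OP := orK (nat_lit 109) (fin (add (start D21235) D6720))
noncomputable def D21237 : OP := orK (nat_lit 109) (fin (add (start D21235) D7429))
noncomputable def D21252 : OP := orK (nat_lit 149) (fin (add (start D5917) (orK (nat_lit 129) (fin (add (add (add (start D21237) D21239) (orK (nat_lit 128) (fin (add (start D7213) (orK (nat_lit 148) (fin (add (start D21240) (orK (nat_lit 147) (fin (add (start D15487) (orK (nat_lit 130) (fin (add (start D6603) D6561))))))))))))) D6724)))))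
noncomputable def D21298 : OP := orK (nat_lit 209) (fin (add (start D1538) D1507))
noncomputable def D21415 : OP := orK (nat_lit 188) (fin (add (add (start D21298) (orK (nat_lit 186) D21412)) D21252))
noncomputable def D16440 : OP := orK (nat_lit 109) (fin (add (add (add (start D7429) (orK (nat_lit 88) (fin (add (start D13080) (orK (nat_lit 89) (fin (add (start D13079) (orK (nat_lit 130) (fin (add (start D6603) D16428)))))))))) D16438) D13898))
noncomputable def D19888 : OP := win (nat_lit 3) (nat_lit 6) (nat_lit 6) (nat_lit 0)
noncomputable def D7567 : AP := fin (add (start D4199) D1445)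
noncomputable def D7593 : OP := orK (nat_lit 206) D7567
noncomputable def D21356 : OP := orK (nat_lit 126) (fin (add (start D21338) D7140))
noncomputable def D7180 : OP := win (nat_lit 5) (nat_lit 7) (nat_lit 6) (nat_lit 3)
noncomputable def D21361 : OP := orK (nat_lit 131) (fin (add (start D21359) D7180))
noncomputable def D1229 : OP := win (nat_lit 5) (nat_lit 6) (nat_lit 7) (nat_lit 5)
noncomputable def D17691 : OP := orK (nat_lit 150) (fin (add (start D4053) D1229))
noncomputable def D21362 : AP := fin (add (start D6561) D21361)
noncomputable def D18592 : OP := win (nat_lit 4) (nat_lit 6) (nat_lit 6) (nat_lit 2)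
noncomputable def D9655 : OP := win (nat_lit 0) (nat_lit 5) (nat_lit 6) (nat_lit 4)
noncomputable def D16357 : OP := orK (nat_lit 125) (fin (add (start D9655) (orK (nat_lit 105) (fin (add (start (win (nat_lit 2) (nat_lit 4) (nat_lit 5) (nat_lit 5))) (win (nat_lit 2) (nat_lit 5) (nat_lit 5) (nat_lit 4)))))))
noncomputable def D13276 : OP := orK (nat_lit 209) (fin (add (start D6073) D1507))
noncomputable def D21396 : OP := orK (nat_lit 186) (fin (add (add (start D13276) (orK (nat_lit 149) (fin (add (start D5917) (orK (nat_lit 129) (fin (add (add (add (start D6724) (orK (nat_lit 128) (fin (add (start D7213) (orK (nat_lit 126) (fin (add (add (start (orK (nat_lit 127) (fin (add (start D13467) (orK (nat_lit 146) (fin (add (start D13477) D21338))))))) (orK (nat_lit 146) (fin (add (start D21338) (orK (nat_lit 147) (fin (add (start D7140) (orK (nat_lit 148) (fin (add (start D6615) D6616)))))))))) (orK (nat_lit 127) (fin (add (start D13467) D16357)))))))))) (orK (nat_lit 130) (fin (add (start D6603) (orK (nat_lit 147) (fin (add (add (add (start (orK (nat_lit 146) (fin (add (start D18592) D21356)))) (orK (nat_lit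 148) D21362)) (orK (nat_lit 148) (fin (add (add (start (orK (nat_lit 167) (fin (add (start D7593) D17691)))) (orK (nat_lit 167) (fin (add (start D1381) D7593)))) D21361)))) (orK (nat_lit 146) (fin (add (add (add (start (orK (nat_lit 127) (fin (add (start D17725) (orK (nat_lit 206) (fin (add (start (win (nat_lit 1) (nat_lit 6) (nat_lit 6) (nat_lit 2))) (win (nat_lit 3) (nat_lit 6) (nat_lit 6) (nat_lit 2))))))))) D21356) (orK (nat_lit 167) (fin (add (start D1376) D7593)))) (orK (nat_lit 127) (fin (add (start D17725) (orK (nat_lit 166) (fin (add (start D19888) D370)))))))))))))))) D16440))))))) D21394))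
noncomputable def D7953 : AP := fin (add (start D6124) D7952)
noncomputable def D7906 : OP := win (nat_lit 6) (nat_lit 4) (nat_lit 6) (nat_lit 4)
noncomputable def D7892 : OP := win (nat_lit 2) (nat_lit 2) (nat_lit 6) (nat_lit 5)
noncomputable def D7879 : AP := fin (add (start D6124) D7878)
noncomputable def D7880 : OP := orK (nat_lit 188) D7879
noncomputable def D7956 : OP := orK (nat_lit 186) (fin (add (add (start D7880) (orK (nat_lit 167) (fin (add (add (start D7883) D7365) (orK (nat_lit 147) (fin (add (add (start D7593) D6113) (orK (nat_lit 146) (fin (add (start D1376) (orK (nat_lit 145) (fin (add (add (add (add (start (orK (nat_lit 206) (fin (add (start D1445) (orK (nat_lit 148) (fin (add (start D1381) (orK (nat_lit 125) (fin (add (start D7103) D7884)))))))))) (orK (nat_lit 148) (fin (add (start D1381) (orK (nat_lit 164) (fin (add (start D7351) (orK (nat_lit 144) (fin (add (start D7350) (orK (nat_lit 143) (fin (add (start (win (nat_lit 0) (nat_lit 3) (nat_lit 7) (nat_lit 4))) (orK (nat_lit 123) (fin (add (start D7892) (win (nat_lit 2) (nat_lit 3) (nat_lit 6) (nat_lit 4)))))))))))))))))) (orK (nat_lit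 206) (fin (add (start D1445) (orK (nat_lit 166) (fin (add (start D7904) (orK (nat_lit 144) (fin (add (start D6398) (orK (nat_lit 205) (fin (add (start D7713) (orK (nat_lit 124) (fin (add (start D7349) (orK (nat_lit 204) (fin (add (start D7905) (orK (nat_lit 184) (fin (add (start D4939) (orK (nat_lit 164) (fin (add (start D7350) D7906))))))))))))))))))))))))) (orK (nat_lit 206) (fin (add (start D1445) (orK (nat_lit 148) (fin (add (start D1381) (orK (nat_lit 165) (fin (add (start D7147) (orK (nat_lit 125) D7924))))))))))) (orK (nat_lit 206) (fin (add (start D1445) (orK (nat_lit 148) (fin (add (start D1381) (orK (nat_lit 125) (fin (add (start D7103) (orK (nat_lit 165) (fin (add (start D7147) D7923))))))))))))))))))))))))) (orK (nat_lit 188) D7953)))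
noncomputable def D12172 : AP := fin (add (start D1396) D954)
noncomputable def D12174 : AP := fin (add (start D6229) (orK (nat_lit 171) D12172))
noncomputable def D21253 : OP := orK (nat_lit 170) D12174
noncomputable def D17432 : OP := orK (nat_lit 106) (fin (add (start D7218) (orK (nat_lit 126) (fin (add (start D7217) D13480)))))
noncomputable def D8417 : OP := win (nat_lit 3) (nat_lit 11) (nat_lit 5) (nat_lit 0)
noncomputable def D7415 : OP := win (nat_lit 4) (nat_lit 9) (nat_lit 5) (nat_lit 5)
noncomputable def D7414 : OP := win (nat_lit 4) (nat_lit 8) (nat_lit 5) (nat_lit 4)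
noncomputable def D21337 : OP := orK (nat_lit 188) (fin (add (add (start D21298) (orK (nat_lit 149) (fin (add (start D5917) (orK (nat_lit 129) (fin (add (add (add (start D21237) D21239) (orK (nat_lit 128) (fin (add (start D7213) (orK (nat_lit 127) (fin (add (add (start (orK (nat_lit 126) (fin (add (start D13467) (orK (nat_lit 106) (fin (add (start D7217) (orK (nat_lit 146) (fin (add (start D13477) (orK (nat_lit 167) (fin (add (start (win (nat_lit 6) (nat_lit 6) (nat_lit 5) (nat_lit 3))) (win (nat_lit 7) (nat_lit 6) (nat_lit 5) (nat_lit 2))))))))))))))) (orK (nat_lit 130) (fin (add (start D6603) (orK (nat_lit 151) (fin (add (start D7215) (orK (nat_lit 131) (fin (add (start D7214) (orK (nat_lit 112) (fin (add (start D7414) (orK (nat_lit 132) (fin (add (start D7415) (orK (nat_lit 171) (fin (add (start D8417) (orK (nat_lit 170) D12172)))))))))))))))))))) (orK (nat_lit 130) (fin (add (start D6603) D17432)))))))))) D6724))))))) D21253))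
noncomputable def D21270 : OP := orK (nat_lit 184) (fin (add (start (win (nat_lit 4) (nat_lit 4) (nat_lit 8) (nat_lit 1))) (orK (nat_lit 147) (fin (add (start (orK (nat_lit 146) (fin (add (start D1376) (orK (nat_lit 145) (fin (add (start D8140) (win (nat_lit 0) (nat_lit 5) (nat_lit 7) (nat_lit 3))))))))) D7593)))))
noncomputable def D21273 : AP := fin (add (start D1485) D17235)
noncomputable def D21284 : OP := orK (nat_lit 186) (fin (add (add (start D13276) (orK (nat_lit 149) (fin (add (start D5917) (orK (nat_lit 167) (fin (add (add (add (start D7883) (orK (nat_lit 147) (fin (add (start D7593) (orK (nat_lit 146) (fin (add (start D1376) (orK (nat_lit 148) D21222)))))))) (orK (nat_lit 168) (fin (add (start D5556) D21270)))) (orK (nat_lit 168) (fin (add (add (start D7881) (orK (nat_lit 166) D21273)) D21270)))))))))) D21282))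
noncomputable def D7216 : OP := win (nat_lit 0) (nat_lit 5) (nat_lit 6) (nat_lit 0)
noncomputable def D7226 : OP := orK (nat_lit 151) (fin (add (start D7214) (orK (nat_lit 127) (fin (add (start D7215) (orK (nat_lit 126) (fin (add (start D7216) D7220))))))))
noncomputable def D7228 : OP := orK (nat_lit 131) (fin (add (start D7181) D7226))
noncomputable def D7957 : OP := orK (nat_lit 186) D7879
noncomputable def D21296 : OP := orK (nat_lit 188) (fin (add (add (start D7957) (orK (nat_lit 149) (fin (add (start D5917) (orK (nat_lit 129) (fin (add (add (add (start D21237) D21239) (orK (nat_lit 128) (fin (add (start D7213) (orK (nat_lit 130) (fin (add (start D6603) (orK (nat_lit 148) (fin (add (start D21240) D7228)))))))))) D6724))))))) D21253))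
noncomputable def D1013 : OP := win (nat_lit 6) (nat_lit 8) (nat_lit 5) (nat_lit 0)
noncomputable def D7264 : OP := win (nat_lit 7) (nat_lit 8) (nat_lit 5) (nat_lit 3)
noncomputable def D15548 : OP := orK (nat_lit 128) (fin (add (start D6071) (orK (nat_lit 108) (fin (add (start (win (nat_lit 3) (nat_lit 7) (nat_lit 5) (nat_lit 3))) D7264)))))
noncomputable def D7099 : OP := orK (nat_lit 129) (fin (add (start D6588) D6724))
noncomputable def D7100 : AP := fin (add (start D5917) D7099)
noncomputable def D17360 : OP := orK (nat_lit 149) D7100
noncomputable def D27693 : OP := orK (nat_lit 190) (fin (add (start D833) (orK (nat_lit 170) (fin (add (start D945) D3276)))))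
noncomputable def D27588 : AP := fin (add (start D3277) D11534)
noncomputable def D7062 : AP := fin (add (start D5917) (orK (nat_lit 190) D7060))
noncomputable def D7876 : OP := orK (nat_lit 149) D7062
noncomputable def D451 : OP := orK (nat_lit 145) (fin (add (start D442) (orK (nat_lit 165) (fin (add (start D443) D447)))))
noncomputable def D27569 : OP := orK (nat_lit 168) (fin (add (add (add (start D27564) (orK (nat_lit 166) (fin (add (start D502) D451)))) D27567) D21551))
noncomputable def D17380 : OP := orK (nat_lit 148) D7376
noncomputable def D1992 : OP := orK (nat_lit 151) (fin (add (start D1990) D1584))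
noncomputable def D3293 : OP := orK (nat_lit 147) (fin (add (start D985) (orK (nat_lit 171) (fin (add (start D984) D1992)))))
noncomputable def D17468 : OP := orK (nat_lit 147) (fin (add (add (start (orK (nat_lit 146) (fin (add (start D1376) D17462)))) (orK (nat_lit 186) (fin (add (start D7593) D7881)))) D7597))
noncomputable def D15348 : OP := orK (nat_lit 147) (fin (add (start D1376) (orK (nat_lit 148) (fin (add (start D6615) D1381)))))
noncomputable def D21472 : AP := fin (add (start D436) D1485)
noncomputable def D26590 : OP := orK (nat_lit 148) (fin (add (start D1381) D6037))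
noncomputable def D5954 : OP := win (nat_lit 0) (nat_lit 6) (nat_lit 8) (nat_lit 2)
noncomputable def D8374 : OP := orK (nat_lit 209) (fin (add (start D1507) D1858))
noncomputable def D2026 : OP := win (nat_lit 2) (nat_lit 8) (nat_lit 7) (nat_lit 5)
noncomputable def D27743 : AP := fin (add (add (add (add (add (add (add (add (add (start D27550) D27561) (orK (nat_lit 169) (fin (add (add (start D27569) D17360) (orK (nat_lit 149) (fin (add (start D5917) (orK (nat_lit 168) (fin (add (add (start D27571) D21551) (orK (nat_lit 170) (fin (add (start D1063) (orK (nat_lit 151) (fin (add (start D1990) (orK (nat_lit 171) (fin (add (start D1584) (orK (nat_lit 192) (fin (add (start D983) (orK (nat_lit 172) (fin (add (start D982) D2026))))))))))))))))))))))))) (orK (nat_lit 147) (fin (add (add (add (start D7347) (orK (nat_lit 226) (fin (add (start D3202) (orK (nat_lit 148) (fin (add (start D1381) (orK (nat_lit 146) (fin (add (start D1376) (orK (nat_lit 169) (fin (add (add (start (orK (nat_lit 168) D27588)) (orK (nat_lit 149) (fin (add (start D6615) D5917)))) (orK (nat_lit 168) (fin (add (start D3277) D8374))))))))))))))))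 D4214) D6113)))) (orK (nat_lit 169) (fin (add (add (add (start D7876) D27569) (orK (nat_lit 149) (fin (add (start D5917) (orK (nat_lit 190) (fin (add (start D5916) (orK (nat_lit 166) (fin (add (start D5954) (orK (nat_lit 147) (fin (add (start D26590) D4214))))))))))))) (orK (nat_lit 149) (fin (add (start D5917) (orK (nat_lit 146) (fin (add (add (start (orK (nat_lit 168) (fin (add (start (orK (nat_lit 166) D21472)) (orK (nat_lit 170) (fin (add (start D1117) D1063))))))) (orK (nat_lit 166) (fin (add (start (orK (nat_lit 168) D21472)) D6389)))) D15348)))))))))) (orK (nat_lit 169) (fin (add (add (add (start D7876) D27569) (orK (nat_lit 149) (fin (add (start D5917) (orK (nat_lit 129) (fin (add (start D6588) (orK (nat_lit 110) (fin (add (start D6716) (orK (nat_lit 109) (fin (add (start D6717) (orK (nat_lit 88) (fin (add (start D13080) (orK (nat_lit 89) (fin (add (start D13079) (orK (nat_lit 168) (fin (add (start D7430) (orK (nat_lit 166) (fin (add (start D1485) D27628))))))))))))))))))))))))) (orK (nat_lit 209) (fin (add (start D1507) (orK (nat_lit 168) (fin (add (add (start (orK (nat_lit 170) (fin (add (start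 D1063) D3266)))) D17468) (orK (nat_lit 170) (fin (add (add (start D27648) (orK (nat_lit 147) (fin (add (start D985) (orK (nat_lit 148) (fin (add (start D3276) D1858))))))) D3293))))))))))))) (orK (nat_lit 169) (fin (add (add (add (start D7876) (orK (nat_lit 168) (fin (add (add (add (start D27564) (orK (nat_lit 166) (fin (add (start D502) (orK (nat_lit 128) (fin (add (start D17380) D6808))))))) D27567) D21551)))) D17360) (orK (nat_lit 209) (fin (add (start D1507) (orK (nat_lit 168) (fin (add (start (orK (nat_lit 148) (fin (add (start D1858) D7377)))) D21551)))))))))) (orK (nat_lit 169) (fin (add (add (start D27569) D17360) (orK (nat_lit 149) (fin (add (start D5917) (orK (nat_lit 147) (fin (add (add (start D4214) D21433) (orK (nat_lit 206) (fin (add (start D1445) (orK (nat_lit 186) (fin (add (start D4199) D7883)))))))))))))))) D27688) (orK (nat_lit 169) (fin (add (add (add (start D7876) (orK (nat_lit 147) (fin (add (add (add (start D6113) D21433) (orK (nat_lit 206) (fin (add (start D1445) (orK (nat_lit 148) (fin (add (start D1381) (orK (nat_lit 168) (fin (add (add (start (orK (nat_lit 146) D27588)) D27693)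 (orK (nat_lit 145) (fin (add (start (win (nat_lit 0) (nat_lit 5) (nat_lit 7) (nat_lit 1))) (orK (nat_lit 166) (fin (add (start D502) (orK (nat_lit 165) (fin (add (start D443) D7120))))))))))))))))))) (orK (nat_lit 226) (fin (add (start D3202) (orK (nat_lit 127) (fin (add (add (add (start D7326) (orK (nat_lit 106) (fin (add (start D6076) (orK (nat_lit 107) (fin (add (start D6075) (orK (nat_lit 148) (fin (add (start D1381) (orK (nat_lit 168) (fin (add (start D17323) D27693))))))))))))) (orK (nat_lit 106) (fin (add (start D6076) (orK (nat_lit 107) (fin (add (start D6075) (orK (nat_lit 88) (fin (add (start D17014) (orK (nat_lit 87) (fin (add (start D14462) (orK (nat_lit 168) (fin (add (start D17330) (orK (nat_lit 190) (fin (add (start D833) D6501))))))))))))))))))) D17344)))))))))) D17360) (orK (nat_lit 149) (fin (add (start D5917) (orK (nat_lit 147) (fin (add (start D15548) D21433))))))))))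
noncomputable def D27497 : AP := fin (add (start D353) D27496)
noncomputable def D27473 : AP := fin (add (start D353) D27472)
noncomputable def D27509 : OP := orK (nat_lit 186) (fin (add (start D6124) D15856))
noncomputable def D7970 : OP := orK (nat_lit 206) (fin (add (start D7968) D129))
noncomputable def D7971 : AP := fin (add (start D6124) D7970)
noncomputable def D7972 : OP := orK (nat_lit 186) D7971
noncomputable def D2773 : OP := win (nat_lit 4) (nat_lit 10) (nat_lit 10) (nat_lit 5)
noncomputable def D2867 : OP := orK (nat_lit 213) (fin (add (start (win (nat_lit 4) (nat_lit 9) (nat_lit 10) (nat_lit 4))) D2773))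
noncomputable def D4756 : OP := win (nat_lit 2) (nat_lit 9) (nat_lit 10) (nat_lit 5)
noncomputable def D4758 : OP := orK (nat_lit 233) (fin (add (start D4756) D2867))
noncomputable def D2772 : OP := win (nat_lit 0) (nat_lit 10) (nat_lit 11) (nat_lit 5)
noncomputable def D2793 : OP := win (nat_lit 0) (nat_lit 9) (nat_lit 11) (nat_lit 4)
noncomputable def D5986 : OP := orK (nat_lit 253) (fin (add (start D2793) (orK (nat_lit 233) (fin (add (start D2772) D4756)))))
noncomputable def D5988 : OP := orK (nat_lit 232) (fin (add (add (start D5986) D804) D4758))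
noncomputable def D5990 : OP := orK (nat_lit 171) (fin (add (start D45) D5988))
noncomputable def D938 : OP := orK (nat_lit 150) (fin (add (start D936) D24))
noncomputable def D939 : AP := fin (add (start D28) D938)
noncomputable def D940 : OP := orK (nat_lit 229) D939
noncomputable def D5997 : AP := fin (add (add (add (start D940) D944) D259) (orK (nat_lit 229) (fin (add (start D28) (orK (nat_lit 231) (fin (add (start D752) (orK (nat_lit 149) (fin (add (start D253) D5990))))))))))
noncomputable def D10502 : OP := orK (nat_lit 185) (fin (add (start D9698) D7642))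
noncomputable def D23939 : OP := win (nat_lit 1) (nat_lit 7) (nat_lit 7) (nat_lit 3)
noncomputable def D23940 : AP := fin (add (start D158) D23939)
noncomputable def D23941 : OP := orK (nat_lit 148) D23940
noncomputable def D9712 : OP := orK (nat_lit 164) (fin (add (start D4163) (win (nat_lit 2) (nat_lit 4) (nat_lit 8) (nat_lit 3))))
noncomputable def D12696 : OP := orK (nat_lit 165) (fin (add (start D12694) D9712))
noncomputable def D7679 : OP := win (nat_lit 0) (nat_lit 3) (nat_lit 9) (nat_lit 4)
noncomputable def D9705 : OP := orK (nat_lit 204) (fin (add (start D7636) (orK (nat_lit 184) (fin (add (start D5352) (orK (nat_lit 183) (fin (add (start D7679) D9699))))))))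
noncomputable def D13181 : OP := win (nat_lit 5) (nat_lit 5) (nat_lit 9) (nat_lit 0)
noncomputable def D24543 : OP := orK (nat_lit 166) (fin (add (add (start D7744) (orK (nat_lit 188) (fin (add (add (add (start (orK (nat_lit 189) (fin (add (start D369) D7970)))) D12696) (orK (nat_lit 206) (fin (add (add (start (orK (nat_lit 205) (fin (add (start D2363) D13181)))) (orK (nat_lit 189) (fin (add (start D129) D24499)))) (orK (nat_lit 205) (fin (add (start D2363) (orK (nat_lit 225) (fin (add (start D3023) D24502)))))))))) (orK (nat_lit 168) (fin (add (start D23941) (orK (nat_lit 185) (fin (add (start D9698) (orK (nat_lit 165) (fin (add (start D357) D9705))))))))))))) (orK (nat_lit 146) (fin (add (start D370) (orK (nat_lit 188) (fin (add (add (add (start D12696) (orK (nat_lit 168) (fin (add (start D23941) (orK (nat_lit 169) D24519))))) (orK (nat_lit 165) (fin (add (start D12694) (orK (nat_lit 164) (fin (add (start D4163) (orK (nat_lit 148) (fin (add (start (orK (nat_lit 147) (fin (add (start D24527) D18474)))) (orK (nat_lit 168) D23940))))))))))) (orK (nat_lit 168) (fin (add (start D23941) D10502)))))))))))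
noncomputable def D5664 : OP := win (nat_lit 3) (nat_lit 7) (nat_lit 9) (nat_lit 4)
noncomputable def D5666 : OP := orK (nat_lit 188) (fin (add (start D41) D5664))
noncomputable def D24051 : OP := orK (nat_lit 266) (fin (add (start D1301) (orK (nat_lit 267) (fin (add (start D1302) D5666)))))
noncomputable def D24491 : OP := orK (nat_lit 247) (fin (add (start D140) D24051))
noncomputable def D3814 : OP := win (nat_lit 7) (nat_lit 4) (nat_lit 9) (nat_lit 5)
noncomputable def D10415 : OP := win (nat_lit 5) (nat_lit 4) (nat_lit 9) (nat_lit 3)
noncomputable def D4840 : OP := win (nat_lit 4) (nat_lit 6) (nat_lit 11) (nat_lit 4)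
noncomputable def D10433 : OP := orK (nat_lit 246) (fin (add (start D134) (orK (nat_lit 248) (fin (add (start D1369) (orK (nat_lit 249) (fin (add (start D4840) (orK (nat_lit 225) (fin (add (start D624) (orK (nat_lit 245) (fin (add (start D136) (orK (nat_lit 265) (fin (add (start D138) (orK (nat_lit 205) (fin (add (start D4795) (orK (nat_lit 188) (fin (add (start D41) (orK (nat_lit 204) (fin (add (start D10415) D3814))))))))))))))))))))))))))
noncomputable def D24487 : OP := orK (nat_lit 188) (fin (add (start D41) (orK (nat_lit 267) (fin (add (start D5664) D1803)))))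
noncomputable def D5681 : OP := orK (nat_lit 167) D5680
noncomputable def D1806 : AP := fin (add (start D574) D1805)
noncomputable def D5679 : OP := orK (nat_lit 267) (fin (add (start D5666) D574))
noncomputable def D3222 : OP := orK (nat_lit 268) (fin (add (start D571) (orK (nat_lit 267) (fin (add (start D572) D1805)))))
noncomputable def D4864 : OP := orK (nat_lit 167) (fin (add (start D872) D1743))
noncomputable def D4866 : OP := orK (nat_lit 246) (fin (add (start D134) D4864))
noncomputable def D9558 : OP := orK (nat_lit 247) (fin (add (add (start D4866) D3218) D3222))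
noncomputable def D6194 : AP := fin (add (start D1484) (orK (nat_lit 168) (fin (add (start D1307) D6191))))
noncomputable def D4260 : OP := orK (nat_lit 147) (fin (add (start D3202) D1384))
noncomputable def D4262 : OP := orK (nat_lit 226) (fin (add (start D2035) D4260))
noncomputable def D5697 : OP := orK (nat_lit 167) D5696
noncomputable def D24476 : OP := orK (nat_lit 247) (fin (add (add (start D5697) D1306) D5679))
noncomputable def D24546 : AP := fin (add (add (add (add (start D24476) (orK (nat_lit 167) (fin (add (add (start D4262) (orK (nat_lit 166) D6194)) D4266)))) D9558) (orK (nat_lit 247) (fin (add (add (start D5679) (orK (nat_lit 267) D1806)) D5681)))) (orK (nat_lit 186) (fin (add (add (add (start D7746) (orK (nat_lit 247) (fin (add (add (add (start D7750) D24487) D24051) D10433)))) D24491) D24543))))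
noncomputable def D28992 : AP := fin (add (add (add (add (add (add (add (add (add (add (add (add (add (start (orK (nat_lit 209) (fin (add (add (add (start D4094) D27359) (orK (nat_lit 189) (fin (add (add (add (add (start D27369) (orK (nat_lit 188) (fin (add (start D1538) (orK (nat_lit 190) D8068))))) (orK (nat_lit 169) (fin (add (start D1507) (orK (nat_lit 170) (fin (add (add (start D27377) (orK (nat_lit 168) (fin (add (start D27398) D27399)))) D27407))))))) (orK (nat_lit 190) (fin (add (add (start D27412) D8069) D2710)))) D27428)))) D27432)))) (orK (nat_lit 227) D24546)) (orK (nat_lit 189) (fin (add (add (add (add (add (add (add (add (add (start (orK (nat_lit 190) (fin (add (add (add (add (start (orK (nat_lit 188) D26081)) (orK (nat_lit 188) D27453)) (orK (nat_lit 170) D5997)) (orK (nat_lit 188) D27473)) (orK (nat_lit 188) D27497))))) (orK (nat_lit 188) (fin (add (add (start D27501) D27505) D15395)))) (orK (nat_lit 188) (fin (add (add (add (start D27501) D27509) D27447) D15395)))) (orK (nat_lit 188) (fin (add (add (add (start D7972) D26082) D27509) D27521)))) (orK (nat_lit 188) (fin (add (add (start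 (orK (nat_lit 190) D27473)) D27534) D15395)))) (orK (nat_lit 188) (fin (add (add (start D27537) (orK (nat_lit 190) D27497)) D15395)))) (orK (nat_lit 167) D27743)) (orK (nat_lit 169) (fin (add (add (add (add (add (add (add (add (add (start (orK (nat_lit 209) (fin (add (start D1507) (orK (nat_lit 168) (fin (add (add (start (orK (nat_lit 186) (fin (add (start D6073) (orK (nat_lit 167) D7882))))) (orK (nat_lit 148) (fin (add (start D1858) (orK (nat_lit 128) (fin (add (start D7367) D1013))))))) (orK (nat_lit 148) (fin (add (start D1858) (orK (nat_lit 128) (fin (add (start D1013) (orK (nat_lit 167) (fin (add (start D7375) D21551)))))))))))))))) D21296) D21284) D21337) D7956) D21396) D21415) (orK (nat_lit 149) D23930)) D21541) D21548)))) (orK (nat_lit 188) (fin (add (add (add (add (add (start D27447) D27505) (orK (nat_lit 190) (fin (add (add (add (start D26080) (orK (nat_lit 170) (fin (add (start D6089) (orK (nat_lit 229) (fin (add (start D28) (orK (nat_lit 150) (fin (add (start D936) (orK (nat_lit 131) (fin (add (start D780) D255))))))))))))) D27472) D27496)))) D27521) D27534) D26102)))) (orK (nat_lit 188)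 (fin (add (add (add (start D15395) D26082) (orK (nat_lit 186) (fin (add (add (add (start D10524) (orK (nat_lit 169) D21542)) D15856) (orK (nat_lit 166) (fin (add (start D369) (orK (nat_lit 206) (fin (add (start D7968) (orK (nat_lit 146) (fin (add (start D370) (orK (nat_lit 147) (fin (add (start D17385) (orK (nat_lit 167) (fin (add (start D1445) (orK (nat_lit 148) (fin (add (start D1381) (orK (nat_lit 169) (fin (add (start D7878) (orK (nat_lit 145) (fin (add (start D7102) D7904)))))))))))))))))))))))))))) D26102))))))) (orK (nat_lit 188) D27962)) (orK (nat_lit 208) (fin (add (add (start D3952) (orK (nat_lit 206) D28246)) D17)))) (orK (nat_lit 209) (fin (add (add (add (start D4094) D27359) (orK (nat_lit 189) D28406)) D27432)))) (orK (nat_lit 209) (fin (add (add (add (start D4094) D27359) (orK (nat_lit 189) (fin (add (add (add (add (start D27369) (orK (nat_lit 186) (fin (add (start D6073) (orK (nat_lit 227) (fin (add (add (add (start D7746) D7762) D7766) (orK (nat_lit 166) (fin (add (add (start D7744) (orK (nat_lit 167) (fin (add (add (start D12847) (orK (nat_lit 226) (fin (add (start D2035) (orK (nat_lit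 147) (fin (add (start D3202) (orK (nat_lit 127) (fin (add (start D12185) D7326)))))))))) (orK (nat_lit 226) (fin (add (start D2035) (orK (nat_lit 206) (fin (add (start D4140) (orK (nat_lit 225) (fin (add (start D7779) (orK (nat_lit 224) (fin (add (start D3065) (orK (nat_lit 204) (fin (add (start D4295) (orK (nat_lit 165) (fin (add (start D7782) D7808)))))))))))))))))))))) D7764)))))))))) (orK (nat_lit 190) (fin (add (add (start D27412) D8069) (orK (nat_lit 170) D3000))))) (orK (nat_lit 167) (fin (add (add (add (add (add (start (orK (nat_lit 168) (fin (add (start D7379) (orK (nat_lit 169) (fin (add (add (start (orK (nat_lit 170) (fin (add (start D1063) D27648)))) (orK (nat_lit 166) (fin (add (start D502) D6808)))) D27567))))))) D17782) (orK (nat_lit 168) (fin (add (add (add (start D28453) (orK (nat_lit 148) (fin (add (start D1579) (orK (nat_lit 169) (fin (add (start D1858) (orK (nat_lit 170) D28458)))))))) (orK (nat_lit 169) (fin (add (add (add (start D27564) (orK (nat_lit 166) (fin (add (start D502) D27628)))) D27567) D21551)))) (orK (nat_lit 148) (fin (add (start D1579) (orK (nat_lit 108) (fin (add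 (start D9242) (orK (nat_lit 169) (fin (add (start D1858) D27567))))))))))))) D28478) D28481) D27561)))) (orK (nat_lit 188) (fin (add (start D1538) (orK (nat_lit 168) (fin (add (add (start D8165) (orK (nat_lit 190) (fin (add (start D27365) (orK (nat_lit 167) (fin (add (start D352) D910))))))) (orK (nat_lit 148) (fin (add (start D158) (orK (nat_lit 229) (fin (add (start (win (nat_lit 7) (nat_lit 8) (nat_lit 7) (nat_lit 3))) D1537)))))))))))))))) D27432)))) (orK (nat_lit 209) (fin (add (add (start D4094) (orK (nat_lit 189) (fin (add (add (add (add (add (start D27369) (orK (nat_lit 188) (fin (add (start D1538) (orK (nat_lit 190) (fin (add (start D353) (orK (nat_lit 169) (fin (add (start D1507) (orK (nat_lit 168) (fin (add (start (orK (nat_lit 148) (fin (add (start D158) D1858)))) D17980))))))))))))) (orK (nat_lit 169) (fin (add (start D1507) (orK (nat_lit 170) (fin (add (add (add (start D27377) (orK (nat_lit 168) (fin (add (start (orK (nat_lit 167) (fin (add (start D1063) (orK (nat_lit 148) (fin (add (start D1579) D1858))))))) D27398)))) D27407) (orK (nat_lit 168) (fin (add (add (start (orK (nat_lit 167)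 D28458)) D7007) D27398)))))))))) (orK (nat_lit 229) (fin (add (add (add (add (start (orK (nat_lit 249) (fin (add (start D1532) (orK (nat_lit 190) (fin (add (start D317) (orK (nat_lit 188) (fin (add (start D353) D10482)))))))))) (orK (nat_lit 169) (fin (add (start D1507) (orK (nat_lit 168) (fin (add (start D1111) (orK (nat_lit 249) (fin (add (start D1526) (orK (nat_lit 248) (fin (add (start D1670) D1668))))))))))))) (orK (nat_lit 169) (fin (add (start D1507) (orK (nat_lit 170) (fin (add (start D1513) (orK (nat_lit 249) (fin (add (start D1649) D1532)))))))))) (orK (nat_lit 169) (fin (add (start D1507) (orK (nat_lit 168) (fin (add (start D1111) (orK (nat_lit 170) (fin (add (start D1513) (orK (nat_lit 188) (fin (add (start D1826) D1537))))))))))))) (orK (nat_lit 169) (fin (add (start D1507) (orK (nat_lit 170) (fin (add (start D1513) (orK (nat_lit 168) (fin (add (start D1111) (orK (nat_lit 171) (fin (add (start D1064) D27382)))))))))))))))) D27428) (orK (nat_lit 188) (fin (add (start D1538) (orK (nat_lit 190) (fin (add (start D353) (orK (nat_lit 170) (fin (add (start D6089) (orK (nat_lit 150) (fin (add (start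 D1011) (orK (nat_lit 149) (fin (add (start D6038) D252))))))))))))))))))) D27359)))) (orK (nat_lit 208) (fin (add (add (start D1263) (orK (nat_lit 167) (fin (add (add (add (add (add (start D26684) (orK (nat_lit 147) (fin (add (add (start D26358) D17322) D28592)))) (orK (nat_lit 166) (fin (add (add (add (start (orK (nat_lit 227) (fin (add (start D1484) D27985)))) (orK (nat_lit 168) (fin (add (add (start (orK (nat_lit 227) (fin (add (start D1307) D1484)))) D28600) D6817)))) (orK (nat_lit 168) (fin (add (add (start D7371) D28600) (orK (nat_lit 165) (fin (add (add (start D6174) D4181) (orK (nat_lit 188) (fin (add (start D5551) (orK (nat_lit 227) (fin (add (start D38) (orK (nat_lit 185) (fin (add (start D444) D28610)))))))))))))))) (orK (nat_lit 165) (fin (add (add (add (start (orK (nat_lit 188) D26205)) (orK (nat_lit 164) (fin (add (start D6171) D11218)))) D27316) (orK (nat_lit 184) (fin (add (add (add (start (orK (nat_lit 183) (fin (add (start D16884) (orK (nat_lit 185) (fin (add (start D9699) D16874))))))) (orK (nat_lit 168) (fin (add (start D4170) (orK (nat_lit 145) (fin (add (start D443) (orK (nat_lit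 169) (fin (add (start D442) D6497)))))))))) (orK (nat_lit 183) (fin (add (start D16884) (orK (nat_lit 185) (fin (add (start D9699) (orK (nat_lit 205) (fin (add (start D4369) D11153)))))))))) (orK (nat_lit 164) (fin (add (start D4171) (orK (nat_lit 144) (fin (add (start D461) (orK (nat_lit 145) (fin (add (start D16898) D16913))))))))))))))))))) (orK (nat_lit 147) (fin (add (add (start D26381) D17210) D28592)))) (orK (nat_lit 147) (fin (add (start D26358) D17210)))) D28481)))) D5661)))) (orK (nat_lit 209) (fin (add (add (start D4094) (orK (nat_lit 167) (fin (add (add (add (add (add (add (add (start D27550) (orK (nat_lit 227) (fin (add (add (start (orK (nat_lit 168) (fin (add (start D1307) (orK (nat_lit 166) (fin (add (start D1484) (orK (nat_lit 169) (fin (add (start D28671) D5960)))))))))) D17778) (orK (nat_lit 226) (fin (add (start D2035) (orK (nat_lit 168) (fin (add (start D1307) (orK (nat_lit 166) (fin (add (start D1484) (orK (nat_lit 169) (fin (add (add (add (start D28671) (orK (nat_lit 190) (fin (add (start D1116) (orK (nat_lit 170) (fin (add (start D945) (orK (nat_lit 150) (fin (add (start D20)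 D1998)))))))))) D28689) (orK (nat_lit 149) (fin (add (start D1485) D1552))))))))))))))))))) (orK (nat_lit 226) (fin (add (add (add (start (orK (nat_lit 227) (fin (add (start D2035) (orK (nat_lit 168) (fin (add (start D1307) (orK (nat_lit 169) (fin (add (add (add (start D5896) D21551) (orK (nat_lit 149) (fin (add (start D1552) (orK (nat_lit 166) (fin (add (start D1485) D17607))))))) (orK (nat_lit 149) (fin (add (start D1552) (orK (nat_lit 150) (fin (add (start D6985) (orK (nat_lit 170) (fin (add (start D1998) D1553))))))))))))))))))) D17262) D17265) (orK (nat_lit 147) (fin (add (start D3202) (orK (nat_lit 148) (fin (add (start D1381) (orK (nat_lit 168) (fin (add (start D1579) (orK (nat_lit 149) (fin (add (start D25994) (orK (nat_lit 169) (fin (add (start D1552) (orK (nat_lit 170) (fin (add (start D3276) D1063)))))))))))))))))))))) D28747) D28478) D28481) D28763) D28785)))) D27359)))) (orK (nat_lit 209) (fin (add (add (start D4094) (orK (nat_lit 167) (fin (add (add (add (add (add (add (add (start D17357) D28747) D17318) (orK (nat_lit 168) (fin (add (add (add (start D7371) (orK (nat_lit 166) (fin (add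 (add (start (orK (nat_lit 185) (fin (add (start (orK (nat_lit 169) (fin (add (start D445) D28689)))) (orK (nat_lit 165) (fin (add (start D444) D6187))))))) (orK (nat_lit 227) (fin (add (start D1484) D28802)))) (orK (nat_lit 146) (fin (add (start D6389) D6815))))))) D28453) (orK (nat_lit 169) (fin (add (add (start D5901) D17241) D5941))))))) D27688) D28814) D17356) D28785)))) D28817)))) (orK (nat_lit 209) (fin (add (add (start D4094) (orK (nat_lit 167) (fin (add (add (add (add (add (add (add (start D17357) D28747) D17318) (orK (nat_lit 168) (fin (add (add (add (start D7371) (orK (nat_lit 169) (fin (add (start (orK (nat_lit 149) (fin (add (start D1552) D28825)))) D5901)))) D28453) (orK (nat_lit 186) (fin (add (add (start (orK (nat_lit 189) (fin (add (start D6073) (orK (nat_lit 169) (fin (add (start D5556) D1507))))))) (orK (nat_lit 185) (fin (add (start D4182) (orK (nat_lit 169) (fin (add (start D5903) D5556))))))) (orK (nat_lit 188) (fin (add (start D12541) (orK (nat_lit 148) (fin (add (start D158) (orK (nat_lit 185) (fin (add (start D4182) (orK (nat_lit 165) (fin (add (start D357) (orK (nat_lit 166)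 (fin (add (start D6446) (orK (nat_lit 145) (fin (add (start D443) D26772))))))))))))))))))))))))) D27688) D28814) D17356) D28785)))) D28817)))) (orK (nat_lit 208) (fin (add (add (start D3952) (orK (nat_lit 167) D28986)) D5661)))) (orK (nat_lit 208) (fin (add (add (start D3952) D27356) D1290))))
noncomputable def D26850 : AP := fin (add (start D1445) D851)
noncomputable def D1586 : OP := win (nat_lit 2) (nat_lit 7) (nat_lit 6) (nat_lit 5)
noncomputable def D27202 : OP := orK (nat_lit 128) (fin (add (start D1586) (orK (nat_lit 168) (fin (add (start D522) (win (nat_lit 5) (nat_lit 7) (nat_lit 7) (nat_lit 5)))))))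
noncomputable def D26428 : OP := win (nat_lit 7) (nat_lit 7) (nat_lit 6) (nat_lit 2)
noncomputable def D1228 : OP := win (nat_lit 2) (nat_lit 6) (nat_lit 6) (nat_lit 5)
noncomputable def D27203 : AP := fin (add (start D1228) D26428)
noncomputable def D4021 : AP := fin (add (start D1381) D851)
noncomputable def D27208 : AP := fin (add (start D1229) (orK (nat_lit 187) D4021))
noncomputable def D920 : OP := win (nat_lit 6) (nat_lit 7) (nat_lit 6) (nat_lit 3)
noncomputable def D1227 : OP := win (nat_lit 2) (nat_lit 7) (nat_lit 6) (nat_lit 4)
noncomputable def D26852 : OP := win (nat_lit 7) (nat_lit 7) (nat_lit 6) (nat_lit 3)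
noncomputable def D918 : OP := win (nat_lit 7) (nat_lit 7) (nat_lit 7) (nat_lit 0)
noncomputable def D26855 : AP := fin (add (start D918) (orK (nat_lit 127) (fin (add (start D919) D26852))))
noncomputable def D12824 : OP := win (nat_lit 7) (nat_lit 5) (nat_lit 7) (nat_lit 0)
noncomputable def D2011 : OP := win (nat_lit 5) (nat_lit 6) (nat_lit 8) (nat_lit 4)
noncomputable def D26849 : OP := orK (nat_lit 187) D26217
noncomputable def D27158 : AP := fin (add (start D918) D26849)
noncomputable def D26902 : AP := fin (add (start D416) (orK (nat_lit 128) (fin (add (start D522) (orK (nat_lit 129) (fin (add (start D6254) (orK (nat_lit 131) (fin (add (start (win (nat_lit 3) (nat_lit 10) (nat_lit 6) (nat_lit 3))) (win (nat_lit 5) (nat_lit 7) (nat_lit 6) (nat_lit 1))))))))))))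
noncomputable def D924 : OP := orK (nat_lit 147) (fin (add (start D918) (orK (nat_lit 127) (fin (add (start D919) D920)))))
noncomputable def D1209 : OP := orK (nat_lit 147) (fin (add (start (win (nat_lit 2) (nat_lit 7) (nat_lit 7) (nat_lit 2))) D416))
noncomputable def D735 : OP := orK (nat_lit 191) D734
noncomputable def D1205 : OP := orK (nat_lit 169) (fin (add (start D269) D735))
noncomputable def D2734 : OP := win (nat_lit 2) (nat_lit 9) (nat_lit 8) (nat_lit 0)
noncomputable def D2966 : OP := win (nat_lit 0) (nat_lit 8) (nat_lit 8) (nat_lit 3)
noncomputable def D11773 : AP := fin (add (start D732) (orK (nat_lit 192) (fin (add (start D2966) D2734))))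
noncomputable def D11774 : OP := orK (nat_lit 191) D11773
noncomputable def D11867 : AP := fin (add (start D158) D1826)
noncomputable def D11907 : OP := orK (nat_lit 187) D11867
noncomputable def D27253 : AP := fin (add (add (add (add (start D259) (orK (nat_lit 169) (fin (add (start D260) (orK (nat_lit 168) (fin (add (add (start (orK (nat_lit 148) (fin (add (add (start D11907) D528) (orK (nat_lit 147) D27100))))) (orK (nat_lit 167) (fin (add (start D945) (orK (nat_lit 147) (fin (add (start D985) (orK (nat_lit 187) (fin (add (start D1063) D850)))))))))) D11774))))))) (orK (nat_lit 168) (fin (add (add (add (add (add (start (orK (nat_lit 171) (fin (add (start D45) D1205)))) (orK (nat_lit 171) (fin (add (start D45) (orK (nat_lit 148) (fin (add (add (start (orK (nat_lit 187) (fin (add (start D158) D1199)))) D528) D1209))))))) (orK (nat_lit 167) (fin (add (add (start (orK (nat_lit 147) (fin (add (start D918) (orK (nat_lit 169) (fin (add (start D945) D985))))))) (orK (nat_lit 169) (fin (add (start D945) (orK (nat_lit 187) (fin (add (start D1063) D1826))))))) D924)))) (orK (nat_lit 147) (fin (add (add (add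 (start (orK (nat_lit 151) (fin (add (start D22) (orK (nat_lit 167) (fin (add (start D918) (orK (nat_lit 187) (fin (add (start D1445) (orK (nat_lit 148) (fin (add (start D158) (orK (nat_lit 146) (fin (add (start D1376) (orK (nat_lit 145) (fin (add (start D8140) D27145))))))))))))))))))) (orK (nat_lit 167) D27158)) (orK (nat_lit 151) (fin (add (start D22) (orK (nat_lit 148) D26902))))) (orK (nat_lit 127) (fin (add (start D26852) (orK (nat_lit 167) (fin (add (start D919) D918)))))))))) (orK (nat_lit 167) (fin (add (add (start (orK (nat_lit 169) (fin (add (start D945) (orK (nat_lit 147) (fin (add (start D985) D918))))))) (orK (nat_lit 147) D27158)) (orK (nat_lit 169) (fin (add (start D945) (orK (nat_lit 150) (fin (add (start D1998) (orK (nat_lit 186) (fin (add (start D2011) (orK (nat_lit 166) (fin (add (start D452) (orK (nat_lit 145) (fin (add (start D442) (orK (nat_lit 165) (fin (add (start D443) D12824)))))))))))))))))))))) (orK (nat_lit 151) (fin (add (start D22) (orK (nat_lit 150) (fin (add (start D21) (orK (nat_lit 167) (fin (add (start (win (nat_lit 4) (nat_lit 7) (nat_lit 7) (nat_lit 2))) (orK (nat_lit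 147) D26855)))))))))))))) (orK (nat_lit 151) (fin (add (start D22) (orK (nat_lit 150) (fin (add (start D21) (orK (nat_lit 149) (fin (add (start D252) (orK (nat_lit 148) (fin (add (add (add (add (start D27202) (orK (nat_lit 127) (fin (add (start D1227) (orK (nat_lit 147) D27203))))) (orK (nat_lit 167) (fin (add (start D1226) (orK (nat_lit 147) D27208))))) (orK (nat_lit 167) (fin (add (start D1226) (orK (nat_lit 147) (fin (add (start D1229) (orK (nat_lit 127) (fin (add (start D1228) D920)))))))))) (orK (nat_lit 127) (fin (add (start D1227) (orK (nat_lit 147) (fin (add (start D1228) (orK (nat_lit 167) (fin (add (start D1229) D920)))))))))))))))))))))) (orK (nat_lit 149) (fin (add (start D253) (orK (nat_lit 150) (fin (add (start D252) (orK (nat_lit 148) (fin (add (add (start (orK (nat_lit 131) (fin (add (start D780) (orK (nat_lit 130) (fin (add (start D779) D15004))))))) (orK (nat_lit 147) (fin (add (start (orK (nat_lit 167) D27208)) (orK (nat_lit 127) D27203))))) (orK (nat_lit 151) (fin (add (start D21) D27202)))))))))))))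
noncomputable def D6228 : OP := orK (nat_lit 150) (fin (add (add (add (start D255) (orK (nat_lit 131) (fin (add (start D780) (orK (nat_lit 130) (fin (add (start D779) (orK (nat_lit 169) (fin (add (start D6209) D260)))))))))) (orK (nat_lit 131) (fin (add (start D780) (orK (nat_lit 130) (fin (add (start D779) (orK (nat_lit 110) (fin (add (start (win (nat_lit 1) (nat_lit 9) (nat_lit 5) (nat_lit 4))) D759)))))))))) D6226))
noncomputable def D1196 : OP := orK (nat_lit 172) (fin (add (start (win (nat_lit 5) (nat_lit 8) (nat_lit 8) (nat_lit 3))) D262))
noncomputable def D27078 : OP := orK (nat_lit 189) (fin (add (start D316) (orK (nat_lit 171) (fin (add (start D45) D1196)))))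
noncomputable def D27089 : OP := orK (nat_lit 170) (fin (add (add (add (add (start D259) D27078) (orK (nat_lit 191) (fin (add (start D2625) (orK (nat_lit 169) (fin (add (start D260) (orK (nat_lit 168) D11773)))))))) (orK (nat_lit 191) (fin (add (start D2625) D27052)))) (orK (nat_lit 189) (fin (add (start D316) D6228)))))
noncomputable def D2255 : OP := orK (nat_lit 189) D390
noncomputable def D25929 : OP := orK (nat_lit 189) D392
noncomputable def D1191 : OP := win (nat_lit 2) (nat_lit 7) (nat_lit 10) (nat_lit 3)
noncomputable def D6518 : AP := fin (add (start D28) (orK (nat_lit 231) (fin (add (start D1191) D752))))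
noncomputable def D6519 : OP := orK (nat_lit 229) D6518
noncomputable def D27056 : OP := orK (nat_lit 191) (fin (add (start D2625) (orK (nat_lit 170) (fin (add (start D6519) D27052)))))
noncomputable def D26010 : OP := orK (nat_lit 170) (fin (add (start D6519) D259))
noncomputable def D835 : OP := orK (nat_lit 167) (fin (add (start D833) D342))
noncomputable def D837 : OP := orK (nat_lit 169) (fin (add (start D308) D835))
noncomputable def D843 : OP := orK (nat_lit 229) (fin (add (start D61) (orK (nat_lit 168) (fin (add (start D521) D837)))))
noncomputable def D26025 : AP := fin (add (start D61) D520)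
noncomputable def D26026 : OP := orK (nat_lit 229) D26025
noncomputable def D81 : AP := fin (add (start D79) D80)
noncomputable def D82 : OP := orK (nat_lit 246) D81
noncomputable def D7132 : OP := win (nat_lit 5) (nat_lit 5) (nat_lit 7) (nat_lit 3)
noncomputable def D7133 : AP := fin (add (start D7120) D7132)
noncomputable def D7135 : AP := fin (add (start D6037) (orK (nat_lit 165) D7133))
noncomputable def D7136 : OP := orK (nat_lit 166) D7135
noncomputable def D14738 : AP := fin (add (start D1228) D1227)
noncomputable def D14739 : OP := orK (nat_lit 127) D14738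
noncomputable def D15241 : OP := orK (nat_lit 151) (fin (add (start D14739) D6062))
noncomputable def D26968 : OP := orK (nat_lit 170) D26244
noncomputable def D16994 : OP := win (nat_lit 3) (nat_lit 6) (nat_lit 7) (nat_lit 0)
noncomputable def D17386 : AP := fin (add (start D17385) D16994)
noncomputable def D19801 : OP := orK (nat_lit 186) D17386
noncomputable def D26978 : OP := orK (nat_lit 187) (fin (add (start D1445) D1381))
noncomputable def D2097 : OP := win (nat_lit 7) (nat_lit 7) (nat_lit 3) (nat_lit 5)
noncomputable def D9267 : OP := orK (nat_lit 87) (fin (add (start D2097) (win (nat_lit 7) (nat_lit 7) (nat_lit 4) (nat_lit 4))))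
noncomputable def D1609 : OP := win (nat_lit 3) (nat_lit 8) (nat_lit 4) (nat_lit 5)
noncomputable def D2075 : OP := win (nat_lit 3) (nat_lit 8) (nat_lit 5) (nat_lit 4)
noncomputable def D11045 : OP := win (nat_lit 3) (nat_lit 6) (nat_lit 7) (nat_lit 2)
noncomputable def D11044 : OP := win (nat_lit 1) (nat_lit 6) (nat_lit 7) (nat_lit 2)
noncomputable def D7183 : OP := orK (nat_lit 131) (fin (add (start D7180) D7181))
noncomputable def D7184 : AP := fin (add (start D6561) D7183)
noncomputable def D26453 : OP := orK (nat_lit 130) D7184
noncomputable def D4055 : OP := orK (nat_lit 130) (fin (add (start D4052) D4053))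
noncomputable def D7115 : OP := orK (nat_lit 126) (fin (add (start D6616) D6014))
noncomputable def D15274 : OP := orK (nat_lit 146) (fin (add (start D7115) D4055))
noncomputable def D18392 : OP := win (nat_lit 2) (nat_lit 5) (nat_lit 6) (nat_lit 3)
noncomputable def D18393 : OP := win (nat_lit 0) (nat_lit 4) (nat_lit 6) (nat_lit 0)
noncomputable def D7277 : OP := win (nat_lit 2) (nat_lit 6) (nat_lit 6) (nat_lit 0)
noncomputable def D26434 : OP := orK (nat_lit 127) (fin (add (start D26428) (orK (nat_lit 126) (fin (add (start D7277) (orK (nat_lit 125) (fin (add (start D18393) D18392))))))))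
noncomputable def D7244 : OP := orK (nat_lit 167) (fin (add (start D1229) D1226))
noncomputable def D26851 : OP := orK (nat_lit 187) D26850
noncomputable def D26913 : OP := orK (nat_lit 151) (fin (add (start D22) (orK (nat_lit 150) (fin (add (start D21) (orK (nat_lit 149) (fin (add (start D252) D14739))))))))
noncomputable def D26905 : OP := orK (nat_lit 151) (fin (add (start D22) (orK (nat_lit 168) D26902)))
noncomputable def D26889 : OP := orK (nat_lit 151) (fin (add (start D22) (orK (nat_lit 150) (fin (add (start D21) (orK (nat_lit 149) D14738))))))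
noncomputable def D1556 : OP := win (nat_lit 0) (nat_lit 7) (nat_lit 7) (nat_lit 3)
noncomputable def D26882 : OP := orK (nat_lit 171) (fin (add (start D45) (orK (nat_lit 149) (fin (add (start D1556) D26878)))))
noncomputable def D16253 : OP := orK (nat_lit 125) (fin (add (start D7104) (orK (nat_lit 145) (fin (add (start D7103) D7109)))))
noncomputable def D26874 : OP := orK (nat_lit 171) (fin (add (start D45) (orK (nat_lit 149) (fin (add (start D1556) (orK (nat_lit 129) (fin (add (start D26298) (orK (nat_lit 146) (fin (add (start D6617) D16253)))))))))))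
noncomputable def D26866 : OP := orK (nat_lit 168) (fin (add (start D416) D6259))
noncomputable def D5597 : OP := orK (nat_lit 249) (fin (add (start D317) D518))
noncomputable def D27041 : AP := fin (add (add (add (add (add (start (orK (nat_lit 167) (fin (add (add (start D26849) D26851) (orK (nat_lit 168) D26855))))) (orK (nat_lit 228) (fin (add (start (orK (nat_lit 167) D483)) (orK (nat_lit 229) (fin (add (start D61) D5597))))))) (orK (nat_lit 229) (fin (add (add (add (start (orK (nat_lit 170) D6518)) (orK (nat_lit 148) (fin (add (add (add (add (add (start D26866) (orK (nat_lit 170) (fin (add (start D28) D26874)))) (orK (nat_lit 170) (fin (add (start D28) D26882)))) (orK (nat_lit 170) (fin (add (start D28) (orK (nat_lit 127) (fin (add (start D26428) D26889))))))) (orK (nat_lit 170) (fin (add (start D28) D26905)))) (orK (nat_lit 170) (fin (add (start D28) D26913))))))) (orK (nat_lit 228) D26025)) (orK (nat_lit 231) (fin (add (start D1191) (orK (nat_lit 148) (fin (add (add (add (add (add (start D26866) (orK (nat_lit 170) (fin (add (start D752) D26874)))) (orK (nat_lit 170) (fin (add (start D752) D26882))))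 (orK (nat_lit 127) (fin (add (start D26428) (orK (nat_lit 170) (fin (add (start D752) D26889))))))) (orK (nat_lit 170) (fin (add (start D752) D26905)))) (orK (nat_lit 170) (fin (add (start D752) D26913))))))))))))) (orK (nat_lit 167) (fin (add (add (start D26849) (orK (nat_lit 170) (fin (add (start D6519) (orK (nat_lit 151) (fin (add (start D22) (orK (nat_lit 150) (fin (add (start D21) (orK (nat_lit 149) (fin (add (start D252) (orK (nat_lit 148) (fin (add (start D1229) D14739)))))))))))))))) D26851)))) (orK (nat_lit 170) (fin (add (start D6519) (orK (nat_lit 151) (fin (add (start D22) (orK (nat_lit 150) (fin (add (start D21) (orK (nat_lit 149) (fin (add (start D252) (orK (nat_lit 148) (fin (add (start D14739) D7244)))))))))))))))) (orK (nat_lit 148) (fin (add (add (add (add (start (orK (nat_lit 149) (fin (add (add (add (start D26878) (orK (nat_lit 129) (fin (add (start D26298) (orK (nat_lit 130) (fin (add (start D6561) (orK (nat_lit 150) (fin (add (start D4053) (win (nat_lit 7) (nat_lit 9) (nat_lit 6) (nat_lit 2)))))))))))) D26434) (orK (nat_lit 150) (fin (add (add (start D26968) (orK (nat_lit 170)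 (fin (add (start D4051) (orK (nat_lit 131) (fin (add (start D780) D6060))))))) D15274))))))) (orK (nat_lit 167) (fin (add (add (start D26978) (orK (nat_lit 149) (fin (add (add (start (orK (nat_lit 129) (fin (add (start D26298) D26453)))) D7125) (orK (nat_lit 150) (fin (add (start D1229) D26968))))))) (orK (nat_lit 226) (fin (add (start D11044) (orK (nat_lit 166) (fin (add (start D11045) (orK (nat_lit 165) (fin (add (start D7120) (orK (nat_lit 149) (fin (add (start D7121) D7132)))))))))))))))) (orK (nat_lit 168) (fin (add (start D416) (orK (nat_lit 187) (fin (add (start D158) (orK (nat_lit 167) (fin (add (start D1445) (orK (nat_lit 146) (fin (add (start D1376) (orK (nat_lit 145) (fin (add (start D8140) (orK (nat_lit 125) (fin (add (start D7103) (orK (nat_lit 165) (fin (add (start D7147) (orK (nat_lit 166) (fin (add (start D6446) (win (nat_lit 7) (nat_lit 5) (nat_lit 6) (nat_lit 1))))))))))))))))))))))))))) (orK (nat_lit 168) (fin (add (start D416) (orK (nat_lit 128) (fin (add (start D522) (orK (nat_lit 109) (fin (add (start D2075) (orK (nat_lit 108) (fin (add (start D1609) (orK (nat_lit 88) (fin (add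 (start (win (nat_lit 1) (nat_lit 7) (nat_lit 4) (nat_lit 5))) D9267)))))))))))))))) (orK (nat_lit 167) (fin (add (add (add (start D26978) D26849) (orK (nat_lit 149) (fin (add (add (start (orK (nat_lit 146) (fin (add (start (orK (nat_lit 166) (fin (add (start D7139) D19801)))) (orK (nat_lit 145) D27027))))) (orK (nat_lit 150) (fin (add (start D26968) D15241)))) D7136)))) (orK (nat_lit 187) (fin (add (start D1381) D850))))))))))
noncomputable def D25909 : OP := win (nat_lit 0) (nat_lit 5) (nat_lit 10) (nat_lit 5)
noncomputable def D26016 : OP := orK (nat_lit 205) (fin (add (start D2364) (orK (nat_lit 228) (fin (add (start D25909) D4954)))))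
noncomputable def D12896 : OP := win (nat_lit 3) (nat_lit 12) (nat_lit 4) (nat_lit 5)
noncomputable def D12928 : OP := orK (nat_lit 113) (fin (add (start D12896) (win (nat_lit 3) (nat_lit 12) (nat_lit 5) (nat_lit 4))))
noncomputable def D12883 : OP := win (nat_lit 1) (nat_lit 11) (nat_lit 5) (nat_lit 5)
noncomputable def D12930 : OP := orK (nat_lit 112) (fin (add (start D12883) D12928))
noncomputable def D3427 : OP := win (nat_lit 7) (nat_lit 11) (nat_lit 6) (nat_lit 0)
noncomputable def D3426 : OP := win (nat_lit 6) (nat_lit 11) (nat_lit 5) (nat_lit 0)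
noncomputable def D3429 : OP := orK (nat_lit 131) (fin (add (start D3426) D3427))
noncomputable def D8435 : OP := win (nat_lit 1) (nat_lit 11) (nat_lit 4) (nat_lit 0)
noncomputable def D12884 : AP := fin (add (start D8435) D12883)
noncomputable def D12885 : OP := orK (nat_lit 112) D12884
noncomputable def D12886 : OP := win (nat_lit 3) (nat_lit 12) (nat_lit 5) (nat_lit 5)
noncomputable def D12932 : OP := orK (nat_lit 132) (fin (add (add (start (orK (nat_lit 151) (fin (add (start (orK (nat_lit 133) (fin (add (start D12886) (win (nat_lit 4) (nat_lit 9) (nat_lit 6) (nat_lit 1)))))) D3429)))) (orK (nat_lit 151) (fin (add (start D12885) D3429)))) D12930))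
noncomputable def D1561 : OP := win (nat_lit 2) (nat_lit 9) (nat_lit 7) (nat_lit 4)
noncomputable def D1571 : OP := orK (nat_lit 173) (fin (add (start D1561) D288))
noncomputable def D6979 : AP := fin (add (start D2026) D1571)
noncomputable def D6980 : OP := orK (nat_lit 149) D6979
noncomputable def D9222 : OP := orK (nat_lit 149) (fin (add (start D2026) D1561))
noncomputable def D12940 : OP := orK (nat_lit 172) (fin (add (add (add (start (orK (nat_lit 193) (fin (add (start D279) (orK (nat_lit 173) (fin (add (start D280) D9222))))))) D981) D6980) (orK (nat_lit 192) (fin (add (start D982) (orK (nat_lit 152) (fin (add (start D1565) (orK (nat_lit 149) (fin (add (start D2026) D12932)))))))))))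
noncomputable def D1555 : OP := win (nat_lit 0) (nat_lit 6) (nat_lit 7) (nat_lit 0)
noncomputable def D1558 : OP := orK (nat_lit 147) (fin (add (start D1555) D1556))
noncomputable def D1554 : OP := win (nat_lit 2) (nat_lit 8) (nat_lit 7) (nat_lit 0)
noncomputable def D1560 : OP := orK (nat_lit 148) (fin (add (start D1554) D1558))
noncomputable def D8325 : OP := orK (nat_lit 149) (fin (add (start D1553) D1560))
noncomputable def D8646 : OP := win (nat_lit 5) (nat_lit 10) (nat_lit 5) (nat_lit 0)
noncomputable def D9000 : OP := win (nat_lit 4) (nat_lit 9) (nat_lit 5) (nat_lit 0)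
noncomputable def D1589 : OP := win (nat_lit 3) (nat_lit 11) (nat_lit 4) (nat_lit 5)
noncomputable def D12879 : OP := win (nat_lit 6) (nat_lit 11) (nat_lit 4) (nat_lit 0)
noncomputable def D12880 : OP := win (nat_lit 6) (nat_lit 11) (nat_lit 5) (nat_lit 5)
noncomputable def D3458 : OP := orK (nat_lit 131) (fin (add (start D3426) (orK (nat_lit 212) (fin (add (start (win (nat_lit 6) (nat_lit 11) (nat_lit 6) (nat_lit 3))) (win (nat_lit 7) (nat_lit 11) (nat_lit 7) (nat_lit 0)))))))
noncomputable def D12878 : OP := orK (nat_lit 192) (fin (add (start D982) D3458))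
noncomputable def D3446 : OP := win (nat_lit 2) (nat_lit 10) (nat_lit 7) (nat_lit 5)
noncomputable def D12914 : OP := orK (nat_lit 151) (fin (add (start D1910) (orK (nat_lit 172) (fin (add (add (start (orK (nat_lit 153) (fin (add (start D285) (orK (nat_lit 173) (fin (add (start D286) (orK (nat_lit 194) (fin (add (start D1933) (orK (nat_lit 174) (fin (add (start D1934) D3446))))))))))))) D12878) (orK (nat_lit 152) (fin (add (start D1565) (orK (nat_lit 131) (fin (add (add (start (orK (nat_lit 111) (fin (add (start D12879) D12880)))) (orK (nat_lit 132) (fin (add (start D12885) (orK (nat_lit 133) (fin (add (start (orK (nat_lit 192) (fin (add (start D12886) D3427)))) (orK (nat_lit 134) (fin (add (start (win (nat_lit 5) (nat_lit 10) (nat_lit 6) (nat_lit 5))) (win (nat_lit 5) (nat_lit 11) (nat_lit 6) (nat_lit 0)))))))))))) (orK (nat_lit 111) (fin (add (start D12879) (orK (nat_lit 112) (fin (add (start D1589) (orK (nat_lit 132) (fin (add (start D12883) (orK (nat_lit 113) (fin (add (start D12896) (orK (nat_lit 130) (fin (add (start D9000) D8646))))))))))))))))))))))))))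
noncomputable def D1898 : OP := orK (nat_lit 190) (fin (add (start D45) D260))
noncomputable def D13278 : OP := orK (nat_lit 171) (fin (add (add (add (start D1898) D12914) D8325) D12940))
noncomputable def D26315 : OP := win (nat_lit 1) (nat_lit 8) (nat_lit 6) (nat_lit 1)
noncomputable def D26721 : OP := win (nat_lit 6) (nat_lit 7) (nat_lit 6) (nat_lit 2)
noncomputable def D26324 : AP := fin (add (start D17385) (orK (nat_lit 169) (fin (add (start D7878) (orK (nat_lit 145) (fin (add (start D7904) (orK (nat_lit 148) (fin (add (start D7102) (orK (nat_lit 129) (fin (add (start D26315) D7109)))))))))))))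
noncomputable def D26108 : OP := orK (nat_lit 185) (fin (add (start D356) D10520))
noncomputable def D25631 : OP := orK (nat_lit 190) D25630
noncomputable def D11220 : OP := win (nat_lit 7) (nat_lit 4) (nat_lit 6) (nat_lit 3)
noncomputable def D11219 : OP := win (nat_lit 6) (nat_lit 4) (nat_lit 5) (nat_lit 0)
noncomputable def D11222 : OP := orK (nat_lit 124) (fin (add (start D11219) D11220))
noncomputable def D11184 : OP := win (nat_lit 7) (nat_lit 4) (nat_lit 7) (nat_lit 0)
noncomputable def D11223 : AP := fin (add (start D11184) D11222)
noncomputable def D22385 : AP := fin (add (start D22376) D3033)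
noncomputable def D5300 : OP := win (nat_lit 1) (nat_lit 4) (nat_lit 6) (nat_lit 4)
noncomputable def D22463 : OP := orK (nat_lit 204) (fin (add (start D5300) D5299))
noncomputable def D26161 : OP := orK (nat_lit 125) (fin (add (start D22463) D7668))
noncomputable def D26164 : OP := orK (nat_lit 125) (fin (add (start D22463) D3108))
noncomputable def D26166 : OP := orK (nat_lit 145) (fin (add (add (start (orK (nat_lit 225) D22393)) D26164) D7670))
noncomputable def D26147 : OP := orK (nat_lit 164) (fin (add (start D3073) (orK (nat_lit 166) (fin (add (start D9695) D3038)))))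
noncomputable def D26149 : OP := orK (nat_lit 225) (fin (add (start D26147) D22382))
noncomputable def D10837 : OP := win (nat_lit 3) (nat_lit 4) (nat_lit 9) (nat_lit 0)
noncomputable def D10850 : OP := win (nat_lit 1) (nat_lit 4) (nat_lit 7) (nat_lit 0)
noncomputable def D11586 : AP := fin (add (start D10850) (orK (nat_lit 244) (fin (add (start (win (nat_lit 1) (nat_lit 4) (nat_lit 8) (nat_lit 3))) D10837))))
noncomputable def D22416 : OP := orK (nat_lit 224) D11586
noncomputable def D26649 : OP := orK (nat_lit 224) (fin (add (start D3064) D4426))
noncomputable def D26294 : OP := orK (nat_lit 205) (fin (add (start D2363) (orK (nat_lit 185) (fin (add (start D3060) (orK (nat_lit 225) (fin (add (start D3061) (orK (nat_lit 165) (fin (add (start D26286) D3027)))))))))))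
noncomputable def D26337 : OP := orK (nat_lit 129) (fin (add (start D26298) D6617))
noncomputable def D26218 : OP := orK (nat_lit 167) D26217
noncomputable def D26468 : AP := fin (add (start D1555) D6229)
noncomputable def D26493 : OP := orK (nat_lit 169) D26468
noncomputable def D26482 : AP := fin (add (start D6615) D492)
noncomputable def D26297 : OP := win (nat_lit 1) (nat_lit 8) (nat_lit 6) (nat_lit 2)
noncomputable def D26425 : OP := orK (nat_lit 129) (fin (add (start D26297) (orK (nat_lit 130) D21362)))
noncomputable def D6100 : AP := fin (add (start D1556) D1554)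
noncomputable def D6101 : OP := orK (nat_lit 171) D6100
noncomputable def D15239 : OP := orK (nat_lit 151) (fin (add (start D7240) D14739))
noncomputable def D26470 : AP := fin (add (start D492) (orK (nat_lit 170) D26468))
noncomputable def D26300 : OP := orK (nat_lit 129) (fin (add (start D26297) D26298))
noncomputable def D26439 : OP := orK (nat_lit 149) (fin (add (add (start D26300) D26434) (orK (nat_lit 129) (fin (add (start D26297) (orK (nat_lit 130) D21422))))))
noncomputable def D7158 : OP := orK (nat_lit 125) (fin (add (start D7104) (orK (nat_lit 145) (fin (add (start D7103) D7111)))))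
noncomputable def D14930 : OP := win (nat_lit 2) (nat_lit 8) (nat_lit 6) (nat_lit 0)
noncomputable def D16985 : OP := orK (nat_lit 146) (fin (add (add (start D7115) (orK (nat_lit 129) (fin (add (start D6617) (orK (nat_lit 128) (fin (add (start D7253) (orK (nat_lit 151) (fin (add (start D1586) D14930)))))))))) D7158))
noncomputable def D8240 : OP := win (nat_lit 4) (nat_lit 9) (nat_lit 6) (nat_lit 5)
noncomputable def D8239 : OP := win (nat_lit 4) (nat_lit 8) (nat_lit 6) (nat_lit 4)
noncomputable def D9439 : OP := orK (nat_lit 132) (fin (add (start D8239) D8240))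
noncomputable def D13707 : OP := win (nat_lit 0) (nat_lit 9) (nat_lit 7) (nat_lit 5)
noncomputable def D13706 : OP := win (nat_lit 0) (nat_lit 8) (nat_lit 7) (nat_lit 4)
noncomputable def D13717 : OP := orK (nat_lit 172) (fin (add (start D13706) (orK (nat_lit 152) (fin (add (start D13707) D9439)))))
noncomputable def D16977 : OP := orK (nat_lit 127) (fin (add (start D1228) (orK (nat_lit 151) (fin (add (start D1227) D13717)))))
noncomputable def D13872 : OP := win (nat_lit 2) (nat_lit 9) (nat_lit 6) (nat_lit 0)
noncomputable def D8866 : OP := win (nat_lit 2) (nat_lit 8) (nat_lit 6) (nat_lit 5)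
noncomputable def D14269 : OP := win (nat_lit 4) (nat_lit 10) (nat_lit 6) (nat_lit 5)
noncomputable def D14268 : OP := win (nat_lit 4) (nat_lit 9) (nat_lit 6) (nat_lit 4)
noncomputable def D14313 : OP := orK (nat_lit 133) (fin (add (start D14268) D14269))
noncomputable def D15075 : OP := win (nat_lit 2) (nat_lit 9) (nat_lit 6) (nat_lit 4)
noncomputable def D15124 : OP := orK (nat_lit 153) (fin (add (start D15075) D14313))
noncomputable def D16971 : OP := orK (nat_lit 151) (fin (add (add (add (start D6062) D13717) (orK (nat_lit 172) (fin (add (start D13706) (orK (nat_lit 152) (fin (add (start D13707) (orK (nat_lit 129) (fin (add (start D8866) D15124)))))))))) (orK (nat_lit 130) (fin (add (start D4053) (orK (nat_lit 129) (fin (add (start D6561) (orK (nat_lit 152) (fin (add (start D8866) D13872)))))))))))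
noncomputable def D14455 : OP := orK (nat_lit 126) (fin (add (start D6014) (orK (nat_lit 146) (fin (add (start D6616) D4055)))))
noncomputable def D18401 : OP := orK (nat_lit 150) (fin (add (add (add (start D14455) D16971) D16977) D16985))
noncomputable def D13511 : AP := fin (add (start D4051) (orK (nat_lit 130) (fin (add (start D6209) D4053))))
noncomputable def D7209 : AP := fin (add (start D1555) D6101)
noncomputable def D7210 : OP := orK (nat_lit 170) D7209
noncomputable def D6066 : OP := orK (nat_lit 171) (fin (add (start D6058) (orK (nat_lit 151) (fin (add (start D6059) D6062)))))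
noncomputable def D7150 : OP := orK (nat_lit 165) (fin (add (start D7147) D7148))
noncomputable def D18407 : OP := orK (nat_lit 125) (fin (add (start D7104) (orK (nat_lit 145) (fin (add (start D7103) D7150)))))
noncomputable def D2348 : OP := win (nat_lit 6) (nat_lit 6) (nat_lit 9) (nat_lit 5)
noncomputable def D22890 : OP := win (nat_lit 2) (nat_lit 4) (nat_lit 11) (nat_lit 0)
noncomputable def D2416 : OP := win (nat_lit 1) (nat_lit 5) (nat_lit 8) (nat_lit 0)
noncomputable def D2417 : OP := win (nat_lit 1) (nat_lit 5) (nat_lit 9) (nat_lit 5)
noncomputable def D10548 : OP := win (nat_lit 7) (nat_lit 5) (nat_lit 8) (nat_lit 0)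
noncomputable def D20389 : OP := win (nat_lit 5) (nat_lit 2) (nat_lit 7) (nat_lit 5)
noncomputable def D16868 : OP := win (nat_lit 0) (nat_lit 2) (nat_lit 7) (nat_lit 0)
noncomputable def D11146 : OP := orK (nat_lit 126) (fin (add (start D3098) (orK (nat_lit 125) (fin (add (start D3099) D3108)))))
noncomputable def D5303 : AP := fin (add (start D5299) (orK (nat_lit 125) (fin (add (start D5300) D3108))))
noncomputable def D22386 : OP := orK (nat_lit 145) D22385
noncomputable def D25650 : AP := fin (add (add (start D24435) D3150) D12505)
noncomputable def D26847 : AP := fin (add (add (add (add (add (add (add (add (add (start (orK (nat_lit 205) (fin (add (add (add (start D2388) (orK (nat_lit 185) D26135)) (orK (nat_lit 206) D25650)) (orK (nat_lit 185) (fin (add (add (add (start D26134) D26143) (orK (nat_lit 165) (fin (add (add (add (add (start D26149) (orK (nat_lit 166) (fin (add (start (orK (nat_lit 167) (fin (add (start D5550) (orK (nat_lit 168) (fin (add (start D5551) D444))))))) D11153)))) (orK (nat_lit 225) (fin (add (add (start D22382) (orK (nat_lit 245) D26156)) D22386)))) D26166) (orK (nat_lit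 166) (fin (add (add (start (orK (nat_lit 145) (fin (add (add (add (start (orK (nat_lit 204) (fin (add (start D5299) (orK (nat_lit 125) (fin (add (start D5300) D7668))))))) (orK (nat_lit 204) D5303)) D11146) (orK (nat_lit 204) (fin (add (start D5299) (orK (nat_lit 146) (fin (add (start D3029) (orK (nat_lit 144) (fin (add (start D3030) (orK (nat_lit 143) (fin (add (start D16868) (orK (nat_lit 123) (fin (add (start D7892) (orK (nat_lit 163) (fin (add (start D20389) (orK (nat_lit 183) (fin (add (start (win (nat_lit 6) (nat_lit 3) (nat_lit 6) (nat_lit 4))) (orK (nat_lit 182) (fin (add (start (win (nat_lit 1) (nat_lit 2) (nat_lit 6) (nat_lit 5))) (win (nat_lit 5) (nat_lit 2) (nat_lit 8) (nat_lit 2)))))))))))))))))))))))))))))) (orK (nat_lit 167) (fin (add (start (orK (nat_lit 145) (fin (add (add (start (orK (nat_lit 146) (fin (add (start D3029) (orK (nat_lit 144) (fin (add (start D6398) D3030))))))) D26161) D26164)))) D26202)))) (orK (nat_lit 167) D26205)))))))) D26212))))))) (orK (nat_lit 206) (fin (add (add (start D2366) (orK (nat_lit 190) (fin (add (start D24644) (orK (nat_lit 147) (fin (add (start D26255)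 (orK (nat_lit 226) (fin (add (start (win (nat_lit 1) (nat_lit 6) (nat_lit 7) (nat_lit 1))) (orK (nat_lit 186) (fin (add (add (start (orK (nat_lit 185) (fin (add (start D356) (orK (nat_lit 165) (fin (add (start D357) D10548))))))) (orK (nat_lit 246) (fin (add (start D708) (orK (nat_lit 245) (fin (add (start D2417) (orK (nat_lit 225) (fin (add (start D2416) (orK (nat_lit 224) (fin (add (start D3065) (orK (nat_lit 247) (fin (add (start D22890) D2348)))))))))))))))) (orK (nat_lit 185) (fin (add (start D356) (orK (nat_lit 165) (fin (add (start D357) (orK (nat_lit 145) (fin (add (start D7651) (win (nat_lit 7) (nat_lit 5) (nat_lit 7) (nat_lit 3)))))))))))))))))))))))) D26294)))) (orK (nat_lit 189) (fin (add (add (start D131) D26106) (orK (nat_lit 186) (fin (add (add (start D362) D26108) (orK (nat_lit 206) (fin (add (start D128) (orK (nat_lit 166) (fin (add (start D369) (orK (nat_lit 146) (fin (add (start D370) (orK (nat_lit 147) D26324))))))))))))))))) (orK (nat_lit 189) (fin (add (add (start D131) (orK (nat_lit 190) (fin (add (start D316) (orK (nat_lit 167) (fin (add (start D352) (orK (nat_lit 170) (fin (add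 (start D6089) (orK (nat_lit 147) (fin (add (start D850) (orK (nat_lit 148) (fin (add (start D1381) (orK (nat_lit 146) (fin (add (start D1376) (orK (nat_lit 149) (fin (add (start D4050) D26337)))))))))))))))))))))) (orK (nat_lit 147) (fin (add (add (add (start (orK (nat_lit 206) (fin (add (start D128) D26218)))) (orK (nat_lit 167) D26382)) (orK (nat_lit 206) (fin (add (start D128) (orK (nat_lit 167) (fin (add (start D1445) D26379))))))) (orK (nat_lit 148) (fin (add (add (add (start D26237) (orK (nat_lit 149) (fin (add (add (add (start (orK (nat_lit 168) (fin (add (start D158) D159)))) D26300) (orK (nat_lit 150) (fin (add (add (add (start (orK (nat_lit 170) (fin (add (start D4051) (orK (nat_lit 146) (fin (add (start D4050) D18407))))))) D6066) (orK (nat_lit 131) (fin (add (start D6060) (orK (nat_lit 151) (fin (add (start D1587) (orK (nat_lit 172) (fin (add (start D13706) (orK (nat_lit 152) (fin (add (start D13707) (orK (nat_lit 168) (fin (add (start D158) (win (nat_lit 5) (nat_lit 8) (nat_lit 7) (nat_lit 4)))))))))))))))))) (orK (nat_lit 168) (fin (add (start D158) (orK (nat_lit 205) (fin (add (start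 D363) (orK (nat_lit 131) (fin (add (start D6060) (orK (nat_lit 151) (fin (add (start D1587) (orK (nat_lit 169) (fin (add (start D17123) D26410))))))))))))))))))) D26425)))) D26439) (orK (nat_lit 149) (fin (add (add (add (add (start (orK (nat_lit 169) (fin (add (start D492) D7210)))) (orK (nat_lit 150) (fin (add (add (start (orK (nat_lit 146) (fin (add (start (orK (nat_lit 170) (fin (add (start D4050) D4051)))) D7115)))) D7242) D15241)))) (orK (nat_lit 169) (fin (add (start D492) (orK (nat_lit 150) (fin (add (add (start (orK (nat_lit 170) D13511)) D15239) D15241))))))) (orK (nat_lit 129) (fin (add (start D26297) D26453)))) D18401))))))))))))) (orK (nat_lit 206) (fin (add (add (start D2366) (orK (nat_lit 189) (fin (add (start D129) (orK (nat_lit 147) (fin (add (add (start D26218) (orK (nat_lit 148) (fin (add (add (add (start D26237) (orK (nat_lit 169) (fin (add (add (add (start (orK (nat_lit 168) (fin (add (start D158) (orK (nat_lit 170) (fin (add (start D3276) D6229))))))) (orK (nat_lit 149) D26470)) (orK (nat_lit 168) (fin (add (start D158) (orK (nat_lit 149) (fin (add (start D492) (orK (nat_lit 146)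 (fin (add (start D3277) (orK (nat_lit 126) (fin (add (start D6616) (orK (nat_lit 186) (fin (add (start D2021) D21338)))))))))))))))) (orK (nat_lit 168) (fin (add (start D158) (orK (nat_lit 146) (fin (add (start D3277) (orK (nat_lit 149) D26482))))))))))) D26439) (orK (nat_lit 149) (fin (add (add (add (add (start (orK (nat_lit 169) D26470)) (orK (nat_lit 150) (fin (add (add (start D15239) D7242) D15274)))) (orK (nat_lit 150) (fin (add (start (orK (nat_lit 170) (fin (add (start D4051) D26493)))) D15241)))) (orK (nat_lit 169) (fin (add (start D492) (orK (nat_lit 170) (fin (add (start D6229) D6101))))))) D26425))))))) (orK (nat_lit 167) (fin (add (start D1445) (orK (nat_lit 148) (fin (add (start D1381) (orK (nat_lit 149) (fin (add (add (start (orK (nat_lit 146) (fin (add (start D1376) (orK (nat_lit 169) D26482))))) (orK (nat_lit 170) (fin (add (start D26493) (orK (nat_lit 150) (fin (add (start D4051) D1229))))))) (orK (nat_lit 150) (fin (add (start D1229) (orK (nat_lit 168) (fin (add (start D159) D6552)))))))))))))))))))))) (orK (nat_lit 167) (fin (add (add (start D26529) (orK (nat_lit 205) (fin (add (start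 D2363) (orK (nat_lit 185) (fin (add (start D3060) (orK (nat_lit 225) (fin (add (start D3061) (orK (nat_lit 245) (fin (add (add (start D4580) D25522) (orK (nat_lit 186) (fin (add (start D4578) (orK (nat_lit 246) (fin (add (start (win (nat_lit 3) (nat_lit 6) (nat_lit 8) (nat_lit 1))) D3040))))))))))))))))))) (orK (nat_lit 205) (fin (add (start D2363) (orK (nat_lit 147) (fin (add (start D850) (orK (nat_lit 148) (fin (add (start D1381) (orK (nat_lit 146) (fin (add (start D1376) (orK (nat_lit 185) (fin (add (start D3060) (orK (nat_lit 225) (fin (add (start D3061) (orK (nat_lit 166) (fin (add (start D26547) (orK (nat_lit 149) (fin (add (start D6037) D26337))))))))))))))))))))))))))))))) (orK (nat_lit 206) (fin (add (add (start D2366) (orK (nat_lit 147) (fin (add (add (start D26218) D26570) (orK (nat_lit 167) (fin (add (start D1445) (orK (nat_lit 190) (fin (add (start D24644) (orK (nat_lit 148) (fin (add (start D1381) (orK (nat_lit 149) (fin (add (start (orK (nat_lit 170) (fin (add (start D253) (orK (nat_lit 171) (fin (add (start D1556) D45))))))) (orK (nat_lit 146) (fin (add (start D1376) D26337)))))))))))))))))))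 D26294)))) (orK (nat_lit 189) (fin (add (add (start D131) D26106) (orK (nat_lit 186) (fin (add (add (start D362) D368) (orK (nat_lit 206) (fin (add (start D128) (orK (nat_lit 166) (fin (add (start D369) (orK (nat_lit 169) (fin (add (start D7878) (orK (nat_lit 146) (fin (add (start D370) (orK (nat_lit 147) (fin (add (start D17385) (orK (nat_lit 167) (fin (add (start D1445) (orK (nat_lit 149) (fin (add (start D492) D26590)))))))))))))))))))))))))))) (orK (nat_lit 185) (fin (add (add (add (start D26609) (orK (nat_lit 186) (fin (add (start D356) (orK (nat_lit 168) (fin (add (start D9698) (orK (nat_lit 148) (fin (add (start D158) (orK (nat_lit 147) (fin (add (start D416) (orK (nat_lit 149) (fin (add (start D159) (orK (nat_lit 165) (fin (add (start D357) (orK (nat_lit 166) (fin (add (start (win (nat_lit 4) (nat_lit 5) (nat_lit 7) (nat_lit 2))) D7132)))))))))))))))))))))) (orK (nat_lit 205) (fin (add (add (add (start D26130) (orK (nat_lit 206) (fin (add (start D2363) (orK (nat_lit 225) (fin (add (start D3061) (orK (nat_lit 165) (fin (add (add (start D3027) (orK (nat_lit 167) (fin (add (start (orK (nat_lit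 166) (fin (add (start D5550) D3038)))) (orK (nat_lit 226) (fin (add (start D4140) D3025))))))) D26635)))))))))) (orK (nat_lit 165) (fin (add (add (start (orK (nat_lit 225) (fin (add (add (start (orK (nat_lit 145) (fin (add (start D26649) D7658)))) D22382) (orK (nat_lit 145) D7663))))) (orK (nat_lit 164) (fin (add (start D25174) (orK (nat_lit 225) (fin (add (start D3073) D26649))))))) (orK (nat_lit 164) (fin (add (start D25174) (orK (nat_lit 167) (fin (add (start D26627) (orK (nat_lit 147) (fin (add (start D850) (orK (nat_lit 148) (fin (add (start D1381) (orK (nat_lit 146) (fin (add (start D24527) D1376))))))))))))))))))) (orK (nat_lit 165) (fin (add (add (start (orK (nat_lit 186) (fin (add (start D357) D364)))) (orK (nat_lit 204) (fin (add (start D21956) D22416)))) D26149))))))) (orK (nat_lit 167) (fin (add (add (start (orK (nat_lit 147) (fin (add (start D850) (orK (nat_lit 206) (fin (add (start D1445) (orK (nat_lit 205) D26128)))))))) D26684) (orK (nat_lit 205) (fin (add (add (add (start D26129) (orK (nat_lit 206) (fin (add (start D2363) (orK (nat_lit 225) (fin (add (start D3061) (orK (nat_lit 165)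 (fin (add (start D3027) D26147)))))))))) D26699) (orK (nat_lit 165) (fin (add (add (add (start (orK (nat_lit 166) (fin (add (start D5550) (orK (nat_lit 168) (fin (add (start D444) D26703))))))) D26166) (orK (nat_lit 145) (fin (add (add (start D26161) (orK (nat_lit 225) D22385)) D7670)))) (orK (nat_lit 164) (fin (add (start D26627) (orK (nat_lit 144) D11223))))))))))))))))) (orK (nat_lit 189) (fin (add (add (start D25631) (orK (nat_lit 186) (fin (add (add (start D362) D26108) (orK (nat_lit 166) (fin (add (start D369) (orK (nat_lit 146) (fin (add (start D370) (orK (nat_lit 147) (fin (add (add (add (start (orK (nat_lit 127) (fin (add (start D19888) D26721)))) (orK (nat_lit 167) (fin (add (start (orK (nat_lit 145) (fin (add (start D26725) (orK (nat_lit 206) (fin (add (start D1445) D7904))))))) (orK (nat_lit 149) (fin (add (start (orK (nat_lit 169) (fin (add (start D492) D7878)))) D26590))))))) (orK (nat_lit 206) D26324)) (orK (nat_lit 169) (fin (add (start D7878) (orK (nat_lit 127) (fin (add (start D26721) (orK (nat_lit 129) (fin (add (start D26315) (orK (nat_lit 128) (fin (add (start D13411) (orK (nat_lit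 148) (fin (add (start D21240) D7253)))))))))))))))))))))))))))) D26106)))) (orK (nat_lit 186) (fin (add (add (add (add (start (orK (nat_lit 185) (fin (add (start D356) (orK (nat_lit 165) (fin (add (start D357) (orK (nat_lit 189) (fin (add (start D358) D10520)))))))))) (orK (nat_lit 185) (fin (add (start D356) (orK (nat_lit 169) (fin (add (start D7948) (orK (nat_lit 170) (fin (add (start D9562) D13278)))))))))) D26778) (orK (nat_lit 189) (fin (add (add (start (orK (nat_lit 166) (fin (add (start D369) (orK (nat_lit 190) (fin (add (start D866) D316))))))) (orK (nat_lit 170) (fin (add (start D6125) (orK (nat_lit 190) (fin (add (start D6089) D316))))))) (orK (nat_lit 169) (fin (add (start D7878) (orK (nat_lit 149) (fin (add (start D492) (orK (nat_lit 167) (fin (add (add (add (start (orK (nat_lit 166) (fin (add (start D369) (orK (nat_lit 168) D21273))))) (orK (nat_lit 147) (fin (add (start D850) (orK (nat_lit 148) (fin (add (start D1381) (orK (nat_lit 150) (fin (add (start D1229) (orK (nat_lit 131) (fin (add (start D6060) (orK (nat_lit 151) (fin (add (start D1587) D1226)))))))))))))))) (orK (nat_lit 147)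 (fin (add (start D850) D7363)))) (orK (nat_lit 166) (fin (add (start D369) (orK (nat_lit 147) (fin (add (start D850) D26590))))))))))))))))))) (orK (nat_lit 168) (fin (add (add (start D26045) (orK (nat_lit 148) (fin (add (start D158) (orK (nat_lit 147) (fin (add (start D416) (orK (nat_lit 149) (fin (add (start D159) (orK (nat_lit 146) (fin (add (start (orK (nat_lit 169) D26409)) D26816))))))))))))) (orK (nat_lit 148) (fin (add (start D158) (orK (nat_lit 149) (fin (add (start D159) (orK (nat_lit 147) (fin (add (start D416) (orK (nat_lit 185) (fin (add (start D356) (orK (nat_lit 165) (fin (add (start D357) (orK (nat_lit 146) (fin (add (start D7148) (orK (nat_lit 126) (fin (add (start D6616) (orK (nat_lit 205) (fin (add (start D11149) D364)))))))))))))))))))))))))))))))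
noncomputable def D114 : OP := orK (nat_lit 269) (fin (add (start D111) D112))
noncomputable def D2608 : OP := orK (nat_lit 267) (fin (add (start D110) (orK (nat_lit 268) (fin (add (start D109) D114)))))
noncomputable def D2610 : OP := orK (nat_lit 248) (fin (add (start D127) D2608))
noncomputable def D16525 : OP := win (nat_lit 7) (nat_lit 6) (nat_lit 6) (nat_lit 1)
noncomputable def D18152 : AP := fin (add (start D6616) D16525)
noncomputable def D18153 : OP := orK (nat_lit 126) D18152
noncomputable def D5549 : OP := orK (nat_lit 229) (fin (add (start D61) D521))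
noncomputable def D27266 : AP := fin (add (add (add (add (add (add (start (orK (nat_lit 168) (fin (add (add (add (add (add (start (orK (nat_lit 228) (fin (add (start D5549) (orK (nat_lit 167) (fin (add (start D342) (orK (nat_lit 187) (fin (add (start D335) (orK (nat_lit 169) (fin (add (start D308) (orK (nat_lit 166) (fin (add (add (start (orK (nat_lit 185) (fin (add (start D25130) (orK (nat_lit 165) (fin (add (start D5550) D444))))))) (orK (nat_lit 186) (fin (add (start D2021) D17235)))) (orK (nat_lit 165) (fin (add (start D5550) D6438))))))))))))))))))) (orK (nat_lit 228) (fin (add (start D5549) D25978)))) (orK (nat_lit 228) (fin (add (start D5549) D25984)))) (orK (nat_lit 228) (fin (add (start D5549) D532)))) (orK (nat_lit 228) (fin (add (start D5549) D423)))) (orK (nat_lit 148) (fin (add (add (add (start D6259) D528) (orK (nat_lit 147) (fin (add (start D416) (orK (nat_lit 149) (fin (add (start D159) (orK (nat_lit 167) (fin (add (start (orK (nat_lit 146) (fin (add (start D8143) D18153)))) D25994)))))))))) (orK (nat_lit 129) (fin (add (start D6255) (orK (nat_lit 128) (fin (add (start D6254) D526)))))))))))))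 (orK (nat_lit 190) (fin (add (start D824) D26010)))) (orK (nat_lit 206) (fin (add (add (add (start D25929) D26016) D26024) (orK (nat_lit 228) (fin (add (add (add (start D26026) (orK (nat_lit 189) (fin (add (start D391) D2610)))) (orK (nat_lit 229) (fin (add (start D61) (orK (nat_lit 249) (fin (add (start D74) (orK (nat_lit 190) (fin (add (start D317) (orK (nat_lit 289) (fin (add (start (win (nat_lit 3) (nat_lit 9) (nat_lit 10) (nat_lit 1))) D2255))))))))))))) (orK (nat_lit 229) (fin (add (start D61) (orK (nat_lit 187) (fin (add (add (start D337) (orK (nat_lit 189) (fin (add (start D129) (orK (nat_lit 248) D26040))))) (orK (nat_lit 147) (fin (add (start D25967) D26061)))))))))))))))) (orK (nat_lit 187) D26847)) (orK (nat_lit 206) (fin (add (add (start D26016) D26024) (orK (nat_lit 190) (fin (add (add (start D2255) (orK (nat_lit 147) D27041)) D27056))))))) (orK (nat_lit 190) (fin (add (add (add (add (start (orK (nat_lit 189) (fin (add (start D316) (orK (nat_lit 206) (fin (add (start D128) (orK (nat_lit 228) (fin (add (add (add (start D497) (orK (nat_lit 248) (fin (add (start D127) (orK (nat_lit 247) (fin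 (add (start D78) (orK (nat_lit 229) (fin (add (start D61) D82)))))))))) D26026) D843)))))))))) D27089) (orK (nat_lit 170) (fin (add (start D6519) D27078)))) D26010) D27056)))) (orK (nat_lit 206) (fin (add (add (add (start D25929) (orK (nat_lit 205) (fin (add (start D2364) D4954)))) D26024) (orK (nat_lit 190) (fin (add (add (add (start D2255) D27089) (orK (nat_lit 170) D27253)) (orK (nat_lit 187) (fin (add (start D24644) (orK (nat_lit 147) (fin (add (start (orK (nat_lit 170) (fin (add (add (add (add (start D26220) D26228) D26232) D26236) D26251)))) (orK (nat_lit 167) D26850))))))))))))))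
noncomputable def D24666 : OP := orK (nat_lit 184) (fin (add (start D4939) D4938))
noncomputable def D17281 : OP := win (nat_lit 4) (nat_lit 4) (nat_lit 9) (nat_lit 5)
noncomputable def D218 : OP := orK (nat_lit 189) (fin (add (start D127) D129))
noncomputable def D566 : OP := orK (nat_lit 167) D33
noncomputable def D3008 : OP := win (nat_lit 2) (nat_lit 6) (nat_lit 10) (nat_lit 1)
noncomputable def D77 : OP := orK (nat_lit 249) (fin (add (start D74) D75))
noncomputable def D207 : OP := orK (nat_lit 287) (fin (add (start D102) (orK (nat_lit 288) (fin (add (start D103) (orK (nat_lit 289) (fin (add (start D119) D120))))))))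
noncomputable def D211 : OP := orK (nat_lit 231) (fin (add (start D200) (orK (nat_lit 268) (fin (add (start D201) D207)))))
noncomputable def D199 : OP := orK (nat_lit 229) (fin (add (start D61) (orK (nat_lit 205) (fin (add (start D175) (orK (nat_lit 247) (fin (add (start D82) (orK (nat_lit 267) D192)))))))))
noncomputable def D228 : OP := orK (nat_lit 248) (fin (add (add (add (start D99) D199) D211) (orK (nat_lit 229) (fin (add (start D61) (orK (nat_lit 206) (fin (add (start D62) (orK (nat_lit 188) (fin (add (start D77) (orK (nat_lit 187) (fin (add (start D216) D218))))))))))))))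
noncomputable def D126 : OP := orK (nat_lit 268) (fin (add (add (start D108) (orK (nat_lit 267) (fin (add (start D109) (orK (nat_lit 188) (fin (add (start D110) D114))))))) D124))
noncomputable def D73 : OP := orK (nat_lit 187) (fin (add (start D68) D71))
noncomputable def D86 : OP := win (nat_lit 5) (nat_lit 6) (nat_lit 11) (nat_lit 5)
noncomputable def D84 : OP := orK (nat_lit 247) (fin (add (start D78) D82))
noncomputable def D101 : OP := orK (nat_lit 248) (fin (add (add (start D73) (orK (nat_lit 229) (fin (add (start D61) (orK (nat_lit 188) (fin (add (add (start D77) D84) (orK (nat_lit 247) (fin (add (start D78) (orK (nat_lit 227) (fin (add (start D85) D86))))))))))))) D99))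
noncomputable def D46 : OP := win (nat_lit 4) (nat_lit 7) (nat_lit 8) (nat_lit 2)
noncomputable def D5584 : OP := orK (nat_lit 209) (fin (add (start D0) (orK (nat_lit 190) (fin (add (start D11) (orK (nat_lit 187) (fin (add (start D19) (orK (nat_lit 170) (fin (add (start D30) (orK (nat_lit 171) (fin (add (start D45) (orK (nat_lit 188) (fin (add (start D46) D5572)))))))))))))))))
noncomputable def D52 : OP := orK (nat_lit 170) (fin (add (start (orK (nat_lit 167) (fin (add (start D30) D34)))) (orK (nat_lit 188) (fin (add (start D40) (orK (nat_lit 171) (fin (add (start D45) D46))))))))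
noncomputable def D58 : OP := orK (nat_lit 190) (fin (add (start D11) (orK (nat_lit 227) (fin (add (start D18) (orK (nat_lit 187) (fin (add (start D19) D52))))))))
noncomputable def D249 : OP := orK (nat_lit 209) (fin (add (add (add (start D7) D15) D58) D247))
noncomputable def D3009 : OP := win (nat_lit 0) (nat_lit 4) (nat_lit 10) (nat_lit 0)
noncomputable def D60 : OP := orK (nat_lit 209) (fin (add (start D0) D58))
noncomputable def D24029 : OP := orK (nat_lit 208) (fin (add (start D61) D1296))
noncomputable def D24030 : AP := fin (add (start D86) D24029)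
noncomputable def D24031 : OP := orK (nat_lit 247) D24030
noncomputable def D1169 : OP := win (nat_lit 2) (nat_lit 6) (nat_lit 10) (nat_lit 5)
noncomputable def D24035 : OP := orK (nat_lit 229) (fin (add (start D1169) D24031))
noncomputable def D4767 : AP := fin (add (start D2197) D1369)
noncomputable def D4768 : OP := orK (nat_lit 187) D4767
noncomputable def D4291 : OP := win (nat_lit 5) (nat_lit 7) (nat_lit 11) (nat_lit 0)
noncomputable def D4770 : OP := orK (nat_lit 248) (fin (add (start D4291) D4768))
noncomputable def D4771 : AP := fin (add (start D86) D4770)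
noncomputable def D4772 : OP := orK (nat_lit 247) D4771
noncomputable def D4773 : AP := fin (add (start D1169) D4772)
noncomputable def D4774 : OP := orK (nat_lit 229) D4773
noncomputable def D3161 : OP := win (nat_lit 6) (nat_lit 7) (nat_lit 7) (nat_lit 4)
noncomputable def D3165 : OP := orK (nat_lit 148) (fin (add (start D1382) (orK (nat_lit 147) (fin (add (start D1381) D3161)))))
noncomputable def D25313 : AP := fin (add (start D32) D3165)
noncomputable def D25792 : OP := orK (nat_lit 167) D25313
noncomputable def D2582 : OP := win (nat_lit 5) (nat_lit 7) (nat_lit 11) (nat_lit 4)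
noncomputable def D1168 : OP := win (nat_lit 2) (nat_lit 7) (nat_lit 10) (nat_lit 4)
noncomputable def D24077 : OP := orK (nat_lit 229) (fin (add (start D86) (orK (nat_lit 231) (fin (add (start D1168) D2582)))))
noncomputable def D12293 : OP := orK (nat_lit 286) (fin (add (start D1693) (orK (nat_lit 287) (fin (add (start D1694) (orK (nat_lit 248) (fin (add (start D189) D1369))))))))
noncomputable def D567 : OP := win (nat_lit 5) (nat_lit 6) (nat_lit 11) (nat_lit 1)
noncomputable def D568 : AP := fin (add (start D134) D567)
noncomputable def D569 : OP := orK (nat_lit 246) D568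
noncomputable def D12782 : OP := orK (nat_lit 167) (fin (add (start D32) (orK (nat_lit 246) (fin (add (start D872) (orK (nat_lit 247) D568))))))
noncomputable def D4365 : AP := fin (add (start D2035) (orK (nat_lit 147) (fin (add (start D3202) D3161))))
noncomputable def D23936 : OP := orK (nat_lit 226) D4365
noncomputable def D23938 : OP := orK (nat_lit 167) (fin (add (add (start D23936) D6168) D3165))
noncomputable def D10506 : OP := orK (nat_lit 169) (fin (add (start D2021) D7878))
noncomputable def D1726 : OP := win (nat_lit 6) (nat_lit 6) (nat_lit 7) (nat_lit 0)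
noncomputable def D23969 : OP := orK (nat_lit 166) (fin (add (start D369) D1726))
noncomputable def D23993 : OP := orK (nat_lit 189) (fin (add (add (add (start (orK (nat_lit 206) (fin (add (start D129) (orK (nat_lit 205) (fin (add (start D3009) D23960))))))) (orK (nat_lit 190) (fin (add (start D353) D23965)))) (orK (nat_lit 186) (fin (add (start (orK (nat_lit 206) (fin (add (start D7968) D23969)))) (orK (nat_lit 168) (fin (add (start D23941) D10506))))))) (orK (nat_lit 169) (fin (add (start (orK (nat_lit 208) (fin (add (start D388) (orK (nat_lit 168) (fin (add (start D37) D308))))))) (orK (nat_lit 170) (fin (add (start D6229) (orK (nat_lit 171) (fin (add (start D12415) D954)))))))))))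
noncomputable def D13183 : OP := orK (nat_lit 205) (fin (add (start D3009) D13181))
noncomputable def D25639 : OP := orK (nat_lit 186) (fin (add (start D140) (orK (nat_lit 206) (fin (add (start D1725) D13183)))))
noncomputable def D25643 : OP := orK (nat_lit 247) (fin (add (start D41) (orK (nat_lit 246) (fin (add (start D134) D25639)))))
noncomputable def D649 : OP := win (nat_lit 0) (nat_lit 5) (nat_lit 11) (nat_lit 1)
noncomputable def D885 : OP := orK (nat_lit 244) (fin (add (start D879) (orK (nat_lit 225) (fin (add (start D880) D881)))))
noncomputable def D6857 : OP := orK (nat_lit 186) (fin (add (start D140) (orK (nat_lit 185) (fin (add (start D356) (orK (nat_lit 165) (fin (add (start D357) (orK (nat_lit 205) (fin (add (start D364) D885)))))))))))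
noncomputable def D23943 : OP := orK (nat_lit 168) (fin (add (start D38) D23941))
noncomputable def D10610 : OP := orK (nat_lit 167) (fin (add (start D32) D4262))
noncomputable def D3156 : OP := win (nat_lit 7) (nat_lit 7) (nat_lit 9) (nat_lit 3)
noncomputable def D3155 : OP := win (nat_lit 6) (nat_lit 7) (nat_lit 9) (nat_lit 3)
noncomputable def D3157 : AP := fin (add (start D3155) D3156)
noncomputable def D6362 : OP := win (nat_lit 6) (nat_lit 7) (nat_lit 8) (nat_lit 1)
noncomputable def D24783 : OP := orK (nat_lit 208) (fin (add (start D3060) (orK (nat_lit 188) (fin (add (start D2364) (orK (nat_lit 168) (fin (add (start D37) (orK (nat_lit 225) (fin (add (start D3061) (orK (nat_lit 167) (fin (add (start D342) (orK (nat_lit 248) (fin (add (start D6362) (orK (nat_lit 226) (fin (add (start D137) D4955))))))))))))))))))))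
noncomputable def D2832 : OP := win (nat_lit 5) (nat_lit 8) (nat_lit 11) (nat_lit 4)
noncomputable def D2667 : OP := win (nat_lit 5) (nat_lit 7) (nat_lit 11) (nat_lit 5)
noncomputable def D2834 : OP := orK (nat_lit 248) (fin (add (start D2667) D2832))
noncomputable def D2680 : OP := win (nat_lit 0) (nat_lit 8) (nat_lit 11) (nat_lit 4)
noncomputable def D3242 : OP := orK (nat_lit 229) (fin (add (start D1169) (orK (nat_lit 231) (fin (add (start D1168) (orK (nat_lit 252) (fin (add (start D2680) (orK (nat_lit 232) (fin (add (start D791) D2834)))))))))))
noncomputable def D2349 : OP := win (nat_lit 7) (nat_lit 5) (nat_lit 8) (nat_lit 5)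
noncomputable def D5319 : AP := fin (add (start D2417) D2349)
noncomputable def D25561 : OP := orK (nat_lit 245) (fin (add (start D135) (orK (nat_lit 206) (fin (add (start D13183) (orK (nat_lit 185) (fin (add (start D24452) (orK (nat_lit 226) D5319)))))))))
noncomputable def D3226 : OP := orK (nat_lit 266) (fin (add (start D1301) (orK (nat_lit 267) (fin (add (start D1302) D1805)))))
noncomputable def D24124 : OP := orK (nat_lit 267) (fin (add (start D5664) D1805))
noncomputable def D24087 : OP := orK (nat_lit 229) D24030
noncomputable def D4004 : OP := win (nat_lit 6) (nat_lit 7) (nat_lit 12) (nat_lit 5)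
noncomputable def D4003 : OP := win (nat_lit 6) (nat_lit 7) (nat_lit 11) (nat_lit 4)
noncomputable def D4006 : OP := orK (nat_lit 308) (fin (add (start D4003) D4004))
noncomputable def D4002 : OP := win (nat_lit 3) (nat_lit 7) (nat_lit 11) (nat_lit 4)
noncomputable def D4008 : OP := orK (nat_lit 307) (fin (add (start D4002) D4006))
noncomputable def D10240 : OP := orK (nat_lit 286) (fin (add (start D1693) (orK (nat_lit 287) (fin (add (start D1694) D4008)))))
noncomputable def D861 : OP := win (nat_lit 3) (nat_lit 7) (nat_lit 8) (nat_lit 3)
noncomputable def D24685 : OP := orK (nat_lit 168) (fin (add (start (win (nat_lit 1) (nat_lit 7) (nat_lit 8) (nat_lit 2))) D861))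
noncomputable def D4141 : AP := fin (add (start D4140) D2035)
noncomputable def D10830 : OP := orK (nat_lit 226) D4141
noncomputable def D12381 : OP := orK (nat_lit 186) D4200
noncomputable def D12740 : OP := orK (nat_lit 205) (fin (add (start D3009) (orK (nat_lit 188) (fin (add (start D41) D12505)))))
noncomputable def D11643 : OP := orK (nat_lit 287) (fin (add (start D1792) D4008))
noncomputable def D5351 : OP := win (nat_lit 0) (nat_lit 4) (nat_lit 10) (nat_lit 1)
noncomputable def D12582 : OP := orK (nat_lit 168) (fin (add (start D1307) (orK (nat_lit 247) (fin (add (start D1308) D1743)))))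
noncomputable def D10831 : AP := fin (add (start D32) D10830)
noncomputable def D12715 : OP := orK (nat_lit 167) D10831
noncomputable def D402 : OP := win (nat_lit 7) (nat_lit 7) (nat_lit 10) (nat_lit 0)
noncomputable def D3175 : AP := fin (add (start D3156) D402)
noncomputable def D3197 : OP := orK (nat_lit 268) D3175
noncomputable def D3198 : AP := fin (add (start D2197) D3197)
noncomputable def D4316 : OP := orK (nat_lit 187) D3198
noncomputable def D3173 : AP := fin (add (start D3155) D402)
noncomputable def D3194 : OP := orK (nat_lit 268) D3173
noncomputable def D3195 : AP := fin (add (start D2197) D3194)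
noncomputable def D4315 : OP := orK (nat_lit 187) D3195
noncomputable def D4310 : OP := orK (nat_lit 252) (fin (add (start D2680) (orK (nat_lit 232) (fin (add (start D791) D2832)))))
noncomputable def D4296 : OP := win (nat_lit 4) (nat_lit 4) (nat_lit 10) (nat_lit 5)
noncomputable def D4294 : OP := win (nat_lit 2) (nat_lit 4) (nat_lit 10) (nat_lit 4)
noncomputable def D4300 : OP := orK (nat_lit 204) (fin (add (start D4294) (orK (nat_lit 224) (fin (add (start D4295) D4296)))))
noncomputable def D1171 : OP := win (nat_lit 5) (nat_lit 5) (nat_lit 11) (nat_lit 5)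
noncomputable def D1170 : OP := win (nat_lit 5) (nat_lit 6) (nat_lit 11) (nat_lit 4)
noncomputable def D4318 : OP := orK (nat_lit 248) (fin (add (add (start (orK (nat_lit 229) (fin (add (add (start (orK (nat_lit 247) (fin (add (start D86) D4291)))) (orK (nat_lit 246) (fin (add (start D1170) (orK (nat_lit 226) (fin (add (start D1171) (orK (nat_lit 225) (fin (add (start D137) D4300)))))))))) (orK (nat_lit 231) (fin (add (start D1168) D4310))))))) D4315) D4316))
noncomputable def D24008 : AP := fin (add (start D37) D342)
noncomputable def D24009 : OP := orK (nat_lit 168) D24008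
noncomputable def D2289 : OP := orK (nat_lit 168) (fin (add (start D37) D341))
noncomputable def D24001 : OP := orK (nat_lit 269) (fin (add (start D112) (orK (nat_lit 188) (fin (add (start D111) D2289)))))
noncomputable def D2199 : OP := orK (nat_lit 187) (fin (add (start D2197) D68))
noncomputable def D24017 : OP := orK (nat_lit 208) (fin (add (start D61) (orK (nat_lit 248) (fin (add (add (start D2199) (orK (nat_lit 268) (fin (add (start D402) D24001)))) (orK (nat_lit 188) (fin (add (start (orK (nat_lit 190) (fin (add (start D319) (orK (nat_lit 189) (fin (add (start D127) D316))))))) (orK (nat_lit 167) (fin (add (start D6362) D24009)))))))))))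
noncomputable def D24019 : OP := orK (nat_lit 229) (fin (add (start D1169) D24017))
noncomputable def D3199 : OP := orK (nat_lit 248) D3198
noncomputable def D3196 : OP := orK (nat_lit 248) D3195
noncomputable def D2474 : OP := orK (nat_lit 245) (fin (add (start D135) (orK (nat_lit 225) (fin (add (start D136) (orK (nat_lit 226) (fin (add (start D137) (orK (nat_lit 205) (fin (add (start D2466) D144)))))))))))
noncomputable def D2476 : OP := orK (nat_lit 246) (fin (add (start D134) D2474))
noncomputable def D4390 : OP := win (nat_lit 0) (nat_lit 4) (nat_lit 11) (nat_lit 4)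
noncomputable def D25715 : OP := orK (nat_lit 166) (fin (add (start D7646) D4026))
noncomputable def D7678 : OP := orK (nat_lit 164) (fin (add (start D7635) D7634))
noncomputable def D10515 : AP := fin (add (start D369) D4026)
noncomputable def D10516 : OP := orK (nat_lit 166) D10515
noncomputable def D15329 : AP := fin (add (start D7878) D10516)
noncomputable def D24162 : OP := win (nat_lit 3) (nat_lit 8) (nat_lit 8) (nat_lit 2)
noncomputable def D24436 : AP := fin (add (start D3009) D24435)
noncomputable def D651 : OP := orK (nat_lit 245) (fin (add (start D136) D135))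
noncomputable def D3783 : OP := win (nat_lit 2) (nat_lit 4) (nat_lit 10) (nat_lit 2)
noncomputable def D3782 : OP := win (nat_lit 0) (nat_lit 4) (nat_lit 10) (nat_lit 2)
noncomputable def D24023 : OP := orK (nat_lit 188) (fin (add (start D41) (orK (nat_lit 267) (fin (add (start D5664) D574)))))
noncomputable def D6288 : AP := fin (add (start D1307) D1743)
noncomputable def D6291 : OP := orK (nat_lit 168) (fin (add (start D1308) (orK (nat_lit 167) D6288)))
noncomputable def D4818 : OP := orK (nat_lit 248) D4767
noncomputable def D24033 : OP := orK (nat_lit 229) (fin (add (add (add (start D24017) D4772) (orK (nat_lit 247) (fin (add (start D86) (orK (nat_lit 187) (fin (add (add (start D4818) D6291) D24023))))))) D24031))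
noncomputable def D24466 : OP := orK (nat_lit 205) (fin (add (start D3009) D12505))
noncomputable def D13392 : OP := orK (nat_lit 166) (fin (add (start D1726) D4026))
noncomputable def D24437 : OP := orK (nat_lit 205) D24436
noncomputable def D24427 : OP := orK (nat_lit 169) (fin (add (start D7878) (orK (nat_lit 248) (fin (add (start D24162) (orK (nat_lit 247) (fin (add (start D1369) D1725))))))))
noncomputable def D24041 : OP := orK (nat_lit 147) (fin (add (start D3161) D1378))
noncomputable def D24417 : OP := orK (nat_lit 167) (fin (add (add (start D3165) D12582) D24041))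
noncomputable def D12716 : AP := fin (add (start D3008) D12715)
noncomputable def D13685 : OP := orK (nat_lit 206) D12716
noncomputable def D12304 : OP := orK (nat_lit 247) (fin (add (start D569) D6291))
noncomputable def D7958 : AP := fin (add (start D1307) D38)
noncomputable def D12374 : OP := orK (nat_lit 167) (fin (add (start D32) (orK (nat_lit 147) (fin (add (start D1445) D1384)))))
noncomputable def D2583 : AP := fin (add (start D86) D2582)
noncomputable def D2584 : OP := orK (nat_lit 247) D2583
noncomputable def D3007 : OP := orK (nat_lit 229) (fin (add (start D1169) (orK (nat_lit 231) (fin (add (start D1168) D2584)))))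
noncomputable def D1786 : OP := win (nat_lit 6) (nat_lit 7) (nat_lit 11) (nat_lit 5)
noncomputable def D1785 : OP := win (nat_lit 6) (nat_lit 7) (nat_lit 10) (nat_lit 4)
noncomputable def D4910 : OP := orK (nat_lit 288) (fin (add (start D1785) (orK (nat_lit 287) (fin (add (start D1786) D1794)))))
noncomputable def D581 : AP := fin (add (start D580) D570)
noncomputable def D24098 : OP := orK (nat_lit 208) D581
noncomputable def D1712 : AP := fin (add (start D1169) D86)
noncomputable def D3243 : OP := orK (nat_lit 229) D1712
noncomputable def D24679 : AP := fin (add (start D85) D2364)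
noncomputable def D3246 : OP := win (nat_lit 6) (nat_lit 6) (nat_lit 8) (nat_lit 3)
noncomputable def D3248 : OP := orK (nat_lit 166) (fin (add (start D1726) D3246))
noncomputable def D10897 : OP := orK (nat_lit 183) (fin (add (start D10894) D10895))
noncomputable def D24658 : OP := orK (nat_lit 187) (fin (add (start D22931) D17281))
noncomputable def D24673 : OP := orK (nat_lit 204) (fin (add (add (start (orK (nat_lit 203) (fin (add (start D24658) D10903)))) (orK (nat_lit 203) (fin (add (start D10897) D10903)))) (orK (nat_lit 208) (fin (add (start D24666) D24669)))))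
noncomputable def D22735 : OP := orK (nat_lit 228) (fin (add (start D3009) D3008))
noncomputable def D2257 : OP := orK (nat_lit 170) (fin (add (start D28) D259))
noncomputable def D1724 : OP := win (nat_lit 2) (nat_lit 6) (nat_lit 10) (nat_lit 2)
noncomputable def D24117 : AP := fin (add (start D1791) D24098)
noncomputable def D24643 : OP := orK (nat_lit 228) (fin (add (start D3008) (orK (nat_lit 267) D24117)))
noncomputable def D3250 : OP := orK (nat_lit 186) (fin (add (start D1725) D3248))
noncomputable def D24695 : OP := orK (nat_lit 206) (fin (add (add (add (start D3250) D24643) (orK (nat_lit 267) (fin (add (start D12490) (orK (nat_lit 188) (fin (add (start D5664) (orK (nat_lit 187) (fin (add (start D41) (orK (nat_lit 205) (fin (add (start D2363) (orK (nat_lit 229) (fin (add (start D1724) (orK (nat_lit 190) (fin (add (start D24644) D2257))))))))))))))))))) (orK (nat_lit 205) (fin (add (add (start D22735) D24673) (orK (nat_lit 186) (fin (add (start D3248) (orK (nat_lit 188) (fin (add (add (add (start (orK (nat_lit 187) (fin (add (start D41) D13181)))) (orK (nat_lit 189) (fin (add (start D23960) (win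 (nat_lit 5) (nat_lit 5) (nat_lit 9) (nat_lit 2)))))) (orK (nat_lit 228) (fin (add (start D3008) (orK (nat_lit 208) D24679))))) (orK (nat_lit 228) (fin (add (start D3008) D24685))))))))))))))
noncomputable def D24700 : OP := orK (nat_lit 229) (fin (add (start D1169) D24029))
noncomputable def D3607 : OP := win (nat_lit 2) (nat_lit 4) (nat_lit 12) (nat_lit 3)
noncomputable def D24145 : AP := fin (add (start D1302) (orK (nat_lit 208) (fin (add (start D580) (orK (nat_lit 206) (fin (add (start D1791) (orK (nat_lit 205) (fin (add (start D3009) (orK (nat_lit 185) (fin (add (start D3060) (orK (nat_lit 225) (fin (add (start D3061) (orK (nat_lit 245) (fin (add (start D4482) (orK (nat_lit 244) (fin (add (start D3070) D3607))))))))))))))))))))))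
noncomputable def D24147 : AP := fin (add (start D572) (orK (nat_lit 266) D24145))
noncomputable def D1788 : OP := orK (nat_lit 288) (fin (add (start D1785) D1786))
noncomputable def D4906 : OP := orK (nat_lit 286) (fin (add (start D1693) (orK (nat_lit 287) (fin (add (start D1694) D1788)))))
noncomputable def D24150 : OP := orK (nat_lit 267) (fin (add (add (start D24098) D4906) (orK (nat_lit 268) D24147)))
noncomputable def D1796 : OP := orK (nat_lit 287) (fin (add (start D1788) D1794))
noncomputable def D1784 : OP := orK (nat_lit 286) (fin (add (start D1693) D1694))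
noncomputable def D1790 : OP := orK (nat_lit 287) (fin (add (start D1784) D1788))
noncomputable def D1810 : AP := fin (add (start D1304) D1805)
noncomputable def D1811 : OP := orK (nat_lit 187) D1810
noncomputable def D1813 : OP := orK (nat_lit 267) (fin (add (add (start D1811) D1790) D1796))
noncomputable def D5649 : OP := orK (nat_lit 167) (fin (add (start D872) D1310))
noncomputable def D6287 : OP := orK (nat_lit 246) (fin (add (start D134) D5649))
noncomputable def D3950 : OP := win (nat_lit 3) (nat_lit 7) (nat_lit 10) (nat_lit 4)
noncomputable def D5670 : OP := orK (nat_lit 208) (fin (add (start D580) D3950))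
noncomputable def D5667 : AP := fin (add (start D1304) D5666)
noncomputable def D5668 : OP := orK (nat_lit 187) D5667
noncomputable def D5676 : OP := orK (nat_lit 267) (fin (add (add (start D5668) D1790) (orK (nat_lit 287) (fin (add (start D5670) D1788)))))
noncomputable def D25489 : OP := orK (nat_lit 166) (fin (add (start D501) D1484))
noncomputable def D7825 : OP := win (nat_lit 6) (nat_lit 6) (nat_lit 7) (nat_lit 1)
noncomputable def D12247 : OP := orK (nat_lit 147) (fin (add (start D4199) (orK (nat_lit 146) (fin (add (start D7825) D1376)))))
noncomputable def D25067 : OP := orK (nat_lit 168) (fin (add (start D23941) (orK (nat_lit 186) (fin (add (start D9698) (orK (nat_lit 165) (fin (add (start D357) (orK (nat_lit 145) (fin (add (start D7651) (orK (nat_lit 146) (fin (add (start D3029) D7825))))))))))))))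
noncomputable def D427 : OP := orK (nat_lit 269) (fin (add (start D111) (orK (nat_lit 268) (fin (add (start D112) D402)))))
noncomputable def D25458 : OP := orK (nat_lit 168) (fin (add (start D37) (orK (nat_lit 167) (fin (add (start D342) (orK (nat_lit 248) (fin (add (start D6362) D427))))))))
noncomputable def D25363 : AP := fin (add (start D3070) (orK (nat_lit 165) (fin (add (start D880) D3076))))
noncomputable def D4586 : OP := orK (nat_lit 166) (fin (add (start D3038) D3039))
noncomputable def D5233 : OP := orK (nat_lit 184) (fin (add (start D5231) D4370))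
noncomputable def D5286 : AP := fin (add (start D4578) D5233)
noncomputable def D5287 : OP := orK (nat_lit 186) D5286
noncomputable def D25286 : OP := win (nat_lit 2) (nat_lit 3) (nat_lit 12) (nat_lit 0)
noncomputable def D25285 : OP := win (nat_lit 0) (nat_lit 2) (nat_lit 12) (nat_lit 0)
noncomputable def D25288 : OP := orK (nat_lit 243) (fin (add (start D25285) D25286))
noncomputable def D2444 : OP := win (nat_lit 1) (nat_lit 4) (nat_lit 9) (nat_lit 0)
noncomputable def D10880 : OP := win (nat_lit 2) (nat_lit 4) (nat_lit 12) (nat_lit 0)
noncomputable def D5281 : OP := win (nat_lit 7) (nat_lit 5) (nat_lit 11) (nat_lit 0)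
noncomputable def D5078 : OP := win (nat_lit 6) (nat_lit 5) (nat_lit 10) (nat_lit 3)
noncomputable def D5284 : AP := fin (add (start D2387) (orK (nat_lit 286) (fin (add (start D5078) D5281))))
noncomputable def D25369 : OP := orK (nat_lit 246) D5284
noncomputable def D25416 : OP := orK (nat_lit 266) (fin (add (add (add (start D25369) (orK (nat_lit 185) (fin (add (start D4482) (orK (nat_lit 244) (fin (add (start D3070) (orK (nat_lit 165) (fin (add (start D880) (orK (nat_lit 146) (fin (add (start D3028) D3076))))))))))))) (orK (nat_lit 265) (fin (add (start D3781) (orK (nat_lit 244) (fin (add (add (start (orK (nat_lit 284) (fin (add (start D4634) (orK (nat_lit 285) (fin (add (start D4635) (orK (nat_lit 305) (fin (add (start (win (nat_lit 7) (nat_lit 4) (nat_lit 11) (nat_lit 5))) (orK (nat_lit 325) (fin (add (start (win (nat_lit 3) (nat_lit 5) (nat_lit 12) (nat_lit 5))) (orK (nat_lit 326) (fin (add (start (win (nat_lit 6) (nat_lit 5) (nat_lit 12) (nat_lit 4))) (win (nat_lit 6) (nat_lit 5) (nat_lit 13) (nat_lit 5)))))))))))))))))) (orK (nat_lit 243) (fin (add (start D25285) (orK (nat_lit 264) (fin (add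 (start D4589) D25286))))))) (orK (nat_lit 243) (fin (add (start D25285) (orK (nat_lit 267) (fin (add (start (win (nat_lit 0) (nat_lit 3) (nat_lit 12) (nat_lit 3))) D10880))))))))))))) (orK (nat_lit 265) (fin (add (start D3781) (orK (nat_lit 264) (fin (add (start D4589) (orK (nat_lit 244) (fin (add (start D2444) D25288)))))))))))
noncomputable def D3132 : OP := win (nat_lit 3) (nat_lit 5) (nat_lit 9) (nat_lit 5)
noncomputable def D25280 : OP := orK (nat_lit 265) (fin (add (start D3132) D25278))
noncomputable def D5293 : AP := fin (add (start D3127) (orK (nat_lit 166) (fin (add (start D5290) D2537))))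
noncomputable def D5294 : OP := orK (nat_lit 186) D5293
noncomputable def D25140 : OP := orK (nat_lit 168) (fin (add (start D37) (orK (nat_lit 167) (fin (add (start D342) (orK (nat_lit 187) (fin (add (start D32) (orK (nat_lit 185) (fin (add (start D3060) (orK (nat_lit 169) (fin (add (start D308) D25130))))))))))))))
noncomputable def D19749 : OP := orK (nat_lit 145) (fin (add (start D3029) D7652))
noncomputable def D15867 : OP := win (nat_lit 3) (nat_lit 6) (nat_lit 9) (nat_lit 1)
noncomputable def D24206 : OP := win (nat_lit 5) (nat_lit 4) (nat_lit 11) (nat_lit 2)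
noncomputable def D7774 : OP := win (nat_lit 3) (nat_lit 6) (nat_lit 9) (nat_lit 5)
noncomputable def D13256 : OP := orK (nat_lit 245) (fin (add (start D2535) (orK (nat_lit 265) (fin (add (start D2427) (orK (nat_lit 266) (fin (add (start D3781) (orK (nat_lit 246) (fin (add (start D7774) D2387)))))))))))
noncomputable def D24263 : OP := orK (nat_lit 184) (fin (add (start D3010) D4370))
noncomputable def D10893 : OP := win (nat_lit 0) (nat_lit 3) (nat_lit 10) (nat_lit 4)
noncomputable def D10905 : OP := orK (nat_lit 203) (fin (add (start D10893) D10903))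
noncomputable def D24852 : OP := orK (nat_lit 224) (fin (add (start D3065) D4296))
noncomputable def D25273 : AP := fin (add (start D3122) D2535)
noncomputable def D25018 : OP := orK (nat_lit 188) (fin (add (start D2364) D24009))
noncomputable def D25236 : OP := orK (nat_lit 245) (fin (add (start D2535) (orK (nat_lit 186) (fin (add (start D2416) (orK (nat_lit 265) (fin (add (start (win (nat_lit 1) (nat_lit 5) (nat_lit 9) (nat_lit 3))) D2427))))))))
noncomputable def D7549 : AP := fin (add (start D4295) D3065)
noncomputable def D7550 : OP := orK (nat_lit 224) D7549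
noncomputable def D24800 : OP := orK (nat_lit 226) (fin (add (start D2427) D2535))
noncomputable def D18509 : OP := orK (nat_lit 145) (fin (add (start D442) (orK (nat_lit 165) (fin (add (start D443) D6440)))))
noncomputable def D6772 : OP := orK (nat_lit 146) (fin (add (start D436) (orK (nat_lit 170) (fin (add (start D1117) D5894)))))
noncomputable def D18595 : OP := orK (nat_lit 128) (fin (add (start D18593) D7213))
noncomputable def D18599 : OP := orK (nat_lit 130) (fin (add (start D6603) (orK (nat_lit 147) (fin (add (start D18592) D18595)))))
noncomputable def D6368 : OP := win (nat_lit 1) (nat_lit 8) (nat_lit 5) (nat_lit 0)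
noncomputable def D1119 : OP := orK (nat_lit 146) (fin (add (start D436) D1117))
noncomputable def D6509 : OP := orK (nat_lit 190) (fin (add (start D1116) (orK (nat_lit 170) (fin (add (start D945) D1119)))))
noncomputable def D2000 : OP := orK (nat_lit 150) (fin (add (start D1997) D1998))
noncomputable def D6714 : OP := orK (nat_lit 146) (fin (add (start D436) (orK (nat_lit 170) (fin (add (start D1117) D2000)))))
noncomputable def D24940 : OP := orK (nat_lit 169) (fin (add (start D308) (orK (nat_lit 189) (fin (add (start D502) D388)))))
noncomputable def D24898 : OP := orK (nat_lit 208) D24008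
noncomputable def D24956 : OP := orK (nat_lit 188) (fin (add (add (add (start D24898) (orK (nat_lit 208) (fin (add (start D37) D24940)))) (orK (nat_lit 208) (fin (add (start D342) D24940)))) (orK (nat_lit 169) (fin (add (add (add (start D6497) D6714) D6509) (orK (nat_lit 146) (fin (add (start D436) (orK (nat_lit 189) (fin (add (start D502) (orK (nat_lit 149) (fin (add (start D1485) (orK (nat_lit 129) (fin (add (start D6368) D18599)))))))))))))))))
noncomputable def D25241 : AP := fin (add (start D501) D23960)
noncomputable def D24867 : OP := win (nat_lit 3) (nat_lit 8) (nat_lit 7) (nat_lit 1)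
noncomputable def D6780 : OP := orK (nat_lit 170) (fin (add (add (start (orK (nat_lit 151) (fin (add (start D1990) (orK (nat_lit 190) (fin (add (start D945) D22))))))) D5894) D2000))
noncomputable def D24875 : OP := orK (nat_lit 169) (fin (add (add (start (orK (nat_lit 189) (fin (add (start D502) (orK (nat_lit 188) (fin (add (start D501) (orK (nat_lit 208) (fin (add (start D37) D388)))))))))) D6780) (orK (nat_lit 149) (fin (add (start D1485) (orK (nat_lit 188) (fin (add (start D24867) (orK (nat_lit 165) (fin (add (start D5551) D3360)))))))))))
noncomputable def D6432 : OP := orK (nat_lit 190) (fin (add (start D1116) D945))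
noncomputable def D6433 : AP := fin (add (start D6432) D1119)
noncomputable def D6452 : OP := orK (nat_lit 144) (fin (add (start D462) (orK (nat_lit 164) (fin (add (start D461) (orK (nat_lit 148) (fin (add (start D6445) D6446))))))))
noncomputable def D6413 : OP := orK (nat_lit 189) (fin (add (start D501) (orK (nat_lit 190) (fin (add (start D542) D910)))))
noncomputable def D24900 : OP := orK (nat_lit 188) (fin (add (start D24898) D6413))
noncomputable def D7796 : OP := win (nat_lit 3) (nat_lit 6) (nat_lit 7) (nat_lit 5)
noncomputable def D18637 : OP := orK (nat_lit 226) (fin (add (start D7779) D7796))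
noncomputable def D3129 : OP := orK (nat_lit 186) (fin (add (start D2416) D3127))
noncomputable def D7556 : OP := orK (nat_lit 245) (fin (add (start D2535) D3129))
noncomputable def D4404 : OP := win (nat_lit 5) (nat_lit 4) (nat_lit 11) (nat_lit 4)
noncomputable def D4406 : OP := orK (nat_lit 244) (fin (add (start D4403) D4404))
noncomputable def D7554 : OP := orK (nat_lit 224) (fin (add (start D3065) D4406))
noncomputable def D7552 : OP := orK (nat_lit 204) (fin (add (start D5351) D7550))
noncomputable def D7560 : OP := orK (nat_lit 225) (fin (add (add (start D7552) D7554) (orK (nat_lit 205) (fin (add (start D3009) D7556)))))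
noncomputable def D7605 : OP := orK (nat_lit 226) (fin (add (start D2035) D7560))
noncomputable def D11066 : OP := orK (nat_lit 187) (fin (add (start D32) D7605))
noncomputable def D25203 : OP := orK (nat_lit 188) (fin (add (start D9698) D13181))
noncomputable def D25195 : OP := orK (nat_lit 246) (fin (add (start D708) D3093))
noncomputable def D25171 : OP := orK (nat_lit 246) (fin (add (start D708) D3092))
noncomputable def D3133 : AP := fin (add (start D3132) D2427)
noncomputable def D11580 : OP := orK (nat_lit 165) D3143
noncomputable def D2422 : OP := win (nat_lit 1) (nat_lit 5) (nat_lit 9) (nat_lit 0)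
noncomputable def D11606 : AP := fin (add (start D2422) D2427)
noncomputable def D25013 : AP := fin (add (start D7556) (orK (nat_lit 248) (fin (add (start D137) D4316))))
noncomputable def D24796 : OP := orK (nat_lit 188) (fin (add (start D24667) (orK (nat_lit 208) (fin (add (start D2364) D4741)))))
noncomputable def D10899 : OP := orK (nat_lit 203) (fin (add (start D10893) D10897))
noncomputable def D11555 : OP := win (nat_lit 5) (nat_lit 4) (nat_lit 8) (nat_lit 3)
noncomputable def D24986 : AP := fin (add (start (win (nat_lit 4) (nat_lit 4) (nat_lit 8) (nat_lit 2))) (orK (nat_lit 166) (fin (add (start D11555) D1484))))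
noncomputable def D4940 : OP := win (nat_lit 0) (nat_lit 3) (nat_lit 10) (nat_lit 0)
noncomputable def D3945 : OP := orK (nat_lit 148) (fin (add (start D1382) (orK (nat_lit 147) (fin (add (start D1381) D1378)))))
noncomputable def D25001 : OP := orK (nat_lit 187) (fin (add (add (add (add (start (orK (nat_lit 204) (fin (add (start D17281) (orK (nat_lit 203) (fin (add (start D10893) D22931))))))) (orK (nat_lit 167) (fin (add (add (start D10830) D3945) (orK (nat_lit 166) (fin (add (start D1484) (orK (nat_lit 186) (fin (add (start (orK (nat_lit 165) (fin (add (start D6173) (orK (nat_lit 226) (fin (add (start D2035) D7782))))))) D12847)))))))))) (orK (nat_lit 204) (fin (add (start D17281) D10899)))) (orK (nat_lit 167) (fin (add (add (start D10830) D3945) (orK (nat_lit 168) (fin (add (start D1307) (orK (nat_lit 226) (fin (add (start D2035) (orK (nat_lit 204) (fin (add (start D4940) (orK (nat_lit 184) (fin (add (start D4939) (orK (nat_lit 185) D24986))))))))))))))))) (orK (nat_lit 204) (fin (add (start D17281) D22935)))))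
noncomputable def D25101 : OP := orK (nat_lit 183) (fin (add (start D3011) (orK (nat_lit 166) (fin (add (start D16884) D16874)))))
noncomputable def D11048 : OP := win (nat_lit 6) (nat_lit 6) (nat_lit 7) (nat_lit 2)
noncomputable def D11148 : OP := orK (nat_lit 145) (fin (add (start D7652) D11146))
noncomputable def D10832 : OP := orK (nat_lit 187) D10831
noncomputable def D6699 : AP := fin (add (start D5550) D1484)
noncomputable def D7783 : OP := win (nat_lit 7) (nat_lit 5) (nat_lit 8) (nat_lit 4)
noncomputable def D7785 : OP := orK (nat_lit 165) (fin (add (start D7782) D7783))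
noncomputable def D10867 : OP := orK (nat_lit 166) (fin (add (start D1726) D7785))
noncomputable def D24604 : OP := orK (nat_lit 185) (fin (add (start D2349) D24452))
noncomputable def D11051 : AP := fin (add (start D7796) D1726)
noncomputable def D13222 : OP := orK (nat_lit 166) D11051
noncomputable def D1172 : OP := win (nat_lit 1) (nat_lit 6) (nat_lit 8) (nat_lit 1)
noncomputable def D13224 : OP := orK (nat_lit 167) (fin (add (start D1172) D13222))
noncomputable def D3613 : OP := win (nat_lit 7) (nat_lit 5) (nat_lit 9) (nat_lit 5)
noncomputable def D5220 : OP := orK (nat_lit 266) (fin (add (start D2305) D3613))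
noncomputable def D13219 : OP := orK (nat_lit 187) (fin (add (start D3935) D708))
noncomputable def D3768 : OP := win (nat_lit 5) (nat_lit 4) (nat_lit 11) (nat_lit 3)
noncomputable def D13240 : OP := orK (nat_lit 244) (fin (add (start D4232) D3768))
noncomputable def D13242 : OP := orK (nat_lit 245) (fin (add (start D2417) D13240))
noncomputable def D3638 : OP := win (nat_lit 1) (nat_lit 5) (nat_lit 10) (nat_lit 5)
noncomputable def D18274 : OP := win (nat_lit 2) (nat_lit 5) (nat_lit 10) (nat_lit 0)
noncomputable def D25003 : OP := orK (nat_lit 165) (fin (add (start D3024) D3092))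
noncomputable def D9734 : OP := orK (nat_lit 168) (fin (add (start D1307) (orK (nat_lit 166) (fin (add (start D1484) D6191)))))
noncomputable def D7771 : OP := win (nat_lit 1) (nat_lit 5) (nat_lit 8) (nat_lit 4)
noncomputable def D11078 : OP := orK (nat_lit 245) (fin (add (start D7771) (orK (nat_lit 246) (fin (add (start D2417) D7785)))))
noncomputable def D11082 : OP := orK (nat_lit 186) (fin (add (start D1726) (orK (nat_lit 226) (fin (add (start D7796) D11078)))))
noncomputable def D6768 : OP := orK (nat_lit 165) (fin (add (start D5551) D4181))
noncomputable def D6546 : OP := win (nat_lit 4) (nat_lit 6) (nat_lit 7) (nat_lit 3)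
noncomputable def D24883 : OP := orK (nat_lit 165) (fin (add (start (orK (nat_lit 148) (fin (add (start D6446) (orK (nat_lit 188) (fin (add (start D5551) D23939))))))) D6189))
noncomputable def D5010 : OP := orK (nat_lit 266) (fin (add (start D3638) D2305))
noncomputable def D11089 : OP := win (nat_lit 1) (nat_lit 5) (nat_lit 9) (nat_lit 4)
noncomputable def D11095 : OP := orK (nat_lit 165) (fin (add (start D7782) (orK (nat_lit 246) (fin (add (start D7783) (orK (nat_lit 265) (fin (add (start D11089) D5010))))))))
noncomputable def D11096 : AP := fin (add (start D7796) D11095)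
noncomputable def D24889 : OP := orK (nat_lit 225) (fin (add (start D7779) D24852))
noncomputable def D3152 : OP := orK (nat_lit 205) (fin (add (start D3009) D3150))
noncomputable def D3153 : AP := fin (add (start D3008) D3152)
noncomputable def D5353 : AP := fin (add (start D5231) D5352)
noncomputable def D5354 : OP := orK (nat_lit 184) D5353
noncomputable def D5356 : OP := orK (nat_lit 185) (fin (add (start D2349) D5354))
noncomputable def D25553 : AP := fin (add (add (add (add (add (add (add (add (add (add (start (orK (nat_lit 228) (fin (add (start D3008) (orK (nat_lit 226) (fin (add (add (add (start D7560) (orK (nat_lit 246) (fin (add (add (start D13219) (orK (nat_lit 205) (fin (add (start D3009) D5220)))) (orK (nat_lit 204) (fin (add (start D5351) (orK (nat_lit 186) (fin (add (add (start D13224) (orK (nat_lit 187) (fin (add (start D3935) D5356)))) D10867)))))))))) (orK (nat_lit 246) (fin (add (add (start D13219) (orK (nat_lit 266) (fin (add (start D2305) (orK (nat_lit 265) (fin (add (start D3638) (orK (nat_lit 186) (fin (add (start D11089) D10867)))))))))) (orK (nat_lit 167) (fin (add (start D1172)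 (orK (nat_lit 186) (fin (add (start D13222) D13242)))))))))) (orK (nat_lit 225) (fin (add (add (start D7552) D7554) (orK (nat_lit 205) (fin (add (start D3009) D13256))))))))))))) (orK (nat_lit 228) D3153)) (orK (nat_lit 228) (fin (add (start D3008) (orK (nat_lit 167) (fin (add (add (add (start (orK (nat_lit 187) (fin (add (start D32) (orK (nat_lit 147) (fin (add (start D1445) D3161))))))) (orK (nat_lit 187) (fin (add (start D32) D9734)))) (orK (nat_lit 166) (fin (add (add (add (add (start (orK (nat_lit 186) (fin (add (start D1726) (orK (nat_lit 226) (fin (add (start D7796) (orK (nat_lit 225) (fin (add (start D7779) (orK (nat_lit 248) (fin (add (start D137) D24852))))))))))))) (orK (nat_lit 146) (fin (add (start D11048) (orK (nat_lit 168) (fin (add (add (add (start D6815) D24875) (orK (nat_lit 169) (fin (add (start D436) D6497)))) D24883))))))) (orK (nat_lit 186) (fin (add (add (add (start (orK (nat_lit 226) (fin (add (start D7796) D24889)))) (orK (nat_lit 168) (fin (add (add (add (start (orK (nat_lit 185) (fin (add (start D6175) (orK (nat_lit 184) (fin (add (start D5231) D11555))))))) (orK (nat_lit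 169) (fin (add (start D452) D6497)))) D24883) D24900)))) (orK (nat_lit 226) (fin (add (start D24889) (orK (nat_lit 165) (fin (add (start D7782) (orK (nat_lit 185) (fin (add (start D10548) (orK (nat_lit 184) (fin (add (start D5231) D16874))))))))))))) (orK (nat_lit 226) D11096))))) (orK (nat_lit 168) (fin (add (add (add (add (start D24883) D24900) (orK (nat_lit 149) (fin (add (add (start (orK (nat_lit 148) (fin (add (start D3470) (orK (nat_lit 150) (fin (add (start D6546) D6547))))))) D24915) (orK (nat_lit 169) (fin (add (start D1485) (orK (nat_lit 146) (fin (add (start D436) (orK (nat_lit 170) (fin (add (start D1117) D1553))))))))))))) (orK (nat_lit 188) (fin (add (add (start D6413) D6768) (orK (nat_lit 169) (fin (add (add (start (orK (nat_lit 149) (fin (add (start D24867) D1485)))) (orK (nat_lit 146) (fin (add (start D436) (orK (nat_lit 147) (fin (add (start D11534) (win (nat_lit 7) (nat_lit 7) (nat_lit 7) (nat_lit 1))))))))) D6772))))))) D24956)))) D11082)))) (orK (nat_lit 187) (fin (add (start D23936) D9734)))))))))) (orK (nat_lit 205) (fin (add (add (start D22735) D25001) (orK (nat_lit 226) (fin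 (add (add (add (add (start (orK (nat_lit 185) (fin (add (start (orK (nat_lit 246) (fin (add (start D3117) D25003)))) D3016)))) (orK (nat_lit 228) (fin (add (start D18274) (orK (nat_lit 225) D25013))))) (orK (nat_lit 228) (fin (add (start D18274) (orK (nat_lit 246) (fin (add (add (start D13219) D5220) (orK (nat_lit 167) (fin (add (start D1172) (orK (nat_lit 185) (fin (add (start D25003) (orK (nat_lit 208) (fin (add (start D3060) D25018)))))))))))))))) (orK (nat_lit 228) (fin (add (start D18274) (orK (nat_lit 246) (fin (add (add (start D13219) (orK (nat_lit 266) (fin (add (start D2305) (orK (nat_lit 265) (fin (add (start D3638) (orK (nat_lit 245) (fin (add (start D2422) D13240)))))))))) (orK (nat_lit 186) (fin (add (start D13242) D13224)))))))))) (orK (nat_lit 246) (fin (add (add (start D13219) D5220) (orK (nat_lit 186) (fin (add (add (start D13224) (orK (nat_lit 187) (fin (add (start D3935) D24604)))) D10867))))))))))))) (orK (nat_lit 205) (fin (add (add (start D22735) D24673) (orK (nat_lit 228) (fin (add (start D3008) (orK (nat_lit 185) (fin (add (add (add (start D3016) (orK (nat_lit 187) (fin (add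 (start (orK (nat_lit 188) (fin (add (add (start D24435) D25067) D12505)))) D12715)))) (orK (nat_lit 208) (fin (add (start D3060) (orK (nat_lit 188) (fin (add (start D2364) (orK (nat_lit 168) (fin (add (start D37) (orK (nat_lit 167) (fin (add (start D342) (orK (nat_lit 187) (fin (add (start D32) (orK (nat_lit 226) (fin (add (start D2035) (orK (nat_lit 165) (fin (add (start D3024) (orK (nat_lit 166) D6699))))))))))))))))))))))) (orK (nat_lit 167) (fin (add (add (start D10832) (orK (nat_lit 187) (fin (add (start D32) (orK (nat_lit 168) (fin (add (start D1307) (orK (nat_lit 184) D24986)))))))) (orK (nat_lit 165) (fin (add (add (add (start D3146) D11148) (orK (nat_lit 184) (fin (add (add (start D3014) (orK (nat_lit 166) (fin (add (start D16874) (orK (nat_lit 186) (fin (add (start D1726) (orK (nat_lit 226) (fin (add (start D7796) D10548)))))))))) D25101)))) (orK (nat_lit 184) (fin (add (add (start D3014) (orK (nat_lit 166) (fin (add (start D16874) (orK (nat_lit 146) (fin (add (start D11048) D11151))))))) D25101))))))))))))))))))) (orK (nat_lit 205) (fin (add (add (add (add (start D24673) D3150) (orK (nat_lit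 204) (fin (add (add (start (orK (nat_lit 203) (fin (add (start D10893) D24658)))) D10905) D24796)))) D25001) (orK (nat_lit 204) (fin (add (start D10899) D24796))))))) (orK (nat_lit 205) (fin (add (add (start D22735) D24673) (orK (nat_lit 228) (fin (add (start D3008) (orK (nat_lit 225) (fin (add (add (add (start D3023) (orK (nat_lit 245) (fin (add (add (start (orK (nat_lit 265) (fin (add (start D3132) D24800)))) (orK (nat_lit 186) (fin (add (start D3127) (orK (nat_lit 185) D5286))))) (orK (nat_lit 244) (fin (add (start D24206) (orK (nat_lit 264) (fin (add (start D2444) (orK (nat_lit 284) (fin (add (start (win (nat_lit 3) (nat_lit 4) (nat_lit 10) (nat_lit 3))) (win (nat_lit 3) (nat_lit 4) (nat_lit 11) (nat_lit 0))))))))))))))) (orK (nat_lit 226) D25013)) (orK (nat_lit 208) (fin (add (start D3061) (orK (nat_lit 188) (fin (add (start D2364) D25140)))))))))))))))) (orK (nat_lit 228) (fin (add (start D3008) (orK (nat_lit 205) (fin (add (start D3009) (orK (nat_lit 185) (fin (add (add (add (start D3016) (orK (nat_lit 226) (fin (add (add (add (start (orK (nat_lit 246) (fin (add (start D3117) (orK (nat_lit 187)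 (fin (add (start D3935) (orK (nat_lit 225) (fin (add (start (orK (nat_lit 245) (fin (add (start D2535) (orK (nat_lit 265) D11606))))) D24852)))))))))) D11580) (orK (nat_lit 165) D3145)) (orK (nat_lit 145) (fin (add (start (win (nat_lit 6) (nat_lit 5) (nat_lit 7) (nat_lit 1))) (orK (nat_lit 225) (fin (add (start D24852) (orK (nat_lit 245) (fin (add (start D2535) (orK (nat_lit 265) D3133)))))))))))))) D24783) (orK (nat_lit 187) (fin (add (add (add (start D12715) (orK (nat_lit 165) (fin (add (add (add (start (orK (nat_lit 226) (fin (add (start D3024) D25171)))) (orK (nat_lit 145) (fin (add (add (add (start D3104) D3110) (orK (nat_lit 144) (fin (add (start D3030) (orK (nat_lit 164) (fin (add (start D11184) (orK (nat_lit 188) (fin (add (start D25174) (orK (nat_lit 146) (fin (add (start D3029) (orK (nat_lit 163) (fin (add (start D25175) (win (nat_lit 5) (nat_lit 3) (nat_lit 7) (nat_lit 0)))))))))))))))))) D11146)))) (orK (nat_lit 226) (fin (add (add (start D25171) (orK (nat_lit 225) (fin (add (start D3067) (orK (nat_lit 184) (fin (add (start D3014) (orK (nat_lit 164) (fin (add (start D3073) D3081))))))))))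 D25195)))) (orK (nat_lit 226) (fin (add (start D3024) D25195))))))) (orK (nat_lit 167) (fin (add (start D32) (orK (nat_lit 168) (fin (add (start D1307) (orK (nat_lit 186) (fin (add (start D4182) (orK (nat_lit 147) (fin (add (start D4199) D25203))))))))))))) (orK (nat_lit 167) (fin (add (start D32) (orK (nat_lit 226) (fin (add (start D2035) (orK (nat_lit 168) (fin (add (start D1307) (orK (nat_lit 186) (fin (add (start D4182) D25203))))))))))))))))))))))))) (orK (nat_lit 228) (fin (add (start D3008) (orK (nat_lit 167) (fin (add (add (add (start D11066) (orK (nat_lit 225) (fin (add (add (add (start (orK (nat_lit 226) (fin (add (start D24852) D25236)))) (orK (nat_lit 166) (fin (add (add (start (orK (nat_lit 186) (fin (add (start D1726) D18637)))) (orK (nat_lit 205) (fin (add (start D3009) (orK (nat_lit 168) (fin (add (add (add (add (add (add (start D24900) (orK (nat_lit 188) (fin (add (add (start (orK (nat_lit 189) D25241)) D24898) (orK (nat_lit 165) (fin (add (start D5551) D6452))))))) (orK (nat_lit 169) (fin (add (add (start (orK (nat_lit 170) D6433)) (orK (nat_lit 170) (fin (add (start D6432) D2000))))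 D6442)))) D24875) (orK (nat_lit 189) (fin (add (start (orK (nat_lit 188) D25241)) (orK (nat_lit 169) (fin (add (start D502) D6714))))))) D24956) (orK (nat_lit 169) (fin (add (add (add (start D6772) D18509) (orK (nat_lit 149) (fin (add (start D1485) (orK (nat_lit 208) (fin (add (start D25252) (orK (nat_lit 170) (fin (add (start D1553) (orK (nat_lit 148) (fin (add (start D3470) (orK (nat_lit 171) (fin (add (start D265) D1554)))))))))))))))) (orK (nat_lit 146) (fin (add (start D436) (orK (nat_lit 170) (fin (add (start D1117) D10677)))))))))))))))) (orK (nat_lit 245) (fin (add (add (start (orK (nat_lit 226) D25273)) (orK (nat_lit 205) (fin (add (start D3009) D25280)))) (orK (nat_lit 265) (fin (add (add (start D24800) (orK (nat_lit 205) (fin (add (start D3009) D25278)))) (orK (nat_lit 244) (fin (add (start D24206) (orK (nat_lit 205) (fin (add (start D3009) (orK (nat_lit 264) (fin (add (start D4589) (orK (nat_lit 266) (fin (add (start D3781) D25288)))))))))))))))))))))) (orK (nat_lit 204) (fin (add (start D5351) (orK (nat_lit 226) (fin (add (start D7550) D25236))))))) (orK (nat_lit 205) (fin (add (start D3009)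 (orK (nat_lit 208) (fin (add (start D3061) D25018)))))))))) (orK (nat_lit 187) D25313)) (orK (nat_lit 205) (fin (add (start D3009) (orK (nat_lit 187) (fin (add (add (start (orK (nat_lit 166) (fin (add (start D1484) (orK (nat_lit 226) (fin (add (start D2035) (orK (nat_lit 188) (fin (add (add (start (orK (nat_lit 189) (fin (add (start D5950) D23960)))) (orK (nat_lit 225) (fin (add (start (orK (nat_lit 245) D25273)) D24852)))) (orK (nat_lit 189) (fin (add (start D5950) D12503))))))))))))) D10830) D3165))))))))))))) (orK (nat_lit 205) (fin (add (add (start D22735) (orK (nat_lit 204) (fin (add (start D10905) (orK (nat_lit 184) (fin (add (start D4939) (orK (nat_lit 208) (fin (add (start D4938) D24669)))))))))) (orK (nat_lit 225) (fin (add (add (add (start D3023) (orK (nat_lit 228) (fin (add (start D3008) (orK (nat_lit 248) (fin (add (add (start D4316) (orK (nat_lit 226) (fin (add (start D137) (orK (nat_lit 245) (fin (add (start D2535) (orK (nat_lit 265) (fin (add (start D2427) (orK (nat_lit 266) (fin (add (start D3781) (orK (nat_lit 185) (fin (add (start D4482) D24263)))))))))))))))) (orK (nat_lit 226) (fin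 (add (start D137) D13256)))))))))) (orK (nat_lit 245) (fin (add (add (add (start (orK (nat_lit 228) (fin (add (start D3008) (orK (nat_lit 244) (fin (add (start D24206) (orK (nat_lit 185) D25363)))))))) D25416) (orK (nat_lit 228) (fin (add (start D3008) (orK (nat_lit 226) (fin (add (start D2535) (orK (nat_lit 248) (fin (add (start D137) (orK (nat_lit 265) (fin (add (start D2427) (orK (nat_lit 223) (fin (add (start D25417) (orK (nat_lit 266) (fin (add (start D3781) (orK (nat_lit 187) (fin (add (start D15867) D2197)))))))))))))))))))))) (orK (nat_lit 266) (fin (add (add (start (orK (nat_lit 265) (fin (add (start D3781) (orK (nat_lit 284) (fin (add (start D4634) (orK (nat_lit 285) (fin (add (start D4635) D3811)))))))))) D25369) (orK (nat_lit 185) (fin (add (start D4482) (orK (nat_lit 164) (fin (add (start D3074) (orK (nat_lit 165) (fin (add (start D3073) (orK (nat_lit 146) (fin (add (start D3028) D19749))))))))))))))))))) (orK (nat_lit 228) (fin (add (start D3008) (orK (nat_lit 208) (fin (add (start D3061) (orK (nat_lit 188) (fin (add (start D2364) D25458)))))))))))))))) (orK (nat_lit 228) (fin (add (start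 D3008) (orK (nat_lit 205) (fin (add (start D3009) (orK (nat_lit 188) (fin (add (add (add (add (start (orK (nat_lit 189) (fin (add (start D23960) (orK (nat_lit 187) D12504))))) (orK (nat_lit 208) (fin (add (start D2364) (orK (nat_lit 168) (fin (add (start D37) (orK (nat_lit 169) (fin (add (start D308) (orK (nat_lit 167) (fin (add (start D342) (orK (nat_lit 185) (fin (add (start D3060) (orK (nat_lit 166) (fin (add (start D445) (orK (nat_lit 146) (fin (add (start D436) (orK (nat_lit 225) (fin (add (start D7724) D3061))))))))))))))))))))))))) (orK (nat_lit 189) (fin (add (start D23960) (orK (nat_lit 187) (fin (add (start D129) (orK (nat_lit 167) (fin (add (start D32) (orK (nat_lit 168) (fin (add (start D1307) D25489))))))))))))) (orK (nat_lit 225) (fin (add (add (add (start (orK (nat_lit 208) (fin (add (start D3061) D25140)))) (orK (nat_lit 245) (fin (add (add (add (start D5294) D25280) D25416) (orK (nat_lit 185) (fin (add (add (start D5287) (orK (nat_lit 244) (fin (add (start D3070) (orK (nat_lit 165) (fin (add (start D880) D4586))))))) (orK (nat_lit 244) D25363)))))))) (orK (nat_lit 208) (fin (add (start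 D3061) D25458)))) (orK (nat_lit 185) (fin (add (add (add (start D3016) (orK (nat_lit 187) (fin (add (add (start D3199) D25067) (orK (nat_lit 167) (fin (add (start D32) (orK (nat_lit 168) (fin (add (start D1307) (orK (nat_lit 186) (fin (add (start D9698) D12247))))))))))))) D3089) (orK (nat_lit 245) (fin (add (start (orK (nat_lit 184) (fin (add (start D4370) D3014)))) D25522)))))))))) (orK (nat_lit 187) (fin (add (add (start D12505) (orK (nat_lit 167) (fin (add (start D32) (orK (nat_lit 168) (fin (add (start D1307) (orK (nat_lit 146) (fin (add (start D579) (orK (nat_lit 147) (fin (add (start D1376) (orK (nat_lit 127) (fin (add (start D4206) D919)))))))))))))))) (orK (nat_lit 167) (fin (add (start D32) (orK (nat_lit 168) (fin (add (start D1307) (orK (nat_lit 189) (fin (add (start D129) D25489))))))))))))))))))))))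
noncomputable def D12225 : OP := win (nat_lit 4) (nat_lit 4) (nat_lit 9) (nat_lit 1)
noncomputable def D12255 : OP := orK (nat_lit 184) (fin (add (start D5231) (orK (nat_lit 204) (fin (add (start D12225) D5352)))))
noncomputable def D12251 : OP := orK (nat_lit 184) (fin (add (start D5231) D7678))
noncomputable def D13190 : OP := orK (nat_lit 185) (fin (add (add (start D12251) D12255) (orK (nat_lit 165) (fin (add (start D357) (orK (nat_lit 205) (fin (add (start D2363) D13184))))))))
noncomputable def D5495 : OP := orK (nat_lit 248) (fin (add (start D1369) (orK (nat_lit 167) (fin (add (start D1368) D1743)))))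
noncomputable def D21745 : OP := orK (nat_lit 168) (fin (add (start D1308) (orK (nat_lit 167) (fin (add (start D1307) D1371)))))
noncomputable def D24208 : OP := orK (nat_lit 244) (fin (add (start D3070) D24206))
noncomputable def D4880 : OP := win (nat_lit 4) (nat_lit 5) (nat_lit 12) (nat_lit 4)
noncomputable def D3589 : OP := win (nat_lit 2) (nat_lit 4) (nat_lit 12) (nat_lit 5)
noncomputable def D3595 : OP := win (nat_lit 5) (nat_lit 4) (nat_lit 13) (nat_lit 5)
noncomputable def D3657 : OP := win (nat_lit 5) (nat_lit 4) (nat_lit 13) (nat_lit 4)
noncomputable def D3656 : OP := win (nat_lit 5) (nat_lit 3) (nat_lit 13) (nat_lit 5)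
noncomputable def D3659 : OP := orK (nat_lit 284) (fin (add (start D3656) D3657))
noncomputable def D3579 : OP := win (nat_lit 2) (nat_lit 3) (nat_lit 12) (nat_lit 5)
noncomputable def D3580 : OP := win (nat_lit 2) (nat_lit 4) (nat_lit 12) (nat_lit 4)
noncomputable def D4878 : OP := orK (nat_lit 244) (fin (add (start D3580) (orK (nat_lit 264) (fin (add (start D3579) D3659)))))
noncomputable def D3902 : OP := win (nat_lit 4) (nat_lit 5) (nat_lit 12) (nat_lit 5)
noncomputable def D3901 : OP := win (nat_lit 4) (nat_lit 4) (nat_lit 12) (nat_lit 0)
noncomputable def D3903 : AP := fin (add (start D3901) D3902)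
noncomputable def D4560 : OP := orK (nat_lit 248) D3903
noncomputable def D15616 : AP := fin (add (start D1169) D4770)
noncomputable def D17471 : AP := fin (add (start D1307) D32)
noncomputable def D24086 : OP := orK (nat_lit 187) (fin (add (add (start D4818) (orK (nat_lit 188) (fin (add (start D41) (orK (nat_lit 267) (fin (add (start D5664) D4906))))))) (orK (nat_lit 168) (fin (add (start D1308) (orK (nat_lit 167) D17471))))))
noncomputable def D4131 : AP := fin (add (start D1371) D1743)
noncomputable def D4255 : OP := orK (nat_lit 167) D4131
noncomputable def D5683 : OP := orK (nat_lit 187) (fin (add (add (start D5679) D4255) D5681))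
noncomputable def D1798 : OP := orK (nat_lit 287) (fin (add (start D1784) D1794))
noncomputable def D1809 : OP := orK (nat_lit 267) (fin (add (add (start (orK (nat_lit 187) D1806)) D1790) D1798))
noncomputable def D6690 : OP := orK (nat_lit 165) (fin (add (start D5906) D447))
noncomputable def D6691 : AP := fin (add (start D502) D6690)
noncomputable def D6692 : OP := orK (nat_lit 189) D6691
noncomputable def D15931 : OP := orK (nat_lit 185) (fin (add (start D4373) D4501))
noncomputable def D4737 : OP := win (nat_lit 0) (nat_lit 4) (nat_lit 10) (nat_lit 5)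
noncomputable def D18261 : AP := fin (add (start D4940) D4737)
noncomputable def D18273 : OP := orK (nat_lit 204) D18261
noncomputable def D21853 : OP := orK (nat_lit 204) (fin (add (start D4940) D17281))
noncomputable def D3789 : OP := win (nat_lit 3) (nat_lit 5) (nat_lit 11) (nat_lit 0)
noncomputable def D11607 : OP := orK (nat_lit 206) D11606
noncomputable def D21818 : OP := orK (nat_lit 244) (fin (add (start D4232) D21754))
noncomputable def D15943 : OP := win (nat_lit 5) (nat_lit 3) (nat_lit 11) (nat_lit 4)
noncomputable def D15942 : OP := win (nat_lit 5) (nat_lit 2) (nat_lit 11) (nat_lit 5)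
noncomputable def D15945 : OP := orK (nat_lit 243) (fin (add (start D15942) D15943))
noncomputable def D15906 : OP := win (nat_lit 4) (nat_lit 3) (nat_lit 10) (nat_lit 4)
noncomputable def D15947 : OP := orK (nat_lit 223) (fin (add (start D15906) D15945))
noncomputable def D15905 : OP := win (nat_lit 2) (nat_lit 2) (nat_lit 10) (nat_lit 5)
noncomputable def D15904 : OP := win (nat_lit 2) (nat_lit 3) (nat_lit 10) (nat_lit 4)
noncomputable def D15910 : OP := orK (nat_lit 203) (fin (add (start D15904) (orK (nat_lit 223) (fin (add (start D15905) D15906)))))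
noncomputable def D4233 : OP := win (nat_lit 4) (nat_lit 4) (nat_lit 11) (nat_lit 5)
noncomputable def D4241 : OP := orK (nat_lit 244) (fin (add (start D4233) D629))
noncomputable def D4235 : OP := orK (nat_lit 244) (fin (add (start D4232) D4233))
noncomputable def D4250 : OP := orK (nat_lit 246) (fin (add (start D134) (orK (nat_lit 248) (fin (add (start D1369) (orK (nat_lit 225) (fin (add (add (start (orK (nat_lit 226) (fin (add (start D2341) (orK (nat_lit 245) (fin (add (start (orK (nat_lit 265) (fin (add (start D139) D138)))) D4235))))))) (orK (nat_lit 245) (fin (add (start D136) D4241)))) (orK (nat_lit 226) D4042)))))))))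
noncomputable def D10439 : OP := orK (nat_lit 167) (fin (add (add (start D3208) D8204) D1386))
noncomputable def D5892 : OP := orK (nat_lit 167) (fin (add (add (start D5886) D3945) D5890))
noncomputable def D13394 : OP := win (nat_lit 3) (nat_lit 5) (nat_lit 9) (nat_lit 2)
noncomputable def D3606 : OP := win (nat_lit 0) (nat_lit 3) (nat_lit 12) (nat_lit 0)
noncomputable def D3605 : OP := win (nat_lit 2) (nat_lit 5) (nat_lit 12) (nat_lit 0)
noncomputable def D4704 : OP := win (nat_lit 4) (nat_lit 4) (nat_lit 12) (nat_lit 4)
noncomputable def D1778 : OP := win (nat_lit 4) (nat_lit 5) (nat_lit 12) (nat_lit 0)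
noncomputable def D24314 : OP := win (nat_lit 6) (nat_lit 8) (nat_lit 10) (nat_lit 0)
noncomputable def D3586 : OP := win (nat_lit 0) (nat_lit 6) (nat_lit 13) (nat_lit 5)
noncomputable def D3590 : OP := win (nat_lit 2) (nat_lit 5) (nat_lit 12) (nat_lit 4)
noncomputable def D3868 : AP := fin (add (start D3606) (orK (nat_lit 226) (fin (add (start D2305) D3768))))
noncomputable def D3874 : OP := orK (nat_lit 244) (fin (add (start D3607) (orK (nat_lit 246) D3868)))
noncomputable def D3871 : OP := orK (nat_lit 246) (fin (add (start D3605) (orK (nat_lit 244) D3868)))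
noncomputable def D24365 : OP := orK (nat_lit 248) (fin (add (start D3902) D24314))
noncomputable def D3596 : OP := win (nat_lit 5) (nat_lit 5) (nat_lit 13) (nat_lit 4)
noncomputable def D3830 : OP := orK (nat_lit 244) (fin (add (start D3607) (orK (nat_lit 246) (fin (add (start D3606) D3605)))))
noncomputable def D4345 : OP := win (nat_lit 4) (nat_lit 3) (nat_lit 13) (nat_lit 0)
noncomputable def D3668 : OP := win (nat_lit 5) (nat_lit 5) (nat_lit 13) (nat_lit 0)
noncomputable def D4344 : OP := win (nat_lit 1) (nat_lit 6) (nat_lit 10) (nat_lit 2)
noncomputable def D3623 : OP := win (nat_lit 5) (nat_lit 5) (nat_lit 13) (nat_lit 5)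
noncomputable def D3622 : OP := win (nat_lit 2) (nat_lit 5) (nat_lit 12) (nat_lit 5)
noncomputable def D1763 : OP := win (nat_lit 3) (nat_lit 6) (nat_lit 10) (nat_lit 3)
noncomputable def D9902 : OP := orK (nat_lit 290) (fin (add (start (win (nat_lit 0) (nat_lit 6) (nat_lit 13) (nat_lit 0))) (orK (nat_lit 291) (fin (add (start (win (nat_lit 0) (nat_lit 7) (nat_lit 13) (nat_lit 3))) (win (nat_lit 2) (nat_lit 8) (nat_lit 13) (nat_lit 0)))))))
noncomputable def D24328 : OP := orK (nat_lit 289) (fin (add (start D24314) D9902))
noncomputable def D3598 : OP := orK (nat_lit 285) (fin (add (start D3595) D3596))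
noncomputable def D4687 : OP := orK (nat_lit 265) (fin (add (start D3902) D3598))
noncomputable def D3626 : AP := fin (add (start D3622) (orK (nat_lit 286) (fin (add (start D1763) D3623))))
noncomputable def D4688 : OP := orK (nat_lit 246) D3626
noncomputable def D24330 : OP := orK (nat_lit 269) (fin (add (add (start (orK (nat_lit 289) (fin (add (start D24314) (orK (nat_lit 309) (fin (add (start (win (nat_lit 7) (nat_lit 8) (nat_lit 11) (nat_lit 3))) (win (nat_lit 7) (nat_lit 8) (nat_lit 12) (nat_lit 0))))))))) (orK (nat_lit 266) (fin (add (add (start D4688) D4687) (orK (nat_lit 245) (fin (add (start D3590) (orK (nat_lit 265) (fin (add (start D3589) D3902)))))))))) D24328))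
noncomputable def D24332 : OP := orK (nat_lit 248) (fin (add (start D402) D24330))
noncomputable def D3566 : OP := win (nat_lit 7) (nat_lit 7) (nat_lit 10) (nat_lit 2)
noncomputable def D3565 : OP := win (nat_lit 6) (nat_lit 7) (nat_lit 10) (nat_lit 2)
noncomputable def D3568 : OP := orK (nat_lit 288) (fin (add (start D3565) D3566))
noncomputable def D2841 : OP := win (nat_lit 0) (nat_lit 8) (nat_lit 13) (nat_lit 5)
noncomputable def D12061 : OP := orK (nat_lit 291) (fin (add (start (win (nat_lit 0) (nat_lit 7) (nat_lit 13) (nat_lit 4))) (orK (nat_lit 271) (fin (add (start D2841) (orK (nat_lit 251) (fin (add (start (win (nat_lit 4) (nat_lit 8) (nat_lit 12) (nat_lit 5))) (win (nat_lit 7) (nat_lit 10) (nat_lit 10) (nat_lit 3))))))))))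
noncomputable def D3727 : OP := win (nat_lit 5) (nat_lit 6) (nat_lit 13) (nat_lit 4)
noncomputable def D4613 : OP := win (nat_lit 6) (nat_lit 5) (nat_lit 10) (nat_lit 0)
noncomputable def D3615 : OP := orK (nat_lit 205) (fin (add (start D3009) D3613))
noncomputable def D3612 : OP := win (nat_lit 6) (nat_lit 6) (nat_lit 10) (nat_lit 5)
noncomputable def D3617 : OP := orK (nat_lit 206) (fin (add (start D3612) D3615))
noncomputable def D3773 : AP := fin (add (start D3605) (orK (nat_lit 244) (fin (add (start D3606) (orK (nat_lit 226) (fin (add (start D3768) D3617)))))))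
noncomputable def D3729 : OP := win (nat_lit 0) (nat_lit 7) (nat_lit 13) (nat_lit 5)
noncomputable def D3728 : OP := win (nat_lit 0) (nat_lit 6) (nat_lit 13) (nat_lit 4)
noncomputable def D3619 : OP := orK (nat_lit 226) (fin (add (start D2305) D3617))
noncomputable def D3776 : OP := orK (nat_lit 246) (fin (add (add (add (start (orK (nat_lit 269) D3626)) D3619) (orK (nat_lit 269) (fin (add (start D3622) (orK (nat_lit 290) (fin (add (start D3728) (orK (nat_lit 270) (fin (add (start D3729) (orK (nat_lit 286) (fin (add (start D3623) D3727))))))))))))) (orK (nat_lit 245) D3773)))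
noncomputable def D4681 : OP := win (nat_lit 3) (nat_lit 6) (nat_lit 10) (nat_lit 2)
noncomputable def D2304 : OP := win (nat_lit 0) (nat_lit 5) (nat_lit 11) (nat_lit 0)
noncomputable def D24255 : OP := orK (nat_lit 265) (fin (add (start D3902) D4878))
noncomputable def D24311 : OP := orK (nat_lit 266) (fin (add (add (add (start D24255) (orK (nat_lit 249) (fin (add (start D1778) (orK (nat_lit 226) (fin (add (start D2304) (orK (nat_lit 286) (fin (add (start D4681) (orK (nat_lit 269) (fin (add (start D3623) (orK (nat_lit 289) (fin (add (start D3586) D24289)))))))))))))))) D3776) (orK (nat_lit 265) (fin (add (start D3902) (orK (nat_lit 245) (fin (add (start D3589) (orK (nat_lit 246) (fin (add (start D3605) (orK (nat_lit 286) (fin (add (start D1763) (orK (nat_lit 225) (fin (add (start D4613) D5281)))))))))))))))))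
noncomputable def D9615 : OP := orK (nat_lit 204) (fin (add (start D4294) (orK (nat_lit 224) (fin (add (start D4295) D4406)))))
noncomputable def D5133 : OP := orK (nat_lit 224) (fin (add (start D4296) D4406))
noncomputable def D15952 : AP := fin (add (start D137) (orK (nat_lit 204) (fin (add (start D4294) (orK (nat_lit 224) (fin (add (start D4295) D15947)))))))
noncomputable def D15958 : OP := orK (nat_lit 225) D15952
noncomputable def D24279 : OP := orK (nat_lit 226) (fin (add (add (add (start (orK (nat_lit 225) (fin (add (start D137) (orK (nat_lit 208) (fin (add (start D109) D2230))))))) D15958) (orK (nat_lit 287) (fin (add (start (win (nat_lit 1) (nat_lit 7) (nat_lit 10) (nat_lit 0))) (orK (nat_lit 266) (fin (add (start (orK (nat_lit 246) (fin (add (start D2305) (win (nat_lit 6) (nat_lit 6) (nat_lit 10) (nat_lit 0)))))) (orK (nat_lit 327) (fin (add (start (win (nat_lit 3) (nat_lit 7) (nat_lit 12) (nat_lit 1))) D24255)))))))))) (orK (nat_lit 225) (fin (add (add (add (start D4300) D5133) D9615) (orK (nat_lit 205) (fin (add (start D2466) (orK (nat_lit 245) (fin (add (start D2535) (orK (nat_lit 185)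 (fin (add (start (orK (nat_lit 206) (fin (add (start D3129) D24263)))) D4375))))))))))))))
noncomputable def D24225 : AP := fin (add (start D109) D24001)
noncomputable def D24226 : OP := orK (nat_lit 208) D24225
noncomputable def D3585 : OP := win (nat_lit 0) (nat_lit 5) (nat_lit 13) (nat_lit 4)
noncomputable def D3667 : OP := orK (nat_lit 289) (fin (add (start D3585) (orK (nat_lit 269) (fin (add (start D3586) D3598)))))
noncomputable def D3631 : OP := orK (nat_lit 289) (fin (add (start D3586) (orK (nat_lit 265) (fin (add (start D3585) D3598)))))
noncomputable def D3836 : OP := win (nat_lit 2) (nat_lit 6) (nat_lit 13) (nat_lit 3)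
noncomputable def D3835 : OP := win (nat_lit 0) (nat_lit 5) (nat_lit 13) (nat_lit 0)
noncomputable def D3575 : OP := win (nat_lit 0) (nat_lit 4) (nat_lit 13) (nat_lit 4)
noncomputable def D3576 : OP := win (nat_lit 0) (nat_lit 5) (nat_lit 13) (nat_lit 5)
noncomputable def D3663 : OP := orK (nat_lit 288) (fin (add (start D3576) (orK (nat_lit 264) (fin (add (start D3575) D3659)))))
noncomputable def D3808 : OP := orK (nat_lit 206) (fin (add (start D3009) D3132))
noncomputable def D3816 : OP := orK (nat_lit 204) (fin (add (start D3783) D3814))
noncomputable def D3813 : OP := orK (nat_lit 206) (fin (add (start D3132) D3811))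
noncomputable def D3796 : AP := fin (add (start D2387) D3781)
noncomputable def D3793 : OP := win (nat_lit 3) (nat_lit 5) (nat_lit 12) (nat_lit 0)
noncomputable def D3795 : OP := orK (nat_lit 305) (fin (add (start (win (nat_lit 3) (nat_lit 5) (nat_lit 11) (nat_lit 5))) D3793))
noncomputable def D3800 : OP := win (nat_lit 3) (nat_lit 5) (nat_lit 10) (nat_lit 5)
noncomputable def D3582 : OP := orK (nat_lit 244) (fin (add (start D3579) D3580))
noncomputable def D3588 : OP := orK (nat_lit 289) (fin (add (start D3585) D3586))
noncomputable def D3759 : OP := orK (nat_lit 265) (fin (add (add (start (orK (nat_lit 264) (fin (add (start (orK (nat_lit 288) (fin (add (start D3575) D3576)))) D3582)))) (orK (nat_lit 269) (fin (add (start D3588) D3598)))) (orK (nat_lit 264) (fin (add (start D3582) D3659)))))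
noncomputable def D3695 : OP := orK (nat_lit 283) (fin (add (start (win (nat_lit 5) (nat_lit 2) (nat_lit 13) (nat_lit 5))) (win (nat_lit 5) (nat_lit 3) (nat_lit 13) (nat_lit 4))))
noncomputable def D3678 : OP := win (nat_lit 2) (nat_lit 2) (nat_lit 12) (nat_lit 5)
noncomputable def D3677 : OP := win (nat_lit 2) (nat_lit 3) (nat_lit 12) (nat_lit 4)
noncomputable def D3699 : OP := orK (nat_lit 243) (fin (add (start D3677) (orK (nat_lit 263) (fin (add (start D3678) D3695)))))
noncomputable def D3714 : OP := win (nat_lit 0) (nat_lit 3) (nat_lit 13) (nat_lit 0)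
noncomputable def D1695 : OP := win (nat_lit 5) (nat_lit 6) (nat_lit 13) (nat_lit 0)
noncomputable def D3719 : OP := orK (nat_lit 287) (fin (add (start D1695) (orK (nat_lit 264) (fin (add (start D3714) (win (nat_lit 0) (nat_lit 4) (nat_lit 13) (nat_lit 5)))))))
noncomputable def D3731 : OP := orK (nat_lit 290) (fin (add (start D3728) D3729))
noncomputable def D3685 : OP := orK (nat_lit 262) (fin (add (start (win (nat_lit 0) (nat_lit 2) (nat_lit 13) (nat_lit 4))) (orK (nat_lit 282) (fin (add (start (win (nat_lit 5) (nat_lit 1) (nat_lit 13) (nat_lit 5))) (win (nat_lit 5) (nat_lit 2) (nat_lit 13) (nat_lit 4)))))))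
noncomputable def D3670 : OP := win (nat_lit 0) (nat_lit 3) (nat_lit 13) (nat_lit 5)
noncomputable def D3645 : OP := win (nat_lit 6) (nat_lit 5) (nat_lit 9) (nat_lit 2)
noncomputable def D3877 : AP := fin (add (add (add (add (add (add (add (start (orK (nat_lit 246) (fin (add (start (orK (nat_lit 245) (fin (add (start D3605) (orK (nat_lit 244) (fin (add (start D3606) D3607))))))) D3619)))) (orK (nat_lit 246) (fin (add (add (start D3619) (orK (nat_lit 269) (fin (add (start D3622) D3631)))) (orK (nat_lit 206) (fin (add (add (start (orK (nat_lit 205) (fin (add (start D3009) (orK (nat_lit 226) (fin (add (start D3612) D3613))))))) (orK (nat_lit 226) (fin (add (start D3612) (orK (nat_lit 265) (fin (add (start D3638) (orK (nat_lit 245) (fin (add (start D2422) D3605)))))))))) (orK (nat_lit 205) (fin (add (start D3009) (orK (nat_lit 245) (fin (add (start D3605) (orK (nat_lit 185) (fin (add (start D3645) D3016)))))))))))))))) (orK (nat_lit 265) (fin (add (add (add (start D3667) (orK (nat_lit 264) (fin (add (add (add (start D3659) (orK (nat_lit 285) (fin (add (start D3595) (orK (nat_lit 286) (fin (add (start D3668)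 (orK (nat_lit 263) (fin (add (start (win (nat_lit 0) (nat_lit 2) (nat_lit 13) (nat_lit 0))) D3670)))))))))) (orK (nat_lit 243) (fin (add (start D3677) (orK (nat_lit 263) (fin (add (start D3678) (orK (nat_lit 286) (fin (add (start D3670) D3685)))))))))) D3699)))) (orK (nat_lit 286) (fin (add (add (add (add (start (orK (nat_lit 289) (fin (add (start D3585) (orK (nat_lit 269) (fin (add (start D3586) D3623))))))) (orK (nat_lit 288) (fin (add (start D3576) (orK (nat_lit 264) (fin (add (start D3575) (orK (nat_lit 243) (fin (add (start D3677) (orK (nat_lit 263) (fin (add (start D3678) D3685))))))))))))) (orK (nat_lit 246) (fin (add (start D1763) (orK (nat_lit 269) (fin (add (add (start D3719) D3588) (orK (nat_lit 270) (fin (add (start D3727) D3731)))))))))) (orK (nat_lit 269) (fin (add (start D3623) (orK (nat_lit 290) (fin (add (start D3728) (orK (nat_lit 270) (fin (add (start D3729) D3727)))))))))) (orK (nat_lit 269) (fin (add (start D3623) D3719))))))) (orK (nat_lit 288) (fin (add (start D3576) (orK (nat_lit 264) (fin (add (start D3575) D3699)))))))))) D3759) D3776) (orK (nat_lit 265) (fin (add (add (start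 (orK (nat_lit 288) (fin (add (start D3576) (orK (nat_lit 264) (fin (add (start D3575) D3582))))))) (orK (nat_lit 245) (fin (add (start D3589) (orK (nat_lit 285) (fin (add (start D3595) (orK (nat_lit 225) (fin (add (add (add (start (orK (nat_lit 226) (fin (add (start D3800) (orK (nat_lit 246) (fin (add (start D3789) D2305))))))) (orK (nat_lit 246) (fin (add (start D3795) (orK (nat_lit 205) D3796))))) (orK (nat_lit 205) (fin (add (start D3781) D3808)))) (orK (nat_lit 205) (fin (add (add (start D3813) D3816) D3808))))))))))))) D3663)))) (orK (nat_lit 245) (fin (add (add (add (start D3830) (orK (nat_lit 265) (fin (add (start D3589) D3663)))) (orK (nat_lit 289) (fin (add (add (start (orK (nat_lit 269) (fin (add (start D3586) D3590)))) (orK (nat_lit 288) (fin (add (start D3835) (orK (nat_lit 290) (fin (add (start D3836) (win (nat_lit 2) (nat_lit 7) (nat_lit 13) (nat_lit 0))))))))) (orK (nat_lit 265) (fin (add (start D3585) (orK (nat_lit 284) (fin (add (start D3657) (orK (nat_lit 264) (fin (add (start D3656) (orK (nat_lit 205) (fin (add (start (win (nat_lit 1) (nat_lit 4) (nat_lit 10) (nat_lit 1))) (orK (nat_lit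 246) (fin (add (start D3605) (orK (nat_lit 206) (fin (add (start D3009) (orK (nat_lit 226) (fin (add (start D2422) D3612))))))))))))))))))))))))) (orK (nat_lit 246) D3773))))) (orK (nat_lit 245) (fin (add (add (add (add (start D3830) (orK (nat_lit 269) (fin (add (start D3590) D3631)))) (orK (nat_lit 265) (fin (add (start D3589) D3667)))) D3871) D3874))))
noncomputable def D24228 : OP := orK (nat_lit 248) (fin (add (start D402) D24226))
noncomputable def D679 : OP := win (nat_lit 2) (nat_lit 6) (nat_lit 12) (nat_lit 0)
noncomputable def D4919 : OP := win (nat_lit 4) (nat_lit 4) (nat_lit 12) (nat_lit 5)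
noncomputable def D4921 : OP := orK (nat_lit 264) (fin (add (start D4918) D4919))
noncomputable def D4911 : OP := win (nat_lit 1) (nat_lit 5) (nat_lit 10) (nat_lit 1)
noncomputable def D4913 : OP := orK (nat_lit 285) (fin (add (start D4911) D3595))
noncomputable def D4936 : AP := fin (add (add (add (start D4906) D4910) D4150) (orK (nat_lit 268) (fin (add (start D572) (orK (nat_lit 266) (fin (add (start D1302) (orK (nat_lit 206) (fin (add (start D1791) (orK (nat_lit 246) (fin (add (start (orK (nat_lit 265) (fin (add (start D4913) D4921)))) (orK (nat_lit 269) (fin (add (start D3622) D679))))))))))))))))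
noncomputable def D5779 : OP := win (nat_lit 3) (nat_lit 7) (nat_lit 9) (nat_lit 1)
noncomputable def D3572 : OP := orK (nat_lit 287) (fin (add (start (win (nat_lit 1) (nat_lit 7) (nat_lit 10) (nat_lit 2))) (win (nat_lit 3) (nat_lit 7) (nat_lit 10) (nat_lit 2))))
noncomputable def D24099 : AP := fin (add (start D572) D24098)
noncomputable def D24412 : AP := fin (add (add (add (add (start (orK (nat_lit 247) (fin (add (add (start D24098) D4150) (orK (nat_lit 266) (fin (add (start D1302) (orK (nat_lit 208) (fin (add (start D580) (orK (nat_lit 206) (fin (add (start D1791) (orK (nat_lit 205) (fin (add (start D3009) (orK (nat_lit 185) (fin (add (start D3060) (orK (nat_lit 225) (fin (add (start D3061) (orK (nat_lit 245) (fin (add (start D4482) D24208))))))))))))))))))))))))) (orK (nat_lit 268) (fin (add (add (add (start D3568) D24228) (orK (nat_lit 247) D24099)) (orK (nat_lit 208) (fin (add (add (add (start D3572) (orK (nat_lit 248) D24225)) (orK (nat_lit 247) D581)) (orK (nat_lit 188) (fin (add (start D5779) (orK (nat_lit 168) (fin (add (start D37) (orK (nat_lit 169) (fin (add (start D308) (orK (nat_lit 248)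 (fin (add (start D307) D114))))))))))))))))))) (orK (nat_lit 247) D4936)) (orK (nat_lit 268) (fin (add (add (add (add (add (start D24228) (orK (nat_lit 266) D3877)) (orK (nat_lit 248) (fin (add (start D402) D24279)))) (orK (nat_lit 248) (fin (add (start D402) D24311)))) D24332) (orK (nat_lit 248) (fin (add (add (add (add (start D24226) D24279) D24311) (orK (nat_lit 269) (fin (add (add (start (orK (nat_lit 208) (fin (add (start D109) D112)))) (orK (nat_lit 286) (fin (add (start (orK (nat_lit 266) (fin (add (start D3623) (orK (nat_lit 246) (fin (add (start D3622) D1763))))))) (orK (nat_lit 270) (fin (add (start D3727) D12061))))))) D24328)))) D24330))))))) (orK (nat_lit 268) (fin (add (add (add (start D3568) D24332) (orK (nat_lit 247) D24147)) (orK (nat_lit 266) (fin (add (add (add (add (start (orK (nat_lit 286) (fin (add (start D4344) (orK (nat_lit 246) (fin (add (start D1763) (orK (nat_lit 269) (fin (add (start D3622) D3623)))))))))) (orK (nat_lit 286) (fin (add (start D4344) (orK (nat_lit 285) (fin (add (start D3668) (orK (nat_lit 284) (fin (add (start D4345) (win (nat_lit 5) (nat_lit 4) (nat_lit 13)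 (nat_lit 3)))))))))))) (orK (nat_lit 247) D24145)) (orK (nat_lit 245) (fin (add (add (add (add (start D3830) (orK (nat_lit 269) (fin (add (start D3590) (orK (nat_lit 289) (fin (add (start D3586) (orK (nat_lit 285) (fin (add (start D3596) (orK (nat_lit 265) (fin (add (start D3595) D24365))))))))))))) (orK (nat_lit 265) (fin (add (start D3589) (orK (nat_lit 285) (fin (add (start D3595) (orK (nat_lit 269) (fin (add (start D3596) (orK (nat_lit 289) (fin (add (start D3586) D24365))))))))))))) D3871) D3874)))) (orK (nat_lit 245) (fin (add (add (start (orK (nat_lit 269) (fin (add (start D3590) (orK (nat_lit 289) (fin (add (start D3586) (orK (nat_lit 248) (fin (add (start D24314) (orK (nat_lit 249) (fin (add (start D1778) D24289))))))))))))) (orK (nat_lit 265) (fin (add (start D3589) (orK (nat_lit 248) (fin (add (start D3902) (orK (nat_lit 264) (fin (add (start D4704) D3659)))))))))) (orK (nat_lit 246) (fin (add (start D3605) (orK (nat_lit 244) (fin (add (start D3606) (win (nat_lit 0) (nat_lit 4) (nat_lit 12) (nat_lit 3))))))))))))))))))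
noncomputable def D3252 : OP := orK (nat_lit 206) (fin (add (start D3008) D3250))
noncomputable def D4937 : OP := orK (nat_lit 267) D4936
noncomputable def D642 : OP := win (nat_lit 5) (nat_lit 5) (nat_lit 12) (nat_lit 4)
noncomputable def D644 : OP := orK (nat_lit 265) (fin (add (start D138) D642))
noncomputable def D4573 : OP := orK (nat_lit 268) (fin (add (start D4571) D402))
noncomputable def D4574 : AP := fin (add (start D136) D4573)
noncomputable def D9979 : OP := orK (nat_lit 246) (fin (add (start D567) (orK (nat_lit 245) (fin (add (start D135) (orK (nat_lit 248) (fin (add (add (start (orK (nat_lit 225) D4574)) (orK (nat_lit 249) (fin (add (start D5638) D644)))) (orK (nat_lit 249) (fin (add (start (orK (nat_lit 225) (fin (add (start D649) D136)))) D644)))))))))))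
noncomputable def D5754 : OP := orK (nat_lit 168) (fin (add (start D37) D5549))
noncomputable def D3563 : AP := fin (add (start D109) D402)
noncomputable def D4479 : OP := orK (nat_lit 268) D3563
noncomputable def D5609 : OP := orK (nat_lit 190) (fin (add (add (add (start D5597) D2257) (orK (nat_lit 189) (fin (add (start D316) (orK (nat_lit 248) (fin (add (start D127) D427))))))) (orK (nat_lit 189) (fin (add (start D316) (orK (nat_lit 169) (fin (add (start D388) (orK (nat_lit 149) (fin (add (start D492) D1486)))))))))))
noncomputable def D5763 : OP := win (nat_lit 5) (nat_lit 5) (nat_lit 11) (nat_lit 4)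
noncomputable def D5765 : OP := orK (nat_lit 245) (fin (add (start D2535) D5763))
noncomputable def D5760 : OP := orK (nat_lit 169) (fin (add (start D308) (orK (nat_lit 189) (fin (add (start D388) (orK (nat_lit 190) (fin (add (start D316) D835))))))))
noncomputable def D5748 : OP := orK (nat_lit 169) (fin (add (start D308) (orK (nat_lit 248) (fin (add (start D307) D427)))))
noncomputable def D611 : OP := win (nat_lit 5) (nat_lit 5) (nat_lit 12) (nat_lit 5)
noncomputable def D2307 : OP := orK (nat_lit 266) (fin (add (start D2305) D611))
noncomputable def D653 : OP := orK (nat_lit 225) (fin (add (start D649) D651))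
noncomputable def D2315 : OP := orK (nat_lit 246) (fin (add (add (start D653) (orK (nat_lit 226) (fin (add (start D2304) D2307)))) (orK (nat_lit 245) (fin (add (start D135) D644)))))
noncomputable def D4434 : OP := win (nat_lit 2) (nat_lit 5) (nat_lit 12) (nat_lit 3)
noncomputable def D4468 : OP := orK (nat_lit 286) (fin (add (start D4344) (orK (nat_lit 269) (fin (add (start D3623) D112)))))
noncomputable def D4696 : OP := orK (nat_lit 268) (fin (add (start D402) (orK (nat_lit 267) (fin (add (start D109) (orK (nat_lit 269) (fin (add (start D112) (orK (nat_lit 266) (fin (add (add (start (orK (nat_lit 265) (fin (add (start D3902) (orK (nat_lit 245) (fin (add (start D3589) D3590))))))) D4687) D4688)))))))))))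
noncomputable def D3904 : OP := orK (nat_lit 265) D3903
noncomputable def D3918 : OP := orK (nat_lit 266) (fin (add (start D1302) D3904))
noncomputable def D4733 : OP := orK (nat_lit 248) (fin (add (add (add (add (start (orK (nat_lit 229) (fin (add (start D61) (orK (nat_lit 246) (fin (add (start D1170) (orK (nat_lit 226) (fin (add (start D1171) D2232)))))))))) (orK (nat_lit 268) (fin (add (start D402) (orK (nat_lit 267) (fin (add (start D109) (orK (nat_lit 229) (fin (add (start D61) (orK (nat_lit 247) (fin (add (start D86) D3918))))))))))))) D4696) (orK (nat_lit 268) (fin (add (start D402) (orK (nat_lit 231) (fin (add (start D200) (orK (nat_lit 267) (fin (add (start D109) (orK (nat_lit 266) (fin (add (add (start D4468) (orK (nat_lit 265) (fin (add (start D3902) (orK (nat_lit 285) (fin (add (start D3595) (orK (nat_lit 269) (fin (add (start D3596) D112)))))))))) (orK (nat_lit 265) (fin (add (start D3902) (orK (nat_lit 244) (fin (add (start D3580) (orK (nat_lit 264) (fin (add (start D3579) D4704)))))))))))))))))))))) (orK (nat_lit 268) (fin (add (start D402) (orK (nat_lit 267) (fin (add (start D109) (orK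 (nat_lit 229) (fin (add (start D61) (orK (nat_lit 246) (fin (add (start D1170) (orK (nat_lit 245) (fin (add (start (win (nat_lit 5) (nat_lit 5) (nat_lit 11) (nat_lit 3))) (orK (nat_lit 269) (fin (add (start D4434) D112))))))))))))))))))))
noncomputable def D2277 : OP := orK (nat_lit 247) (fin (add (start D86) D1296))
noncomputable def D5788 : AP := fin (add (add (add (add (start (orK (nat_lit 229) (fin (add (start D61) D2277)))) D4733) (orK (nat_lit 188) (fin (add (add (start D403) (orK (nat_lit 248) (fin (add (add (start (orK (nat_lit 267) (fin (add (start D110) D4479)))) D427) (orK (nat_lit 249) (fin (add (start D75) (orK (nat_lit 247) (fin (add (start D78) D2315)))))))))) (orK (nat_lit 168) (fin (add (start D37) D5748))))))) (orK (nat_lit 188) (fin (add (add (start D5754) (orK (nat_lit 168) (fin (add (start D37) D5760)))) (orK (nat_lit 229) (fin (add (start D61) (orK (nat_lit 226) (fin (add (add (start (orK (nat_lit 225) (fin (add (start D2230) D5765)))) (orK (nat_lit 246) (fin (add (start D1171) D5609)))) (orK (nat_lit 224) (fin (add (start D5770) D5609))))))))))))) (orK (nat_lit 188) (fin (add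 (add (start D403) (orK (nat_lit 267) (fin (add (start D5779) (orK (nat_lit 229) (fin (add (start D61) (orK (nat_lit 248) (fin (add (start D4479) D323)))))))))) D5754))))
noncomputable def D3154 : OP := orK (nat_lit 206) D3153
noncomputable def D5138 : OP := orK (nat_lit 205) (fin (add (start D2466) (orK (nat_lit 266) (fin (add (start D2305) D2387)))))
noncomputable def D10006 : OP := orK (nat_lit 225) (fin (add (start D4041) (orK (nat_lit 205) (fin (add (start D2466) (orK (nat_lit 266) (fin (add (start D2305) (orK (nat_lit 185) (fin (add (start D4373) (win (nat_lit 7) (nat_lit 5) (nat_lit 9) (nat_lit 3)))))))))))))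
noncomputable def D9990 : AP := fin (add (start D4041) D137)
noncomputable def D9991 : OP := orK (nat_lit 225) D9990
noncomputable def D9989 : OP := orK (nat_lit 245) (fin (add (start D4571) D135))
noncomputable def D11609 : OP := orK (nat_lit 265) (fin (add (start D138) D11607))
noncomputable def D1715 : OP := win (nat_lit 1) (nat_lit 6) (nat_lit 9) (nat_lit 0)
noncomputable def D1770 : OP := win (nat_lit 6) (nat_lit 7) (nat_lit 9) (nat_lit 0)
noncomputable def D5592 : AP := fin (add (start D1770) D402)
noncomputable def D5593 : OP := orK (nat_lit 268) D5592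
noncomputable def D24100 : OP := orK (nat_lit 267) D24099
noncomputable def D24097 : OP := orK (nat_lit 248) D5592
noncomputable def D3231 : AP := fin (add (add (add (start D3218) D3222) D3226) (orK (nat_lit 246) (fin (add (start D134) (orK (nat_lit 248) (fin (add (start D1369) D2474)))))))
noncomputable def D9742 : AP := fin (add (start D86) (orK (nat_lit 248) (fin (add (start D4291) D5593))))
noncomputable def D2202 : AP := fin (add (start D201) D402)
noncomputable def D2203 : OP := orK (nat_lit 268) D2202
noncomputable def D2293 : OP := orK (nat_lit 248) (fin (add (start D2203) (orK (nat_lit 188) (fin (add (add (start (orK (nat_lit 168) (fin (add (start D37) D521)))) D323) D2289)))))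
noncomputable def D1716 : OP := win (nat_lit 1) (nat_lit 6) (nat_lit 10) (nat_lit 3)
noncomputable def D1767 : OP := orK (nat_lit 266) (fin (add (start D1715) (orK (nat_lit 286) (fin (add (start D1716) D1763)))))
noncomputable def D3254 : OP := orK (nat_lit 247) (fin (add (add (add (start D3243) (orK (nat_lit 246) (fin (add (start D567) D1767)))) D1813) D3252))
noncomputable def D7568 : OP := orK (nat_lit 147) D7567
noncomputable def D7770 : OP := orK (nat_lit 228) (fin (add (start D3008) (orK (nat_lit 167) (fin (add (start D32) D7568)))))
noncomputable def D8059 : OP := orK (nat_lit 186) (fin (add (start D140) (orK (nat_lit 206) (fin (add (start D1725) D7770)))))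
noncomputable def D8047 : OP := orK (nat_lit 267) (fin (add (start D1803) D4906))
noncomputable def D8048 : AP := fin (add (start D140) D8047)
noncomputable def D8049 : OP := orK (nat_lit 186) D8048
noncomputable def D8061 : OP := orK (nat_lit 247) (fin (add (add (add (start D5495) D8049) (orK (nat_lit 248) (fin (add (start D1369) (orK (nat_lit 228) (fin (add (start D2197) (orK (nat_lit 229) (fin (add (start D1169) D4291)))))))))) D8059))
noncomputable def D1152 : OP := win (nat_lit 5) (nat_lit 6) (nat_lit 11) (nat_lit 2)
noncomputable def D1476 : AP := fin (add (start D134) (orK (nat_lit 229) (fin (add (start D1152) D1473))))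
noncomputable def D1477 : OP := orK (nat_lit 246) D1476
noncomputable def D8045 : OP := orK (nat_lit 247) (fin (add (add (start D1477) D3222) D3226))
noncomputable def D9736 : OP := orK (nat_lit 167) (fin (add (add (start D4262) D9734) D4266))
noncomputable def D5881 : OP := orK (nat_lit 247) (fin (add (add (start D5697) D1306) (orK (nat_lit 167) D1372)))
noncomputable def D5631 : AP := fin (add (start D135) D4573)
noncomputable def D5643 : OP := orK (nat_lit 245) D5631
noncomputable def D5645 : OP := orK (nat_lit 228) (fin (add (start D567) D5643))
noncomputable def D614 : OP := win (nat_lit 2) (nat_lit 5) (nat_lit 11) (nat_lit 5)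
noncomputable def D1717 : OP := win (nat_lit 3) (nat_lit 6) (nat_lit 11) (nat_lit 0)
noncomputable def D1814 : AP := fin (add (start D1763) D1717)
noncomputable def D1815 : OP := orK (nat_lit 286) D1814
noncomputable def D1816 : AP := fin (add (start D1715) D1815)
noncomputable def D1817 : OP := orK (nat_lit 266) D1816
noncomputable def D5657 : OP := orK (nat_lit 246) (fin (add (add (add (start D1817) (orK (nat_lit 187) D1476)) (orK (nat_lit 248) (fin (add (add (start (orK (nat_lit 249) (fin (add (start D4840) (orK (nat_lit 226) (fin (add (start D614) D2307))))))) (orK (nat_lit 245) (fin (add (add (start (orK (nat_lit 226) (fin (add (start D4043) D4235)))) (orK (nat_lit 228) D5631)) D5640)))) D5645)))) (orK (nat_lit 229) (fin (add (start D1152) (orK (nat_lit 248) (fin (add (start D80) (orK (nat_lit 187) (fin (add (start D1369) D5649)))))))))))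
noncomputable def D3879 : OP := win (nat_lit 0) (nat_lit 4) (nat_lit 12) (nat_lit 0)
noncomputable def D674 : OP := win (nat_lit 3) (nat_lit 9) (nat_lit 10) (nat_lit 2)
noncomputable def D3880 : AP := fin (add (start D3879) D3605)
noncomputable def D3881 : OP := orK (nat_lit 245) D3880
noncomputable def D5724 : OP := orK (nat_lit 246) (fin (add (add (start D3881) (orK (nat_lit 269) (fin (add (start D679) (orK (nat_lit 289) (fin (add (start D3586) (orK (nat_lit 229) (fin (add (start D674) D1152)))))))))) (orK (nat_lit 245) (fin (add (start D3879) (orK (nat_lit 229) (fin (add (start D1152) (orK (nat_lit 248) (fin (add (start D80) (orK (nat_lit 265) (fin (add (start D3901) (orK (nat_lit 285) (fin (add (start D3595) D3795)))))))))))))))))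
noncomputable def D3965 : OP := orK (nat_lit 287) (fin (add (start D3950) D1788))
noncomputable def D5504 : AP := fin (add (start D580) D3965)
noncomputable def D5689 : OP := orK (nat_lit 187) (fin (add (start D1369) D4864))
noncomputable def D1719 : OP := orK (nat_lit 286) (fin (add (start D1716) D1717))
noncomputable def D1721 : OP := orK (nat_lit 266) (fin (add (start D1715) D1719))
noncomputable def D2401 : OP := win (nat_lit 5) (nat_lit 3) (nat_lit 12) (nat_lit 4)
noncomputable def D2403 : OP := orK (nat_lit 263) (fin (add (start (win (nat_lit 5) (nat_lit 2) (nat_lit 12) (nat_lit 5))) D2401))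
noncomputable def D4846 : OP := win (nat_lit 4) (nat_lit 3) (nat_lit 11) (nat_lit 4)
noncomputable def D4853 : AP := fin (add (start D4571) (orK (nat_lit 224) (fin (add (start D2381) (orK (nat_lit 244) (fin (add (start D2382) (orK (nat_lit 243) (fin (add (start D4846) D2403))))))))))
noncomputable def D4843 : OP := win (nat_lit 7) (nat_lit 7) (nat_lit 11) (nat_lit 0)
noncomputable def D1680 : OP := win (nat_lit 6) (nat_lit 7) (nat_lit 10) (nat_lit 3)
noncomputable def D4845 : OP := orK (nat_lit 288) (fin (add (start D1680) D4843))
noncomputable def D4856 : OP := orK (nat_lit 268) (fin (add (start D4845) (orK (nat_lit 245) D4853)))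
noncomputable def D5686 : AP := fin (add (start D1152) (orK (nat_lit 248) (fin (add (start D80) D4856))))
noncomputable def D5734 : OP := orK (nat_lit 247) (fin (add (add (add (add (start D5683) (orK (nat_lit 246) (fin (add (add (start (orK (nat_lit 229) D5686)) D1721) (orK (nat_lit 229) (fin (add (start D1152) (orK (nat_lit 248) (fin (add (start D80) D5689)))))))))) (orK (nat_lit 187) (fin (add (add (start (orK (nat_lit 267) D5667)) (orK (nat_lit 167) D3211)) D5681)))) (orK (nat_lit 267) (fin (add (add (add (start (orK (nat_lit 286) (fin (add (start D1693) (orK (nat_lit 287) (fin (add (start D1694) D5670))))))) D4906) (orK (nat_lit 208) D5504)) (orK (nat_lit 266) (fin (add (start D1302) (orK (nat_lit 188) (fin (add (start D5664) (orK (nat_lit 268) (fin (add (start D572) D5724))))))))))))) D5657))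
noncomputable def D25836 : AP := fin (add (add (add (add (add (add (add (add (add (add (add (add (add (add (add (add (start D5734) (orK (nat_lit 187) (fin (add (add (add (start D5881) D9736) D8045) D8061)))) (orK (nat_lit 228) (fin (add (add (add (add (start D3154) D4318) (orK (nat_lit 187) (fin (add (add (start (orK (nat_lit 247) D3231)) (orK (nat_lit 167) (fin (add (add (start D23936) D4098) D24041)))) D3199)))) D3242) D3254)))) (orK (nat_lit 228) (fin (add (add (add (add (start (orK (nat_lit 187) (fin (add (add (add (start D23938) (orK (nat_lit 247) (fin (add (add (add (start D24051) D3218) D24023) (orK (nat_lit 248) (fin (add (start D1369) (orK (nat_lit 246) (fin (add (start D134) (orK (nat_lit 188) (fin (add (start D41) (orK (nat_lit 245) (fin (add (start D135) (orK (nat_lit 225) (fin (add (start D136) (orK (nat_lit 226) (fin (add (start D137) (orK (nat_lit 205) (fin (add (start D2466) (orK (nat_lit 265) (fin (add (start D138) (orK (nat_lit 285) (fin (add (start D3800) D3789))))))))))))))))))))))))))))))) D3196) D3199)))) D24019) (orK (nat_lit 247) (fin (add (add (start D24086) (orK (nat_lit 229)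 D4771)) D24087)))) D4774) D24035)))) (orK (nat_lit 228) (fin (add (add (add (add (start D3007) D3254) (orK (nat_lit 229) (fin (add (start D1169) (orK (nat_lit 208) (fin (add (start D61) D2293))))))) (orK (nat_lit 247) (fin (add (add (add (start D24077) D5676) (orK (nat_lit 229) D9742)) (orK (nat_lit 268) (fin (add (add (start D24097) D24100) (orK (nat_lit 267) (fin (add (add (start D24098) (orK (nat_lit 286) (fin (add (start D1693) (orK (nat_lit 287) (fin (add (start D1694) (orK (nat_lit 248) (fin (add (start D189) D1770)))))))))) (orK (nat_lit 188) (fin (add (start D5664) (orK (nat_lit 187) (fin (add (start D41) D571)))))))))))))))) (orK (nat_lit 247) (fin (add (add (add (add (add (start (orK (nat_lit 267) (fin (add (add (start D5668) (orK (nat_lit 206) D24117)) D1811)))) (orK (nat_lit 187) D3231)) D5676) (orK (nat_lit 268) (fin (add (add (start D24097) D24100) (orK (nat_lit 187) (fin (add (start D571) (orK (nat_lit 188) (fin (add (start D41) D24124)))))))))) D24150) (orK (nat_lit 248) (fin (add (add (start D5593) (orK (nat_lit 225) (fin (add (add (start (orK (nat_lit 226) D9990)) (orK (nat_lit 226)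 (fin (add (start D137) (orK (nat_lit 245) (fin (add (start D2535) (orK (nat_lit 205) (fin (add (start D2466) (orK (nat_lit 246) (fin (add (start (orK (nat_lit 266) (fin (add (start D1715) D2305)))) D11609))))))))))))) (orK (nat_lit 246) (fin (add (start D651) (orK (nat_lit 187) (fin (add (start D134) (orK (nat_lit 188) (fin (add (start D41) (orK (nat_lit 186) (fin (add (start D140) (orK (nat_lit 189) (fin (add (start (orK (nat_lit 169) (fin (add (start D24162) D7878)))) D7970))))))))))))))))))) (orK (nat_lit 268) (fin (add (start D402) (orK (nat_lit 246) (fin (add (add (start D9989) (orK (nat_lit 226) (fin (add (add (start D9991) (orK (nat_lit 266) (fin (add (start D2305) (orK (nat_lit 249) (fin (add (start D611) (orK (nat_lit 269) (fin (add (start D2459) (orK (nat_lit 208) (fin (add (start D688) D112))))))))))))) D10006)))) (orK (nat_lit 245) (fin (add (start D135) (orK (nat_lit 225) (fin (add (start D136) (orK (nat_lit 226) (fin (add (start D137) D5138))))))))))))))))))))))))) (orK (nat_lit 228) (fin (add (add (add (add (start D3154) (orK (nat_lit 208) D5788)) (orK (nat_lit 247) (fin (add (add (add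 (start D3243) D9979) D4937) D3252)))) (orK (nat_lit 267) D24412)) D3242)))) (orK (nat_lit 228) (fin (add (add (add (add (start (orK (nat_lit 187) (fin (add (add (add (start D24417) (orK (nat_lit 188) (fin (add (add (add (start D23943) (orK (nat_lit 206) (fin (add (add (add (start (orK (nat_lit 186) (fin (add (add (start D13392) (orK (nat_lit 189) (fin (add (start D129) D24427)))) (orK (nat_lit 189) (fin (add (start D129) D23969))))))) D24437) (orK (nat_lit 186) (fin (add (add (start D13392) (orK (nat_lit 205) (fin (add (start D3009) (orK (nat_lit 247) (fin (add (start D1725) (orK (nat_lit 246) (fin (add (start D134) (orK (nat_lit 245) (fin (add (start D135) (orK (nat_lit 265) (fin (add (start D13394) (orK (nat_lit 248) (fin (add (start D138) D1369))))))))))))))))))) (orK (nat_lit 205) (fin (add (start D3009) (orK (nat_lit 146) (fin (add (start D7825) (orK (nat_lit 185) (fin (add (start D24452) (orK (nat_lit 165) (fin (add (start D357) (orK (nat_lit 145) (fin (add (start D3029) D7651))))))))))))))))))) D24466)))) (orK (nat_lit 247) (fin (add (start D41) (orK (nat_lit 246) (fin (add (start D134) D3222)))))))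 D23993)))) D3196) D3199)))) D24019) D24033) D4774) D24035)))) (orK (nat_lit 187) D24546)) (orK (nat_lit 187) (fin (add (add (add (add (add (start D24476) D5892) D9558) D10439) (orK (nat_lit 186) (fin (add (add (add (start D7746) (orK (nat_lit 247) (fin (add (add (add (start D7750) D24487) D24051) (orK (nat_lit 168) (fin (add (start D1308) D4250))))))) D24491) D24543)))) (orK (nat_lit 226) (fin (add (add (add (start D9565) (orK (nat_lit 167) (fin (add (start D2035) (orK (nat_lit 148) (fin (add (start D1382) (orK (nat_lit 147) (fin (add (start D1381) (orK (nat_lit 208) D1379))))))))))) (orK (nat_lit 225) (fin (add (add (add (add (start (orK (nat_lit 224) (fin (add (start D4296) D15910)))) (orK (nat_lit 224) (fin (add (start D4296) D15947)))) (orK (nat_lit 224) (fin (add (start D4296) (orK (nat_lit 204) (fin (add (start D4295) (orK (nat_lit 228) (fin (add (start D4294) (orK (nat_lit 248) (fin (add (start D137) D4406))))))))))))) (orK (nat_lit 224) (fin (add (add (start D15910) D15947) (orK (nat_lit 204) (fin (add (start D4295) (orK (nat_lit 228) (fin (add (start D4294) D4406)))))))))) (orK (nat_lit 246)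 (fin (add (add (start D4411) (orK (nat_lit 245) (fin (add (add (start D21818) (orK (nat_lit 265) (fin (add (add (start D11607) (orK (nat_lit 285) (fin (add (start D3789) (orK (nat_lit 284) (fin (add (start D4635) (orK (nat_lit 205) (fin (add (start D4634) (orK (nat_lit 185) (fin (add (start D4373) D4594))))))))))))) (orK (nat_lit 206) (fin (add (start D2422) (orK (nat_lit 205) (fin (add (start D21853) (orK (nat_lit 185) (fin (add (start D4373) D4591))))))))))))) (orK (nat_lit 206) (fin (add (add (start (orK (nat_lit 186) (fin (add (start D2416) D2417)))) (orK (nat_lit 265) (fin (add (start D2427) (orK (nat_lit 205) (fin (add (start D18273) (orK (nat_lit 185) (fin (add (start D4373) D24263)))))))))) (orK (nat_lit 186) (fin (add (start D2416) D24604)))))))))) (orK (nat_lit 266) (fin (add (start D2305) (orK (nat_lit 205) (fin (add (start D15931) (orK (nat_lit 228) (fin (add (start D2466) (orK (nat_lit 248) (fin (add (start D137) D3197))))))))))))))))))) (orK (nat_lit 167) (fin (add (add (start D4260) (orK (nat_lit 228) (fin (add (start D32) (orK (nat_lit 166) (fin (add (start D1484) (orK (nat_lit 168)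 (fin (add (start D1307) (orK (nat_lit 169) (fin (add (add (start D5960) D6497) D6692))))))))))))) (orK (nat_lit 147) (fin (add (start D3202) (orK (nat_lit 228) (fin (add (start D3161) D32)))))))))))))))) (orK (nat_lit 247) (fin (add (add (add (add (add (start D1809) D5683) D24695) (orK (nat_lit 228) (fin (add (add (start D24086) (orK (nat_lit 229) D15616)) D24700)))) (orK (nat_lit 206) (fin (add (add (add (start D3250) (orK (nat_lit 267) (fin (add (add (start D12490) (orK (nat_lit 228) (fin (add (start D3008) D24098)))) (orK (nat_lit 229) (fin (add (start D1724) (orK (nat_lit 268) (fin (add (start D572) (orK (nat_lit 266) (fin (add (start D1302) (orK (nat_lit 265) (fin (add (add (start D4560) D4878) (orK (nat_lit 285) (fin (add (start D3595) (orK (nat_lit 245) (fin (add (start D3589) (orK (nat_lit 225) (fin (add (start D3811) (orK (nat_lit 208) (fin (add (start D580) (orK (nat_lit 249) (fin (add (start D4880) (orK (nat_lit 224) (fin (add (start (win (nat_lit 5) (nat_lit 4) (nat_lit 10) (nat_lit 3))) (win (nat_lit 7) (nat_lit 4) (nat_lit 10) (nat_lit 5)))))))))))))))))))))))))))))))))))) D24643) (orK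 (nat_lit 228) (fin (add (start D3008) (orK (nat_lit 205) (fin (add (start D3009) (orK (nat_lit 208) (fin (add (start (orK (nat_lit 188) D24679)) (orK (nat_lit 225) (fin (add (start D3061) (orK (nat_lit 185) (fin (add (start D3060) (orK (nat_lit 186) (fin (add (add (start D24731) (orK (nat_lit 245) (fin (add (start D3127) D24208)))) (orK (nat_lit 166) (fin (add (start D5290) D3246))))))))))))))))))))))))) (orK (nat_lit 187) (fin (add (add (add (start D21745) D5495) D6291) (orK (nat_lit 268) (fin (add (start D571) (orK (nat_lit 188) (fin (add (start D41) (orK (nat_lit 186) (fin (add (start D140) (orK (nat_lit 206) (fin (add (start (orK (nat_lit 190) (fin (add (start D24644) (orK (nat_lit 229) (fin (add (start D1724) D2257))))))) D13190))))))))))))))))))) (orK (nat_lit 206) D25553)) (orK (nat_lit 247) (fin (add (add (add (add (add (start D5676) (orK (nat_lit 187) (fin (add (add (add (start D6287) D4866) D6291) (orK (nat_lit 246) (fin (add (start D134) (orK (nat_lit 228) (fin (add (start D567) (orK (nat_lit 188) (fin (add (start D41) (orK (nat_lit 186) (fin (add (start D140) D25561)))))))))))))))) D1813)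 (orK (nat_lit 228) (fin (add (add (add (start D3243) D24087) D24150) D24700)))) D24695) (orK (nat_lit 228) (fin (add (add (start D3243) (orK (nat_lit 267) (fin (add (add (start D24098) D4910) (orK (nat_lit 188) (fin (add (start D5664) (orK (nat_lit 187) (fin (add (start D41) D1805)))))))))) D24087))))))) (orK (nat_lit 228) (fin (add (add (add (add (add (start D3007) (orK (nat_lit 206) (fin (add (start D3008) (orK (nat_lit 187) (fin (add (add (add (start D3196) D12374) (orK (nat_lit 247) (fin (add (add (start D12381) (orK (nat_lit 204) (fin (add (start D5351) (orK (nat_lit 268) (fin (add (start D571) (orK (nat_lit 267) (fin (add (start D572) D12490)))))))))) D12740)))) (orK (nat_lit 205) (fin (add (start D3009) (orK (nat_lit 167) (fin (add (start (orK (nat_lit 146) (fin (add (start D579) (orK (nat_lit 147) (fin (add (start D1445) D1376))))))) (orK (nat_lit 188) (fin (add (start (orK (nat_lit 168) D7958)) D12505)))))))))))))))) (orK (nat_lit 187) (fin (add (add (start D12304) (orK (nat_lit 247) (fin (add (start D569) D24023)))) D3199)))) (orK (nat_lit 187) (fin (add (add (add (start D23938) (orK (nat_lit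 248) (fin (add (add (start D3194) D3197) (orK (nat_lit 188) (fin (add (add (add (start D23943) (orK (nat_lit 208) (fin (add (start (orK (nat_lit 247) (fin (add (start D78) (orK (nat_lit 246) (fin (add (start D134) (orK (nat_lit 245) (fin (add (start D135) (orK (nat_lit 225) (fin (add (start D136) (orK (nat_lit 186) (fin (add (start D140) (orK (nat_lit 185) (fin (add (start D356) (orK (nat_lit 165) (fin (add (start D357) (orK (nat_lit 205) (fin (add (start D364) D881))))))))))))))))))))))))) (orK (nat_lit 189) (fin (add (start D127) D25631))))))) D25643) D23993))))))) D3196) D3199)))) (orK (nat_lit 187) (fin (add (add (start D3199) (orK (nat_lit 206) (fin (add (start D3008) (orK (nat_lit 205) (fin (add (start D3009) (orK (nat_lit 188) D25650)))))))) D13685)))) D24035)))) (orK (nat_lit 228) (fin (add (add (add (add (start (orK (nat_lit 187) (fin (add (add (add (start D24417) (orK (nat_lit 188) (fin (add (add (add (start D23943) (orK (nat_lit 206) (fin (add (add (add (start (orK (nat_lit 189) (fin (add (start D129) (orK (nat_lit 186) (fin (add (start D23969) D24427))))))) D24437) (orK (nat_lit 186) (fin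 (add (add (start D13392) (orK (nat_lit 205) (fin (add (start D3009) (orK (nat_lit 247) (fin (add (start D1725) (orK (nat_lit 185) (fin (add (start D24452) D25665)))))))))) (orK (nat_lit 205) (fin (add (start D3009) (orK (nat_lit 225) (fin (add (start D3023) (orK (nat_lit 166) (fin (add (start D5290) D24502))))))))))))) D24466)))) (orK (nat_lit 247) (fin (add (start D41) (orK (nat_lit 248) (fin (add (start D1369) D25639))))))) D23993)))) D3196) D3199)))) D24033) D4774) D24019) D24035)))) (orK (nat_lit 228) (fin (add (add (add (add (start (orK (nat_lit 187) (fin (add (add (add (start D23938) (orK (nat_lit 248) (fin (add (add (start D3194) D3197) (orK (nat_lit 188) (fin (add (add (add (start D23943) (orK (nat_lit 205) (fin (add (add (add (start (orK (nat_lit 204) (fin (add (start D3782) (orK (nat_lit 225) (fin (add (start D3783) (orK (nat_lit 186) (fin (add (start D10415) (orK (nat_lit 247) (fin (add (start D140) (orK (nat_lit 246) (fin (add (start D134) D651)))))))))))))))) (orK (nat_lit 206) D24436)) (orK (nat_lit 189) (fin (add (add (start (orK (nat_lit 208) (fin (add (start D127) D363)))) (orK (nat_lit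 206) D12504)) (orK (nat_lit 169) (fin (add (start D24162) (orK (nat_lit 186) D15329)))))))) (orK (nat_lit 225) (fin (add (add (start D25713) (orK (nat_lit 185) (fin (add (add (add (start (orK (nat_lit 186) (fin (add (start D364) D25715)))) (orK (nat_lit 186) (fin (add (start D364) (orK (nat_lit 184) (fin (add (start D24450) D7678))))))) (orK (nat_lit 245) (fin (add (add (start (orK (nat_lit 246) (fin (add (start D3040) (orK (nat_lit 244) (fin (add (start D3070) (win (nat_lit 4) (nat_lit 4) (nat_lit 11) (nat_lit 3))))))))) D25726) (orK (nat_lit 165) D3077))))) (orK (nat_lit 186) (fin (add (start D25715) (orK (nat_lit 164) (fin (add (start D7634) (orK (nat_lit 184) (fin (add (start D24450) D7635))))))))))))) (orK (nat_lit 226) (fin (add (start D137) (orK (nat_lit 224) (fin (add (start D4390) D4296))))))))))))) (orK (nat_lit 247) (fin (add (start D41) D2476)))) D23993))))))) D3196) D3199)))) D24019) D4318) D4774) (orK (nat_lit 206) (fin (add (start D3008) (orK (nat_lit 205) (fin (add (start D3009) (orK (nat_lit 208) (fin (add (start (orK (nat_lit 188) (fin (add (start D2364) D403)))) D25757)))))))))))))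 (orK (nat_lit 228) (fin (add (add (add (add (add (start (orK (nat_lit 206) (fin (add (start D3008) (orK (nat_lit 187) (fin (add (add (add (start D12715) (orK (nat_lit 204) (fin (add (start D5351) (orK (nat_lit 167) (fin (add (start D32) D12582))))))) (orK (nat_lit 247) (fin (add (add (start D12381) (orK (nat_lit 266) (fin (add (start D1301) (orK (nat_lit 204) (fin (add (start D5351) (orK (nat_lit 267) (fin (add (start D1302) D11643)))))))))) D12740)))) (orK (nat_lit 247) (fin (add (start D12381) (orK (nat_lit 167) (fin (add (start D10830) D1310))))))))))))) (orK (nat_lit 247) (fin (add (add (start (orK (nat_lit 188) (fin (add (add (start D24685) (orK (nat_lit 267) (fin (add (start D5664) D10240)))) (orK (nat_lit 187) (fin (add (start D41) (orK (nat_lit 167) (fin (add (start D32) D1743)))))))))) (orK (nat_lit 246) (fin (add (start D567) (orK (nat_lit 187) (fin (add (start D134) (orK (nat_lit 167) (fin (add (start D872) D32)))))))))) D24087)))) (orK (nat_lit 187) (fin (add (add (add (add (start (orK (nat_lit 167) (fin (add (start D32) D23936)))) (orK (nat_lit 167) (fin (add (start D32) D6168)))) D25792)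 (orK (nat_lit 188) (fin (add (add (add (start D23943) (orK (nat_lit 247) (fin (add (add (add (start (orK (nat_lit 266) (fin (add (start D1301) (orK (nat_lit 267) (fin (add (start D1302) D5664))))))) D24124) D3226) (orK (nat_lit 186) (fin (add (start D140) (orK (nat_lit 246) (fin (add (start D134) D25561)))))))))) D25643) D23993)))) D23938)))) D3242) (orK (nat_lit 206) (fin (add (start D3008) (orK (nat_lit 205) (fin (add (start D3009) (orK (nat_lit 185) (fin (add (add (add (start D3016) D3059) D24783) D3148)))))))))) D24035)))) (orK (nat_lit 228) (fin (add (add (add (add (start (orK (nat_lit 187) (fin (add (add (add (start (orK (nat_lit 248) (fin (add (start D2197) (orK (nat_lit 268) D3157))))) D10610) (orK (nat_lit 188) (fin (add (add (add (start D23943) (orK (nat_lit 208) (fin (add (add (start D351) (orK (nat_lit 247) (fin (add (start D42) (orK (nat_lit 246) (fin (add (start D134) D6857))))))) (orK (nat_lit 247) (fin (add (start D42) (orK (nat_lit 246) (fin (add (start D134) (orK (nat_lit 248) (fin (add (start D1369) (orK (nat_lit 245) (fin (add (start D135) (orK (nat_lit 225) (fin (add (start D136)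 (orK (nat_lit 249) (fin (add (start D649) D75)))))))))))))))))))))) D25643) D23993)))) D23938)))) (orK (nat_lit 229) (fin (add (start D1169) (orK (nat_lit 208) D25818))))) (orK (nat_lit 187) (fin (add (add (add (start D12782) (orK (nat_lit 247) (fin (add (add (start D569) (orK (nat_lit 188) (fin (add (start D41) (orK (nat_lit 267) (fin (add (start D5664) D12293))))))) D24077)))) D25792) (orK (nat_lit 167) (fin (add (start (orK (nat_lit 147) (fin (add (start D3161) D1384)))) D3212))))))) D4774) D24035))))
noncomputable def D7101 : OP := orK (nat_lit 189) D7100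
noncomputable def D1615 : OP := win (nat_lit 2) (nat_lit 7) (nat_lit 6) (nat_lit 1)
noncomputable def D7083 : OP := orK (nat_lit 128) (fin (add (start D1013) (orK (nat_lit 127) (fin (add (start D1615) D523)))))
noncomputable def D1066 : OP := orK (nat_lit 187) (fin (add (start D1063) D1064))
noncomputable def D1131 : OP := orK (nat_lit 147) (fin (add (start D984) (orK (nat_lit 167) (fin (add (start D985) D1066)))))
noncomputable def D6978 : OP := orK (nat_lit 151) (fin (add (start D1584) (orK (nat_lit 167) (fin (add (start D1990) D1066)))))
noncomputable def D6986 : AP := fin (add (start D6985) D1998)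
noncomputable def D7079 : OP := orK (nat_lit 147) (fin (add (start D984) (orK (nat_lit 167) (fin (add (start D985) (orK (nat_lit 150) D6986))))))
noncomputable def D7071 : OP := orK (nat_lit 188) (fin (add (start D954) (orK (nat_lit 187) (fin (add (start D6229) D1396)))))
noncomputable def D2096 : OP := win (nat_lit 6) (nat_lit 8) (nat_lit 4) (nat_lit 4)
noncomputable def D2118 : OP := win (nat_lit 3) (nat_lit 8) (nat_lit 3) (nat_lit 5)
noncomputable def D2117 : OP := win (nat_lit 3) (nat_lit 8) (nat_lit 4) (nat_lit 4)
noncomputable def D2076 : OP := win (nat_lit 7) (nat_lit 7) (nat_lit 4) (nat_lit 5)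
noncomputable def D2077 : OP := win (nat_lit 7) (nat_lit 7) (nat_lit 5) (nat_lit 4)
noncomputable def D2100 : OP := win (nat_lit 7) (nat_lit 10) (nat_lit 5) (nat_lit 3)
noncomputable def D2099 : OP := win (nat_lit 6) (nat_lit 10) (nat_lit 5) (nat_lit 2)
noncomputable def D2098 : OP := win (nat_lit 2) (nat_lit 7) (nat_lit 4) (nat_lit 0)
noncomputable def D2079 : OP := orK (nat_lit 107) (fin (add (start D2076) D2077))
noncomputable def D2083 : OP := orK (nat_lit 109) (fin (add (start D2075) (orK (nat_lit 108) (fin (add (start D1609) D2079)))))
noncomputable def D1903 : OP := win (nat_lit 2) (nat_lit 8) (nat_lit 7) (nat_lit 4)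
noncomputable def D1986 : OP := orK (nat_lit 148) (fin (add (start D265) D1903))
noncomputable def D2065 : OP := orK (nat_lit 192) (fin (add (start D983) (orK (nat_lit 172) (fin (add (start D982) D1986)))))
noncomputable def D2134 : OP := orK (nat_lit 171) (fin (add (add (add (start D2065) D2050) (orK (nat_lit 148) (fin (add (start D265) (orK (nat_lit 172) (fin (add (start D1903) D1567))))))) (orK (nat_lit 148) (fin (add (start D265) (orK (nat_lit 188) (fin (add (start D269) (orK (nat_lit 128) (fin (add (add (add (start D2083) (orK (nat_lit 151) (fin (add (start D1584) (orK (nat_lit 127) (fin (add (start D523) (orK (nat_lit 150) (fin (add (start (win (nat_lit 2) (nat_lit 7) (nat_lit 6) (nat_lit 2))) (orK (nat_lit 130) (fin (add (start (win (nat_lit 0) (nat_lit 7) (nat_lit 6) (nat_lit 2))) (orK (nat_lit 191) (fin (add (start D733) D1591)))))))))))))))) (orK (nat_lit 109) (fin (add (start D2075) (orK (nat_lit 108) (fin (add (start D1609) (orK (nat_lit 88) (fin (add (start D2096) (orK (nat_lit 87) (fin (add (start D2097) (orK (nat_lit 110) (fin (add (start D2098) (orK (nat_lit 191) (fin (add (start D733)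 (orK (nat_lit 151) (fin (add (start D1584) (orK (nat_lit 130) (fin (add (start D2099) D2100))))))))))))))))))))))))) (orK (nat_lit 107) (fin (add (start D2077) (orK (nat_lit 108) (fin (add (start D2076) (orK (nat_lit 89) (fin (add (start D2117) (orK (nat_lit 88) (fin (add (start D2118) D2096)))))))))))))))))))))))
noncomputable def D1060 : OP := orK (nat_lit 147) (fin (add (start D985) D984))
noncomputable def D1068 : OP := orK (nat_lit 167) (fin (add (start D1060) D1066))
noncomputable def D2013 : OP := orK (nat_lit 186) (fin (add (start D452) D2011))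
noncomputable def D3400 : OP := orK (nat_lit 146) (fin (add (start D1117) (orK (nat_lit 166) (fin (add (start D436) D2013)))))
noncomputable def D2004 : OP := orK (nat_lit 146) (fin (add (start D1117) (orK (nat_lit 166) (fin (add (start D436) D2000)))))
noncomputable def D6968 : OP := orK (nat_lit 128) (fin (add (start D6071) (orK (nat_lit 127) (fin (add (start D6072) (orK (nat_lit 107) (fin (add (start D6962) D6078))))))))
noncomputable def D2067 : OP := orK (nat_lit 171) (fin (add (start D1064) D2065))
noncomputable def D2022 : AP := fin (add (start D2021) D1826)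
noncomputable def D2025 : OP := orK (nat_lit 186) (fin (add (start D2020) (orK (nat_lit 188) D2022)))
noncomputable def D6556 : OP := win (nat_lit 2) (nat_lit 9) (nat_lit 7) (nat_lit 0)
noncomputable def D6995 : OP := orK (nat_lit 192) (fin (add (start D983) (orK (nat_lit 172) (fin (add (start D982) (orK (nat_lit 149) (fin (add (start D2026) (orK (nat_lit 150) (fin (add (start D6556) (orK (nat_lit 167) D6986))))))))))))
noncomputable def D2017 : OP := orK (nat_lit 150) (fin (add (start D1998) (orK (nat_lit 166) (fin (add (start D1997) D2013)))))
noncomputable def D1993 : AP := fin (add (start D1060) D1992)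
noncomputable def D1994 : OP := orK (nat_lit 167) D1993
noncomputable def D1987 : AP := fin (add (start D1054) D1986)
noncomputable def D1988 : OP := orK (nat_lit 172) D1987
noncomputable def D1996 : OP := orK (nat_lit 171) (fin (add (add (start D1988) D1989) D1994))
noncomputable def D7021 : OP := orK (nat_lit 168) (fin (add (add (add (add (add (add (start D1996) (orK (nat_lit 167) (fin (add (add (start D2004) (orK (nat_lit 147) (fin (add (start D985) (orK (nat_lit 187) (fin (add (start D1063) D6968))))))) D2017)))) (orK (nat_lit 171) (fin (add (add (add (start D2050) D6978) (orK (nat_lit 192) (fin (add (start D983) (orK (nat_lit 172) (fin (add (start D982) D6980))))))) D6995)))) (orK (nat_lit 187) (fin (add (add (add (start D2025) D2067) (orK (nat_lit 167) (fin (add (start D1063) (orK (nat_lit 147) (fin (add (start D985) D6968))))))) D7007)))) (orK (nat_lit 167) (fin (add (add (start D2004) (orK (nat_lit 151) (fin (add (start D1990) (orK (nat_lit 171) (fin (add (start D1584) D1066))))))) D3400)))) (orK (nat_lit 171) (fin (add (start D1068) D1989)))) D2134))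
noncomputable def D7063 : OP := orK (nat_lit 189) D7062
noncomputable def D1913 : OP := win (nat_lit 5) (nat_lit 10) (nat_lit 7) (nat_lit 0)
noncomputable def D1912 : OP := win (nat_lit 4) (nat_lit 9) (nat_lit 7) (nat_lit 3)
noncomputable def D1911 : OP := win (nat_lit 4) (nat_lit 8) (nat_lit 7) (nat_lit 0)
noncomputable def D1916 : AP := fin (add (start D1911) (orK (nat_lit 153) (fin (add (start D1912) D1913))))
noncomputable def D1918 : AP := fin (add (start D1910) (orK (nat_lit 152) D1916))
noncomputable def D1919 : OP := orK (nat_lit 151) D1918
noncomputable def D1580 : AP := fin (add (start D1579) D1063)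
noncomputable def D1583 : OP := orK (nat_lit 187) (fin (add (start D1064) (orK (nat_lit 167) D1580)))
noncomputable def D1906 : AP := fin (add (start D265) D1583)
noncomputable def D1907 : OP := orK (nat_lit 168) D1906
noncomputable def D1921 : OP := orK (nat_lit 171) (fin (add (add (start D1898) (orK (nat_lit 148) (fin (add (start (orK (nat_lit 172) (fin (add (start D1903) D981)))) D1907)))) D1919))
noncomputable def D2005 : AP := fin (add (start D1381) D1579)
noncomputable def D2008 : OP := orK (nat_lit 147) (fin (add (start D985) (orK (nat_lit 148) D2005)))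
noncomputable def D2009 : AP := fin (add (start D1063) D2008)
noncomputable def D2070 : OP := orK (nat_lit 187) (fin (add (add (start D2025) D2067) (orK (nat_lit 167) D2009)))
noncomputable def D1058 : OP := orK (nat_lit 172) (fin (add (start D1054) D272))
noncomputable def D2010 : OP := orK (nat_lit 187) D2009
noncomputable def D2019 : OP := orK (nat_lit 167) (fin (add (add (start D2004) D2010) D2017))
noncomputable def D17189 : AP := fin (add (start D3470) D1485)
noncomputable def D17197 : OP := orK (nat_lit 166) D17189
noncomputable def D6591 : AP := fin (add (start D6589) D6590)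
noncomputable def D13801 : OP := win (nat_lit 7) (nat_lit 8) (nat_lit 4) (nat_lit 2)
noncomputable def D13800 : OP := win (nat_lit 6) (nat_lit 8) (nat_lit 4) (nat_lit 2)
noncomputable def D1610 : OP := win (nat_lit 6) (nat_lit 8) (nat_lit 4) (nat_lit 0)
noncomputable def D1611 : AP := fin (add (start D1609) D1610)
noncomputable def D23822 : OP := orK (nat_lit 108) (fin (add (add (add (start (orK (nat_lit 128) D1611)) (orK (nat_lit 89) (fin (add (start (win (nat_lit 1) (nat_lit 8) (nat_lit 4) (nat_lit 2))) (win (nat_lit 3) (nat_lit 8) (nat_lit 4) (nat_lit 2)))))) (orK (nat_lit 88) (fin (add (start D13800) D13801)))) (orK (nat_lit 129) D6591)))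
noncomputable def D23761 : OP := win (nat_lit 7) (nat_lit 7) (nat_lit 5) (nat_lit 0)
noncomputable def D1612 : OP := orK (nat_lit 108) D1611
noncomputable def D9421 : OP := win (nat_lit 4) (nat_lit 9) (nat_lit 4) (nat_lit 5)
noncomputable def D14026 : OP := orK (nat_lit 92) (fin (add (start (win (nat_lit 4) (nat_lit 8) (nat_lit 4) (nat_lit 4))) D9421))
noncomputable def D8583 : OP := win (nat_lit 5) (nat_lit 8) (nat_lit 5) (nat_lit 5)
noncomputable def D8473 : OP := win (nat_lit 0) (nat_lit 9) (nat_lit 5) (nat_lit 5)
noncomputable def D13968 : OP := win (nat_lit 0) (nat_lit 8) (nat_lit 5) (nat_lit 4)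
noncomputable def D14023 : OP := orK (nat_lit 132) (fin (add (start D13968) D8473))
noncomputable def D14028 : OP := orK (nat_lit 112) (fin (add (start D14023) D14026))
noncomputable def D13950 : OP := win (nat_lit 5) (nat_lit 7) (nat_lit 5) (nat_lit 4)
noncomputable def D13949 : OP := win (nat_lit 5) (nat_lit 6) (nat_lit 5) (nat_lit 5)
noncomputable def D13952 : OP := orK (nat_lit 127) (fin (add (start D13949) D13950))
noncomputable def D13883 : AP := fin (add (start (win (nat_lit 0) (nat_lit 6) (nat_lit 5) (nat_lit 0))) (win (nat_lit 0) (nat_lit 7) (nat_lit 5) (nat_lit 5)))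
noncomputable def D15170 : OP := orK (nat_lit 110) (fin (add (start D6717) (orK (nat_lit 108) (fin (add (start D6590) (orK (nat_lit 111) (fin (add (add (start (orK (nat_lit 107) (fin (add (start (orK (nat_lit 130) D13883)) D13952)))) D14028) (orK (nat_lit 112) (fin (add (start D8583) D14026)))))))))))
noncomputable def D7189 : AP := fin (add (start D6589) D7188)
noncomputable def D23805 : OP := orK (nat_lit 129) D7189
noncomputable def D17388 : AP := fin (add (start D371) (orK (nat_lit 147) D17386))
noncomputable def D17389 : OP := orK (nat_lit 206) D17388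
noncomputable def D17393 : OP := orK (nat_lit 146) (fin (add (start D436) (orK (nat_lit 186) (fin (add (start D452) D17389)))))
noncomputable def D18818 : OP := win (nat_lit 3) (nat_lit 6) (nat_lit 5) (nat_lit 0)
noncomputable def D1608 : OP := win (nat_lit 1) (nat_lit 8) (nat_lit 5) (nat_lit 1)
noncomputable def D3326 : OP := orK (nat_lit 186) (fin (add (start D452) D453))
noncomputable def D3465 : OP := win (nat_lit 3) (nat_lit 7) (nat_lit 7) (nat_lit 2)
noncomputable def D9125 : OP := orK (nat_lit 109) D7189
noncomputable def D7278 : AP := fin (add (start D7277) D4207)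
noncomputable def D18202 : AP := fin (add (start D4206) (orK (nat_lit 126) D7278))
noncomputable def D18204 : AP := fin (add (start D1445) (orK (nat_lit 127) D18202))
noncomputable def D18377 : OP := orK (nat_lit 206) D18204
noncomputable def D17198 : OP := orK (nat_lit 187) D7370
noncomputable def D17199 : AP := fin (add (start D17197) D17198)
noncomputable def D9150 : OP := orK (nat_lit 147) D7209
noncomputable def D1574 : OP := win (nat_lit 2) (nat_lit 7) (nat_lit 7) (nat_lit 3)
noncomputable def D7207 : AP := fin (add (start D1555) (orK (nat_lit 171) (fin (add (start D1574) D1554))))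
noncomputable def D9149 : OP := orK (nat_lit 147) D7207
noncomputable def D9140 : OP := orK (nat_lit 187) D1580
noncomputable def D14935 : OP := win (nat_lit 5) (nat_lit 7) (nat_lit 5) (nat_lit 0)
noncomputable def D16566 : OP := win (nat_lit 4) (nat_lit 6) (nat_lit 5) (nat_lit 0)
noncomputable def D8537 : OP := win (nat_lit 3) (nat_lit 9) (nat_lit 5) (nat_lit 0)
noncomputable def D11726 : OP := win (nat_lit 4) (nat_lit 7) (nat_lit 5) (nat_lit 5)
noncomputable def D14461 : OP := win (nat_lit 2) (nat_lit 6) (nat_lit 5) (nat_lit 5)
noncomputable def D8772 : OP := win (nat_lit 6) (nat_lit 8) (nat_lit 5) (nat_lit 5)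
noncomputable def D8812 : OP := orK (nat_lit 108) (fin (add (start D1610) D8772))
noncomputable def D23902 : AP := fin (add (add (add (start (orK (nat_lit 171) (fin (add (start D1554) (orK (nat_lit 168) (fin (add (add (start D1583) (orK (nat_lit 128) (fin (add (add (start D8812) (orK (nat_lit 129) (fin (add (add (start D9125) (orK (nat_lit 127) (fin (add (start (orK (nat_lit 126) (fin (add (start D7216) D13467)))) (orK (nat_lit 130) (fin (add (start (orK (nat_lit 107) (fin (add (start D14461) D23761)))) (orK (nat_lit 110) (fin (add (start D8537) D11726)))))))))) (orK (nat_lit 109) (fin (add (start D6589) (orK (nat_lit 110) (fin (add (start D6717) (orK (nat_lit 191) (fin (add (start D733) (orK (nat_lit 130) (fin (add (start D8537) D2099)))))))))))))))) (orK (nat_lit 108) (fin (add (start D1610) (orK (nat_lit 109) (fin (add (start D1609) (orK (nat_lit 129) (fin (add (start D7188) (orK (nat_lit 110) (fin (add (start D6717) (orK (nat_lit 127) (fin (add (start D16566) D14935))))))))))))))))))) (orK (nat_lit 191) (fin (add (start D733) (orK (nat_lit 167) (fin (add (start D17197) D9140))))))))))))) D9149)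 D9150) (orK (nat_lit 168) (fin (add (add (add (add (add (start (orK (nat_lit 167) D17199)) (orK (nat_lit 109) (fin (add (add (add (start D23805) (orK (nat_lit 188) (fin (add (start D1608) (orK (nat_lit 187) D8164))))) (orK (nat_lit 128) (fin (add (start D1612) (orK (nat_lit 187) (fin (add (start D7367) (orK (nat_lit 167) (fin (add (start D7375) D1579)))))))))) D23822)))) (orK (nat_lit 167) (fin (add (add (start D17197) (orK (nat_lit 187) (fin (add (start D1579) (orK (nat_lit 147) (fin (add (start D18377) (orK (nat_lit 146) (fin (add (start D3277) (orK (nat_lit 129) (fin (add (start D6617) D9125))))))))))))) (orK (nat_lit 166) (fin (add (start D3470) (orK (nat_lit 146) (fin (add (start D436) (orK (nat_lit 227) (fin (add (start D3465) D3326))))))))))))) (orK (nat_lit 109) (fin (add (add (add (start D23805) (orK (nat_lit 188) (fin (add (start D1608) (orK (nat_lit 128) (fin (add (start D522) (orK (nat_lit 108) (fin (add (start D1610) D2079)))))))))) (orK (nat_lit 128) (fin (add (start D1612) (orK (nat_lit 127) (fin (add (add (start (orK (nat_lit 188) D23847)) (orK (nat_lit 126) (fin (add (start D7216) (orK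 (nat_lit 147) (fin (add (start D7277) (orK (nat_lit 146) (fin (add (start D3277) (orK (nat_lit 166) (fin (add (start D7139) (orK (nat_lit 107) (fin (add (start D17090) D18818)))))))))))))))) (orK (nat_lit 126) (fin (add (start D7216) (orK (nat_lit 147) (fin (add (start D7277) (orK (nat_lit 146) (fin (add (start D3277) (orK (nat_lit 187) (fin (add (start D7367) (orK (nat_lit 166) (fin (add (start D7139) D6387)))))))))))))))))))))) D23822)))) (orK (nat_lit 166) (fin (add (add (add (start (orK (nat_lit 167) D17189)) (orK (nat_lit 167) (fin (add (start D3470) D17393)))) (orK (nat_lit 167) (fin (add (start D1485) D17393)))) (orK (nat_lit 109) (fin (add (add (add (start D23805) (orK (nat_lit 129) (fin (add (start D7188) D15170)))) (orK (nat_lit 128) (fin (add (start D1612) (orK (nat_lit 147) (fin (add (start (orK (nat_lit 146) (fin (add (start D3277) D7139)))) (orK (nat_lit 127) (fin (add (start (orK (nat_lit 107) (fin (add (start D17323) D23761)))) (orK (nat_lit 126) (fin (add (start D7216) D7277))))))))))))) D23822))))))) (orK (nat_lit 167) (fin (add (start D17197) (orK (nat_lit 187) D7378))))))))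
noncomputable def D1963 : OP := win (nat_lit 5) (nat_lit 9) (nat_lit 7) (nat_lit 3)
noncomputable def D1977 : AP := fin (add (start D1963) D1913)
noncomputable def D1980 : OP := orK (nat_lit 153) (fin (add (start D1912) (orK (nat_lit 151) D1977)))
noncomputable def D7513 : OP := orK (nat_lit 187) (fin (add (start D1064) D2059))
noncomputable def D7519 : OP := orK (nat_lit 192) (fin (add (start D982) (orK (nat_lit 168) (fin (add (start D983) D7513)))))
noncomputable def D7515 : OP := orK (nat_lit 168) (fin (add (start D1564) D7513))
noncomputable def D8339 : AP := fin (add (start D1911) (orK (nat_lit 153) D1977))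
noncomputable def D8340 : OP := orK (nat_lit 152) D8339
noncomputable def D3445 : OP := orK (nat_lit 152) (fin (add (start D1565) D3429))
noncomputable def D261 : OP := win (nat_lit 5) (nat_lit 8) (nat_lit 8) (nat_lit 5)
noncomputable def D263 : AP := fin (add (start D261) D262)
noncomputable def D264 : OP := orK (nat_lit 189) D263
noncomputable def D13443 : OP := orK (nat_lit 172) (fin (add (add (start (orK (nat_lit 190) (fin (add (start D45) D264)))) D981) (orK (nat_lit 151) (fin (add (start D1910) (orK (nat_lit 192) (fin (add (start D982) D3445))))))))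
noncomputable def D1968 : AP := fin (add (start D983) D1131)
noncomputable def D1972 : OP := orK (nat_lit 168) D1968
noncomputable def D1080 : OP := win (nat_lit 0) (nat_lit 9) (nat_lit 8) (nat_lit 3)
noncomputable def D3391 : OP := win (nat_lit 0) (nat_lit 8) (nat_lit 8) (nat_lit 0)
noncomputable def D1071 : AP := fin (add (start D45) (orK (nat_lit 168) (fin (add (add (start D1058) (orK (nat_lit 167) (fin (add (start D945) D1060)))) D1068))))
noncomputable def D8329 : OP := orK (nat_lit 171) (fin (add (add (add (start D1898) (orK (nat_lit 151) (fin (add (start D1910) (orK (nat_lit 152) (fin (add (start D1911) (orK (nat_lit 153) (fin (add (start D1912) D1963)))))))))) D8325) (orK (nat_lit 168) (fin (add (add (start D1994) D1988) D1989)))))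
noncomputable def D13445 : OP := orK (nat_lit 171) (fin (add (add (add (start D1898) D13443) D8325) D12940))
noncomputable def D21087 : OP := orK (nat_lit 228) (fin (add (start D1169) (orK (nat_lit 248) (fin (add (start D2667) D6362)))))
noncomputable def D21010 : OP := orK (nat_lit 187) D17781
noncomputable def D2889 : OP := win (nat_lit 5) (nat_lit 7) (nat_lit 11) (nat_lit 3)
noncomputable def D21083 : OP := orK (nat_lit 247) (fin (add (add (start (orK (nat_lit 228) D2583)) (orK (nat_lit 187) (fin (add (start D1743) D3210)))) (orK (nat_lit 248) (fin (add (start D2889) (orK (nat_lit 187) D5887))))))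
noncomputable def D19160 : OP := win (nat_lit 7) (nat_lit 3) (nat_lit 6) (nat_lit 5)
noncomputable def D19163 : OP := orK (nat_lit 143) (fin (add (start D19160) (win (nat_lit 7) (nat_lit 3) (nat_lit 7) (nat_lit 4))))
noncomputable def D16924 : OP := win (nat_lit 6) (nat_lit 4) (nat_lit 7) (nat_lit 5)
noncomputable def D21713 : OP := orK (nat_lit 144) (fin (add (start D3082) D16924))
noncomputable def D10851 : OP := win (nat_lit 3) (nat_lit 4) (nat_lit 8) (nat_lit 0)
noncomputable def D10853 : OP := orK (nat_lit 165) (fin (add (start D10850) D10851))
noncomputable def D19410 : OP := win (nat_lit 7) (nat_lit 3) (nat_lit 7) (nat_lit 5)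
noncomputable def D21725 : OP := orK (nat_lit 184) (fin (add (start D4939) (orK (nat_lit 224) (fin (add (start D4738) (orK (nat_lit 164) (fin (add (add (start (orK (nat_lit 185) (fin (add (start D10853) (orK (nat_lit 163) (fin (add (start (win (nat_lit 2) (nat_lit 3) (nat_lit 8) (nat_lit 1))) D19410))))))) (orK (nat_lit 185) (fin (add (start D10853) D21713)))) (orK (nat_lit 144) (fin (add (start D16924) D19163)))))))))))
noncomputable def D10931 : OP := orK (nat_lit 183) (fin (add (start D10895) (orK (nat_lit 203) (fin (add (start D10894) D10903)))))
noncomputable def D22938 : AP := fin (add (add (add (start D22935) D22937) D10931) D21725)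
noncomputable def D23374 : OP := orK (nat_lit 204) D22938
noncomputable def D10447 : OP := win (nat_lit 7) (nat_lit 5) (nat_lit 7) (nat_lit 2)
noncomputable def D11060 : OP := orK (nat_lit 146) (fin (add (start D579) (orK (nat_lit 147) (fin (add (start D1376) D7345)))))
noncomputable def D2585 : AP := fin (add (start D1169) D2584)
noncomputable def D21067 : OP := orK (nat_lit 228) D2585
noncomputable def D2740 : OP := orK (nat_lit 166) (fin (add (start D1116) D2013))
noncomputable def D1121 : OP := orK (nat_lit 166) (fin (add (start D1116) D1119))
noncomputable def D1174 : OP := orK (nat_lit 168) (fin (add (start D945) D1121))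
noncomputable def D7499 : OP := orK (nat_lit 190) (fin (add (start D260) (orK (nat_lit 171) (fin (add (start D45) (orK (nat_lit 172) (fin (add (add (start (orK (nat_lit 168) (fin (add (start D735) D272)))) D290) (orK (nat_lit 173) (fin (add (start D278) D288)))))))))))
noncomputable def D10642 : AP := fin (add (start D1307) D5901)
noncomputable def D10655 : OP := orK (nat_lit 168) D10642
noncomputable def D7987 : OP := orK (nat_lit 248) (fin (add (start D4291) D1369))
noncomputable def D7988 : AP := fin (add (start D86) D7987)
noncomputable def D7990 : AP := fin (add (start D1169) (orK (nat_lit 247) D7988))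
noncomputable def D13686 : OP := orK (nat_lit 229) D7990
noncomputable def D12205 : OP := orK (nat_lit 167) (fin (add (start D32) D3945))
noncomputable def D12207 : OP := orK (nat_lit 206) (fin (add (start D3008) D12205))
noncomputable def D22528 : OP := orK (nat_lit 228) (fin (add (add (add (start D3196) (orK (nat_lit 206) (fin (add (start D3008) (orK (nat_lit 167) (fin (add (start D32) D10655))))))) D13686) (orK (nat_lit 247) (fin (add (add (start D569) (orK (nat_lit 206) (fin (add (start D3008) (orK (nat_lit 204) (fin (add (start D5351) (orK (nat_lit 168) (fin (add (start D1308) (orK (nat_lit 167) (fin (add (start D1307) (orK (nat_lit 186) (fin (add (start D5556) D1725)))))))))))))))) (orK (nat_lit 266) (fin (add (start D1301) (orK (nat_lit 267) (fin (add (start D1302) (orK (nat_lit 168) (fin (add (start D1308) (orK (nat_lit 167) (fin (add (start D1307) (orK (nat_lit 186) (fin (add (start D5556) D1803))))))))))))))))))))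
noncomputable def D11660 : OP := orK (nat_lit 189) D7879
noncomputable def D22564 : OP := orK (nat_lit 188) (fin (add (start D11660) D22562))
noncomputable def D4256 : OP := orK (nat_lit 267) D1810
noncomputable def D2036 : OP := win (nat_lit 4) (nat_lit 6) (nat_lit 10) (nat_lit 3)
noncomputable def D2039 : AP := fin (add (start D2035) (orK (nat_lit 228) (fin (add (start D2036) D32))))
noncomputable def D2040 : OP := orK (nat_lit 226) D2039
noncomputable def D16500 : OP := orK (nat_lit 209) (fin (add (start D1552) D2040))
noncomputable def D5496 : AP := fin (add (add (start D5495) D4866) D1477)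
noncomputable def D5882 : OP := orK (nat_lit 247) D5496
noncomputable def D21747 : OP := orK (nat_lit 247) (fin (add (add (start D6287) D1477) D21745))
noncomputable def D15311 : OP := orK (nat_lit 247) (fin (add (start D140) D1477))
noncomputable def D4271 : OP := win (nat_lit 4) (nat_lit 6) (nat_lit 10) (nat_lit 4)
noncomputable def D7616 : OP := orK (nat_lit 229) (fin (add (start D1169) D4271))
noncomputable def D7620 : OP := orK (nat_lit 228) (fin (add (start D32) (orK (nat_lit 226) (fin (add (start D2035) D7616)))))
noncomputable def D8062 : AP := fin (add (start D7620) D3945)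
noncomputable def D8063 : OP := orK (nat_lit 167) D8062
noncomputable def D3947 : OP := orK (nat_lit 167) (fin (add (start D872) D3945))
noncomputable def D3941 : OP := orK (nat_lit 247) D1476
noncomputable def D3949 : OP := orK (nat_lit 246) (fin (add (start D3941) D3947))
noncomputable def D4328 : AP := fin (add (start D2035) D32)
noncomputable def D4329 : OP := orK (nat_lit 167) D4328
noncomputable def D4274 : AP := fin (add (start D4271) (orK (nat_lit 246) (fin (add (start D1171) D1170))))
noncomputable def D4275 : OP := orK (nat_lit 226) D4274
noncomputable def D4276 : AP := fin (add (start D1169) D4275)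
noncomputable def D4277 : OP := orK (nat_lit 229) D4276
noncomputable def D8043 : OP := orK (nat_lit 228) (fin (add (add (start D3196) D4277) (orK (nat_lit 229) (fin (add (start D1169) (orK (nat_lit 226) (fin (add (start D4271) D4329))))))))
noncomputable def D4221 : AP := fin (add (start D1381) D4214)
noncomputable def D4184 : OP := win (nat_lit 6) (nat_lit 5) (nat_lit 6) (nat_lit 5)
noncomputable def D4183 : OP := win (nat_lit 6) (nat_lit 5) (nat_lit 5) (nat_lit 0)
noncomputable def D4186 : OP := orK (nat_lit 125) (fin (add (start D4183) D4184))
noncomputable def D4165 : OP := orK (nat_lit 186) (fin (add (start D4163) D4026))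
noncomputable def D4226 : OP := orK (nat_lit 167) (fin (add (add (add (add (start D3945) (orK (nat_lit 166) (fin (add (start D1484) (orK (nat_lit 168) (fin (add (start D1307) (orK (nat_lit 165) (fin (add (add (add (start (orK (nat_lit 144) (fin (add (start D462) (orK (nat_lit 164) (fin (add (start D461) D4165))))))) (orK (nat_lit 184) (fin (add (start D4170) (orK (nat_lit 164) (fin (add (start D4171) D4165))))))) D4181) (orK (nat_lit 186) (fin (add (start D4026) (orK (nat_lit 145) (fin (add (start D443) (orK (nat_lit 185) (fin (add (start D4182) D4186))))))))))))))))))) D4216) (orK (nat_lit 148) (fin (add (start D1382) (orK (nat_lit 147) (fin (add (start D1381) D4205))))))) (orK (nat_lit 148) (fin (add (start D1382) (orK (nat_lit 147) D4221))))))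
noncomputable def D9331 : OP := orK (nat_lit 246) (fin (add (start D872) D3941))
noncomputable def D23590 : OP := orK (nat_lit 227) (fin (add (start D579) D9331))
noncomputable def D15970 : OP := orK (nat_lit 209) (fin (add (start D2036) D1552))
noncomputable def D15972 : OP := orK (nat_lit 228) (fin (add (start D32) D15970))
noncomputable def D3279 : AP := fin (add (start D3277) (win (nat_lit 2) (nat_lit 6) (nat_lit 7) (nat_lit 3)))
noncomputable def D3281 : AP := fin (add (start D3276) (orK (nat_lit 146) D3279))
noncomputable def D3343 : OP := win (nat_lit 0) (nat_lit 6) (nat_lit 7) (nat_lit 3)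
noncomputable def D5487 : OP := orK (nat_lit 228) (fin (add (start D567) D32))
noncomputable def D13384 : OP := orK (nat_lit 247) (fin (add (add (start (orK (nat_lit 246) (fin (add (start D134) (orK (nat_lit 167) (fin (add (start D872) D5487))))))) D3226) D8059))
noncomputable def D22028 : OP := orK (nat_lit 248) (fin (add (start D137) D2197))
noncomputable def D4408 : OP := orK (nat_lit 224) (fin (add (start (orK (nat_lit 204) (fin (add (start D4295) D4294)))) D4406))
noncomputable def D18327 : OP := orK (nat_lit 143) (fin (add (start D11159) D11158))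
noncomputable def D15933 : OP := orK (nat_lit 266) (fin (add (start D2305) D15931))
noncomputable def D21811 : OP := win (nat_lit 0) (nat_lit 2) (nat_lit 10) (nat_lit 0)
noncomputable def D21898 : OP := orK (nat_lit 203) (fin (add (start D21811) (win (nat_lit 2) (nat_lit 3) (nat_lit 10) (nat_lit 3))))
noncomputable def D21900 : OP := orK (nat_lit 204) (fin (add (start D21810) D21898))
noncomputable def D15991 : OP := win (nat_lit 2) (nat_lit 2) (nat_lit 10) (nat_lit 4)
noncomputable def D15992 : OP := win (nat_lit 2) (nat_lit 1) (nat_lit 10) (nat_lit 5)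
noncomputable def D15917 : OP := win (nat_lit 0) (nat_lit 2) (nat_lit 11) (nat_lit 4)
noncomputable def D22123 : OP := orK (nat_lit 222) (fin (add (start D15917) (orK (nat_lit 202) (fin (add (start D15992) D15991)))))
noncomputable def D5013 : OP := win (nat_lit 3) (nat_lit 6) (nat_lit 10) (nat_lit 1)
noncomputable def D22111 : OP := win (nat_lit 4) (nat_lit 1) (nat_lit 10) (nat_lit 4)
noncomputable def D22110 : OP := win (nat_lit 2) (nat_lit 0) (nat_lit 10) (nat_lit 5)
noncomputable def D22109 : OP := win (nat_lit 2) (nat_lit 1) (nat_lit 10) (nat_lit 4)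
noncomputable def D22058 : OP := orK (nat_lit 241) (fin (add (start (win (nat_lit 5) (nat_lit 0) (nat_lit 11) (nat_lit 5))) (win (nat_lit 5) (nat_lit 1) (nat_lit 11) (nat_lit 4))))
noncomputable def D19411 : OP := win (nat_lit 7) (nat_lit 3) (nat_lit 8) (nat_lit 4)
noncomputable def D19413 : OP := orK (nat_lit 163) (fin (add (start D19410) D19411))
noncomputable def D10914 : OP := win (nat_lit 6) (nat_lit 4) (nat_lit 8) (nat_lit 5)
noncomputable def D11023 : OP := win (nat_lit 3) (nat_lit 4) (nat_lit 8) (nat_lit 5)
noncomputable def D11005 : OP := win (nat_lit 1) (nat_lit 3) (nat_lit 11) (nat_lit 5)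
noncomputable def D11004 : OP := win (nat_lit 1) (nat_lit 3) (nat_lit 10) (nat_lit 4)
noncomputable def D10909 : OP := win (nat_lit 3) (nat_lit 4) (nat_lit 9) (nat_lit 5)
noncomputable def D10910 : AP := fin (add (start D10909) D3051)
noncomputable def D21908 : OP := orK (nat_lit 203) (fin (add (start D15904) (orK (nat_lit 223) (fin (add (start D15905) D15945)))))
noncomputable def D15921 : OP := orK (nat_lit 242) (fin (add (start (win (nat_lit 5) (nat_lit 1) (nat_lit 11) (nat_lit 5))) (win (nat_lit 5) (nat_lit 2) (nat_lit 11) (nat_lit 4))))
noncomputable def D15993 : OP := win (nat_lit 0) (nat_lit 2) (nat_lit 11) (nat_lit 5)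
noncomputable def D21936 : OP := orK (nat_lit 245) D21932
noncomputable def D21878 : OP := orK (nat_lit 228) (fin (add (start D2466) D4404))
noncomputable def D21973 : OP := win (nat_lit 5) (nat_lit 4) (nat_lit 9) (nat_lit 0)
noncomputable def D21991 : OP := orK (nat_lit 204) (fin (add (start D4295) (orK (nat_lit 205) (fin (add (start D21810) (orK (nat_lit 245) (fin (add (start (orK (nat_lit 185) (fin (add (start (orK (nat_lit 165) (fin (add (start D10850) D3025)))) (orK (nat_lit 186) (fin (add (start D4578) D21973))))))) (orK (nat_lit 265) (fin (add (start D3814) (win (nat_lit 7) (nat_lit 4) (nat_lit 10) (nat_lit 0)))))))))))))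
noncomputable def D22184 : AP := fin (add (add (add (add (add (start (orK (nat_lit 228) (fin (add (start D22028) (orK (nat_lit 229) (fin (add (start D4271) D5765))))))) (orK (nat_lit 224) (fin (add (add (add (start D21908) D21991) (orK (nat_lit 244) (fin (add (start D4403) (orK (nat_lit 205) (fin (add (add (add (start (orK (nat_lit 185) D22035)) D21878) (orK (nat_lit 185) (fin (add (start D3049) D21936)))) (orK (nat_lit 185) (fin (add (start D3049) (orK (nat_lit 204) (fin (add (start D21810) D10837))))))))))))) (orK (nat_lit 223) (fin (add (add (add (start D15945) (orK (nat_lit 244) (fin (add (start D4403) (orK (nat_lit 245) (fin (add (start D21754) (orK (nat_lit 222) (fin (add (start (win (nat_lit 0) (nat_lit 1) (nat_lit 11) (nat_lit 0))) D15993)))))))))) (orK (nat_lit 202) (fin (add (start D15991) (orK (nat_lit 222) (fin (add (start D15992) (orK (nat_lit 245) (fin (add (start D15993) (orK (nat_lit 221) (fin (add (start (win (nat_lit 0) (nat_lit 1) (nat_lit 11) (nat_lit 4))) D22058))))))))))))) (orK (nat_lit 202) (fin (add (start D15991) (orK (nat_lit 222) (fin (add (start D15992) D15921)))))))))))))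 (orK (nat_lit 246) (fin (add (start D3935) (orK (nat_lit 224) (fin (add (add (add (add (start D21908) (orK (nat_lit 204) (fin (add (start D4295) (orK (nat_lit 244) (fin (add (start D4403) (orK (nat_lit 264) (fin (add (add (start (orK (nat_lit 205) D10910)) (orK (nat_lit 283) (fin (add (start D11004) (orK (nat_lit 284) (fin (add (start D11005) (orK (nat_lit 304) (fin (add (start (win (nat_lit 3) (nat_lit 4) (nat_lit 11) (nat_lit 4))) (orK (nat_lit 305) (fin (add (start (win (nat_lit 6) (nat_lit 4) (nat_lit 11) (nat_lit 4))) (win (nat_lit 6) (nat_lit 4) (nat_lit 12) (nat_lit 5))))))))))))))) (orK (nat_lit 185) (fin (add (start (win (nat_lit 3) (nat_lit 4) (nat_lit 9) (nat_lit 4))) (orK (nat_lit 184) (fin (add (start D11023) (orK (nat_lit 164) (fin (add (start D10914) D19413))))))))))))))))))) (orK (nat_lit 223) (fin (add (add (add (start (orK (nat_lit 203) (fin (add (start D15905) D15904)))) (orK (nat_lit 222) (fin (add (start D15917) (orK (nat_lit 204) (fin (add (start D4295) (orK (nat_lit 221) (fin (add (start (win (nat_lit 4) (nat_lit 1) (nat_lit 10) (nat_lit 5))) D22058)))))))))) (orK (nat_lit 222)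 (fin (add (start D15917) (orK (nat_lit 201) (fin (add (start D22109) (orK (nat_lit 221) (fin (add (start D22110) (orK (nat_lit 205) (fin (add (start D22111) D22058))))))))))))) D22123)))) (orK (nat_lit 266) (fin (add (start D2305) (orK (nat_lit 205) (fin (add (add (start D15931) (orK (nat_lit 243) (fin (add (start D15943) (orK (nat_lit 223) (fin (add (start D15942) (orK (nat_lit 222) (fin (add (start D15917) (orK (nat_lit 201) (fin (add (start D22109) (orK (nat_lit 221) (fin (add (start D22110) D22111)))))))))))))))) (orK (nat_lit 244) (fin (add (start D4403) (orK (nat_lit 185) D22137))))))))))) (orK (nat_lit 286) (fin (add (start D5013) (orK (nat_lit 243) (fin (add (start D15943) (orK (nat_lit 223) (fin (add (start D15942) D22123)))))))))))))))) (orK (nat_lit 246) (fin (add (start D3935) (orK (nat_lit 205) (fin (add (start D21900) D15933))))))) (orK (nat_lit 167) (fin (add (start D2035) (orK (nat_lit 166) (fin (add (start D1484) (orK (nat_lit 228) (fin (add (start D32) (orK (nat_lit 204) (fin (add (start D4294) (orK (nat_lit 224) (fin (add (start D4295) (orK (nat_lit 243) (fin (add (start D15943) (orK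 (nat_lit 223) (fin (add (start D15942) (orK (nat_lit 164) (fin (add (start (win (nat_lit 1) (nat_lit 3) (nat_lit 8) (nat_lit 1))) (orK (nat_lit 165) (fin (add (start D6171) (orK (nat_lit 163) (fin (add (start D6796) D18327))))))))))))))))))))))))))))))) (orK (nat_lit 228) (fin (add (start D4408) D22028))))
noncomputable def D13632 : OP := orK (nat_lit 185) (fin (add (start D3049) D10837))
noncomputable def D15922 : AP := fin (add (start D15917) D15921)
noncomputable def D16008 : OP := orK (nat_lit 223) (fin (add (start D15906) (orK (nat_lit 202) (fin (add (start D15991) (orK (nat_lit 222) (fin (add (start D15992) (orK (nat_lit 246) D15922)))))))))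
noncomputable def D21939 : AP := fin (add (start D3025) (orK (nat_lit 244) (fin (add (start D880) D21936))))
noncomputable def D5237 : OP := orK (nat_lit 186) (fin (add (start D4578) (orK (nat_lit 206) (fin (add (start D3127) D5233)))))
noncomputable def D21816 : OP := orK (nat_lit 204) (fin (add (start D21810) (orK (nat_lit 203) (fin (add (start D21811) (win (nat_lit 0) (nat_lit 3) (nat_lit 10) (nat_lit 3)))))))
noncomputable def D10995 : OP := win (nat_lit 6) (nat_lit 4) (nat_lit 9) (nat_lit 5)
noncomputable def D10919 : OP := win (nat_lit 6) (nat_lit 4) (nat_lit 8) (nat_lit 0)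
noncomputable def D19770 : AP := fin (add (start D10919) D10995)
noncomputable def D19771 : OP := orK (nat_lit 245) D19770
noncomputable def D10911 : OP := orK (nat_lit 264) D10910
noncomputable def D21909 : OP := win (nat_lit 7) (nat_lit 3) (nat_lit 8) (nat_lit 5)
noncomputable def D19086 : OP := win (nat_lit 2) (nat_lit 3) (nat_lit 9) (nat_lit 1)
noncomputable def D21880 : OP := orK (nat_lit 165) (fin (add (start D880) D3025))
noncomputable def D10994 : OP := win (nat_lit 4) (nat_lit 3) (nat_lit 11) (nat_lit 3)
noncomputable def D21756 : AP := fin (add (start D21755) D10994)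
noncomputable def D21803 : OP := win (nat_lit 5) (nat_lit 3) (nat_lit 11) (nat_lit 3)
noncomputable def D10890 : OP := orK (nat_lit 266) (fin (add (start D2305) (orK (nat_lit 265) (fin (add (start D3638) (orK (nat_lit 245) (fin (add (start D2422) (orK (nat_lit 244) (fin (add (start D4232) (orK (nat_lit 267) (fin (add (start D10880) D3612))))))))))))))
noncomputable def D10865 : OP := orK (nat_lit 245) (fin (add (start D2417) (orK (nat_lit 166) (fin (add (start D7771) D1726)))))
noncomputable def D10892 : OP := orK (nat_lit 246) (fin (add (add (start D5220) (orK (nat_lit 186) (fin (add (add (start D10865) D10867) (orK (nat_lit 245) (fin (add (start D2417) (orK (nat_lit 185) (fin (add (start D2349) (orK (nat_lit 184) (fin (add (start D5231) (orK (nat_lit 244) (fin (add (start D4232) (orK (nat_lit 225) (fin (add (start D3070) D4370))))))))))))))))))) D10890))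
noncomputable def D12819 : OP := win (nat_lit 2) (nat_lit 4) (nat_lit 8) (nat_lit 0)
noncomputable def D21772 : AP := fin (add (start D12819) D3073)
noncomputable def D21773 : OP := orK (nat_lit 165) D21772
noncomputable def D15886 : OP := orK (nat_lit 186) (fin (add (start D2416) (orK (nat_lit 265) (fin (add (start D15882) D2427)))))
noncomputable def D21764 : AP := fin (add (start D4613) (orK (nat_lit 306) (fin (add (start (win (nat_lit 6) (nat_lit 5) (nat_lit 11) (nat_lit 3))) (win (nat_lit 7) (nat_lit 5) (nat_lit 12) (nat_lit 0))))))
noncomputable def D4356 : OP := orK (nat_lit 246) D4355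
noncomputable def D22021 : AP := fin (add (add (add (add (add (add (add (start (orK (nat_lit 245) (fin (add (start (orK (nat_lit 266) (fin (add (add (add (start D4356) (orK (nat_lit 286) (fin (add (start D4681) (orK (nat_lit 265) D21764))))) (orK (nat_lit 265) (fin (add (add (add (start (orK (nat_lit 205) (fin (add (start D3781) (orK (nat_lit 186) (fin (add (start D4795) (orK (nat_lit 185) (fin (add (start D4578) (orK (nat_lit 164) (fin (add (start D3074) D21773))))))))))))) (orK (nat_lit 285) (fin (add (start D3800) (orK (nat_lit 284) (fin (add (start D4635) (orK (nat_lit 283) (fin (add (start (win (nat_lit 4) (nat_lit 2) (nat_lit 13) (nat_lit 0))) (orK (nat_lit 286) (fin (add (start (win (nat_lit 4) (nat_lit 3) (nat_lit 13) (nat_lit 5))) D4639))))))))))))) (orK (nat_lit 286) D21764)) (orK (nat_lit 206) (fin (add (start D2427) (orK (nat_lit 186) (fin (add (start D2416) D15882)))))))))) (orK (nat_lit 206) (fin (add (start D15867) D15886))))))) (orK (nat_lit 244) (fin (add (start D21754) (orK (nat_lit 243) (fin (add (start D21755) D21803)))))))))) (orK (nat_lit 205) (fin (add (add (add (start D21816)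 (orK (nat_lit 246) (fin (add (add (start D4411) (orK (nat_lit 245) (fin (add (start D21818) (orK (nat_lit 185) (fin (add (start D4373) (orK (nat_lit 186) (fin (add (start D4578) (orK (nat_lit 206) (fin (add (start D2417) D5233))))))))))))) D15933)))) (orK (nat_lit 228) (fin (add (start D2466) (orK (nat_lit 245) (fin (add (start D2535) (orK (nat_lit 185) (fin (add (start (orK (nat_lit 164) (fin (add (start D3074) (orK (nat_lit 186) (fin (add (start D4578) D21773))))))) (orK (nat_lit 248) (fin (add (start D137) (orK (nat_lit 266) (fin (add (start D4482) (orK (nat_lit 265) (fin (add (start D3781) (orK (nat_lit 284) (fin (add (start D4634) (orK (nat_lit 285) (fin (add (start D4635) (orK (nat_lit 268) (fin (add (start (win (nat_lit 5) (nat_lit 4) (nat_lit 13) (nat_lit 1))) D402)))))))))))))))))))))))))))) (orK (nat_lit 206) (fin (add (start D21853) D10892))))))) (orK (nat_lit 224) (fin (add (add (start D15910) D15947) (orK (nat_lit 204) (fin (add (start D4295) (orK (nat_lit 244) (fin (add (start D4403) (orK (nat_lit 245) (fin (add (start D21754) (orK (nat_lit 184) D19770)))))))))))))) (orK (nat_lit 244)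 (fin (add (add (add (start (orK (nat_lit 243) (fin (add (start D21803) (orK (nat_lit 245) D21756))))) (orK (nat_lit 224) (fin (add (start D4403) (orK (nat_lit 204) (fin (add (start D4295) (orK (nat_lit 205) (fin (add (start D21810) D13632)))))))))) (orK (nat_lit 245) (fin (add (start D21754) (orK (nat_lit 243) D21756))))) (orK (nat_lit 205) (fin (add (add (add (start D21878) (orK (nat_lit 245) (fin (add (start D21754) (orK (nat_lit 185) (fin (add (start D3070) D21880))))))) (orK (nat_lit 185) (fin (add (add (start (orK (nat_lit 246) (fin (add (start D4373) (orK (nat_lit 245) (fin (add (start D3070) D3040))))))) (orK (nat_lit 264) (fin (add (start D3050) (orK (nat_lit 224) D21890))))) D21880)))) D21900))))))) (orK (nat_lit 224) (fin (add (add (add (start D15910) D15947) D21908) (orK (nat_lit 204) (fin (add (start D4295) (orK (nat_lit 244) (fin (add (start D4403) (orK (nat_lit 184) (fin (add (start (orK (nat_lit 205) (fin (add (start (orK (nat_lit 183) (fin (add (start D19086) D21909)))) D10911)))) D19771))))))))))))) (orK (nat_lit 205) (fin (add (add (add (start D21816) (orK (nat_lit 185) (fin (add (add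 (start (orK (nat_lit 245) (fin (add (start D21933) D5237)))) (orK (nat_lit 165) D21939)) (orK (nat_lit 165) (fin (add (start D3025) (orK (nat_lit 146) (fin (add (start D3028) (orK (nat_lit 145) (fin (add (start D3029) D7660))))))))))))) D21900) (orK (nat_lit 185) (fin (add (start (orK (nat_lit 204) (fin (add (start (orK (nat_lit 188) D21957)) D21898)))) D21966))))))) (orK (nat_lit 224) (fin (add (add (add (start D15910) D21991) (orK (nat_lit 206) (fin (add (start D3065) (orK (nat_lit 186) (fin (add (add (start (orK (nat_lit 166) (fin (add (start D7779) D1726)))) (orK (nat_lit 246) (fin (add (start D708) (orK (nat_lit 245) (fin (add (start D2417) (orK (nat_lit 185) (fin (add (start D2349) (orK (nat_lit 184) (fin (add (start D5231) (orK (nat_lit 164) (fin (add (start D7635) (win (nat_lit 6) (nat_lit 4) (nat_lit 8) (nat_lit 2)))))))))))))))))) (orK (nat_lit 246) (fin (add (start D708) D10867)))))))))) D16008)))) (orK (nat_lit 224) (fin (add (add (start D15910) D15947) (orK (nat_lit 204) (fin (add (start D4295) (orK (nat_lit 205) (fin (add (start D21810) (orK (nat_lit 244) (fin (add (start D4403) D13632)))))))))))))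
noncomputable def D9617 : OP := orK (nat_lit 225) (fin (add (start D137) D9615))
noncomputable def D9621 : OP := orK (nat_lit 228) (fin (add (start D7616) (orK (nat_lit 248) (fin (add (start D2197) D9617)))))
noncomputable def D22187 : OP := orK (nat_lit 226) (fin (add (add (add (start D9565) D9621) (orK (nat_lit 225) D22021)) (orK (nat_lit 225) D22184)))
noncomputable def D12724 : OP := orK (nat_lit 267) D12723
noncomputable def D13158 : OP := win (nat_lit 7) (nat_lit 6) (nat_lit 10) (nat_lit 5)
noncomputable def D13171 : AP := fin (add (start D13158) (win (nat_lit 7) (nat_lit 6) (nat_lit 11) (nat_lit 0)))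
noncomputable def D13159 : OP := win (nat_lit 7) (nat_lit 6) (nat_lit 11) (nat_lit 4)
noncomputable def D5833 : OP := win (nat_lit 1) (nat_lit 6) (nat_lit 12) (nat_lit 5)
noncomputable def D5832 : OP := win (nat_lit 1) (nat_lit 6) (nat_lit 11) (nat_lit 4)
noncomputable def D16675 : OP := orK (nat_lit 247) (fin (add (add (add (start D4866) (orK (nat_lit 267) (fin (add (add (add (start D1304) D4906) (orK (nat_lit 288) (fin (add (start D1785) (orK (nat_lit 287) (fin (add (start D1786) (orK (nat_lit 306) (fin (add (start D5832) (orK (nat_lit 307) (fin (add (start D5833) (orK (nat_lit 226) (fin (add (start D13158) D13159)))))))))))))))) (orK (nat_lit 288) (fin (add (start D1785) (orK (nat_lit 287) (fin (add (start D1786) (orK (nat_lit 246) (fin (add (start D134) (orK (nat_lit 226) D13171)))))))))))))) D8049) (orK (nat_lit 167) (fin (add (add (start D1743) (orK (nat_lit 226) (fin (add (start D2035) (orK (nat_lit 206) (fin (add (start D4140) D12724))))))) D4266)))))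
noncomputable def D12138 : OP := orK (nat_lit 246) (fin (add (start D1170) (orK (nat_lit 226) (fin (add (start D3935) D1171)))))
noncomputable def D13690 : OP := orK (nat_lit 228) (fin (add (add (add (start D3196) D13685) D13686) (orK (nat_lit 229) (fin (add (start D1169) D12138)))))
noncomputable def D7706 : OP := win (nat_lit 2) (nat_lit 3) (nat_lit 8) (nat_lit 4)
noncomputable def D7705 : OP := win (nat_lit 2) (nat_lit 2) (nat_lit 8) (nat_lit 5)
noncomputable def D7708 : OP := orK (nat_lit 163) (fin (add (start D7705) D7706))
noncomputable def D7710 : OP := orK (nat_lit 183) (fin (add (start D7679) D7708))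
noncomputable def D7683 : OP := win (nat_lit 5) (nat_lit 2) (nat_lit 9) (nat_lit 4)
noncomputable def D7682 : OP := win (nat_lit 5) (nat_lit 1) (nat_lit 9) (nat_lit 5)
noncomputable def D7685 : OP := orK (nat_lit 202) (fin (add (start D7682) D7683))
noncomputable def D7696 : OP := win (nat_lit 4) (nat_lit 2) (nat_lit 8) (nat_lit 4)
noncomputable def D7695 : OP := win (nat_lit 2) (nat_lit 1) (nat_lit 8) (nat_lit 5)
noncomputable def D7694 : OP := win (nat_lit 2) (nat_lit 2) (nat_lit 8) (nat_lit 4)
noncomputable def D7704 : OP := orK (nat_lit 183) (fin (add (start D7679) (orK (nat_lit 162) (fin (add (start D7694) (orK (nat_lit 182) (fin (add (start D7695) (orK (nat_lit 166) (fin (add (start D7696) D7685)))))))))))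
noncomputable def D7681 : OP := win (nat_lit 2) (nat_lit 1) (nat_lit 8) (nat_lit 4)
noncomputable def D7680 : OP := win (nat_lit 4) (nat_lit 2) (nat_lit 8) (nat_lit 5)
noncomputable def D7712 : OP := orK (nat_lit 184) (fin (add (add (add (start D7678) (orK (nat_lit 183) (fin (add (start D7679) (orK (nat_lit 165) (fin (add (start D357) (orK (nat_lit 182) (fin (add (start D7680) (orK (nat_lit 161) (fin (add (start D7681) D7685))))))))))))) D7704) D7710))
noncomputable def D21586 : AP := fin (add (start D7948) D7712)
noncomputable def D11279 : OP := win (nat_lit 3) (nat_lit 4) (nat_lit 8) (nat_lit 4)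
noncomputable def D23378 : OP := orK (nat_lit 246) (fin (add (start D708) D7785))
noncomputable def D9592 : AP := fin (add (start D2417) D708)
noncomputable def D9593 : OP := orK (nat_lit 246) D9592
noncomputable def D9595 : OP := orK (nat_lit 245) (fin (add (start D7771) D9593))
noncomputable def D13648 : OP := orK (nat_lit 246) (fin (add (start D134) (orK (nat_lit 229) (fin (add (start D1724) D1473)))))
noncomputable def D22838 : AP := fin (add (start D1725) D13648)
noncomputable def D21614 : OP := win (nat_lit 0) (nat_lit 3) (nat_lit 8) (nat_lit 3)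
noncomputable def D10934 : OP := win (nat_lit 3) (nat_lit 4) (nat_lit 7) (nat_lit 5)
noncomputable def D19128 : OP := win (nat_lit 7) (nat_lit 3) (nat_lit 6) (nat_lit 4)
noncomputable def D11256 : OP := win (nat_lit 7) (nat_lit 3) (nat_lit 5) (nat_lit 5)
noncomputable def D19130 : OP := orK (nat_lit 123) (fin (add (start D11256) D19128))
noncomputable def D11168 : OP := win (nat_lit 3) (nat_lit 4) (nat_lit 6) (nat_lit 5)
noncomputable def D19018 : OP := win (nat_lit 3) (nat_lit 4) (nat_lit 7) (nat_lit 4)
noncomputable def D21630 : OP := win (nat_lit 0) (nat_lit 3) (nat_lit 8) (nat_lit 2)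
noncomputable def D21621 : OP := win (nat_lit 2) (nat_lit 3) (nat_lit 8) (nat_lit 2)
noncomputable def D23042 : OP := orK (nat_lit 184) (fin (add (start D4939) (orK (nat_lit 164) (fin (add (add (add (start (orK (nat_lit 163) (fin (add (start D21621) (orK (nat_lit 224) (fin (add (start D4738) D19410))))))) (orK (nat_lit 163) (fin (add (start D21621) (orK (nat_lit 166) (fin (add (start D21630) (orK (nat_lit 146) (fin (add (start D370) (orK (nat_lit 147) (fin (add (start D17385) (orK (nat_lit 145) (fin (add (start (win (nat_lit 5) (nat_lit 3) (nat_lit 7) (nat_lit 3))) D7904)))))))))))))))) (orK (nat_lit 224) (fin (add (start D4738) (orK (nat_lit 145) (fin (add (start D19018) (orK (nat_lit 144) (fin (add (start D11168) (orK (nat_lit 124) (fin (add (start D7906) D19130))))))))))))) (orK (nat_lit 224) (fin (add (start D4738) (orK (nat_lit 165) (fin (add (start D10934) (orK (nat_lit 163) (fin (add (start D21614) D19410))))))))))))))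
noncomputable def D19079 : OP := orK (nat_lit 145) (fin (add (start D11168) D19018))
noncomputable def D23195 : OP := orK (nat_lit 144) (fin (add (start D19079) D19163))
noncomputable def D4602 : OP := win (nat_lit 6) (nat_lit 4) (nat_lit 7) (nat_lit 0)
noncomputable def D10915 : AP := fin (add (start D4602) D10914)
noncomputable def D20086 : OP := orK (nat_lit 225) D10915
noncomputable def D23398 : OP := orK (nat_lit 145) (fin (add (start D7904) (orK (nat_lit 165) (fin (add (start D12824) (orK (nat_lit 164) (fin (add (start D4163) (orK (nat_lit 147) (fin (add (start D17385) (win (nat_lit 5) (nat_lit 4) (nat_lit 7) (nat_lit 0)))))))))))))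
noncomputable def D23341 : OP := win (nat_lit 1) (nat_lit 5) (nat_lit 8) (nat_lit 3)
noncomputable def D23355 : OP := orK (nat_lit 204) (fin (add (start D7905) (orK (nat_lit 184) (fin (add (start D4939) (orK (nat_lit 225) (fin (add (start (orK (nat_lit 245) (fin (add (start D23341) D3127)))) (orK (nat_lit 164) (fin (add (start D4602) (orK (nat_lit 163) (fin (add (start D21630) D21621))))))))))))))
noncomputable def D23376 : OP := orK (nat_lit 146) (fin (add (start D7713) D370))
noncomputable def D22864 : OP := orK (nat_lit 163) (fin (add (start D21621) D19410))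
noncomputable def D23342 : AP := fin (add (start D23341) D2537)
noncomputable def D22222 : OP := win (nat_lit 1) (nat_lit 3) (nat_lit 10) (nat_lit 5)
noncomputable def D22221 : OP := win (nat_lit 1) (nat_lit 3) (nat_lit 9) (nat_lit 4)
noncomputable def D22924 : OP := orK (nat_lit 146) (fin (add (start D370) (orK (nat_lit 225) (fin (add (start D18635) (orK (nat_lit 226) (fin (add (start D7779) (orK (nat_lit 246) (fin (add (start D708) D18529)))))))))))
noncomputable def D22841 : OP := orK (nat_lit 226) (fin (add (start D708) D2348))
noncomputable def D22844 : OP := orK (nat_lit 229) (fin (add (start (win (nat_lit 4) (nat_lit 5) (nat_lit 11) (nat_lit 4))) D80))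
noncomputable def D22665 : OP := win (nat_lit 7) (nat_lit 6) (nat_lit 8) (nat_lit 1)
noncomputable def D22904 : OP := orK (nat_lit 227) (fin (add (start D140) D13648))
noncomputable def D23331 : OP := orK (nat_lit 245) (fin (add (start D2417) (orK (nat_lit 166) (fin (add (start D7771) D23327)))))
noncomputable def D2813 : OP := win (nat_lit 1) (nat_lit 11) (nat_lit 9) (nat_lit 5)
noncomputable def D2812 : OP := win (nat_lit 1) (nat_lit 11) (nat_lit 8) (nat_lit 0)
noncomputable def D7036 : OP := orK (nat_lit 192) (fin (add (start D2812) D2813))
noncomputable def D23274 : OP := win (nat_lit 6) (nat_lit 12) (nat_lit 11) (nat_lit 5)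
noncomputable def D23273 : OP := win (nat_lit 6) (nat_lit 12) (nat_lit 10) (nat_lit 4)
noncomputable def D4631 : OP := orK (nat_lit 266) D3796
noncomputable def D22885 : OP := orK (nat_lit 225) (fin (add (start D136) (orK (nat_lit 265) (fin (add (start D138) (orK (nat_lit 205) (fin (add (start D3132) D4631))))))))
noncomputable def D22839 : OP := orK (nat_lit 227) D22838
noncomputable def D22837 : OP := orK (nat_lit 227) D4200
noncomputable def D22218 : OP := orK (nat_lit 165) (fin (add (start D10934) D11279))
noncomputable def D10838 : OP := win (nat_lit 1) (nat_lit 3) (nat_lit 9) (nat_lit 5)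
noncomputable def D19357 : OP := win (nat_lit 1) (nat_lit 3) (nat_lit 8) (nat_lit 4)
noncomputable def D19359 : OP := orK (nat_lit 243) (fin (add (start D19357) D10838))
noncomputable def D23191 : OP := orK (nat_lit 244) (fin (add (start D19359) D22218))
noncomputable def D23215 : OP := orK (nat_lit 244) (fin (add (start D19359) D19413))
noncomputable def D10935 : OP := win (nat_lit 6) (nat_lit 4) (nat_lit 8) (nat_lit 4)
noncomputable def D11281 : OP := orK (nat_lit 245) (fin (add (start D10935) D10995))
noncomputable def D23193 : OP := orK (nat_lit 244) (fin (add (start D22218) D11281))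
noncomputable def D19424 : AP := fin (add (start D11281) D19413)
noncomputable def D19425 : OP := orK (nat_lit 244) D19424
noncomputable def D11278 : OP := win (nat_lit 1) (nat_lit 3) (nat_lit 8) (nat_lit 5)
noncomputable def D23209 : OP := orK (nat_lit 223) (fin (add (start D11278) (orK (nat_lit 225) (fin (add (start D3019) D10914)))))
noncomputable def D11003 : OP := win (nat_lit 6) (nat_lit 4) (nat_lit 10) (nat_lit 5)
noncomputable def D11002 : OP := win (nat_lit 6) (nat_lit 4) (nat_lit 9) (nat_lit 4)
noncomputable def D22224 : OP := orK (nat_lit 263) (fin (add (start D22221) D22222))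
noncomputable def D23205 : OP := orK (nat_lit 264) (fin (add (start D22224) (orK (nat_lit 265) (fin (add (start D11002) D11003)))))
noncomputable def D23227 : OP := orK (nat_lit 224) (fin (add (add (add (add (add (start (orK (nat_lit 244) (fin (add (start (orK (nat_lit 183) (fin (add (start D21909) (orK (nat_lit 185) (fin (add (start D3012) D11023))))))) D23205)))) (orK (nat_lit 164) (fin (add (start D23195) D23209)))) (orK (nat_lit 164) (fin (add (add (start D23191) D23193) D23209)))) (orK (nat_lit 164) (fin (add (add (start D19425) D23215) D23209)))) (orK (nat_lit 164) (fin (add (add (start D19425) D23193) D23195)))) (orK (nat_lit 164) (fin (add (add (start D23215) D23191) D23195)))))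
noncomputable def D19077 : OP := orK (nat_lit 223) (fin (add (start D11277) D11278))
noncomputable def D19080 : AP := fin (add (start D19077) D19079)
noncomputable def D21613 : OP := orK (nat_lit 144) D19080
noncomputable def D23158 : OP := win (nat_lit 4) (nat_lit 3) (nat_lit 10) (nat_lit 2)
noncomputable def D4387 : OP := win (nat_lit 0) (nat_lit 4) (nat_lit 11) (nat_lit 5)
noncomputable def D21603 : OP := win (nat_lit 5) (nat_lit 3) (nat_lit 9) (nat_lit 2)
noncomputable def D21612 : OP := orK (nat_lit 203) (fin (add (start D21603) (orK (nat_lit 223) (fin (add (start (win (nat_lit 1) (nat_lit 3) (nat_lit 7) (nat_lit 0))) (orK (nat_lit 243) (fin (add (start (win (nat_lit 1) (nat_lit 3) (nat_lit 8) (nat_lit 3))) (win (nat_lit 3) (nat_lit 3) (nat_lit 9) (nat_lit 0))))))))))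
noncomputable def D21602 : OP := orK (nat_lit 185) (fin (add (start D7635) D5352))
noncomputable def D21600 : OP := orK (nat_lit 185) D5353
noncomputable def D23145 : OP := orK (nat_lit 227) (fin (add (start D4737) (orK (nat_lit 224) (fin (add (start D4738) (orK (nat_lit 247) (fin (add (start D1725) (orK (nat_lit 248) (fin (add (start (win (nat_lit 0) (nat_lit 4) (nat_lit 11) (nat_lit 1))) D1369)))))))))))
noncomputable def D23162 : OP := orK (nat_lit 164) (fin (add (start D11278) D22864))
noncomputable def D19403 : OP := win (nat_lit 5) (nat_lit 3) (nat_lit 10) (nat_lit 2)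
noncomputable def D19093 : OP := orK (nat_lit 225) (fin (add (start D19091) D10914))
noncomputable def D12829 : AP := fin (add (start D5351) D3008)
noncomputable def D23154 : OP := orK (nat_lit 183) (fin (add (start (win (nat_lit 0) (nat_lit 3) (nat_lit 9) (nat_lit 2))) (win (nat_lit 2) (nat_lit 3) (nat_lit 9) (nat_lit 2))))
noncomputable def D12830 : OP := orK (nat_lit 228) D12829
noncomputable def D12832 : OP := orK (nat_lit 204) (fin (add (start D5354) D12830))
noncomputable def D15887 : OP := win (nat_lit 7) (nat_lit 4) (nat_lit 8) (nat_lit 2)
noncomputable def D23267 : AP := fin (add (add (add (start (orK (nat_lit 246) (fin (add (start D708) (orK (nat_lit 245) (fin (add (start D2417) (orK (nat_lit 185) (fin (add (start D2349) (orK (nat_lit 184) (fin (add (start D5231) (orK (nat_lit 164) (fin (add (start D7635) (orK (nat_lit 204) (fin (add (start D5352) (orK (nat_lit 225) (fin (add (start (win (nat_lit 6) (nat_lit 4) (nat_lit 8) (nat_lit 3))) D15887)))))))))))))))))))))) (orK (nat_lit 246) (fin (add (start D708) (orK (nat_lit 247) (fin (add (start D2348) (orK (nat_lit 248) (fin (add (add (start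 (orK (nat_lit 268) (fin (add (start (win (nat_lit 6) (nat_lit 7) (nat_lit 9) (nat_lit 2))) (orK (nat_lit 245) (fin (add (start D4571) (orK (nat_lit 265) (fin (add (start D13393) D138)))))))))) (orK (nat_lit 229) (fin (add (start D80) (orK (nat_lit 228) (fin (add (start D79) D4291))))))) (orK (nat_lit 229) (fin (add (start D80) (orK (nat_lit 228) (fin (add (start D63) D4291)))))))))))))))) (orK (nat_lit 246) (fin (add (start D708) (orK (nat_lit 247) (fin (add (start D2348) (orK (nat_lit 185) (fin (add (start D2349) (orK (nat_lit 227) (fin (add (start D12832) D7756))))))))))))) (orK (nat_lit 204) (fin (add (add (add (start (orK (nat_lit 205) (fin (add (start D7905) D23145)))) (orK (nat_lit 184) (fin (add (add (add (start D21600) (orK (nat_lit 203) (fin (add (start (win (nat_lit 4) (nat_lit 3) (nat_lit 9) (nat_lit 2))) D21603)))) (orK (nat_lit 205) (fin (add (start D4939) D7905)))) D23154)))) (orK (nat_lit 184) (fin (add (add (add (start D23154) (orK (nat_lit 228) (fin (add (add (start (orK (nat_lit 227) D12829)) (orK (nat_lit 224) (fin (add (add (add (start (orK (nat_lit 223) (fin (add (start D23158)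 D19403)))) (orK (nat_lit 223) (fin (add (start D23158) D23162)))) (orK (nat_lit 164) (fin (add (add (add (start (orK (nat_lit 144) (fin (add (start D22864) D19079)))) (orK (nat_lit 244) (fin (add (start (orK (nat_lit 185) (fin (add (start D7635) D11023)))) D11281)))) (orK (nat_lit 144) (fin (add (start D19079) D19093)))) (orK (nat_lit 144) (fin (add (start D22864) D19093))))))) (orK (nat_lit 223) (fin (add (start D19403) D23162))))))) (orK (nat_lit 227) (fin (add (start D3008) (orK (nat_lit 247) (fin (add (start D1725) (orK (nat_lit 248) (fin (add (start D1369) D9991))))))))))))) (orK (nat_lit 205) (fin (add (start D4939) D23145)))) D23227)))) (orK (nat_lit 184) (fin (add (add (add (start D21600) (orK (nat_lit 164) (fin (add (add (start D21602) D21612) (orK (nat_lit 224) (fin (add (start D23209) D23195))))))) (orK (nat_lit 224) (fin (add (add (add (start (orK (nat_lit 225) (fin (add (start D3065) (orK (nat_lit 227) (fin (add (start D4295) (orK (nat_lit 247) (fin (add (start D4387) D1725)))))))))) (orK (nat_lit 223) (fin (add (start D23158) (orK (nat_lit 243) (fin (add (start (win (nat_lit 1) (nat_lit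 3) (nat_lit 8) (nat_lit 0))) (orK (nat_lit 263) (fin (add (start (win (nat_lit 1) (nat_lit 3) (nat_lit 9) (nat_lit 3))) (win (nat_lit 3) (nat_lit 3) (nat_lit 10) (nat_lit 0)))))))))))) (orK (nat_lit 244) (fin (add (add (start (orK (nat_lit 164) D19424)) D23205) (orK (nat_lit 264) (fin (add (start D22224) (orK (nat_lit 183) (fin (add (start D21909) (win (nat_lit 7) (nat_lit 3) (nat_lit 9) (nat_lit 4)))))))))))) (orK (nat_lit 164) (fin (add (add (start D21613) D23215) D23195))))))) D23227)))))))
noncomputable def D11169 : OP := win (nat_lit 3) (nat_lit 4) (nat_lit 7) (nat_lit 0)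
noncomputable def D21640 : OP := win (nat_lit 3) (nat_lit 4) (nat_lit 6) (nat_lit 3)
noncomputable def D10782 : OP := win (nat_lit 1) (nat_lit 4) (nat_lit 6) (nat_lit 2)
noncomputable def D22967 : AP := fin (add (start D11169) D12824)
noncomputable def D21639 : OP := orK (nat_lit 163) (fin (add (start D21630) (orK (nat_lit 143) (fin (add (start (win (nat_lit 7) (nat_lit 3) (nat_lit 7) (nat_lit 0))) (orK (nat_lit 123) (fin (add (start (win (nat_lit 6) (nat_lit 3) (nat_lit 5) (nat_lit 0))) (win (nat_lit 6) (nat_lit 3) (nat_lit 6) (nat_lit 3))))))))))
noncomputable def D21642 : OP := orK (nat_lit 125) (fin (add (start D11195) D21640))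
noncomputable def D19010 : OP := win (nat_lit 1) (nat_lit 3) (nat_lit 7) (nat_lit 5)
noncomputable def D19114 : OP := orK (nat_lit 203) (fin (add (start (win (nat_lit 1) (nat_lit 3) (nat_lit 6) (nat_lit 4))) D19010))
noncomputable def D19131 : AP := fin (add (start D19114) D19130)
noncomputable def D19159 : OP := orK (nat_lit 124) D19131
noncomputable def D11290 : OP := win (nat_lit 3) (nat_lit 4) (nat_lit 6) (nat_lit 4)
noncomputable def D11255 : OP := win (nat_lit 3) (nat_lit 4) (nat_lit 5) (nat_lit 5)
noncomputable def D16923 : OP := orK (nat_lit 125) (fin (add (start D11255) D11290))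
noncomputable def D21649 : OP := orK (nat_lit 124) (fin (add (start D16923) D19130))
noncomputable def D19363 : AP := fin (add (start D19077) D19163)
noncomputable def D20614 : OP := orK (nat_lit 224) D19363
noncomputable def D19115 : AP := fin (add (start D19114) D16923)
noncomputable def D21647 : OP := orK (nat_lit 124) D19115
noncomputable def D21653 : OP := orK (nat_lit 144) (fin (add (add (start D21647) D20614) D21649))
noncomputable def D21629 : OP := orK (nat_lit 164) (fin (add (add (add (start D21602) D21612) (orK (nat_lit 224) (fin (add (add (start D21613) (orK (nat_lit 144) D19363)) (orK (nat_lit 163) (fin (add (start D19410) (orK (nat_lit 165) (fin (add (start D21614) D10934)))))))))) (orK (nat_lit 163) (fin (add (start D21621) (orK (nat_lit 165) (fin (add (start D21614) (orK (nat_lit 224) (fin (add (start D10934) D19410)))))))))))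
noncomputable def D17940 : OP := orK (nat_lit 268) (fin (add (start D571) (orK (nat_lit 267) (fin (add (start D572) D1791)))))
noncomputable def D16625 : OP := orK (nat_lit 266) (fin (add (start D1301) (orK (nat_lit 267) (fin (add (start D1302) D1791)))))
noncomputable def D10803 : OP := win (nat_lit 6) (nat_lit 4) (nat_lit 5) (nat_lit 4)
noncomputable def D11241 : OP := win (nat_lit 3) (nat_lit 4) (nat_lit 4) (nat_lit 5)
noncomputable def D11240 : OP := win (nat_lit 3) (nat_lit 4) (nat_lit 5) (nat_lit 4)
noncomputable def D19081 : OP := orK (nat_lit 224) D19080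
noncomputable def D21705 : OP := orK (nat_lit 184) (fin (add (add (add (start D21600) D21629) (orK (nat_lit 164) (fin (add (add (add (add (start D21639) (orK (nat_lit 165) (fin (add (start D4163) (orK (nat_lit 145) (fin (add (start D11169) D21642))))))) (orK (nat_lit 144) (fin (add (add (start D19159) D19081) D21649)))) D21653) (orK (nat_lit 165) (fin (add (start D4163) (orK (nat_lit 144) (fin (add (add (start (orK (nat_lit 145) (fin (add (start D11168) (orK (nat_lit 143) (fin (add (start D16868) D19160))))))) D21647) D19159)))))))))) (orK (nat_lit 185) (fin (add (start D5231) (orK (nat_lit 164) (fin (add (start D7635) (orK (nat_lit 144) (fin (add (add (add (start (orK (nat_lit 125) (fin (add (start D11290) (orK (nat_lit 124) (fin (add (start D11255) D19130))))))) (orK (nat_lit 145) (fin (add (start D11168) (orK (nat_lit 224) (fin (add (start D19018) (orK (nat_lit 243) (fin (add (start D19357) (orK (nat_lit 244) (fin (add (start D10838) D11281))))))))))))) (orK (nat_lit 123) (fin (add (start D19128) (orK (nat_lit 124) (fin (add (start D11256) (orK (nat_lit 165) (fin (add (start D11219) (orK (nat_lit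 224) (fin (add (start D10934) D10851))))))))))))) (orK (nat_lit 123) (fin (add (start D19128) (orK (nat_lit 124) (fin (add (start D11256) (orK (nat_lit 105) (fin (add (start D11240) (orK (nat_lit 104) (fin (add (start D11241) D10803)))))))))))))))))))))))
noncomputable def D17268 : OP := win (nat_lit 6) (nat_lit 6) (nat_lit 8) (nat_lit 5)
noncomputable def D22896 : OP := orK (nat_lit 245) (fin (add (start D2417) (orK (nat_lit 225) (fin (add (start D2416) (orK (nat_lit 224) (fin (add (start D2342) D22890))))))))
noncomputable def D23505 : AP := fin (add (add (add (add (add (add (add (add (start (orK (nat_lit 247) (fin (add (add (add (start D22837) D22839) (orK (nat_lit 246) (fin (add (add (add (start D22841) (orK (nat_lit 245) (fin (add (add (add (start (orK (nat_lit 248) (fin (add (start D22844) D22849)))) (orK (nat_lit 205) (fin (add (add (start (orK (nat_lit 225) D5293)) (orK (nat_lit 204) (fin (add (start D7905) (orK (nat_lit 184) (fin (add (start D4939) (orK (nat_lit 224) (fin (add (start D4738) (orK (nat_lit 244) (fin (add (start D10995) (orK (nat_lit 263) (fin (add (start D22221) D2401))))))))))))))))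 (orK (nat_lit 204) (fin (add (start D7905) (orK (nat_lit 184) (fin (add (start D4939) (orK (nat_lit 224) (fin (add (start D4738) (orK (nat_lit 164) (fin (add (start D10935) D22864)))))))))))))))) (orK (nat_lit 248) (fin (add (start D22844) D22878)))) (orK (nat_lit 248) (fin (add (start D22844) D22885))))))) (orK (nat_lit 226) (fin (add (start D2348) D22896)))) (orK (nat_lit 226) (fin (add (start D708) D22896))))))) D22904)))) (orK (nat_lit 166) (fin (add (add (start D373) (orK (nat_lit 226) (fin (add (add (start D9595) (orK (nat_lit 246) (fin (add (start D708) (orK (nat_lit 247) (fin (add (start (win (nat_lit 6) (nat_lit 6) (nat_lit 8) (nat_lit 4))) D2348))))))) (orK (nat_lit 225) (fin (add (start D7779) (orK (nat_lit 227) (fin (add (start D17268) (orK (nat_lit 228) (fin (add (start D3008) D7552))))))))))))) D22924)))) (orK (nat_lit 166) (fin (add (add (start D373) (orK (nat_lit 204) (fin (add (add (start (orK (nat_lit 205) D22938)) (orK (nat_lit 227) (fin (add (start D4026) D12830)))) (orK (nat_lit 229) (fin (add (start (orK (nat_lit 227) (fin (add (start D1724) D4026)))) D21705))))))) (orK (nat_lit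 146) (fin (add (start D370) (orK (nat_lit 205) (fin (add (start D7713) (orK (nat_lit 147) (fin (add (start D17385) (orK (nat_lit 204) (fin (add (start D7905) (orK (nat_lit 145) (fin (add (start D7904) (orK (nat_lit 148) (fin (add (start D7102) (orK (nat_lit 149) (fin (add (start D6615) D7111))))))))))))))))))))))))) (orK (nat_lit 227) (fin (add (add (start D13392) (orK (nat_lit 247) (fin (add (add (start D16625) D17940) D13648)))) (orK (nat_lit 204) (fin (add (add (start (orK (nat_lit 205) (fin (add (start D4737) D7905)))) (orK (nat_lit 184) (fin (add (add (add (start D21600) D21629) (orK (nat_lit 166) (fin (add (start D373) (orK (nat_lit 164) (fin (add (add (add (start D21653) (orK (nat_lit 144) (fin (add (start (orK (nat_lit 145) (fin (add (start D11168) (orK (nat_lit 165) D22967))))) D19159)))) (orK (nat_lit 165) (fin (add (start D4163) (orK (nat_lit 145) (fin (add (start D12824) D21642))))))) D21639))))))) (orK (nat_lit 164) (fin (add (add (start (orK (nat_lit 185) (fin (add (start D5231) D7635)))) (orK (nat_lit 166) (fin (add (start D1726) (orK (nat_lit 165) (fin (add (start D4163) (orK (nat_lit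 145) D22967)))))))) (orK (nat_lit 145) (fin (add (add (start (orK (nat_lit 185) (fin (add (start D5231) (orK (nat_lit 125) (fin (add (start D10782) D21640))))))) (orK (nat_lit 165) (fin (add (start D11169) (orK (nat_lit 166) (fin (add (start D1726) D12824))))))) (orK (nat_lit 144) (fin (add (start D11168) (orK (nat_lit 146) (fin (add (start D7825) (orK (nat_lit 123) (fin (add (start D19128) (orK (nat_lit 124) (fin (add (start (win (nat_lit 2) (nat_lit 3) (nat_lit 6) (nat_lit 0))) D11256)))))))))))))))))))))) (orK (nat_lit 205) (fin (add (start D4737) D23042)))))))))) (orK (nat_lit 226) D23267)) (orK (nat_lit 247) (fin (add (add (add (start D22837) D22839) (orK (nat_lit 246) (fin (add (add (add (start D22841) (orK (nat_lit 248) (fin (add (start (orK (nat_lit 245) (fin (add (add (start D22849) D22885) D22878)))) (orK (nat_lit 229) (fin (add (start D80) (orK (nat_lit 231) (fin (add (start D2889) (orK (nat_lit 232) (fin (add (add (start D5986) (orK (nat_lit 252) (fin (add (start D791) (orK (nat_lit 212) (fin (add (start D790) (orK (nat_lit 272) (fin (add (add (add (start (orK (nat_lit 291) (fin (add (start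 (win (nat_lit 1) (nat_lit 11) (nat_lit 10) (nat_lit 4))) (orK (nat_lit 292) (fin (add (start (win (nat_lit 1) (nat_lit 11) (nat_lit 11) (nat_lit 5))) (orK (nat_lit 293) (fin (add (start D23273) D23274)))))))))) (orK (nat_lit 271) (fin (add (start (win (nat_lit 1) (nat_lit 11) (nat_lit 10) (nat_lit 5))) (orK (nat_lit 192) (fin (add (start (win (nat_lit 1) (nat_lit 11) (nat_lit 9) (nat_lit 4))) (orK (nat_lit 173) (fin (add (start D793) (orK (nat_lit 172) (fin (add (start D794) (orK (nat_lit 171) (fin (add (start (win (nat_lit 7) (nat_lit 11) (nat_lit 7) (nat_lit 5))) D792)))))))))))))))) (orK (nat_lit 293) (fin (add (start D23273) (orK (nat_lit 292) (fin (add (start D23274) (orK (nat_lit 311) (fin (add (start (win (nat_lit 1) (nat_lit 11) (nat_lit 11) (nat_lit 4))) (orK (nat_lit 312) (fin (add (start (win (nat_lit 1) (nat_lit 11) (nat_lit 12) (nat_lit 5))) (win (nat_lit 7) (nat_lit 11) (nat_lit 11) (nat_lit 4))))))))))))))) (orK (nat_lit 293) (fin (add (start D23273) (orK (nat_lit 292) (fin (add (start D23274) (orK (nat_lit 251) (fin (add (start (win (nat_lit 7) (nat_lit 11) (nat_lit 11) (nat_lit 0)))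 D7036))))))))))))))))))) D4758))))))))))))) (orK (nat_lit 226) (fin (add (start D2348) D23331)))) (orK (nat_lit 226) (fin (add (start D708) D23331))))))) D22904)))) (orK (nat_lit 166) (fin (add (add (start D373) (orK (nat_lit 205) (fin (add (add (start (orK (nat_lit 204) (fin (add (start D7905) (orK (nat_lit 227) (fin (add (start D4737) D4026))))))) D23355) (orK (nat_lit 247) (fin (add (start D22665) (orK (nat_lit 245) (fin (add (add (start (orK (nat_lit 225) D23342)) (orK (nat_lit 246) (fin (add (add (start (orK (nat_lit 226) D9592)) (orK (nat_lit 248) (fin (add (start D22844) D23061)))) D22841)))) (orK (nat_lit 225) D23364))))))))))) D22924)))) (orK (nat_lit 205) (fin (add (add (add (add (add (add (start D23374) (orK (nat_lit 166) (fin (add (add (start D23376) (orK (nat_lit 226) (fin (add (add (start D9595) D23378) (orK (nat_lit 225) (fin (add (start D7779) (orK (nat_lit 224) (fin (add (start D3065) (orK (nat_lit 165) (fin (add (start D7782) (orK (nat_lit 164) (fin (add (start D4163) (orK (nat_lit 185) (fin (add (start D3064) D3073))))))))))))))))))) (orK (nat_lit 146) (fin (add (start D370) D23398)))))))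 (orK (nat_lit 166) (fin (add (add (start D23376) (orK (nat_lit 226) (fin (add (add (start D9595) D23378) (orK (nat_lit 204) (fin (add (start D7905) (orK (nat_lit 245) (fin (add (start D7771) (orK (nat_lit 184) (fin (add (start D4939) (orK (nat_lit 224) (fin (add (start D4738) (orK (nat_lit 244) (fin (add (start D10995) (orK (nat_lit 263) (fin (add (start D22221) (orK (nat_lit 264) (fin (add (start D22222) D10909))))))))))))))))))))))))) (orK (nat_lit 204) (fin (add (start D7905) (orK (nat_lit 146) (fin (add (start D370) (orK (nat_lit 145) (fin (add (start D7904) (orK (nat_lit 224) (fin (add (start D4738) (orK (nat_lit 165) (fin (add (start D23419) D12824))))))))))))))))))) (orK (nat_lit 225) (fin (add (add (start (orK (nat_lit 166) (fin (add (start D5290) (orK (nat_lit 245) D23342))))) (orK (nat_lit 204) (fin (add (start D7905) (orK (nat_lit 184) (fin (add (start D4939) (orK (nat_lit 245) (fin (add (start D3127) (orK (nat_lit 224) (fin (add (start D4738) D10919))))))))))))) (orK (nat_lit 146) (fin (add (start (win (nat_lit 1) (nat_lit 5) (nat_lit 7) (nat_lit 1))) (orK (nat_lit 204) (fin (add (start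 D7905) (orK (nat_lit 184) (fin (add (start D4939) (orK (nat_lit 224) (fin (add (start D4738) (orK (nat_lit 164) (fin (add (start D4602) D22864))))))))))))))))))) (orK (nat_lit 166) (fin (add (add (start D23376) D23355) (orK (nat_lit 146) (fin (add (start D370) (orK (nat_lit 204) (fin (add (start D7905) D23398)))))))))) (orK (nat_lit 204) (fin (add (start D7905) (orK (nat_lit 224) (fin (add (start D4738) (orK (nat_lit 184) (fin (add (start D4939) (orK (nat_lit 164) (fin (add (add (start D20086) (orK (nat_lit 166) (fin (add (start (orK (nat_lit 165) (fin (add (start D4163) D10934)))) (orK (nat_lit 225) (fin (add (start D5290) D10914))))))) D23195))))))))))))) (orK (nat_lit 204) (fin (add (start D7905) D23042))))))) (orK (nat_lit 227) (fin (add (add (start D13392) (orK (nat_lit 247) D22838)) (orK (nat_lit 166) (fin (add (start D1726) (orK (nat_lit 226) (fin (add (add (start D9595) D23378) (orK (nat_lit 225) (fin (add (start D7779) (orK (nat_lit 224) (fin (add (start D3065) (orK (nat_lit 204) (fin (add (start D4295) (orK (nat_lit 229) (fin (add (start D1724) (orK (nat_lit 165) (fin (add (start D7782) (orK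 (nat_lit 244) (fin (add (start D4403) (orK (nat_lit 163) (fin (add (start (win (nat_lit 0) (nat_lit 3) (nat_lit 8) (nat_lit 1))) (orK (nat_lit 184) (fin (add (start D11279) D19411))))))))))))))))))))))))))))))))))
noncomputable def D7738 : OP := orK (nat_lit 204) (fin (add (start D7636) (orK (nat_lit 184) (fin (add (start D5352) D7710)))))
noncomputable def D21584 : AP := fin (add (start D7948) D7738)
noncomputable def D19574 : OP := win (nat_lit 0) (nat_lit 2) (nat_lit 8) (nat_lit 0)
noncomputable def D22273 : AP := fin (add (start D19574) D21614)
noncomputable def D22274 : OP := orK (nat_lit 163) D22273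
noncomputable def D22275 : AP := fin (add (start D12819) D22274)
noncomputable def D22325 : OP := win (nat_lit 5) (nat_lit 3) (nat_lit 9) (nat_lit 3)
noncomputable def D22324 : OP := win (nat_lit 4) (nat_lit 2) (nat_lit 9) (nat_lit 0)
noncomputable def D22327 : OP := orK (nat_lit 203) (fin (add (start D22324) D22325))
noncomputable def D22454 : AP := fin (add (start D10850) D3064)
noncomputable def D22455 : OP := orK (nat_lit 224) D22454
noncomputable def D7659 : OP := orK (nat_lit 166) (fin (add (start D3038) D7646))
noncomputable def D16891 : OP := win (nat_lit 6) (nat_lit 4) (nat_lit 6) (nat_lit 3)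
noncomputable def D16892 : AP := fin (add (start D11219) D16891)
noncomputable def D19975 : OP := orK (nat_lit 124) D16892
noncomputable def D22451 : OP := orK (nat_lit 144) (fin (add (start D11184) D19975))
noncomputable def D22303 : OP := win (nat_lit 2) (nat_lit 3) (nat_lit 8) (nat_lit 3)
noncomputable def D19784 : OP := win (nat_lit 1) (nat_lit 4) (nat_lit 6) (nat_lit 0)
noncomputable def D10594 : OP := orK (nat_lit 203) (fin (add (start (win (nat_lit 5) (nat_lit 2) (nat_lit 9) (nat_lit 5))) (win (nat_lit 5) (nat_lit 3) (nat_lit 9) (nat_lit 4))))
noncomputable def D12668 : OP := orK (nat_lit 183) (fin (add (start D7679) D10594))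
noncomputable def D22760 : OP := win (nat_lit 4) (nat_lit 1) (nat_lit 8) (nat_lit 0)
noncomputable def D22305 : OP := orK (nat_lit 163) (fin (add (start D19574) D22303))
noncomputable def D22307 : OP := orK (nat_lit 164) (fin (add (start D12819) D22305))
noncomputable def D18972 : OP := win (nat_lit 1) (nat_lit 5) (nat_lit 4) (nat_lit 0)
noncomputable def D6458 : OP := win (nat_lit 3) (nat_lit 5) (nat_lit 6) (nat_lit 0)
noncomputable def D22294 : AP := fin (add (start D6458) (orK (nat_lit 106) (fin (add (start D18972) (win (nat_lit 3) (nat_lit 5) (nat_lit 5) (nat_lit 3))))))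
noncomputable def D10446 : OP := win (nat_lit 6) (nat_lit 5) (nat_lit 7) (nat_lit 3)
noncomputable def D10568 : AP := fin (add (start D7651) (orK (nat_lit 226) (fin (add (start D10446) D10548))))
noncomputable def D18539 : OP := win (nat_lit 0) (nat_lit 3) (nat_lit 6) (nat_lit 5)
noncomputable def D18538 : OP := win (nat_lit 0) (nat_lit 2) (nat_lit 6) (nat_lit 0)
noncomputable def D19563 : OP := orK (nat_lit 124) (fin (add (start D3105) (orK (nat_lit 123) (fin (add (start D18538) D18539)))))
noncomputable def D10569 : OP := orK (nat_lit 145) D10568
noncomputable def D15430 : OP := orK (nat_lit 166) D7743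
noncomputable def D21560 : OP := orK (nat_lit 247) (fin (add (add (add (start D7750) D7754) D3218) D4250))
noncomputable def D19326 : AP := fin (add (start D11278) (win (nat_lit 5) (nat_lit 3) (nat_lit 10) (nat_lit 1)))
noncomputable def D21581 : OP := orK (nat_lit 184) (fin (add (add (add (start D7710) D12668) (orK (nat_lit 204) (fin (add (start D5352) (orK (nat_lit 164) (fin (add (start D7635) (orK (nat_lit 205) (fin (add (start (orK (nat_lit 224) (fin (add (start (orK (nat_lit 223) D19326)) D10853)))) (orK (nat_lit 225) (fin (add (start D4602) D3081))))))))))))) (orK (nat_lit 163) (fin (add (start D7706) (orK (nat_lit 183) (fin (add (start D7705) D10594))))))))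
noncomputable def D22276 : OP := orK (nat_lit 164) D22275
noncomputable def D22669 : OP := orK (nat_lit 146) (fin (add (start D7643) D22566))
noncomputable def D7726 : OP := orK (nat_lit 225) (fin (add (start D7724) D7646))
noncomputable def D7728 : OP := orK (nat_lit 146) (fin (add (start D7643) D7726))
noncomputable def D22317 : OP := orK (nat_lit 226) (fin (add (start D3025) (orK (nat_lit 224) (fin (add (start D3064) (orK (nat_lit 206) (fin (add (start D3065) D3024))))))))
noncomputable def D12821 : OP := orK (nat_lit 164) (fin (add (start D4163) D12819))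
noncomputable def D22656 : OP := orK (nat_lit 203) (fin (add (start D22324) (win (nat_lit 4) (nat_lit 3) (nat_lit 9) (nat_lit 3))))
noncomputable def D7723 : OP := orK (nat_lit 183) (fin (add (start D7679) (orK (nat_lit 162) (fin (add (start D7694) (orK (nat_lit 182) (fin (add (start D7695) D7696))))))))
noncomputable def D10530 : OP := orK (nat_lit 184) (fin (add (start D5352) D7723))
noncomputable def D22335 : OP := orK (nat_lit 204) (fin (add (start D21973) D22327))
noncomputable def D22701 : AP := fin (add (start D5299) D21973)
noncomputable def D12557 : OP := win (nat_lit 7) (nat_lit 5) (nat_lit 7) (nat_lit 1)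
noncomputable def D4601 : OP := win (nat_lit 7) (nat_lit 4) (nat_lit 9) (nat_lit 0)
noncomputable def D22803 : AP := fin (add (add (add (add (add (add (add (add (start (orK (nat_lit 205) (fin (add (add (start (orK (nat_lit 166) (fin (add (add (start (orK (nat_lit 247) (fin (add (start D22665) (orK (nat_lit 225) (fin (add (start D7646) (orK (nat_lit 165) (fin (add (start (orK (nat_lit 164) D21772)) D22317)))))))))) D7728) D22669)))) (orK (nat_lit 204) (fin (add (add (start D22656) (orK (nat_lit 225) (fin (add (add (start (orK (nat_lit 245) (fin (add (start D4578) (orK (nat_lit 265) (fin (add (start D4795) D3814))))))) (orK (nat_lit 224) (fin (add (start (orK (nat_lit 165) D22454)) (orK (nat_lit 206) (fin (add (start D4738) (orK (nat_lit 227) (fin (add (start D4737) (orK (nat_lit 166) (fin (add (start D5290) D4026))))))))))))) (orK (nat_lit 165) (fin (add (start D22455) (orK (nat_lit 245) (fin (add (start D3042) (orK (nat_lit 184) (fin (add (start D4370) D4601))))))))))))) D22327)))) D22335)))) (orK (nat_lit 165) (fin (add (add (add (start D22276) (orK (nat_lit 166) (fin (add (add (start D22700) (orK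 (nat_lit 145) (fin (add (add (start D4186) (orK (nat_lit 226) (fin (add (start D12557) (orK (nat_lit 205) (fin (add (start (orK (nat_lit 204) D22701)) (orK (nat_lit 225) (fin (add (start D7646) D3025)))))))))) (orK (nat_lit 125) (fin (add (start D4183) (orK (nat_lit 204) (fin (add (start D5300) (orK (nat_lit 205) D22701))))))))))) (orK (nat_lit 146) (fin (add (start D370) (orK (nat_lit 205) (fin (add (start D6466) (orK (nat_lit 204) (fin (add (start D21973) (orK (nat_lit 145) (fin (add (start D5299) (orK (nat_lit 125) (fin (add (start D5300) D4183))))))))))))))))))) D22307) (orK (nat_lit 164) (fin (add (add (start D22274) (orK (nat_lit 205) (fin (add (start D22451) (orK (nat_lit 206) (fin (add (start D13184) (orK (nat_lit 227) (fin (add (start D22735) D13392)))))))))) D22305))))))) (orK (nat_lit 166) (fin (add (add (start D22700) (orK (nat_lit 146) (fin (add (start D370) (orK (nat_lit 205) (fin (add (start D7726) D22335))))))) (orK (nat_lit 227) (fin (add (start D4026) (orK (nat_lit 204) (fin (add (add (start (orK (nat_lit 205) (fin (add (start D21973) (orK (nat_lit 228) (fin (add (start D3782) (orK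 (nat_lit 225) (fin (add (start D3783) D7646)))))))))) D10530) (orK (nat_lit 203) (fin (add (start D22325) (orK (nat_lit 205) (fin (add (start D22324) D21973)))))))))))))))) (orK (nat_lit 184) (fin (add (add (start D7710) D12668) (orK (nat_lit 204) (fin (add (start D5352) (orK (nat_lit 205) (fin (add (start D21973) (orK (nat_lit 164) (fin (add (start D7635) D21713))))))))))))) (orK (nat_lit 205) (fin (add (add (add (start (orK (nat_lit 204) (fin (add (start D21973) D22656)))) (orK (nat_lit 225) (fin (add (add (add (start (orK (nat_lit 166) (fin (add (start D7646) (orK (nat_lit 146) (fin (add (start D7643) (win (nat_lit 1) (nat_lit 5) (nat_lit 7) (nat_lit 3))))))))) (orK (nat_lit 165) (fin (add (add (start D22382) (orK (nat_lit 145) (fin (add (start D7654) D3033)))) D22386)))) (orK (nat_lit 166) (fin (add (start D7646) (orK (nat_lit 146) (fin (add (start D7643) D7724))))))) (orK (nat_lit 165) (fin (add (start (orK (nat_lit 145) (fin (add (start D22376) D7654)))) (orK (nat_lit 166) (fin (add (start D3038) (orK (nat_lit 164) (fin (add (start D4163) D3073))))))))))))) (orK (nat_lit 166) (fin (add (add (start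 (orK (nat_lit 247) (fin (add (start D22665) (orK (nat_lit 225) (fin (add (start D7646) (orK (nat_lit 165) (fin (add (start D12821) D22317)))))))))) D7728) D22669)))) (orK (nat_lit 165) (fin (add (add (start (orK (nat_lit 204) (fin (add (start D21973) D22416)))) (orK (nat_lit 225) (fin (add (start D7659) (orK (nat_lit 224) (fin (add (start D3064) (orK (nat_lit 145) (fin (add (start D22374) D3033)))))))))) D22276))))))) D21581) (orK (nat_lit 184) (fin (add (add (add (add (start D7710) (orK (nat_lit 183) (fin (add (start D7679) (orK (nat_lit 202) (fin (add (start D7683) (orK (nat_lit 182) (fin (add (start D7682) (orK (nat_lit 165) (fin (add (start D7680) (orK (nat_lit 164) (fin (add (start D12819) D22760)))))))))))))))) D7704) (orK (nat_lit 227) (fin (add (add (add (start D7746) D21560) (orK (nat_lit 164) (fin (add (start D7635) D15311)))) (orK (nat_lit 165) (fin (add (start (orK (nat_lit 146) (fin (add (add (add (start D15430) (orK (nat_lit 206) (fin (add (start D7825) D10569)))) (orK (nat_lit 145) (fin (add (add (add (start (orK (nat_lit 125) (fin (add (start D4184) (orK (nat_lit 126) (fin (add (start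 D3099) D19563))))))) (orK (nat_lit 205) (fin (add (start D3029) (orK (nat_lit 226) (fin (add (start D7660) (orK (nat_lit 225) D21939)))))))) (orK (nat_lit 206) D10568)) (orK (nat_lit 126) D22294))))) (orK (nat_lit 126) (fin (add (start D21338) (orK (nat_lit 145) D22294)))))))) D22307))))))) (orK (nat_lit 183) (fin (add (add (add (start D7708) (orK (nat_lit 202) (fin (add (start D7683) (orK (nat_lit 182) (fin (add (start D7682) (orK (nat_lit 164) (fin (add (start D7635) (orK (nat_lit 165) (fin (add (start D22760) D7680))))))))))))) (orK (nat_lit 202) (fin (add (start D7683) (orK (nat_lit 182) (fin (add (start D7682) (orK (nat_lit 161) (fin (add (start D7681) (orK (nat_lit 181) (fin (add (start (win (nat_lit 2) (nat_lit 0) (nat_lit 8) (nat_lit 5))) (orK (nat_lit 165) (fin (add (start (win (nat_lit 4) (nat_lit 1) (nat_lit 8) (nat_lit 4))) D7680)))))))))))))))) (orK (nat_lit 162) (fin (add (start D7694) (orK (nat_lit 182) (fin (add (start D7695) D7685))))))))))))) (orK (nat_lit 184) (fin (add (add (start D7710) D12668) (orK (nat_lit 164) (fin (add (start D7635) (orK (nat_lit 204) (fin (add (start D5352)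 (orK (nat_lit 165) (fin (add (start D12819) (orK (nat_lit 145) (fin (add (start D19784) D11169)))))))))))))))) (orK (nat_lit 164) (fin (add (add (add (start (orK (nat_lit 163) (fin (add (start D22303) (orK (nat_lit 165) D22273))))) (orK (nat_lit 184) (fin (add (start D7635) (orK (nat_lit 204) (fin (add (start D5352) (orK (nat_lit 205) (fin (add (start D21973) D21713)))))))))) (orK (nat_lit 165) (fin (add (start D12819) (orK (nat_lit 205) (fin (add (add (add (start (orK (nat_lit 225) (fin (add (start D3073) D7659)))) D22451) (orK (nat_lit 225) (fin (add (start D7659) (orK (nat_lit 204) (fin (add (start D22455) D22327))))))) (orK (nat_lit 145) (fin (add (start (orK (nat_lit 204) (fin (add (start D5299) D22327)))) D7670)))))))))) (orK (nat_lit 165) D22275)))))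
noncomputable def D15400 : AP := fin (add (start D7878) (orK (nat_lit 166) (fin (add (start D369) (orK (nat_lit 206) (fin (add (start D7968) D373)))))))
noncomputable def D22630 : OP := orK (nat_lit 148) (fin (add (start D9101) (orK (nat_lit 147) (fin (add (start D6615) (orK (nat_lit 166) (fin (add (start D7139) (orK (nat_lit 206) (fin (add (start D17385) D371)))))))))))
noncomputable def D22577 : OP := orK (nat_lit 145) (fin (add (start D7102) D7109))
noncomputable def D22579 : OP := orK (nat_lit 147) (fin (add (start D6615) D22577))
noncomputable def D22570 : OP := orK (nat_lit 147) (fin (add (start D6615) D6617))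
noncomputable def D22581 : OP := orK (nat_lit 148) (fin (add (add (start D22570) (orK (nat_lit 110) (fin (add (start D6716) (orK (nat_lit 109) (fin (add (start D6717) (orK (nat_lit 89) D21530)))))))) D22579))
noncomputable def D9075 : OP := win (nat_lit 6) (nat_lit 9) (nat_lit 4) (nat_lit 4)
noncomputable def D22594 : OP := orK (nat_lit 148) (fin (add (start D9101) (orK (nat_lit 170) (fin (add (start (win (nat_lit 0) (nat_lit 6) (nat_lit 7) (nat_lit 1))) D9075)))))
noncomputable def D16366 : AP := fin (add (start D13411) (orK (nat_lit 148) D16364))
noncomputable def D9231 : OP := orK (nat_lit 228) (fin (add (start D3008) D32))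
noncomputable def D9235 : OP := orK (nat_lit 226) (fin (add (start D2035) (orK (nat_lit 206) (fin (add (start D4140) D9231)))))
noncomputable def D10656 : AP := fin (add (start D10655) D9235)
noncomputable def D21556 : OP := orK (nat_lit 167) D10656
noncomputable def D11659 : OP := orK (nat_lit 148) (fin (add (start D8161) (orK (nat_lit 188) (fin (add (start D158) D38)))))
noncomputable def D4410 : OP := orK (nat_lit 225) (fin (add (start (orK (nat_lit 248) (fin (add (start D137) D3194)))) D4408))
noncomputable def D12378 : OP := orK (nat_lit 206) (fin (add (start D3008) (orK (nat_lit 204) (fin (add (start D5351) D12374)))))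
noncomputable def D10119 : OP := orK (nat_lit 306) (fin (add (start D5832) (orK (nat_lit 307) (fin (add (start D5833) D4002)))))
noncomputable def D10121 : OP := orK (nat_lit 287) (fin (add (start D1792) D10119))
noncomputable def D10125 : OP := orK (nat_lit 206) (fin (add (start D1791) (orK (nat_lit 228) (fin (add (start D3008) D10121)))))
noncomputable def D11641 : OP := orK (nat_lit 266) (fin (add (start D1301) (orK (nat_lit 267) (fin (add (start D1302) D4910)))))
noncomputable def D7590 : AP := fin (add (start D985) D1063)
noncomputable def D11664 : OP := orK (nat_lit 188) (fin (add (start D38) (orK (nat_lit 186) (fin (add (start D2021) D11660)))))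
noncomputable def D11673 : OP := orK (nat_lit 168) (fin (add (add (start D11659) D11664) (orK (nat_lit 167) (fin (add (start D1307) (orK (nat_lit 226) (fin (add (start D2035) (orK (nat_lit 147) (fin (add (start D3202) (orK (nat_lit 170) D7590))))))))))))
noncomputable def D21203 : OP := orK (nat_lit 229) (fin (add (start D1152) D1743))
noncomputable def D9548 : OP := orK (nat_lit 226) D9547
noncomputable def D3936 : OP := win (nat_lit 1) (nat_lit 6) (nat_lit 9) (nat_lit 3)
noncomputable def D12578 : OP := orK (nat_lit 266) (fin (add (start D3936) (orK (nat_lit 226) D4355)))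
noncomputable def D10437 : OP := orK (nat_lit 247) (fin (add (add (add (start D3218) D3222) D3226) (orK (nat_lit 186) (fin (add (start D140) D10433)))))
noncomputable def D15630 : OP := orK (nat_lit 226) (fin (add (start D4271) D9617))
noncomputable def D10536 : OP := orK (nat_lit 166) (fin (add (add (start D7744) (orK (nat_lit 204) (fin (add (start D7636) D10530)))) (orK (nat_lit 205) (fin (add (start D364) D7728)))))
noncomputable def D12324 : OP := orK (nat_lit 247) (fin (add (start D140) (orK (nat_lit 266) (fin (add (start D1301) (orK (nat_lit 267) (fin (add (start D1302) (orK (nat_lit 188) (fin (add (start D41) D574)))))))))))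
noncomputable def D9554 : OP := orK (nat_lit 167) (fin (add (start D872) (orK (nat_lit 228) (fin (add (start D32) (orK (nat_lit 229) (fin (add (start D1169) D1170))))))))
noncomputable def D9556 : OP := orK (nat_lit 246) (fin (add (add (start D3941) D9548) D9554))
noncomputable def D7600 : AP := fin (add (start D134) D5487)
noncomputable def D12860 : OP := orK (nat_lit 186) D7745
noncomputable def D12774 : AP := fin (add (start D134) (orK (nat_lit 168) (fin (add (start D1308) (orK (nat_lit 167) (fin (add (start D1307) D5487)))))))
noncomputable def D12811 : AP := fin (add (start D6158) (orK (nat_lit 186) D7743))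
noncomputable def D12812 : OP := orK (nat_lit 146) D12811
noncomputable def D7417 : OP := orK (nat_lit 112) (fin (add (start D7414) D7415))
noncomputable def D7399 : OP := win (nat_lit 5) (nat_lit 8) (nat_lit 6) (nat_lit 5)
noncomputable def D7401 : OP := win (nat_lit 0) (nat_lit 9) (nat_lit 6) (nat_lit 5)
noncomputable def D7400 : OP := win (nat_lit 0) (nat_lit 8) (nat_lit 6) (nat_lit 4)
noncomputable def D7423 : OP := orK (nat_lit 131) (fin (add (add (start (orK (nat_lit 127) D7412)) (orK (nat_lit 132) (fin (add (start (orK (nat_lit 152) (fin (add (start D7400) D7401)))) D7417)))) (orK (nat_lit 132) (fin (add (start D7399) D7417)))))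
noncomputable def D4130 : OP := orK (nat_lit 247) (fin (add (start D3210) D1371))
noncomputable def D8216 : AP := fin (add (add (add (start (orK (nat_lit 227) (fin (add (add (start D4130) D1373) D3206)))) (orK (nat_lit 168) (fin (add (add (start (orK (nat_lit 166) (fin (add (start D8207) D5960)))) D5901) D7371)))) (orK (nat_lit 227) (fin (add (add (start D4130) (orK (nat_lit 247) D4131)) D3208)))) D7365)
noncomputable def D8217 : OP := orK (nat_lit 167) D8216
noncomputable def D23701 : AP := fin (add (add (add (add (add (add (add (add (add (add (start D8217) (orK (nat_lit 189) (fin (add (add (add (add (add (add (add (add (add (start (orK (nat_lit 149) (fin (add (start D5917) (orK (nat_lit 129) (fin (add (add (add (add (start D6724) (orK (nat_lit 128) (fin (add (start D7213) (orK (nat_lit 130) (fin (add (start D6603) D7423))))))) D7467) D7471) D7475))))))) (orK (nat_lit 188) (fin (add (add (start D7957) D21252) D21253)))) D21284) D21296) D21337) D7956) D21396) D21415) D21541) D21548)))) (orK (nat_lit 227) (fin (add (add (add (start D8045) (orK (nat_lit 168) (fin (add (add (start D11659) D11664) (orK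 (nat_lit 167) (fin (add (start D1307) D21551))))))) D13690) D21556)))) (orK (nat_lit 227) (fin (add (add (add (add (add (add (add (start (orK (nat_lit 166) (fin (add (add (add (start D12812) (orK (nat_lit 247) (fin (add (start D867) (orK (nat_lit 246) D12774))))) D12860) (orK (nat_lit 167) (fin (add (start D1484) (orK (nat_lit 168) (fin (add (start D1307) (orK (nat_lit 247) (fin (add (start D1308) (orK (nat_lit 246) D7600)))))))))))))) D9556) (orK (nat_lit 186) (fin (add (add (add (start D7746) D21560) D12324) (orK (nat_lit 185) (fin (add (add (add (add (add (start (orK (nat_lit 188) (fin (add (start D7948) D7676)))) D21581) (orK (nat_lit 188) (fin (add (start D7948) D10536)))) (orK (nat_lit 188) D21584)) (orK (nat_lit 188) D21586)) (orK (nat_lit 188) D21588)))))))) (orK (nat_lit 228) (fin (add (add (start D3196) (orK (nat_lit 206) (fin (add (start D3008) (orK (nat_lit 186) (fin (add (add (start D13392) (orK (nat_lit 247) (fin (add (start D1725) (orK (nat_lit 188) (fin (add (start D41) D13190))))))) (orK (nat_lit 166) (fin (add (start D373) (orK (nat_lit 204) (fin (add (add (start (orK (nat_lit 205)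 (fin (add (start D7905) D17281)))) D21705) (orK (nat_lit 205) (fin (add (start D17281) D21725)))))))))))))))) (orK (nat_lit 229) (fin (add (start D1169) (orK (nat_lit 248) (fin (add (start D2197) D15630)))))))))) D21747) D10437) D22187) (orK (nat_lit 246) (fin (add (add (add (start (orK (nat_lit 247) (fin (add (start D134) (orK (nat_lit 168) (fin (add (start D1308) (orK (nat_lit 167) (fin (add (start D1307) D21203)))))))))) D12578) D9548) (orK (nat_lit 167) (fin (add (start D872) (orK (nat_lit 168) (fin (add (start D1307) (orK (nat_lit 247) (fin (add (start D1308) D21203)))))))))))))))) (orK (nat_lit 227) (fin (add (add (add (add (add (start D11673) (orK (nat_lit 247) (fin (add (add (add (start D1477) D11641) (orK (nat_lit 267) (fin (add (add (start D574) D10125) D4910)))) (orK (nat_lit 266) (fin (add (start D1301) (orK (nat_lit 267) (fin (add (start D1302) (orK (nat_lit 206) (fin (add (start D1791) (orK (nat_lit 228) (fin (add (start D3008) (orK (nat_lit 204) (fin (add (start D5351) D11643))))))))))))))))))) D21747) D22528) (orK (nat_lit 228) (fin (add (add (add (start D3196) D12378) (orK (nat_lit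 229) (fin (add (start D1169) (orK (nat_lit 226) (fin (add (start D4271) D4410))))))) (orK (nat_lit 168) (fin (add (add (start D11659) (orK (nat_lit 206) (fin (add (start D3008) (orK (nat_lit 247) (fin (add (start D1308) (orK (nat_lit 267) (fin (add (start D1791) D12490)))))))))) (orK (nat_lit 206) (fin (add (start D3008) (orK (nat_lit 167) (fin (add (start D1307) (orK (nat_lit 147) D4213)))))))))))))) D21556)))) (orK (nat_lit 186) (fin (add (add (add (add (add (start D22564) (orK (nat_lit 189) (fin (add (add (start D13276) (orK (nat_lit 149) (fin (add (start D5917) (orK (nat_lit 146) (fin (add (add (start (orK (nat_lit 166) D22567)) (orK (nat_lit 129) (fin (add (add (add (add (start D6724) D22581) (orK (nat_lit 128) (fin (add (start D7213) (orK (nat_lit 127) (fin (add (add (start (orK (nat_lit 147) D16366)) D21468) (orK (nat_lit 130) (fin (add (start D13478) D9066)))))))))) (orK (nat_lit 110) (fin (add (start D6716) (orK (nat_lit 109) (fin (add (start D6717) (orK (nat_lit 88) (fin (add (start D13080) (orK (nat_lit 89) (fin (add (start D13079) D22594))))))))))))) (orK (nat_lit 108) (fin (add (start D6718)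 (orK (nat_lit 109) (fin (add (start D6590) (orK (nat_lit 90) (fin (add (start D7459) (orK (nat_lit 89) (fin (add (start D7458) D22594)))))))))))))))) (orK (nat_lit 129) (fin (add (add (add (add (add (start D18599) D6724) D22581) (orK (nat_lit 148) (fin (add (add (add (start D22570) D22579) (orK (nat_lit 108) (fin (add (start D6718) (orK (nat_lit 109) (fin (add (start D6590) (orK (nat_lit 89) (fin (add (start D9101) D7453)))))))))) (orK (nat_lit 147) (fin (add (start D6617) D22577))))))) (orK (nat_lit 110) (fin (add (start D6716) (orK (nat_lit 109) (fin (add (start D6717) (orK (nat_lit 88) (fin (add (start D13080) (orK (nat_lit 89) (fin (add (start D13079) D22630))))))))))))) (orK (nat_lit 108) (fin (add (start D6718) (orK (nat_lit 109) (fin (add (start D6590) (orK (nat_lit 90) (fin (add (start D7459) (orK (nat_lit 89) (fin (add (start D7458) D22630)))))))))))))))))))))) (orK (nat_lit 188) D15400))))) (orK (nat_lit 185) D22803)) (orK (nat_lit 188) (fin (add (start D11660) (orK (nat_lit 185) D21584))))) (orK (nat_lit 206) D23505)) (orK (nat_lit 188) (fin (add (start D11660) (orK (nat_lit 185) D21586))))))))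 (orK (nat_lit 227) (fin (add (add (add (add (add (add (start D13690) D8045) D16675) D5882) D8061) D22187) D13384)))) (orK (nat_lit 167) (fin (add (add (add (start (orK (nat_lit 227) (fin (add (add (start D6168) D7620) D5886)))) (orK (nat_lit 147) (fin (add (add (add (start D6113) D21433) (orK (nat_lit 148) (fin (add (start D1381) (orK (nat_lit 170) (fin (add (add (add (start (orK (nat_lit 146) (fin (add (start D3343) (orK (nat_lit 168) D3279))))) (orK (nat_lit 171) (fin (add (start D1574) (orK (nat_lit 149) D6100))))) (orK (nat_lit 168) D3281)) (orK (nat_lit 149) D7209)))))))) (orK (nat_lit 127) (fin (add (add (add (start D7326) (orK (nat_lit 106) (fin (add (start D6076) (orK (nat_lit 107) (fin (add (start D6075) (orK (nat_lit 148) (fin (add (start D1381) (orK (nat_lit 168) D17324))))))))))) D17340) D17344))))))) (orK (nat_lit 146) (fin (add (add (start D23590) (orK (nat_lit 147) (fin (add (start D1376) (orK (nat_lit 226) (fin (add (start D3202) (orK (nat_lit 227) (fin (add (start D2035) (orK (nat_lit 148) (fin (add (start D1381) (orK (nat_lit 149) (fin (add (start D6615) (orK (nat_lit 130) (fin (add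 (start D4052) D15972))))))))))))))))))) (orK (nat_lit 147) (fin (add (start D1376) (orK (nat_lit 148) (fin (add (start D1381) (orK (nat_lit 149) (fin (add (start D6615) (orK (nat_lit 130) (fin (add (start D4052) D17691)))))))))))))))) (orK (nat_lit 146) (fin (add (add (start D23590) (orK (nat_lit 147) (fin (add (start D1376) (orK (nat_lit 226) (fin (add (start D3202) (orK (nat_lit 227) (fin (add (start D2035) (orK (nat_lit 168) (fin (add (start D11534) D5884))))))))))))) (orK (nat_lit 147) D21432)))))))) (orK (nat_lit 227) (fin (add (add (add (add (start D8045) D4226) D8043) D3949) D8063)))) (orK (nat_lit 227) (fin (add (add (add (add (add (start (orK (nat_lit 186) (fin (add (start D15311) D22564)))) (orK (nat_lit 167) (fin (add (add (start D8204) D3212) D1386)))) D5892) D21747) D5882) (orK (nat_lit 167) (fin (add (add (add (start D10655) (orK (nat_lit 146) (fin (add (start D579) (orK (nat_lit 147) (fin (add (start D1376) (orK (nat_lit 148) (fin (add (start D1381) (orK (nat_lit 149) (fin (add (start D6615) (orK (nat_lit 130) (fin (add (start D4052) D16500)))))))))))))))) (orK (nat_lit 166) (fin (add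 (start D1484) (orK (nat_lit 228) (fin (add (start D32) (orK (nat_lit 226) (fin (add (start D2035) (orK (nat_lit 209) (fin (add (start D2036) (orK (nat_lit 149) (fin (add (start D1552) (orK (nat_lit 168) (fin (add (start D1485) D5960))))))))))))))))))) D3945))))))) (orK (nat_lit 227) (fin (add (add (add (add (add (start (orK (nat_lit 247) (fin (add (add (start D4255) (orK (nat_lit 228) (fin (add (start D569) D4818)))) D4256)))) (orK (nat_lit 186) (fin (add (start D7746) D22564)))) D22528) (orK (nat_lit 228) (fin (add (add (add (start D3196) D12207) D13686) (orK (nat_lit 229) (fin (add (start D1169) (orK (nat_lit 247) (fin (add (start D86) (orK (nat_lit 168) (fin (add (start D1308) (orK (nat_lit 167) (fin (add (start D1307) (orK (nat_lit 146) (fin (add (start D579) (orK (nat_lit 147) (fin (add (start D11534) D1376)))))))))))))))))))))) D5892) (orK (nat_lit 167) (fin (add (add (add (start D10655) (orK (nat_lit 228) (fin (add (start D32) (orK (nat_lit 206) (fin (add (start D3008) (orK (nat_lit 204) (fin (add (start D5351) D11060)))))))))) (orK (nat_lit 228) (fin (add (start D32) (orK (nat_lit 206) (fin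 (add (start D3008) (orK (nat_lit 204) (fin (add (start D5351) (orK (nat_lit 146) (fin (add (start D579) (orK (nat_lit 147) (fin (add (start D1376) (orK (nat_lit 186) (fin (add (start D4199) (orK (nat_lit 168) (fin (add (start D11534) D5899)))))))))))))))))))))) D3945)))))))
noncomputable def D3355 : OP := orK (nat_lit 150) (fin (add (start D1998) (orK (nat_lit 166) (fin (add (start D1997) D451)))))
noncomputable def D12628 : OP := orK (nat_lit 188) (fin (add (start D38) D1826))
noncomputable def D2052 : OP := orK (nat_lit 171) (fin (add (start D1064) D2050))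
noncomputable def D2060 : AP := fin (add (start D2052) D2059)
noncomputable def D2061 : OP := orK (nat_lit 187) D2060
noncomputable def D3402 : OP := orK (nat_lit 167) (fin (add (start D1990) D3400))
noncomputable def D3268 : OP := win (nat_lit 4) (nat_lit 8) (nat_lit 7) (nat_lit 3)
noncomputable def D14418 : OP := orK (nat_lit 135) (fin (add (start (win (nat_lit 4) (nat_lit 11) (nat_lit 6) (nat_lit 4))) (win (nat_lit 4) (nat_lit 12) (nat_lit 6) (nat_lit 5))))
noncomputable def D14392 : OP := win (nat_lit 2) (nat_lit 11) (nat_lit 6) (nat_lit 4)
noncomputable def D14391 : OP := win (nat_lit 2) (nat_lit 10) (nat_lit 6) (nat_lit 5)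
noncomputable def D15093 : OP := orK (nat_lit 131) (fin (add (start D14391) (orK (nat_lit 155) (fin (add (start D14392) D14418)))))
noncomputable def D15016 : OP := win (nat_lit 0) (nat_lit 11) (nat_lit 7) (nat_lit 5)
noncomputable def D14402 : OP := win (nat_lit 4) (nat_lit 11) (nat_lit 6) (nat_lit 5)
noncomputable def D14398 : OP := orK (nat_lit 175) (fin (add (start (win (nat_lit 0) (nat_lit 11) (nat_lit 7) (nat_lit 4))) (orK (nat_lit 155) (fin (add (start (win (nat_lit 0) (nat_lit 12) (nat_lit 7) (nat_lit 5))) (orK (nat_lit 131) (fin (add (start D14391) D14392))))))))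
noncomputable def D7034 : OP := win (nat_lit 0) (nat_lit 8) (nat_lit 11) (nat_lit 0)
noncomputable def D7298 : OP := win (nat_lit 6) (nat_lit 10) (nat_lit 8) (nat_lit 1)
noncomputable def D21026 : OP := orK (nat_lit 150) (fin (add (start D936) D21))
noncomputable def D13322 : OP := orK (nat_lit 206) (fin (add (start D1724) D3250))
noncomputable def D9765 : OP := orK (nat_lit 246) (fin (add (start D1152) D1767))
noncomputable def D1713 : OP := orK (nat_lit 228) D1712
noncomputable def D16618 : AP := fin (add (add (add (start D1713) D9765) D1813) D13322)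
noncomputable def D1775 : OP := orK (nat_lit 268) (fin (add (start D1770) (orK (nat_lit 288) (fin (add (start (win (nat_lit 3) (nat_lit 8) (nat_lit 11) (nat_lit 0))) D1680)))))
noncomputable def D2890 : OP := win (nat_lit 5) (nat_lit 8) (nat_lit 11) (nat_lit 0)
noncomputable def D2892 : OP := orK (nat_lit 231) (fin (add (start D2889) D2890))
noncomputable def D9769 : OP := orK (nat_lit 248) (fin (add (start D2892) D1775))
noncomputable def D15617 : OP := orK (nat_lit 228) D15616
noncomputable def D1714 : OP := win (nat_lit 4) (nat_lit 6) (nat_lit 11) (nat_lit 2)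
noncomputable def D1819 : OP := orK (nat_lit 246) (fin (add (start D1714) D1817))
noncomputable def D176 : OP := win (nat_lit 4) (nat_lit 6) (nat_lit 11) (nat_lit 0)
noncomputable def D1777 : OP := orK (nat_lit 248) (fin (add (start D176) D1775))
noncomputable def D1820 : AP := fin (add (add (add (add (start D1777) (orK (nat_lit 248) (fin (add (start D176) (orK (nat_lit 267) (fin (add (add (start (orK (nat_lit 268) (fin (add (start D572) (orK (nat_lit 266) (fin (add (start D1302) D1778))))))) D1796) D1798))))))) D1809) D1813) D1819)
noncomputable def D8001 : OP := orK (nat_lit 248) (fin (add (start D176) D2892))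
noncomputable def D12801 : OP := orK (nat_lit 226) (fin (add (start D4271) (orK (nat_lit 225) (fin (add (start D137) (orK (nat_lit 247) (fin (add (start D4041) D4291))))))))
noncomputable def D2871 : OP := orK (nat_lit 253) (fin (add (start D2793) (orK (nat_lit 233) (fin (add (start D2772) D2867)))))
noncomputable def D6245 : OP := orK (nat_lit 232) (fin (add (start D2832) D2871))
noncomputable def D11817 : OP := orK (nat_lit 231) (fin (add (start D2889) D6245))
noncomputable def D4871 : AP := fin (add (start D1770) D4845)
noncomputable def D15621 : OP := orK (nat_lit 248) (fin (add (start (orK (nat_lit 268) D4871)) D11817))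
noncomputable def D4842 : OP := orK (nat_lit 249) (fin (add (start D4840) D611))
noncomputable def D4858 : OP := orK (nat_lit 248) (fin (add (start D4842) D4856))
noncomputable def D2386 : OP := orK (nat_lit 224) (fin (add (start D2381) (orK (nat_lit 244) (fin (add (start D2382) D629)))))
noncomputable def D5058 : OP := orK (nat_lit 223) (fin (add (start (win (nat_lit 2) (nat_lit 3) (nat_lit 11) (nat_lit 4))) (orK (nat_lit 243) (fin (add (start (win (nat_lit 2) (nat_lit 2) (nat_lit 11) (nat_lit 5))) D4846)))))
noncomputable def D5062 : OP := orK (nat_lit 264) (fin (add (start D627) (orK (nat_lit 244) (fin (add (start D626) D5058)))))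
noncomputable def D678 : OP := win (nat_lit 0) (nat_lit 5) (nat_lit 12) (nat_lit 0)
noncomputable def D4992 : OP := orK (nat_lit 249) (fin (add (start D4840) (orK (nat_lit 269) (fin (add (start D2459) (orK (nat_lit 268) (fin (add (start D678) D1770))))))))
noncomputable def D5821 : OP := orK (nat_lit 246) (fin (add (add (start (orK (nat_lit 248) (fin (add (add (start D4992) D5689) (orK (nat_lit 249) (fin (add (start D4840) (orK (nat_lit 269) (fin (add (start D2459) (orK (nat_lit 245) (fin (add (add (add (start D5002) (orK (nat_lit 226) (fin (add (start D614) (orK (nat_lit 244) (fin (add (start D4232) D629))))))) D5062) D2386))))))))))))) (orK (nat_lit 266) (fin (add (add (start D1719) D1815) D4858)))) D1721))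
noncomputable def D5840 : OP := win (nat_lit 7) (nat_lit 6) (nat_lit 11) (nat_lit 5)
noncomputable def D9801 : OP := orK (nat_lit 228) (fin (add (start D4002) (orK (nat_lit 246) (fin (add (start D567) D5840)))))
noncomputable def D9827 : OP := win (nat_lit 6) (nat_lit 7) (nat_lit 13) (nat_lit 5)
noncomputable def D9826 : OP := win (nat_lit 6) (nat_lit 7) (nat_lit 12) (nat_lit 4)
noncomputable def D9829 : OP := orK (nat_lit 328) (fin (add (start D9826) D9827))
noncomputable def D9820 : OP := win (nat_lit 3) (nat_lit 7) (nat_lit 11) (nat_lit 5)
noncomputable def D9823 : OP := orK (nat_lit 248) (fin (add (start D9820) (win (nat_lit 3) (nat_lit 7) (nat_lit 12) (nat_lit 4))))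
noncomputable def D9849 : OP := win (nat_lit 7) (nat_lit 6) (nat_lit 12) (nat_lit 5)
noncomputable def D5839 : OP := win (nat_lit 1) (nat_lit 6) (nat_lit 13) (nat_lit 5)
noncomputable def D5838 : OP := win (nat_lit 1) (nat_lit 6) (nat_lit 12) (nat_lit 4)
noncomputable def D9819 : OP := orK (nat_lit 326) (fin (add (start D5838) D5839))
noncomputable def D5841 : OP := win (nat_lit 7) (nat_lit 6) (nat_lit 12) (nat_lit 4)
noncomputable def D5843 : OP := orK (nat_lit 246) (fin (add (start D5840) D5841))
noncomputable def D5851 : OP := orK (nat_lit 308) (fin (add (start D4003) (orK (nat_lit 307) (fin (add (start D4004) (orK (nat_lit 326) (fin (add (start D5838) (orK (nat_lit 327) (fin (add (start D5839) D5843)))))))))))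
noncomputable def D9809 : OP := orK (nat_lit 288) (fin (add (start D1785) (orK (nat_lit 287) (fin (add (start D1786) (orK (nat_lit 306) (fin (add (start D5832) (orK (nat_lit 307) (fin (add (start D5833) D9801)))))))))))
noncomputable def D3896 : OP := win (nat_lit 2) (nat_lit 7) (nat_lit 12) (nat_lit 0)
noncomputable def D9797 : OP := orK (nat_lit 268) (fin (add (start D572) (orK (nat_lit 266) (fin (add (start D1302) (orK (nat_lit 265) (fin (add (add (start D4560) D4878) (orK (nat_lit 245) (fin (add (start D3589) (orK (nat_lit 269) (fin (add (start D3590) (orK (nat_lit 290) (fin (add (start D3728) (orK (nat_lit 270) (fin (add (start D3729) (orK (nat_lit 248) (fin (add (start D3896) D3902)))))))))))))))))))))))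
noncomputable def D9861 : OP := orK (nat_lit 267) (fin (add (add (add (add (add (start D4906) D9797) D9809) (orK (nat_lit 286) (fin (add (start D1693) (orK (nat_lit 287) (fin (add (start D1694) (orK (nat_lit 308) (fin (add (start D4003) (orK (nat_lit 307) (fin (add (start D4004) D9801))))))))))))) (orK (nat_lit 287) (fin (add (add (start D1788) D5851) (orK (nat_lit 307) (fin (add (add (start (orK (nat_lit 327) (fin (add (start D9819) D9823)))) (orK (nat_lit 327) (fin (add (start D9819) D5843)))) D9801))))))) (orK (nat_lit 287) (fin (add (add (start D1784) (orK (nat_lit 307) (fin (add (start (orK (nat_lit 327) (fin (add (start D9819) D9829)))) D9801)))) (orK (nat_lit 307) (fin (add (add (start (orK (nat_lit 327) (fin (add (start (orK (nat_lit 266) (fin (add (start D1302) D9849)))) D9829)))) (orK (nat_lit 327) (fin (add (start D9823) D9829)))) D9801))))))))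
noncomputable def D9739 : OP := orK (nat_lit 228) D4276
noncomputable def D16385 : OP := orK (nat_lit 187) D4328
noncomputable def D21027 : AP := fin (add (start D28) D21026)
noncomputable def D3327 : AP := fin (add (start D436) D3326)
noncomputable def D3330 : OP := orK (nat_lit 146) (fin (add (start D1117) (orK (nat_lit 166) D3327)))
noncomputable def D437 : OP := win (nat_lit 7) (nat_lit 6) (nat_lit 7) (nat_lit 2)
noncomputable def D438 : AP := fin (add (start D436) D437)
noncomputable def D3289 : OP := orK (nat_lit 146) (fin (add (start D1117) (orK (nat_lit 166) D438)))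
noncomputable def D3285 : AP := fin (add (start D1307) D1063)
noncomputable def D3286 : OP := orK (nat_lit 187) D3285
noncomputable def D13360 : OP := orK (nat_lit 247) (fin (add (start D86) (orK (nat_lit 231) (fin (add (start D2582) D752)))))
noncomputable def D13362 : OP := orK (nat_lit 228) (fin (add (start D1169) D13360))
noncomputable def D1508 : OP := win (nat_lit 4) (nat_lit 6) (nat_lit 10) (nat_lit 0)
noncomputable def D1509 : AP := fin (add (start D1169) D1508)
noncomputable def D1539 : OP := orK (nat_lit 228) D1509
noncomputable def D20967 : OP := orK (nat_lit 172) (fin (add (add (start (orK (nat_lit 192) (fin (add (start D982) (orK (nat_lit 168) (fin (add (start D983) D1986))))))) D981) (orK (nat_lit 148) (fin (add (start D1903) (orK (nat_lit 168) (fin (add (start D265) D1567))))))))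
noncomputable def D1576 : OP := orK (nat_lit 147) (fin (add (start D1555) D1574))
noncomputable def D1578 : OP := orK (nat_lit 148) (fin (add (start D1554) D1576))
noncomputable def D7482 : OP := orK (nat_lit 190) (fin (add (start D260) D940))
noncomputable def D21188 : AP := fin (add (add (add (add (start D7482) (orK (nat_lit 171) (fin (add (add (add (start D1898) D1919) (orK (nat_lit 149) (fin (add (start D1553) D1578)))) D20967)))) (orK (nat_lit 190) (fin (add (start D260) (orK (nat_lit 229) (fin (add (start D28) (orK (nat_lit 209) (fin (add (start D27) (orK (nat_lit 227) (fin (add (add (add (start D1539) (orK (nat_lit 228) (fin (add (start D1508) D13360)))) D13362) (orK (nat_lit 167) (fin (add (add (add (start (orK (nat_lit 168) (fin (add (start D945) D3286)))) D21010) (orK (nat_lit 168) (fin (add (start D945) D3289)))) (orK (nat_lit 168) (fin (add (start D945) D3330))))))))))))))))))) (orK (nat_lit 151) (fin (add (add (add (start (orK (nat_lit 190) (fin (add (start D22) (orK (nat_lit 229) D21027))))) (orK (nat_lit 171) D1918)) (orK (nat_lit 167) (fin (add (add (start (orK (nat_lit 150) (fin (add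 (start (win (nat_lit 4) (nat_lit 7) (nat_lit 7) (nat_lit 1))) (orK (nat_lit 190) (fin (add (start D21) D6009))))))) (orK (nat_lit 187) D8216)) (orK (nat_lit 229) (fin (add (add (add (start (orK (nat_lit 190) D21027)) (orK (nat_lit 227) (fin (add (add (add (add (add (start (orK (nat_lit 228) (fin (add (start D1169) (orK (nat_lit 226) (fin (add (start D4271) D16385))))))) D9739) (orK (nat_lit 247) (fin (add (add (add (add (start (orK (nat_lit 228) D4771)) D9765) D9861) D5821) D15621)))) (orK (nat_lit 228) (fin (add (start D1169) (orK (nat_lit 247) (fin (add (start D86) (orK (nat_lit 248) (fin (add (start D4291) D6362)))))))))) D21010) (orK (nat_lit 228) (fin (add (start D1169) (orK (nat_lit 248) (fin (add (start D6362) D12801)))))))))) (orK (nat_lit 249) (fin (add (start D1649) (orK (nat_lit 247) (fin (add (add (add (start D8001) (orK (nat_lit 227) D1820)) (orK (nat_lit 227) (fin (add (add (add (start D15617) D13322) D9769) D1809)))) (orK (nat_lit 227) D16618)))))))) (orK (nat_lit 231) (fin (add (add (start (orK (nat_lit 190) (fin (add (start D752) D21026)))) (orK (nat_lit 227) (fin (add (add (add (add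 (start D21067) (orK (nat_lit 228) (fin (add (start D1169) (orK (nat_lit 226) (fin (add (start D4271) (orK (nat_lit 246) (fin (add (start D1172) D1171)))))))))) D21083) D21010) D21087)))) (orK (nat_lit 251) (fin (add (start D7298) (orK (nat_lit 252) (fin (add (start D7034) (orK (nat_lit 253) (fin (add (start (win (nat_lit 0) (nat_lit 9) (nat_lit 11) (nat_lit 3))) (win (nat_lit 2) (nat_lit 10) (nat_lit 11) (nat_lit 0))))))))))))))))))))) (orK (nat_lit 152) (fin (add (add (start (orK (nat_lit 153) (fin (add (start D1963) (orK (nat_lit 154) (fin (add (add (start D14398) (orK (nat_lit 134) (fin (add (start D14402) (orK (nat_lit 174) (fin (add (start D15016) (orK (nat_lit 194) (fin (add (add (start (orK (nat_lit 133) (fin (add (start (win (nat_lit 7) (nat_lit 13) (nat_lit 5) (nat_lit 5))) (win (nat_lit 7) (nat_lit 13) (nat_lit 6) (nat_lit 0)))))) (orK (nat_lit 214) (fin (add (start (orK (nat_lit 213) (fin (add (start (win (nat_lit 1) (nat_lit 13) (nat_lit 6) (nat_lit 4))) (win (nat_lit 1) (nat_lit 13) (nat_lit 7) (nat_lit 5)))))) (orK (nat_lit 215) (fin (add (start (win (nat_lit 6) (nat_lit 14) (nat_lit 6)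 (nat_lit 4))) (win (nat_lit 6) (nat_lit 14) (nat_lit 7) (nat_lit 5))))))))) (orK (nat_lit 114) (fin (add (start (orK (nat_lit 173) (fin (add (start (win (nat_lit 1) (nat_lit 13) (nat_lit 4) (nat_lit 0))) (win (nat_lit 1) (nat_lit 13) (nat_lit 5) (nat_lit 5)))))) (orK (nat_lit 113) (fin (add (start (win (nat_lit 7) (nat_lit 13) (nat_lit 4) (nat_lit 5))) (win (nat_lit 7) (nat_lit 13) (nat_lit 5) (nat_lit 4)))))))))))))))))) D15093))))))) (orK (nat_lit 171) D1916)) (orK (nat_lit 168) (fin (add (start D3268) D3402)))))))))) (orK (nat_lit 168) (fin (add (add (add (add (add (start D1996) D2019) D2061) D2134) (orK (nat_lit 167) (fin (add (add (start (orK (nat_lit 187) (fin (add (start D1063) (orK (nat_lit 227) (fin (add (start D1307) D12628))))))) (orK (nat_lit 151) (fin (add (start D1990) (orK (nat_lit 171) (fin (add (start D1584) (orK (nat_lit 192) (fin (add (start D983) (orK (nat_lit 172) (fin (add (start D982) (orK (nat_lit 148) (fin (add (start D1903) (orK (nat_lit 187) (fin (add (start D1579) D1064))))))))))))))))))) D3355)))) D2070))))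
noncomputable def D9216 : OP := orK (nat_lit 167) (fin (add (add (start D1060) (orK (nat_lit 187) (fin (add (start D1063) (orK (nat_lit 227) (fin (add (start D1307) D7548))))))) D3400))
noncomputable def D3431 : OP := orK (nat_lit 151) (fin (add (start D1911) D3429))
noncomputable def D14543 : OP := win (nat_lit 7) (nat_lit 11) (nat_lit 5) (nat_lit 5)
noncomputable def D2797 : OP := win (nat_lit 1) (nat_lit 11) (nat_lit 8) (nat_lit 5)
noncomputable def D3396 : OP := orK (nat_lit 191) (fin (add (start D3391) (orK (nat_lit 193) (fin (add (start D1080) (win (nat_lit 2) (nat_lit 10) (nat_lit 8) (nat_lit 0)))))))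
noncomputable def D3435 : OP := orK (nat_lit 172) (fin (add (start D982) (orK (nat_lit 152) (fin (add (start D1565) D3431)))))
noncomputable def D3410 : OP := win (nat_lit 0) (nat_lit 12) (nat_lit 8) (nat_lit 5)
noncomputable def D3409 : OP := win (nat_lit 0) (nat_lit 11) (nat_lit 8) (nat_lit 4)
noncomputable def D3415 : OP := orK (nat_lit 195) (fin (add (start D3409) (orK (nat_lit 175) (fin (add (start D3410) (win (nat_lit 5) (nat_lit 11) (nat_lit 8) (nat_lit 5)))))))
noncomputable def D3408 : OP := win (nat_lit 2) (nat_lit 10) (nat_lit 7) (nat_lit 4)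
noncomputable def D3407 : OP := win (nat_lit 2) (nat_lit 9) (nat_lit 7) (nat_lit 5)
noncomputable def D3404 : OP := orK (nat_lit 151) (fin (add (start D1584) D3402))
noncomputable def D3437 : OP := orK (nat_lit 192) (fin (add (add (add (start D3396) (orK (nat_lit 168) (fin (add (start D983) D3404)))) (orK (nat_lit 172) (fin (add (start D982) (orK (nat_lit 153) (fin (add (start D285) (orK (nat_lit 173) (fin (add (start D286) (orK (nat_lit 150) (fin (add (start D3407) (orK (nat_lit 174) (fin (add (start D3408) D3415)))))))))))))))) D3435))
noncomputable def D9144 : OP := orK (nat_lit 151) (fin (add (start D1584) (orK (nat_lit 167) (fin (add (start D1990) D9140)))))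
noncomputable def D9489 : OP := orK (nat_lit 155) (fin (add (start (win (nat_lit 4) (nat_lit 11) (nat_lit 7) (nat_lit 4))) (win (nat_lit 4) (nat_lit 12) (nat_lit 7) (nat_lit 5))))
noncomputable def D9510 : OP := orK (nat_lit 154) (fin (add (start (win (nat_lit 4) (nat_lit 10) (nat_lit 7) (nat_lit 4))) (win (nat_lit 4) (nat_lit 11) (nat_lit 7) (nat_lit 5))))
noncomputable def D8463 : OP := win (nat_lit 7) (nat_lit 10) (nat_lit 4) (nat_lit 4)
noncomputable def D8462 : OP := win (nat_lit 7) (nat_lit 10) (nat_lit 3) (nat_lit 5)
noncomputable def D8465 : OP := orK (nat_lit 90) (fin (add (start D8462) D8463))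
noncomputable def D3513 : OP := win (nat_lit 1) (nat_lit 10) (nat_lit 4) (nat_lit 4)
noncomputable def D8830 : OP := orK (nat_lit 91) (fin (add (start D3513) D8465))
noncomputable def D3527 : OP := win (nat_lit 3) (nat_lit 11) (nat_lit 5) (nat_lit 4)
noncomputable def D8834 : OP := orK (nat_lit 112) (fin (add (start D3527) (orK (nat_lit 111) (fin (add (start D1589) D8830)))))
noncomputable def D6587 : OP := win (nat_lit 6) (nat_lit 8) (nat_lit 5) (nat_lit 1)
noncomputable def D8504 : OP := orK (nat_lit 189) (fin (add (start D6587) D8374))
noncomputable def D8502 : OP := win (nat_lit 4) (nat_lit 8) (nat_lit 4) (nat_lit 1)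
noncomputable def D3514 : OP := win (nat_lit 3) (nat_lit 11) (nat_lit 3) (nat_lit 5)
noncomputable def D3491 : OP := win (nat_lit 7) (nat_lit 10) (nat_lit 4) (nat_lit 5)
noncomputable def D3520 : OP := win (nat_lit 7) (nat_lit 10) (nat_lit 5) (nat_lit 4)
noncomputable def D3480 : OP := win (nat_lit 4) (nat_lit 8) (nat_lit 6) (nat_lit 2)
noncomputable def D3481 : OP := win (nat_lit 3) (nat_lit 11) (nat_lit 5) (nat_lit 5)
noncomputable def D3522 : OP := orK (nat_lit 110) (fin (add (start D3491) D3520))
noncomputable def D8350 : OP := orK (nat_lit 112) (fin (add (start D3527) (orK (nat_lit 111) (fin (add (start D1589) D3522)))))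
noncomputable def D3363 : AP := fin (add (start D1485) (orK (nat_lit 165) (fin (add (start D3360) D447))))
noncomputable def D3364 : OP := orK (nat_lit 149) D3363
noncomputable def D3368 : OP := orK (nat_lit 146) (fin (add (start D1117) (orK (nat_lit 166) (fin (add (start D436) D3364)))))
noncomputable def D9333 : OP := orK (nat_lit 227) (fin (add (start D1307) D9331))
noncomputable def D9334 : AP := fin (add (start D1063) D9333)
noncomputable def D20998 : AP := fin (add (add (add (add (add (add (add (start D12940) (orK (nat_lit 168) (fin (add (add (add (add (start (orK (nat_lit 151) (fin (add (start D1584) (orK (nat_lit 167) (fin (add (start D1990) (orK (nat_lit 187) D9334)))))))) (orK (nat_lit 167) (fin (add (add (add (add (start (orK (nat_lit 147) (fin (add (start D985) (orK (nat_lit 148) (fin (add (start D3276) (orK (nat_lit 187) D2005)))))))) (orK (nat_lit 186) (fin (add (start D2011) (orK (nat_lit 166) (fin (add (start D452) D18509))))))) (orK (nat_lit 187) D20849)) D3400) D3368)))) D3404) (orK (nat_lit 151) (fin (add (start D1584) (orK (nat_lit 191) (fin (add (start D733) D9216))))))) (orK (nat_lit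 191) (fin (add (start D733) (orK (nat_lit 151) (fin (add (start D1584) (orK (nat_lit 131) (fin (add (add (add (start D8350) (orK (nat_lit 148) (fin (add (start D265) (orK (nat_lit 132) (fin (add (start D3481) (orK (nat_lit 149) (fin (add (start D3480) (orK (nat_lit 129) (fin (add (start (win (nat_lit 5) (nat_lit 8) (nat_lit 6) (nat_lit 2))) (orK (nat_lit 109) (fin (add (start D6589) (orK (nat_lit 189) (fin (add (start D5917) (orK (nat_lit 108) (fin (add (start D6587) D6590)))))))))))))))))))))) (orK (nat_lit 110) (fin (add (start D3520) (orK (nat_lit 111) (fin (add (start D3491) (orK (nat_lit 91) (fin (add (start D3513) (orK (nat_lit 92) (fin (add (start D3514) (orK (nat_lit 108) (fin (add (start D8502) (orK (nat_lit 148) (fin (add (start D265) D8504))))))))))))))))))) D8834))))))))))))) (orK (nat_lit 148) (fin (add (add (start (orK (nat_lit 172) (fin (add (start D1903) (orK (nat_lit 173) (fin (add (add (add (start D288) (orK (nat_lit 194) (fin (add (start D1933) (orK (nat_lit 174) (fin (add (start D1934) D9510))))))) (orK (nat_lit 194) (fin (add (start D1933) (orK (nat_lit 174) (fin (add (start D1934)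 (orK (nat_lit 151) (fin (add (start D3446) (orK (nat_lit 175) (fin (add (start (win (nat_lit 2) (nat_lit 11) (nat_lit 7) (nat_lit 4))) D9489))))))))))))) (orK (nat_lit 194) (fin (add (start D1933) (orK (nat_lit 174) (fin (add (start D1934) (orK (nat_lit 151) (fin (add (start D3446) (orK (nat_lit 152) (fin (add (start (win (nat_lit 2) (nat_lit 11) (nat_lit 7) (nat_lit 0))) D1565))))))))))))))))))) (orK (nat_lit 168) (fin (add (start D265) D9144)))) (orK (nat_lit 147) (fin (add (start D1574) (orK (nat_lit 149) (fin (add (start D1555) D1554)))))))))) D3437) (orK (nat_lit 152) (fin (add (add (add (start (orK (nat_lit 172) (fin (add (start D1565) (orK (nat_lit 192) (fin (add (start D982) (orK (nat_lit 168) (fin (add (start D983) D9216)))))))))) (orK (nat_lit 192) (fin (add (add (add (start (orK (nat_lit 168) (fin (add (start D983) D1564)))) D3396) (orK (nat_lit 172) (fin (add (start D982) (orK (nat_lit 131) (fin (add (start (orK (nat_lit 212) (fin (add (start (win (nat_lit 7) (nat_lit 11) (nat_lit 6) (nat_lit 4))) (orK (nat_lit 233) (fin (add (start (win (nat_lit 6) (nat_lit 12) (nat_lit 7) (nat_lit 4)))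 (orK (nat_lit 232) (fin (add (start (win (nat_lit 6) (nat_lit 12) (nat_lit 8) (nat_lit 5))) (orK (nat_lit 231) (fin (add (start D2797) D4756))))))))))))) (orK (nat_lit 132) (fin (add (start D14543) D12930)))))))))) (orK (nat_lit 172) (fin (add (start D982) D3431))))))) D1980) (orK (nat_lit 151) D8339))))) D20967) (orK (nat_lit 172) (fin (add (add (start (orK (nat_lit 168) D1987)) D290) (orK (nat_lit 173) (fin (add (start D9222) D288))))))) (orK (nat_lit 168) (fin (add (add (add (start D2065) D9216) D6995) (orK (nat_lit 192) (fin (add (start D983) (orK (nat_lit 167) (fin (add (add (start (orK (nat_lit 150) (fin (add (start D1998) (orK (nat_lit 172) (fin (add (start D982) (orK (nat_lit 149) (fin (add (start D6556) D6985)))))))))) D3400) (orK (nat_lit 150) (fin (add (start D1998) (orK (nat_lit 187) (fin (add (start D1063) (orK (nat_lit 147) (fin (add (start D985) (orK (nat_lit 172) (fin (add (start D982) (orK (nat_lit 226) (fin (add (start D3202) (orK (nat_lit 227) (fin (add (start D2035) (orK (nat_lit 149) (fin (add (start D6556) D15972)))))))))))))))))))))))))))))))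
noncomputable def D8337 : OP := orK (nat_lit 190) (fin (add (start D260) (orK (nat_lit 231) (fin (add (start D752) (orK (nat_lit 229) (fin (add (start D28) D5990))))))))
noncomputable def D7297 : OP := win (nat_lit 0) (nat_lit 8) (nat_lit 11) (nat_lit 5)
noncomputable def D1881 : OP := win (nat_lit 1) (nat_lit 8) (nat_lit 8) (nat_lit 1)
noncomputable def D1510 : OP := orK (nat_lit 227) D1509
noncomputable def D7310 : OP := orK (nat_lit 229) (fin (add (start D28) (orK (nat_lit 209) (fin (add (start D27) (orK (nat_lit 228) (fin (add (start D1510) (orK (nat_lit 248) (fin (add (start D1881) (orK (nat_lit 231) (fin (add (start D2667) (orK (nat_lit 251) (fin (add (start D7297) D7298)))))))))))))))))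
noncomputable def D2758 : OP := orK (nat_lit 168) (fin (add (add (add (start (orK (nat_lit 191) (fin (add (start D732) (orK (nat_lit 171) (fin (add (start D733) D45))))))) (orK (nat_lit 191) (fin (add (start D732) (orK (nat_lit 192) (fin (add (start (win (nat_lit 2) (nat_lit 8) (nat_lit 8) (nat_lit 3))) D2734))))))) (orK (nat_lit 171) (fin (add (start D45) (orK (nat_lit 147) (fin (add (start D984) (orK (nat_lit 167) (fin (add (start D985) D2740)))))))))) (orK (nat_lit 171) (fin (add (start D45) (orK (nat_lit 192) (fin (add (start D983) (orK (nat_lit 172) (fin (add (start D982) (orK (nat_lit 153) (fin (add (start D285) (orK (nat_lit 173) (fin (add (start D286) D278)))))))))))))))))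
noncomputable def D7501 : OP := orK (nat_lit 190) (fin (add (start D260) D7310))
noncomputable def D11122 : OP := orK (nat_lit 165) (fin (add (start D7782) (orK (nat_lit 185) (fin (add (start D10548) (orK (nat_lit 184) (fin (add (start D5231) (orK (nat_lit 224) (fin (add (start D10851) (orK (nat_lit 225) D7549))))))))))))
noncomputable def D11132 : OP := orK (nat_lit 204) (fin (add (start D5351) D11122))
noncomputable def D17646 : OP := orK (nat_lit 228) (fin (add (start D3008) D11132))
noncomputable def D11160 : OP := win (nat_lit 4) (nat_lit 3) (nat_lit 7) (nat_lit 4)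
noncomputable def D11179 : OP := orK (nat_lit 163) (fin (add (start D11160) D6800))
noncomputable def D11161 : OP := win (nat_lit 4) (nat_lit 4) (nat_lit 7) (nat_lit 5)
noncomputable def D11181 : OP := orK (nat_lit 147) (fin (add (start D11161) D11179))
noncomputable def D11293 : OP := win (nat_lit 7) (nat_lit 3) (nat_lit 5) (nat_lit 4)
noncomputable def D11292 : OP := win (nat_lit 7) (nat_lit 3) (nat_lit 4) (nat_lit 5)
noncomputable def D11295 : OP := orK (nat_lit 103) (fin (add (start D11292) D11293))
noncomputable def D11291 : OP := win (nat_lit 6) (nat_lit 4) (nat_lit 5) (nat_lit 5)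
noncomputable def D11297 : OP := orK (nat_lit 104) (fin (add (start D11291) D11295))
noncomputable def D11200 : OP := orK (nat_lit 145) (fin (add (start D11169) (orK (nat_lit 125) (fin (add (start D11195) (win (nat_lit 1) (nat_lit 4) (nat_lit 6) (nat_lit 3)))))))
noncomputable def D11170 : AP := fin (add (start D11168) D11169)
noncomputable def D11171 : OP := orK (nat_lit 145) D11170
noncomputable def D11173 : OP := orK (nat_lit 144) (fin (add (start D461) D11171))
noncomputable def D11167 : OP := orK (nat_lit 143) (fin (add (start D11158) (orK (nat_lit 163) (fin (add (start D11159) (orK (nat_lit 147) (fin (add (start D11160) D11161))))))))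
noncomputable def D11309 : OP := orK (nat_lit 164) (fin (add (add (start D11167) (orK (nat_lit 184) (fin (add (start D4171) (orK (nat_lit 204) (fin (add (add (add (start D11173) D11200) (orK (nat_lit 144) (fin (add (start D461) (orK (nat_lit 223) (fin (add (start D11277) (orK (nat_lit 224) (fin (add (start D11278) (orK (nat_lit 244) (fin (add (start D11279) D11281))))))))))))) (orK (nat_lit 144) (fin (add (start D461) (orK (nat_lit 125) (fin (add (start D11290) (orK (nat_lit 124) (fin (add (start D11255) D11297)))))))))))))))) D11181))
noncomputable def D11258 : OP := win (nat_lit 2) (nat_lit 3) (nat_lit 6) (nat_lit 2)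
noncomputable def D11257 : OP := win (nat_lit 0) (nat_lit 3) (nat_lit 6) (nat_lit 3)
noncomputable def D11231 : OP := win (nat_lit 6) (nat_lit 4) (nat_lit 6) (nat_lit 5)
noncomputable def D11246 : OP := orK (nat_lit 83) (fin (add (start (win (nat_lit 7) (nat_lit 3) (nat_lit 3) (nat_lit 5))) (win (nat_lit 7) (nat_lit 3) (nat_lit 4) (nat_lit 4))))
noncomputable def D11232 : AP := fin (add (start D11219) D11231)
noncomputable def D11276 : OP := orK (nat_lit 164) (fin (add (add (add (start D11167) D11181) D11218) (orK (nat_lit 144) (fin (add (start D461) (orK (nat_lit 124) (fin (add (add (add (start (orK (nat_lit 184) (fin (add (start D4171) (orK (nat_lit 185) D11232))))) (orK (nat_lit 185) (fin (add (start D11219) (orK (nat_lit 205) (fin (add (start D11220) D11184))))))) (orK (nat_lit 184) (fin (add (start D4171) (orK (nat_lit 105) (fin (add (start D11240) (orK (nat_lit 104) (fin (add (start D11241) (orK (nat_lit 84) (fin (add (start (win (nat_lit 6) (nat_lit 4) (nat_lit 4) (nat_lit 4))) D11246))))))))))))) (orK (nat_lit 147) (fin (add (start D11161) (orK (nat_lit 184) (fin (add (start D4171) (orK (nat_lit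 125) (fin (add (start D11255) (orK (nat_lit 185) (fin (add (start D11231) (orK (nat_lit 123) (fin (add (start D11256) (orK (nat_lit 146) (fin (add (start D11257) D11258))))))))))))))))))))))))))
noncomputable def D11204 : OP := orK (nat_lit 204) (fin (add (start D5351) (orK (nat_lit 184) (fin (add (start D4171) D11200)))))
noncomputable def D11230 : OP := orK (nat_lit 164) (fin (add (add (start D11218) D11204) (orK (nat_lit 205) (fin (add (start D3009) (orK (nat_lit 144) (fin (add (start D461) (orK (nat_lit 185) D11223)))))))))
noncomputable def D11192 : OP := orK (nat_lit 164) (fin (add (add (start (orK (nat_lit 144) (fin (add (start D461) (orK (nat_lit 184) (fin (add (start D4171) (orK (nat_lit 185) (fin (add (start D3082) D11184)))))))))) D11181) D11167))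
noncomputable def D11194 : OP := orK (nat_lit 205) (fin (add (start D3009) D11192))
noncomputable def D11183 : OP := orK (nat_lit 164) (fin (add (add (start D11167) (orK (nat_lit 204) (fin (add (start D5351) (orK (nat_lit 184) (fin (add (start D4171) D11173))))))) D11181))
noncomputable def D11206 : OP := orK (nat_lit 185) D11152
noncomputable def D11321 : OP := orK (nat_lit 165) (fin (add (add (add (add (add (start (orK (nat_lit 146) (fin (add (start D11048) (orK (nat_lit 205) (fin (add (start D3009) D11206))))))) D11183) D11194) D11230) D11276) D11309))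
noncomputable def D11130 : OP := orK (nat_lit 204) (fin (add (start D5351) D11095))
noncomputable def D11315 : OP := orK (nat_lit 186) (fin (add (start D1726) (orK (nat_lit 226) (fin (add (start D7796) D11130)))))
noncomputable def D11205 : OP := win (nat_lit 4) (nat_lit 3) (nat_lit 7) (nat_lit 0)
noncomputable def D11311 : OP := orK (nat_lit 165) (fin (add (add (add (add (add (add (start (orK (nat_lit 205) (fin (add (start D3009) (orK (nat_lit 185) (fin (add (add (add (start (orK (nat_lit 225) (fin (add (start D3038) (orK (nat_lit 224) (fin (add (start D3064) D3021))))))) D3144) D11148) D11153))))))) D11183) D11194) (orK (nat_lit 164) (fin (add (add (start D11181) D11204) (orK (nat_lit 205) (fin (add (start D3009) (orK (nat_lit 147) (fin (add (start D11161) (orK (nat_lit 146) (fin (add (start D11205) D11206))))))))))))) D11230) D11276) D11309))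
noncomputable def D9603 : OP := orK (nat_lit 248) (fin (add (start D137) D7550))
noncomputable def D9609 : OP := orK (nat_lit 225) (fin (add (start D7779) (orK (nat_lit 228) (fin (add (start D3008) (orK (nat_lit 204) (fin (add (start D5351) D9603))))))))
noncomputable def D11084 : OP := orK (nat_lit 225) (fin (add (start D7779) D9603))
noncomputable def D11128 : OP := orK (nat_lit 226) (fin (add (add (add (start (orK (nat_lit 204) (fin (add (start D5351) (orK (nat_lit 186) (fin (add (start D7796) D11084))))))) (orK (nat_lit 186) D11096)) (orK (nat_lit 225) (fin (add (add (start D7552) D7554) (orK (nat_lit 205) (fin (add (start D3009) (orK (nat_lit 248) (fin (add (start D137) (orK (nat_lit 245) (fin (add (start D2535) (orK (nat_lit 265) (fin (add (start D2427) (orK (nat_lit 266) (fin (add (start D3781) (orK (nat_lit 185) (fin (add (start D4482) (orK (nat_lit 165) (fin (add (start D3024) D3076))))))))))))))))))))))))) (orK (nat_lit 204) (fin (add (start D5351) (orK (nat_lit 186) (fin (add (start D7796) D11122))))))))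
noncomputable def D7609 : OP := orK (nat_lit 228) (fin (add (start D32) (orK (nat_lit 206) (fin (add (start D3008) D7605)))))
noncomputable def D7603 : OP := orK (nat_lit 246) (fin (add (start D872) (orK (nat_lit 247) D7600)))
noncomputable def D8194 : AP := fin (add (start D370) D2053)
noncomputable def D17412 : OP := orK (nat_lit 146) (fin (add (start D436) (orK (nat_lit 186) (fin (add (start D452) (orK (nat_lit 187) D8194))))))
noncomputable def D17453 : AP := fin (add (start D1485) D17412)
noncomputable def D16857 : OP := orK (nat_lit 168) D3363
noncomputable def D16856 : OP := orK (nat_lit 168) (fin (add (start D1485) (orK (nat_lit 145) (fin (add (start D442) (orK (nat_lit 165) (fin (add (start D443) D3360))))))))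
noncomputable def D17666 : OP := orK (nat_lit 166) (fin (add (add (add (start D16856) D16857) (orK (nat_lit 168) D17453)) (orK (nat_lit 227) (fin (add (add (add (add (start (orK (nat_lit 187) (fin (add (start D1484) D17620)))) (orK (nat_lit 187) (fin (add (start D1484) D9235)))) (orK (nat_lit 187) (fin (add (start D1484) D17628)))) (orK (nat_lit 187) (fin (add (add (add (start D17620) D17628) D7603) D7609)))) (orK (nat_lit 206) (fin (add (add (add (add (add (add (add (start D11082) (orK (nat_lit 228) (fin (add (start D3008) (orK (nat_lit 186) (fin (add (start D1726) (orK (nat_lit 226) (fin (add (start D7796) (orK (nat_lit 204) (fin (add (start D5351) D11084))))))))))))) (orK (nat_lit 228) (fin (add (start D3008) D11128)))) (orK (nat_lit 186) (fin (add (start D1726) (orK (nat_lit 226) (fin (add (add (add (start D11078) D9609) (orK (nat_lit 229) (fin (add (start D1724) D11095)))) D17646))))))) (orK (nat_lit 228) (fin (add (start D3008) D11311)))) (orK (nat_lit 228) (fin (add (start D3008) D11315)))) (orK (nat_lit 228) (fin (add (start D3008) D11321)))) (orK (nat_lit 186) (fin (add (start D1726) (orK (nat_lit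 226) (fin (add (start D7796) D17646))))))))))))))
noncomputable def D19228 : OP := orK (nat_lit 149) (fin (add (start D6037) D19226))
noncomputable def D10626 : OP := win (nat_lit 7) (nat_lit 5) (nat_lit 4) (nat_lit 5)
noncomputable def D20156 : OP := win (nat_lit 4) (nat_lit 5) (nat_lit 4) (nat_lit 5)
noncomputable def D20711 : OP := orK (nat_lit 105) (fin (add (start D20156) D10626))
noncomputable def D10727 : OP := win (nat_lit 5) (nat_lit 5) (nat_lit 5) (nat_lit 0)
noncomputable def D6619 : OP := win (nat_lit 3) (nat_lit 6) (nat_lit 4) (nat_lit 5)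
noncomputable def D6620 : OP := win (nat_lit 6) (nat_lit 6) (nat_lit 4) (nat_lit 0)
noncomputable def D18543 : OP := win (nat_lit 0) (nat_lit 4) (nat_lit 6) (nat_lit 5)
noncomputable def D10743 : OP := win (nat_lit 5) (nat_lit 3) (nat_lit 5) (nat_lit 5)
noncomputable def D10718 : OP := win (nat_lit 0) (nat_lit 3) (nat_lit 5) (nat_lit 0)
noncomputable def D10720 : AP := fin (add (start D10718) (win (nat_lit 0) (nat_lit 4) (nat_lit 5) (nat_lit 5)))
noncomputable def D18930 : OP := orK (nat_lit 105) (fin (add (start D10626) (orK (nat_lit 104) D10720)))
noncomputable def D19715 : OP := orK (nat_lit 149) (fin (add (add (start (orK (nat_lit 148) (fin (add (start D6616) D7277)))) (orK (nat_lit 129) (fin (add (start (orK (nat_lit 128) D18903)) D19224)))) (orK (nat_lit 129) (fin (add (start (orK (nat_lit 148) (fin (add (start D6616) D6617)))) D19224)))))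
noncomputable def D18707 : OP := orK (nat_lit 189) (fin (add (start D5917) (orK (nat_lit 129) (fin (add (start D6588) (orK (nat_lit 130) (fin (add (start D6603) D18595))))))))
noncomputable def D18616 : OP := orK (nat_lit 148) (fin (add (start D6616) D6037))
noncomputable def D14003 : OP := win (nat_lit 5) (nat_lit 4) (nat_lit 5) (nat_lit 5)
noncomputable def D20709 : OP := win (nat_lit 3) (nat_lit 7) (nat_lit 4) (nat_lit 2)
noncomputable def D19524 : AP := fin (add (start D6617) D6037)
noncomputable def D16932 : OP := orK (nat_lit 105) (fin (add (start D11241) D11240))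
noncomputable def D16934 : OP := orK (nat_lit 104) (fin (add (start D16932) D11295))
noncomputable def D16926 : OP := orK (nat_lit 205) (fin (add (start D7906) D16924))
noncomputable def D16927 : AP := fin (add (start D16923) D16926)
noncomputable def D16928 : OP := orK (nat_lit 204) D16927
noncomputable def D16940 : OP := orK (nat_lit 144) (fin (add (start D461) (orK (nat_lit 184) (fin (add (start D4171) (orK (nat_lit 124) (fin (add (add (start D16928) D11297) D16934))))))))
noncomputable def D17587 : OP := orK (nat_lit 143) (fin (add (start D11158) (orK (nat_lit 163) (fin (add (start D11159) D11160)))))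
noncomputable def D16314 : OP := win (nat_lit 0) (nat_lit 6) (nat_lit 5) (nat_lit 3)
noncomputable def D19730 : OP := win (nat_lit 5) (nat_lit 5) (nat_lit 7) (nat_lit 1)
noncomputable def D10708 : OP := win (nat_lit 1) (nat_lit 5) (nat_lit 5) (nat_lit 5)
noncomputable def D13977 : OP := win (nat_lit 2) (nat_lit 6) (nat_lit 4) (nat_lit 4)
noncomputable def D13978 : OP := win (nat_lit 2) (nat_lit 5) (nat_lit 4) (nat_lit 5)
noncomputable def D14117 : OP := orK (nat_lit 86) (fin (add (start D13978) D13977))
noncomputable def D14118 : OP := win (nat_lit 4) (nat_lit 6) (nat_lit 4) (nat_lit 4)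
noncomputable def D10734 : OP := win (nat_lit 0) (nat_lit 6) (nat_lit 5) (nat_lit 5)
noncomputable def D11535 : AP := fin (add (start D11205) D11161)
noncomputable def D11536 : OP := orK (nat_lit 164) D11535
noncomputable def D16992 : OP := orK (nat_lit 148) D7135
noncomputable def D19222 : OP := orK (nat_lit 149) (fin (add (start D16992) D7101))
noncomputable def D20267 : OP := win (nat_lit 4) (nat_lit 3) (nat_lit 6) (nat_lit 4)
noncomputable def D18722 : OP := win (nat_lit 4) (nat_lit 4) (nat_lit 6) (nat_lit 5)
noncomputable def D20396 : OP := orK (nat_lit 127) (fin (add (start D18722) (orK (nat_lit 143) (fin (add (start D20267) (orK (nat_lit 163) (fin (add (start D20389) (win (nat_lit 5) (nat_lit 3) (nat_lit 7) (nat_lit 4))))))))))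
noncomputable def D20268 : OP := win (nat_lit 0) (nat_lit 2) (nat_lit 7) (nat_lit 4)
noncomputable def D20143 : OP := win (nat_lit 0) (nat_lit 3) (nat_lit 5) (nat_lit 5)
noncomputable def D18847 : OP := win (nat_lit 0) (nat_lit 2) (nat_lit 5) (nat_lit 0)
noncomputable def D6479 : OP := win (nat_lit 3) (nat_lit 5) (nat_lit 4) (nat_lit 5)
noncomputable def D6469 : OP := win (nat_lit 6) (nat_lit 5) (nat_lit 4) (nat_lit 0)
noncomputable def D19490 : OP := win (nat_lit 1) (nat_lit 3) (nat_lit 5) (nat_lit 5)
noncomputable def D19095 : OP := orK (nat_lit 224) (fin (add (start D19077) D19093))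
noncomputable def D19118 : OP := orK (nat_lit 204) (fin (add (start D19114) D16926))
noncomputable def D19309 : OP := orK (nat_lit 124) (fin (add (start D19118) D16934))
noncomputable def D19452 : OP := orK (nat_lit 204) (fin (add (add (start (orK (nat_lit 225) (fin (add (start D19091) (orK (nat_lit 224) (fin (add (start D10914) D19163))))))) (orK (nat_lit 223) (fin (add (start D11277) (orK (nat_lit 224) (fin (add (start D11278) D19163))))))) (orK (nat_lit 205) (fin (add (start D16924) (orK (nat_lit 206) (fin (add (start D4939) (orK (nat_lit 227) (fin (add (start D4737) (orK (nat_lit 203) (fin (add (start D10893) D19010))))))))))))))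
noncomputable def D19003 : OP := win (nat_lit 3) (nat_lit 3) (nat_lit 8) (nat_lit 0)
noncomputable def D19002 : OP := win (nat_lit 3) (nat_lit 3) (nat_lit 7) (nat_lit 3)
noncomputable def D19001 : OP := win (nat_lit 1) (nat_lit 3) (nat_lit 6) (nat_lit 0)
noncomputable def D19007 : OP := orK (nat_lit 203) (fin (add (start D19001) (orK (nat_lit 223) (fin (add (start D19002) D19003)))))
noncomputable def D19069 : OP := win (nat_lit 1) (nat_lit 3) (nat_lit 7) (nat_lit 3)
noncomputable def D19474 : OP := orK (nat_lit 203) (fin (add (start D19001) (orK (nat_lit 223) (fin (add (start D19069) D19003)))))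
noncomputable def D19463 : AP := fin (add (start D19410) (win (nat_lit 7) (nat_lit 3) (nat_lit 8) (nat_lit 0)))
noncomputable def D19464 : OP := orK (nat_lit 163) D19463
noncomputable def D19087 : AP := fin (add (start D19086) D16924)
noncomputable def D19088 : OP := orK (nat_lit 205) D19087
noncomputable def D10802 : OP := win (nat_lit 1) (nat_lit 3) (nat_lit 5) (nat_lit 4)
noncomputable def D19454 : OP := orK (nat_lit 104) (fin (add (start D10802) D16932))
noncomputable def D19476 : OP := orK (nat_lit 183) (fin (add (add (add (start (orK (nat_lit 124) (fin (add (start D19454) (orK (nat_lit 205) (fin (add (start D7906) (orK (nat_lit 204) D19087)))))))) (orK (nat_lit 204) (fin (add (add (start (orK (nat_lit 223) (fin (add (start D11277) D19088)))) (orK (nat_lit 224) (fin (add (start D19088) D19464)))) (orK (nat_lit 224) (fin (add (start D19077) D19464))))))) D19474) D19007))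
noncomputable def D19108 : OP := win (nat_lit 1) (nat_lit 3) (nat_lit 6) (nat_lit 5)
noncomputable def D18567 : OP := win (nat_lit 5) (nat_lit 2) (nat_lit 6) (nat_lit 5)
noncomputable def D19136 : OP := win (nat_lit 6) (nat_lit 3) (nat_lit 4) (nat_lit 0)
noncomputable def D19135 : OP := win (nat_lit 7) (nat_lit 3) (nat_lit 6) (nat_lit 0)
noncomputable def D19066 : OP := win (nat_lit 2) (nat_lit 3) (nat_lit 7) (nat_lit 2)
noncomputable def D19316 : OP := orK (nat_lit 143) (fin (add (start D19066) (orK (nat_lit 123) (fin (add (start D19135) (orK (nat_lit 103) (fin (add (start D19136) (win (nat_lit 7) (nat_lit 3) (nat_lit 5) (nat_lit 3))))))))))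
noncomputable def D20546 : OP := orK (nat_lit 123) (fin (add (start D11256) (orK (nat_lit 125) (fin (add (start D11257) D11255)))))
noncomputable def D19127 : OP := orK (nat_lit 165) (fin (add (start D461) D4171))
noncomputable def D20550 : OP := orK (nat_lit 165) (fin (add (start D11205) D11291))
noncomputable def D19110 : OP := orK (nat_lit 183) (fin (add (start D10802) D19108))
noncomputable def D19156 : OP := orK (nat_lit 104) (fin (add (start D19110) D11295))
noncomputable def D19112 : OP := orK (nat_lit 104) (fin (add (start D19110) D16932))
noncomputable def D19000 : OP := win (nat_lit 5) (nat_lit 3) (nat_lit 8) (nat_lit 2)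
noncomputable def D20542 : OP := orK (nat_lit 183) (fin (add (start D19000) D19474))
noncomputable def D20558 : OP := orK (nat_lit 184) (fin (add (add (add (start (orK (nat_lit 165) (fin (add (start D11205) D4171)))) D20542) (orK (nat_lit 124) (fin (add (add (start D19112) D19156) D20546)))) (orK (nat_lit 124) (fin (add (add (start (orK (nat_lit 104) (fin (add (start D16932) D20550)))) (orK (nat_lit 104) (fin (add (start D20550) D11295)))) D20546)))))
noncomputable def D20521 : OP := orK (nat_lit 165) (fin (add (start D461) D11205))
noncomputable def D19148 : OP := win (nat_lit 1) (nat_lit 4) (nat_lit 4) (nat_lit 0)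
noncomputable def D19248 : OP := orK (nat_lit 105) (fin (add (start D19148) (win (nat_lit 3) (nat_lit 4) (nat_lit 5) (nat_lit 0))))
noncomputable def D20469 : OP := win (nat_lit 4) (nat_lit 4) (nat_lit 5) (nat_lit 2)
noncomputable def D19116 : OP := orK (nat_lit 204) D19115
noncomputable def D20072 : OP := orK (nat_lit 123) (fin (add (start D11258) D11256))
noncomputable def D19273 : AP := fin (add (start D16932) (orK (nat_lit 185) (fin (add (start D10803) D11231))))
noncomputable def D19090 : OP := orK (nat_lit 183) (fin (add (start D19000) D19088))
noncomputable def D19240 : OP := orK (nat_lit 163) (fin (add (start (win (nat_lit 4) (nat_lit 3) (nat_lit 7) (nat_lit 2))) (win (nat_lit 5) (nat_lit 3) (nat_lit 7) (nat_lit 2))))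
noncomputable def D10774 : OP := win (nat_lit 0) (nat_lit 3) (nat_lit 7) (nat_lit 2)
noncomputable def D19068 : OP := orK (nat_lit 143) (fin (add (start D10774) D19066))
noncomputable def D20823 : AP := fin (add (add (add (add (start (orK (nat_lit 144) (fin (add (add (add (start (orK (nat_lit 164) (fin (add (add (add (start (orK (nat_lit 145) (fin (add (start D6398) D7350)))) D19240) D20521) D19068)))) (orK (nat_lit 145) (fin (add (start D6398) (orK (nat_lit 124) (fin (add (start D7349) (orK (nat_lit 127) (fin (add (start D18722) (orK (nat_lit 107) (fin (add (start D17090) (orK (nat_lit 108) (fin (add (start D8176) (orK (nat_lit 125) (fin (add (start D20469) (orK (nat_lit 106) (fin (add (start (win (nat_lit 5) (nat_lit 4) (nat_lit 5) (nat_lit 3))) D6075)))))))))))))))))))))) (orK (nat_lit 164) (fin (add (add (add (start D19240) D20558) (orK (nat_lit 184) (fin (add (add (add (start (orK (nat_lit 204) (fin (add (add (start (orK (nat_lit 145) (fin (add (start D11168) (orK (nat_lit 165) (fin (add (start D11169) D4171))))))) D19090) D19095)))) (orK (nat_lit 124) (fin (add (start D20072) (orK (nat_lit 104)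 D19273))))) D20542) (orK (nat_lit 124) (fin (add (add (start D20072) D19116) D16934))))))) (orK (nat_lit 145) (fin (add (start D7350) (orK (nat_lit 124) (fin (add (start D7349) (orK (nat_lit 127) (fin (add (start D18722) (orK (nat_lit 107) (fin (add (start D17090) (orK (nat_lit 108) (fin (add (start D8176) (orK (nat_lit 125) (fin (add (start D20469) D19248)))))))))))))))))))))) (orK (nat_lit 164) (fin (add (add (add (start D20521) D20558) (orK (nat_lit 184) (fin (add (add (start D19127) (orK (nat_lit 124) (fin (add (start D20546) D19118)))) D19316)))) (orK (nat_lit 184) (fin (add (add (add (add (add (start (orK (nat_lit 124) (fin (add (add (start (orK (nat_lit 183) (fin (add (start D19108) D19454)))) (orK (nat_lit 125) (fin (add (start D11255) (orK (nat_lit 123) (fin (add (start D11256) (orK (nat_lit 126) (fin (add (start D18539) (orK (nat_lit 143) (fin (add (start D18567) (win (nat_lit 5) (nat_lit 3) (nat_lit 6) (nat_lit 0))))))))))))))) (orK (nat_lit 183) (fin (add (start D19108) (orK (nat_lit 104) (fin (add (start D10802) D11295)))))))))) D19476) D19452) D19309) (orK (nat_lit 204) (fin (add (add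 (start (orK (nat_lit 124) (fin (add (start D16926) D19130)))) D19095) D20614)))) (orK (nat_lit 205) (fin (add (add (start (orK (nat_lit 185) (fin (add (start D3082) (orK (nat_lit 225) (fin (add (start (win (nat_lit 6) (nat_lit 4) (nat_lit 7) (nat_lit 3))) D3081))))))) (orK (nat_lit 204) (fin (add (start D16924) (orK (nat_lit 206) (fin (add (start D4939) (orK (nat_lit 227) (fin (add (start D4737) (orK (nat_lit 224) (fin (add (start D4738) D19163))))))))))))) (orK (nat_lit 124) (fin (add (start D7906) (orK (nat_lit 105) (fin (add (start D11240) (orK (nat_lit 104) (fin (add (start D11241) (orK (nat_lit 163) (fin (add (start D19490) D11295))))))))))))))))))))))))) (orK (nat_lit 148) (fin (add (start D19228) (orK (nat_lit 145) (fin (add (add (add (add (start D7357) (orK (nat_lit 125) (fin (add (start D7103) (orK (nat_lit 165) (fin (add (start D7147) (orK (nat_lit 105) (fin (add (start D6469) (orK (nat_lit 106) (fin (add (start D6479) (orK (nat_lit 126) (fin (add (start D10708) (orK (nat_lit 107) (fin (add (start D6619) (orK (nat_lit 104) (fin (add (start (win (nat_lit 7) (nat_lit 4) (nat_lit 4) (nat_lit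 5))) (orK (nat_lit 103) (fin (add (start D18847) D20143))))))))))))))))))))))))) (orK (nat_lit 144) (fin (add (add (start D7353) (orK (nat_lit 127) (fin (add (start D18722) (orK (nat_lit 143) (fin (add (start D20267) (orK (nat_lit 142) (fin (add (start D20268) (orK (nat_lit 122) (fin (add (start (win (nat_lit 2) (nat_lit 1) (nat_lit 6) (nat_lit 5))) (win (nat_lit 2) (nat_lit 2) (nat_lit 6) (nat_lit 4))))))))))))))) D20396)))) (orK (nat_lit 124) (fin (add (start D7348) (orK (nat_lit 144) (fin (add (start D7349) (orK (nat_lit 127) (fin (add (start D18722) (orK (nat_lit 143) (fin (add (start D20267) (orK (nat_lit 142) (fin (add (start D20268) (orK (nat_lit 121) (fin (add (start (win (nat_lit 2) (nat_lit 1) (nat_lit 6) (nat_lit 4))) (orK (nat_lit 141) (fin (add (start (win (nat_lit 2) (nat_lit 0) (nat_lit 6) (nat_lit 5))) (orK (nat_lit 161) (fin (add (start (win (nat_lit 5) (nat_lit 0) (nat_lit 7) (nat_lit 5))) (win (nat_lit 5) (nat_lit 1) (nat_lit 7) (nat_lit 4))))))))))))))))))))))))))) (orK (nat_lit 124) (fin (add (start D7348) (orK (nat_lit 144) (fin (add (start D7349) D20396))))))))))))) D19222) (orK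 (nat_lit 165) (fin (add (add (start D11536) (orK (nat_lit 106) (fin (add (add (start (orK (nat_lit 126) (fin (add (start D10708) D6620)))) (orK (nat_lit 107) (fin (add (add (add (start (orK (nat_lit 127) (fin (add (start D17090) D6075)))) (orK (nat_lit 127) (fin (add (start D17090) (orK (nat_lit 149) (fin (add (start D19730) (orK (nat_lit 189) (fin (add (start D5917) (orK (nat_lit 129) (fin (add (start D6588) (orK (nat_lit 108) (fin (add (start D8176) (orK (nat_lit 109) (fin (add (start D10734) (orK (nat_lit 90) (fin (add (start D7459) D14118)))))))))))))))))))))) (orK (nat_lit 149) (fin (add (start D19730) (orK (nat_lit 189) (fin (add (start D5917) (orK (nat_lit 129) (fin (add (start D6588) (orK (nat_lit 130) (fin (add (start D6603) (orK (nat_lit 108) (fin (add (start D16314) (orK (nat_lit 127) (fin (add (start D8176) D6075))))))))))))))))))) (orK (nat_lit 149) (fin (add (start D19730) (orK (nat_lit 189) (fin (add (start D5917) (orK (nat_lit 129) (fin (add (start D6588) (orK (nat_lit 110) (fin (add (start D6716) (orK (nat_lit 109) (fin (add (start D6717) (orK (nat_lit 108) (fin (add (start D6590) D14117))))))))))))))))))))))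 (orK (nat_lit 126) (fin (add (start D10708) (orK (nat_lit 107) (fin (add (start D6619) (orK (nat_lit 149) (fin (add (start D19730) (orK (nat_lit 189) (fin (add (start D5917) (orK (nat_lit 129) (fin (add (start D6588) (orK (nat_lit 130) (fin (add (start D6603) (orK (nat_lit 108) (fin (add (start D16314) (orK (nat_lit 88) (fin (add (start D20709) D20711)))))))))))))))))))))))))))) (orK (nat_lit 164) (fin (add (add (start D17587) D11179) D16940))))))) (orK (nat_lit 126) (fin (add (add (add (add (start (orK (nat_lit 106) (fin (add (start D6620) (orK (nat_lit 105) (fin (add (start D10626) (orK (nat_lit 129) (fin (add (start (orK (nat_lit 128) (fin (add (start (win (nat_lit 2) (nat_lit 5) (nat_lit 5) (nat_lit 2))) (orK (nat_lit 107) (fin (add (start (win (nat_lit 0) (nat_lit 5) (nat_lit 5) (nat_lit 3))) D6619))))))) (orK (nat_lit 149) (fin (add (start (orK (nat_lit 148) D19524)) D19224))))))))))))) (orK (nat_lit 106) (fin (add (start D6620) (orK (nat_lit 107) (fin (add (start D6619) (orK (nat_lit 105) (fin (add (start D10626) (orK (nat_lit 108) (fin (add (start (orK (nat_lit 88) (fin (add (start D20709) D20156))))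 (orK (nat_lit 125) (fin (add (start D14003) D10727)))))))))))))))) (orK (nat_lit 149) (fin (add (start D18616) D18707)))) (orK (nat_lit 127) (fin (add (add (start D19715) (orK (nat_lit 107) (fin (add (start D17090) (orK (nat_lit 106) (fin (add (start D6620) D18930))))))) (orK (nat_lit 107) (fin (add (start D17090) (orK (nat_lit 106) (fin (add (start D6620) (orK (nat_lit 105) (fin (add (start D10626) (orK (nat_lit 104) (fin (add (start D10718) (orK (nat_lit 124) (fin (add (start D10743) (orK (nat_lit 125) (fin (add (start D18543) (orK (nat_lit 84) (fin (add (start (win (nat_lit 2) (nat_lit 3) (nat_lit 4) (nat_lit 5))) (orK (nat_lit 64) (fin (add (start (win (nat_lit 6) (nat_lit 4) (nat_lit 2) (nat_lit 0))) (win (nat_lit 6) (nat_lit 4) (nat_lit 3) (nat_lit 5)))))))))))))))))))))))))))))) (orK (nat_lit 148) (fin (add (start (orK (nat_lit 125) (fin (add (start D19646) (orK (nat_lit 106) (fin (add (start D6620) (orK (nat_lit 107) (fin (add (start D6619) (orK (nat_lit 108) (fin (add (start D10727) (orK (nat_lit 88) (fin (add (start (win (nat_lit 1) (nat_lit 7) (nat_lit 4) (nat_lit 2))) D20711))))))))))))))))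 D19228)))))))
noncomputable def D6618 : OP := win (nat_lit 1) (nat_lit 6) (nat_lit 5) (nat_lit 1)
noncomputable def D18678 : OP := orK (nat_lit 107) (fin (add (start D6618) (orK (nat_lit 129) (fin (add (start D6588) (orK (nat_lit 110) (fin (add (start D6716) (orK (nat_lit 109) (fin (add (start D6717) (orK (nat_lit 108) (fin (add (start D6590) (orK (nat_lit 86) (fin (add (start D13977) (orK (nat_lit 106) (fin (add (start D13978) (win (nat_lit 6) (nat_lit 6) (nat_lit 4) (nat_lit 2))))))))))))))))))))))
noncomputable def D18701 : OP := orK (nat_lit 148) D16511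
noncomputable def D19921 : OP := orK (nat_lit 189) (fin (add (start D5917) (orK (nat_lit 147) (fin (add (start D18701) (orK (nat_lit 186) (fin (add (start (orK (nat_lit 206) (fin (add (start D16994) D371)))) D18678))))))))
noncomputable def D18951 : OP := orK (nat_lit 206) (fin (add (start D371) (orK (nat_lit 225) (fin (add (start D18635) (orK (nat_lit 226) (fin (add (start D7779) D18529))))))))
noncomputable def D10627 : OP := win (nat_lit 7) (nat_lit 5) (nat_lit 5) (nat_lit 4)
noncomputable def D10629 : OP := orK (nat_lit 105) (fin (add (start D10626) D10627))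
noncomputable def D10625 : OP := win (nat_lit 3) (nat_lit 6) (nat_lit 5) (nat_lit 4)
noncomputable def D10633 : OP := orK (nat_lit 107) (fin (add (start D10625) (orK (nat_lit 106) (fin (add (start D6619) D10629)))))
noncomputable def D10766 : OP := orK (nat_lit 85) (fin (add (start (win (nat_lit 7) (nat_lit 5) (nat_lit 3) (nat_lit 5))) (win (nat_lit 7) (nat_lit 5) (nat_lit 4) (nat_lit 4))))
noncomputable def D18612 : OP := win (nat_lit 6) (nat_lit 6) (nat_lit 4) (nat_lit 4)
noncomputable def D18604 : OP := win (nat_lit 0) (nat_lit 5) (nat_lit 6) (nat_lit 3)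
noncomputable def D10773 : OP := win (nat_lit 7) (nat_lit 5) (nat_lit 5) (nat_lit 5)
noncomputable def D10775 : OP := win (nat_lit 3) (nat_lit 6) (nat_lit 5) (nat_lit 5)
noncomputable def D18611 : OP := orK (nat_lit 127) (fin (add (start D10775) (orK (nat_lit 125) (fin (add (start D10773) (orK (nat_lit 148) (fin (add (start D18604) (win (nat_lit 2) (nat_lit 5) (nat_lit 6) (nat_lit 2))))))))))
noncomputable def D15795 : OP := win (nat_lit 1) (nat_lit 5) (nat_lit 6) (nat_lit 4)
noncomputable def D18971 : OP := orK (nat_lit 206) (fin (add (start D371) (orK (nat_lit 205) (fin (add (start D7713) (orK (nat_lit 126) (fin (add (start D15795) D10633))))))))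
noncomputable def D18641 : OP := orK (nat_lit 206) (fin (add (start D371) (orK (nat_lit 225) (fin (add (start D18635) D18637)))))
noncomputable def D10801 : OP := win (nat_lit 4) (nat_lit 3) (nat_lit 8) (nat_lit 1)
noncomputable def D10807 : OP := orK (nat_lit 183) (fin (add (start D10801) (orK (nat_lit 164) (fin (add (start D10802) D10803)))))
noncomputable def D10799 : OP := win (nat_lit 5) (nat_lit 3) (nat_lit 6) (nat_lit 5)
noncomputable def D10800 : OP := win (nat_lit 2) (nat_lit 3) (nat_lit 5) (nat_lit 5)
noncomputable def D10690 : OP := win (nat_lit 1) (nat_lit 5) (nat_lit 6) (nat_lit 5)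
noncomputable def D6622 : OP := orK (nat_lit 106) (fin (add (start D6619) D6620))
noncomputable def D6624 : OP := orK (nat_lit 107) (fin (add (start D6618) D6622))
noncomputable def D10691 : OP := win (nat_lit 1) (nat_lit 5) (nat_lit 5) (nat_lit 4)
noncomputable def D19695 : OP := orK (nat_lit 185) (fin (add (start D10690) (orK (nat_lit 106) (fin (add (start D10691) D6620)))))
noncomputable def D18544 : AP := fin (add (start D18542) D18543)
noncomputable def D10711 : OP := win (nat_lit 3) (nat_lit 6) (nat_lit 4) (nat_lit 4)
noncomputable def D10710 : OP := win (nat_lit 3) (nat_lit 6) (nat_lit 3) (nat_lit 5)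
noncomputable def D10713 : OP := orK (nat_lit 87) (fin (add (start D10710) D10711))
noncomputable def D10709 : OP := win (nat_lit 1) (nat_lit 5) (nat_lit 4) (nat_lit 4)
noncomputable def D10717 : OP := orK (nat_lit 165) (fin (add (start D10708) (orK (nat_lit 86) (fin (add (start D10709) D10713)))))
noncomputable def D18783 : OP := orK (nat_lit 86) (fin (add (start D10709) D18612))
noncomputable def D18785 : OP := orK (nat_lit 165) (fin (add (start D10708) D18783))
noncomputable def D18938 : OP := orK (nat_lit 165) (fin (add (start D10709) D10708))
noncomputable def D18942 : OP := orK (nat_lit 86) (fin (add (start D18938) D10766))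
noncomputable def D10693 : OP := orK (nat_lit 107) (fin (add (start D6619) D10625))
noncomputable def D18928 : OP := orK (nat_lit 87) (fin (add (start D10711) (orK (nat_lit 86) (fin (add (start D10710) D18612)))))
noncomputable def D19555 : OP := orK (nat_lit 185) (fin (add (start D10690) (orK (nat_lit 106) (fin (add (start D10691) D18928)))))
noncomputable def D12256 : AP := fin (add (start D7713) D371)
noncomputable def D15796 : OP := orK (nat_lit 206) D12256
noncomputable def D15797 : AP := fin (add (start D15795) D15796)
noncomputable def D15798 : OP := orK (nat_lit 205) D15797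
noncomputable def D19673 : OP := win (nat_lit 3) (nat_lit 6) (nat_lit 3) (nat_lit 4)
noncomputable def D20046 : OP := orK (nat_lit 185) (fin (add (start D10690) (orK (nat_lit 106) (fin (add (start D10691) (orK (nat_lit 86) (fin (add (start D18612) (orK (nat_lit 67) (fin (add (start D19673) D10766)))))))))))
noncomputable def D18614 : OP := orK (nat_lit 86) (fin (add (start D18612) D10766))
noncomputable def D18936 : OP := orK (nat_lit 106) (fin (add (add (start D18928) (orK (nat_lit 107) (fin (add (start D6619) (orK (nat_lit 127) (fin (add (start D18818) D18930))))))) D18614))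
noncomputable def D18517 : OP := win (nat_lit 3) (nat_lit 6) (nat_lit 6) (nat_lit 4)
noncomputable def D18519 : OP := orK (nat_lit 127) (fin (add (start D10775) D18517))
noncomputable def D19769 : OP := orK (nat_lit 227) (fin (add (start D4737) D10905))
noncomputable def D19767 : OP := orK (nat_lit 227) (fin (add (start D4737) D10899))
noncomputable def D18786 : OP := orK (nat_lit 147) D11535
noncomputable def D19986 : AP := fin (add (start D11149) D6466)
noncomputable def D20186 : AP := fin (add (add (add (add (add (start (orK (nat_lit 205) (fin (add (add (add (start (orK (nat_lit 186) D15797)) (orK (nat_lit 165) (fin (add (add (add (start (orK (nat_lit 185) D19986)) D11192) (orK (nat_lit 164) (fin (add (start D18786) (orK (nat_lit 144) (fin (add (start D461) (orK (nat_lit 184) (fin (add (start D4171) (orK (nat_lit 204) (fin (add (start D16924) (orK (nat_lit 223) (fin (add (start D11277) (orK (nat_lit 224) (fin (add (start D11278) D10934))))))))))))))))))) (orK (nat_lit 164) (fin (add (add (start D18786) D11218) (orK (nat_lit 144) (fin (add (start D461) (orK (nat_lit 147) (fin (add (start D11161) (orK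 (nat_lit 184) (fin (add (start D4171) (orK (nat_lit 124) (fin (add (start D7906) D20072))))))))))))))))))) (orK (nat_lit 206) (fin (add (add (add (start (orK (nat_lit 186) D12256)) (orK (nat_lit 204) (fin (add (add (start D19767) (orK (nat_lit 184) (fin (add (start D4939) (orK (nat_lit 164) (fin (add (add (start (orK (nat_lit 224) (fin (add (start D4738) D20086)))) (orK (nat_lit 224) (fin (add (start D4738) (orK (nat_lit 165) (fin (add (start D10934) (orK (nat_lit 147) (fin (add (start D11161) (orK (nat_lit 163) (fin (add (start D11160) D19410))))))))))))) (orK (nat_lit 144) (fin (add (start D16924) (orK (nat_lit 143) (fin (add (start D19066) D19160))))))))))))) D19769)))) (orK (nat_lit 186) (fin (add (start D371) D18519)))) (orK (nat_lit 186) (fin (add (start D7713) D18519))))))) (orK (nat_lit 186) (fin (add (start D15795) (orK (nat_lit 127) (fin (add (start D10775) (orK (nat_lit 206) (fin (add (start D18517) D371))))))))))))) D18936) (orK (nat_lit 186) (fin (add (add (start D15798) D17389) D20046)))) (orK (nat_lit 186) (fin (add (add (add (start D15798) D19555) D18641) (orK (nat_lit 206) (fin (add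 (start D371) (orK (nat_lit 226) (fin (add (start D7796) (orK (nat_lit 225) (fin (add (start D7779) (orK (nat_lit 165) (fin (add (start D7782) (orK (nat_lit 185) (fin (add (start D6457) D10548))))))))))))))))))) (orK (nat_lit 106) (fin (add (add (start (orK (nat_lit 186) (fin (add (start (orK (nat_lit 185) (fin (add (start D10691) D10690)))) D10693)))) D18942) (orK (nat_lit 86) (fin (add (start D10713) D10766))))))) (orK (nat_lit 106) (fin (add (add (start D18785) (orK (nat_lit 105) (fin (add (start D10626) (orK (nat_lit 104) (fin (add (add (start (orK (nat_lit 103) (fin (add (start D20143) (orK (nat_lit 82) (fin (add (start (win (nat_lit 2) (nat_lit 2) (nat_lit 4) (nat_lit 4))) (orK (nat_lit 102) (fin (add (start (win (nat_lit 2) (nat_lit 1) (nat_lit 4) (nat_lit 5))) (orK (nat_lit 122) (fin (add (start (win (nat_lit 5) (nat_lit 1) (nat_lit 5) (nat_lit 5))) (win (nat_lit 5) (nat_lit 2) (nat_lit 5) (nat_lit 4))))))))))))))) (orK (nat_lit 107) (fin (add (start D6619) (orK (nat_lit 128) (fin (add (start (win (nat_lit 0) (nat_lit 4) (nat_lit 5) (nat_lit 4))) (orK (nat_lit 108) (fin (add (start (win (nat_lit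 0) (nat_lit 5) (nat_lit 5) (nat_lit 5))) (orK (nat_lit 88) (fin (add (start D20156) (orK (nat_lit 148) (fin (add (start (win (nat_lit 1) (nat_lit 7) (nat_lit 4) (nat_lit 4))) D2096)))))))))))))))) (orK (nat_lit 107) (fin (add (start D6619) (orK (nat_lit 83) (fin (add (start (win (nat_lit 2) (nat_lit 3) (nat_lit 4) (nat_lit 4))) (orK (nat_lit 103) (fin (add (start (win (nat_lit 2) (nat_lit 2) (nat_lit 4) (nat_lit 5))) (orK (nat_lit 123) (fin (add (start (win (nat_lit 5) (nat_lit 2) (nat_lit 5) (nat_lit 5))) (win (nat_lit 5) (nat_lit 3) (nat_lit 5) (nat_lit 4))))))))))))))))))))) D10717))))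
noncomputable def D19560 : OP := win (nat_lit 1) (nat_lit 4) (nat_lit 6) (nat_lit 5)
noncomputable def D19638 : OP := orK (nat_lit 145) (fin (add (start D19560) (orK (nat_lit 143) (fin (add (start D19561) (orK (nat_lit 124) (fin (add (start D3105) (orK (nat_lit 123) (fin (add (start D18538) D18567)))))))))))
noncomputable def D10781 : OP := win (nat_lit 4) (nat_lit 3) (nat_lit 8) (nat_lit 0)
noncomputable def D19576 : OP := orK (nat_lit 163) (fin (add (start D19574) D18327))
noncomputable def D19578 : OP := orK (nat_lit 185) (fin (add (start D10690) D19576))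
noncomputable def D19668 : OP := orK (nat_lit 165) (fin (add (add (add (add (add (add (start (orK (nat_lit 164) (fin (add (add (start D18786) D19578) (orK (nat_lit 144) (fin (add (start D461) (orK (nat_lit 205) (fin (add (start D15795) (orK (nat_lit 147) (fin (add (start D11161) (orK (nat_lit 184) (fin (add (start D4171) (orK (nat_lit 204) (fin (add (start D16924) D11171))))))))))))))))))) (orK (nat_lit 164) (fin (add (add (start D18786) D19578) (orK (nat_lit 125) (fin (add (start D10773) (orK (nat_lit 185) (fin (add (start D10690) (orK (nat_lit 144) (fin (add (start D461) (orK (nat_lit 147) (fin (add (start D11161) (orK (nat_lit 124) (fin (add (start D18542) D11219))))))))))))))))))) (orK (nat_lit 185) (fin (add (start D10690) (orK (nat_lit 184) (fin (add (start D10781) (orK (nat_lit 125) (fin (add (start D10773) (orK (nat_lit 145) (fin (add (start D19560) D19563))))))))))))) (orK (nat_lit 164) (fin (add (add (start D18786) D11218) (orK (nat_lit 144) (fin (add (start D461) (orK (nat_lit 124) (fin (add (add (start (orK (nat_lit 185) (fin (add (start D11219) (orK (nat_lit 205) (fin (add (start D6466)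 D16891))))))) (orK (nat_lit 123) (fin (add (start (orK (nat_lit 147) (fin (add (start D11258) D11161)))) (orK (nat_lit 184) (fin (add (start D4171) D11256))))))) (orK (nat_lit 185) (fin (add (start D11219) (orK (nat_lit 205) (fin (add (start D6466) D11220)))))))))))))))) (orK (nat_lit 185) (fin (add (start D10690) (orK (nat_lit 184) (fin (add (start D10781) (orK (nat_lit 125) (fin (add (start D10773) D19638)))))))))) (orK (nat_lit 147) (fin (add (add (start D11536) (orK (nat_lit 148) (fin (add (start D18474) (orK (nat_lit 125) (fin (add (start D10773) D19646))))))) (orK (nat_lit 164) (fin (add (start D11205) (orK (nat_lit 144) (fin (add (start D461) (orK (nat_lit 125) (fin (add (start D10773) (orK (nat_lit 184) (fin (add (start D4171) (orK (nat_lit 204) (fin (add (start D11290) (orK (nat_lit 223) (fin (add (start D11277) (orK (nat_lit 224) (fin (add (start D11278) D19093))))))))))))))))))))))))) D11309))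
noncomputable def D18618 : OP := orK (nat_lit 147) (fin (add (start D6620) D18616))
noncomputable def D18620 : OP := orK (nat_lit 106) (fin (add (add (start D18614) D18618) D10629))
noncomputable def D10703 : OP := orK (nat_lit 185) (fin (add (start D10690) (orK (nat_lit 106) (fin (add (start D10691) D10629)))))
noncomputable def D18583 : OP := orK (nat_lit 125) (fin (add (start D10773) (win (nat_lit 7) (nat_lit 5) (nat_lit 6) (nat_lit 4))))
noncomputable def D18589 : OP := orK (nat_lit 206) (fin (add (start D371) (orK (nat_lit 205) (fin (add (start D7713) (orK (nat_lit 126) (fin (add (start D15795) D18583))))))))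
noncomputable def D19949 : OP := win (nat_lit 0) (nat_lit 3) (nat_lit 6) (nat_lit 2)
noncomputable def D20009 : OP := orK (nat_lit 147) (fin (add (start D11161) (orK (nat_lit 126) (fin (add (start D6457) (orK (nat_lit 124) (fin (add (start D11219) (orK (nat_lit 123) (fin (add (start D19949) D11258)))))))))))
noncomputable def D19810 : OP := win (nat_lit 1) (nat_lit 5) (nat_lit 6) (nat_lit 3)
noncomputable def D19819 : OP := win (nat_lit 0) (nat_lit 2) (nat_lit 8) (nat_lit 5)
noncomputable def D19877 : AP := fin (add (start D19819) (orK (nat_lit 182) (fin (add (start (win (nat_lit 5) (nat_lit 1) (nat_lit 8) (nat_lit 5))) (win (nat_lit 5) (nat_lit 2) (nat_lit 8) (nat_lit 4))))))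
noncomputable def D19820 : OP := win (nat_lit 4) (nat_lit 2) (nat_lit 7) (nat_lit 4)
noncomputable def D19884 : OP := orK (nat_lit 143) (fin (add (start D11158) (orK (nat_lit 163) (fin (add (start D11159) (orK (nat_lit 162) (fin (add (start D19820) (orK (nat_lit 185) D19877)))))))))
noncomputable def D19997 : OP := orK (nat_lit 205) (fin (add (start D6466) D19975))
noncomputable def D19989 : OP := orK (nat_lit 126) (fin (add (start D6457) (orK (nat_lit 205) D19986)))
noncomputable def D18333 : OP := orK (nat_lit 181) (fin (add (start (win (nat_lit 5) (nat_lit 0) (nat_lit 8) (nat_lit 5))) (win (nat_lit 5) (nat_lit 1) (nat_lit 8) (nat_lit 4))))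
noncomputable def D19862 : OP := win (nat_lit 0) (nat_lit 1) (nat_lit 8) (nat_lit 4)
noncomputable def D19864 : OP := orK (nat_lit 161) (fin (add (start D19862) D18333))
noncomputable def D19934 : OP := orK (nat_lit 162) D19877
noncomputable def D18340 : OP := win (nat_lit 2) (nat_lit 1) (nat_lit 7) (nat_lit 4)
noncomputable def D18341 : OP := win (nat_lit 2) (nat_lit 0) (nat_lit 7) (nat_lit 5)
noncomputable def D18956 : AP := fin (add (start D6457) D10690)
noncomputable def D18957 : OP := orK (nat_lit 126) D18956
noncomputable def D19746 : AP := fin (add (start D371) (orK (nat_lit 145) (fin (add (start D7904) D12824))))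
noncomputable def D19732 : OP := orK (nat_lit 149) (fin (add (start D19730) D18707))
noncomputable def D10908 : OP := orK (nat_lit 243) (fin (add (start D10838) (win (nat_lit 5) (nat_lit 3) (nat_lit 11) (nat_lit 1))))
noncomputable def D11025 : OP := orK (nat_lit 185) (fin (add (start D11023) D10837))
noncomputable def D19757 : OP := orK (nat_lit 227) (fin (add (start D10893) D4737))
noncomputable def D18724 : OP := orK (nat_lit 184) (fin (add (start D4171) (orK (nat_lit 204) D11170)))
noncomputable def D20033 : AP := fin (add (add (add (add (add (add (start (orK (nat_lit 147) (fin (add (add (start D11536) D19732) (orK (nat_lit 127) (fin (add (start D19186) (orK (nat_lit 164) (fin (add (start D11205) (orK (nat_lit 144) (fin (add (start D461) (orK (nat_lit 145) (fin (add (start D18722) D18724)))))))))))))))) (orK (nat_lit 206) (fin (add (add (add (start (orK (nat_lit 186) D19746)) (orK (nat_lit 205) (fin (add (add (add (start (orK (nat_lit 185) (fin (add (start D6466) D19749)))) (orK (nat_lit 164) (fin (add (start D18786) (orK (nat_lit 204) (fin (add (add (start (orK (nat_lit 184) (fin (add (start D4939)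 (orK (nat_lit 224) (fin (add (start D10934) D4738))))))) (orK (nat_lit 203) (fin (add (start D19757) D10897)))) (orK (nat_lit 203) (fin (add (start D19757) D10903)))))))))) (orK (nat_lit 204) (fin (add (add (add (start D19767) D19769) D10931) (orK (nat_lit 227) (fin (add (start D4737) (orK (nat_lit 184) (fin (add (start D4939) (orK (nat_lit 224) (fin (add (start D4738) (orK (nat_lit 244) (fin (add (start D11025) (orK (nat_lit 225) (fin (add (start D10908) D19771))))))))))))))))))) (orK (nat_lit 185) (fin (add (start D6466) (orK (nat_lit 145) (fin (add (start D3029) (orK (nat_lit 204) (fin (add (start D5299) (orK (nat_lit 227) (fin (add (start D4737) (orK (nat_lit 184) (fin (add (start D19784) D4939))))))))))))))))))) (orK (nat_lit 186) (fin (add (start D371) (orK (nat_lit 147) (fin (add (start D17385) D11536))))))) (orK (nat_lit 147) (fin (add (add (start D19801) D19732) (orK (nat_lit 226) (fin (add (start D11045) (orK (nat_lit 149) (fin (add (start D19730) D7101))))))))))))) (orK (nat_lit 164) (fin (add (add (add (add (start D11218) (orK (nat_lit 183) (fin (add (start D6798) (orK (nat_lit 185) (fin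 (add (add (start (orK (nat_lit 205) (fin (add (start D6466) (orK (nat_lit 126) (fin (add (start D6457) D19810))))))) (orK (nat_lit 163) (fin (add (start D6797) (orK (nat_lit 162) (fin (add (start D19819) D19820))))))) (orK (nat_lit 205) D11152)))))))) (orK (nat_lit 184) (fin (add (start D4171) (orK (nat_lit 204) (fin (add (add (start (orK (nat_lit 224) (fin (add (start D10934) (orK (nat_lit 243) (fin (add (start D19357) (orK (nat_lit 244) (fin (add (start D10838) D11279)))))))))) (orK (nat_lit 144) (fin (add (start D461) (orK (nat_lit 205) (fin (add (start D16924) (orK (nat_lit 185) (fin (add (start D3082) (orK (nat_lit 203) (fin (add (start D19010) (orK (nat_lit 202) (fin (add (start (win (nat_lit 4) (nat_lit 1) (nat_lit 9) (nat_lit 0))) (win (nat_lit 4) (nat_lit 2) (nat_lit 9) (nat_lit 5)))))))))))))))))) (orK (nat_lit 144) (fin (add (start D461) (orK (nat_lit 224) (fin (add (start D10934) D19093))))))))))))) (orK (nat_lit 143) (fin (add (start D11158) (orK (nat_lit 163) (fin (add (start D11159) (orK (nat_lit 162) (fin (add (start D19820) (orK (nat_lit 185) (fin (add (start D19819) D19864)))))))))))))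 D19884)))) (orK (nat_lit 149) (fin (add (add (start (orK (nat_lit 186) (fin (add (add (start (orK (nat_lit 147) (fin (add (start D19730) (orK (nat_lit 127) (fin (add (start D12185) D19888))))))) (orK (nat_lit 206) D19746)) (orK (nat_lit 126) (fin (add (add (start (orK (nat_lit 185) D18956)) (orK (nat_lit 107) (fin (add (start D10625) (orK (nat_lit 106) (fin (add (start D6619) D18783))))))) (orK (nat_lit 127) (fin (add (start D10775) (orK (nat_lit 185) (fin (add (start D10690) (orK (nat_lit 184) (fin (add (start D10781) (orK (nat_lit 148) (fin (add (start (win (nat_lit 5) (nat_lit 5) (nat_lit 7) (nat_lit 2))) (orK (nat_lit 125) (fin (add (start D18604) D19638)))))))))))))))))))))) D7101) D19921)))) (orK (nat_lit 186) (fin (add (add (start D17389) (orK (nat_lit 185) (fin (add (add (start D18957) (orK (nat_lit 164) (fin (add (add (start (orK (nat_lit 163) (fin (add (add (start D6800) (orK (nat_lit 162) (fin (add (start D19819) (orK (nat_lit 161) (fin (add (start D19862) (orK (nat_lit 141) (fin (add (start D18341) D18340)))))))))) D19934)))) (orK (nat_lit 144) (fin (add (start D461) (orK (nat_lit 124) (fin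 (add (start D11219) (orK (nat_lit 205) (fin (add (start D16891) D11184)))))))))) (orK (nat_lit 143) (fin (add (start D11158) (orK (nat_lit 163) (fin (add (start D11159) D19934)))))))))) (orK (nat_lit 164) (fin (add (add (start D18786) D11218) (orK (nat_lit 184) (fin (add (start D4171) (orK (nat_lit 144) (fin (add (start D461) (orK (nat_lit 147) (fin (add (start D11161) (orK (nat_lit 126) (fin (add (start D6457) (orK (nat_lit 124) (fin (add (start D11219) (orK (nat_lit 123) (fin (add (start D19949) D11256))))))))))))))))))))))))) (orK (nat_lit 205) (fin (add (start D15796) (orK (nat_lit 185) (fin (add (start D7643) (orK (nat_lit 164) (fin (add (add (start (orK (nat_lit 183) (fin (add (start D10801) (orK (nat_lit 163) (fin (add (start D19574) D6797))))))) (orK (nat_lit 184) (fin (add (start D10781) (orK (nat_lit 144) (fin (add (start D461) D3082))))))) D19576))))))))))))) (orK (nat_lit 164) (fin (add (add (start D18786) (orK (nat_lit 185) (fin (add (add (start D19989) (orK (nat_lit 143) (fin (add (start D11158) (orK (nat_lit 163) (fin (add (start D11159) (orK (nat_lit 162) (fin (add (start D19820) D19864))))))))))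 (orK (nat_lit 144) (fin (add (start D461) D19997))))))) (orK (nat_lit 144) (fin (add (start D461) (orK (nat_lit 185) (fin (add (add (start D19989) D19997) D20009)))))))))) (orK (nat_lit 164) (fin (add (add (start D18786) D19884) (orK (nat_lit 185) (fin (add (add (start (orK (nat_lit 144) (fin (add (start D461) (orK (nat_lit 205) (fin (add (start D6466) D11222))))))) (orK (nat_lit 126) (fin (add (start D6457) (orK (nat_lit 205) (fin (add (start D19810) D6466))))))) (orK (nat_lit 144) (fin (add (start D461) D20009))))))))))
noncomputable def D18562 : OP := win (nat_lit 2) (nat_lit 3) (nat_lit 5) (nat_lit 4)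
noncomputable def D18561 : OP := win (nat_lit 2) (nat_lit 2) (nat_lit 5) (nat_lit 5)
noncomputable def D18564 : OP := orK (nat_lit 103) (fin (add (start D18561) D18562))
noncomputable def D18572 : OP := orK (nat_lit 123) (fin (add (start D18564) (orK (nat_lit 143) (fin (add (start D18567) (win (nat_lit 5) (nat_lit 3) (nat_lit 6) (nat_lit 4)))))))
noncomputable def D18560 : OP := orK (nat_lit 128) (fin (add (start (orK (nat_lit 148) (fin (add (start (win (nat_lit 0) (nat_lit 4) (nat_lit 6) (nat_lit 4))) (win (nat_lit 0) (nat_lit 5) (nat_lit 6) (nat_lit 5)))))) (orK (nat_lit 144) (fin (add (start D10799) (win (nat_lit 5) (nat_lit 4) (nat_lit 6) (nat_lit 4)))))))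
noncomputable def D18578 : OP := orK (nat_lit 125) (fin (add (start D10773) (orK (nat_lit 127) (fin (add (start D10775) (orK (nat_lit 124) (fin (add (add (start D18560) (orK (nat_lit 123) (fin (add (start D18539) D18564)))) D18572))))))))
noncomputable def D18649 : OP := orK (nat_lit 206) (fin (add (start D371) (orK (nat_lit 205) (fin (add (start D7713) (orK (nat_lit 126) (fin (add (start D15795) (orK (nat_lit 107) (fin (add (start D10625) D18583)))))))))))
noncomputable def D10697 : OP := orK (nat_lit 185) (fin (add (start D10690) (orK (nat_lit 106) (fin (add (start D10691) D10693)))))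
noncomputable def D19245 : OP := win (nat_lit 2) (nat_lit 4) (nat_lit 6) (nat_lit 0)
noncomputable def D19048 : OP := orK (nat_lit 127) (fin (add (start D12185) D18722))
noncomputable def D19046 : OP := orK (nat_lit 206) (fin (add (start D371) D7904))
noncomputable def D19134 : OP := orK (nat_lit 124) (fin (add (add (start D19112) (orK (nat_lit 204) D19131)) D16934))
noncomputable def D19280 : OP := win (nat_lit 3) (nat_lit 4) (nat_lit 4) (nat_lit 4)
noncomputable def D19299 : OP := win (nat_lit 4) (nat_lit 3) (nat_lit 8) (nat_lit 3)
noncomputable def D19279 : OP := win (nat_lit 3) (nat_lit 4) (nat_lit 3) (nat_lit 5)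
noncomputable def D19282 : OP := orK (nat_lit 85) (fin (add (start D19279) D19280))
noncomputable def D19339 : OP := orK (nat_lit 105) (fin (add (start D11240) (orK (nat_lit 104) (fin (add (start D11241) D11295)))))
noncomputable def D19331 : OP := orK (nat_lit 204) (fin (add (start D16924) (orK (nat_lit 223) (fin (add (start D11277) (orK (nat_lit 224) D19326))))))
noncomputable def D19188 : OP := orK (nat_lit 127) (fin (add (start D18722) D19186))
noncomputable def D6036 : OP := win (nat_lit 4) (nat_lit 4) (nat_lit 7) (nat_lit 1)
noncomputable def D18788 : OP := win (nat_lit 3) (nat_lit 4) (nat_lit 5) (nat_lit 3)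
noncomputable def D19141 : OP := orK (nat_lit 123) (fin (add (start D19135) (orK (nat_lit 103) (fin (add (start D19136) (win (nat_lit 6) (nat_lit 3) (nat_lit 5) (nat_lit 3)))))))
noncomputable def D19546 : AP := fin (add (add (add (add (add (add (start (orK (nat_lit 145) (fin (add (start D6398) (orK (nat_lit 186) (fin (add (add (start D19046) (orK (nat_lit 147) (fin (add (start (orK (nat_lit 148) (fin (add (start D19050) (orK (nat_lit 149) D16511))))) D19048)))) D17389))))))) (orK (nat_lit 164) (fin (add (add (add (start D19068) (orK (nat_lit 184) (fin (add (add (add (add (start (orK (nat_lit 204) (fin (add (add (start D19081) D19090) D19095)))) (orK (nat_lit 124) (fin (add (start (orK (nat_lit 104) (fin (add (start (orK (nat_lit 183) (fin (add (start D10802) D19000)))) D11295)))) D16928)))) (orK (nat_lit 124) (fin (add (add (start D19112) D19118) D16928)))) (orK (nat_lit 204) (fin (add (add (start (orK (nat_lit 124) D16927)) D19081) D19095)))) (orK (nat_lit 183) (fin (add (start D19000) D19007))))))) (orK (nat_lit 184) (fin (add (add (add (start D19127) (orK (nat_lit 183) (fin (add (start D19000) (orK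 (nat_lit 203) (fin (add (start D19001) (orK (nat_lit 223) (fin (add (start D19069) D19002)))))))))) D19134) (orK (nat_lit 143) (fin (add (start D19066) D19141))))))) (orK (nat_lit 184) (fin (add (add (add (add (start (orK (nat_lit 143) (fin (add (start D10774) D19141)))) (orK (nat_lit 145) (fin (add (start D6398) (orK (nat_lit 125) (fin (add (start D16911) (orK (nat_lit 105) (fin (add (start D19148) D18788)))))))))) (orK (nat_lit 124) (fin (add (add (start D19116) D19156) D16934)))) (orK (nat_lit 204) (fin (add (add (start D19159) D19095) (orK (nat_lit 224) (fin (add (start D19093) D19163))))))) (orK (nat_lit 145) (fin (add (start D6398) (orK (nat_lit 124) (fin (add (add (start (orK (nat_lit 125) (fin (add (start D11255) (orK (nat_lit 123) (fin (add (start D18538) D11256))))))) D19112) D19156))))))))))))) (orK (nat_lit 145) (fin (add (start D6398) (orK (nat_lit 147) (fin (add (start D19188) (orK (nat_lit 164) (fin (add (start D7350) (orK (nat_lit 165) (fin (add (start D11161) (orK (nat_lit 184) (fin (add (start D4171) D16913)))))))))))))))) (orK (nat_lit 145) (fin (add (start D6398) (orK (nat_lit 147)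 (fin (add (start D19188) (orK (nat_lit 164) (fin (add (start D7350) (orK (nat_lit 165) (fin (add (start D11161) (orK (nat_lit 124) (fin (add (start D7349) (orK (nat_lit 184) (fin (add (start D4171) (orK (nat_lit 104) (fin (add (start (win (nat_lit 6) (nat_lit 4) (nat_lit 4) (nat_lit 0))) D11291)))))))))))))))))))))) (orK (nat_lit 186) (fin (add (add (start D17389) (orK (nat_lit 147) (fin (add (add (add (start D19222) (orK (nat_lit 127) (fin (add (start D12185) (orK (nat_lit 145) (fin (add (start D18722) (orK (nat_lit 124) (fin (add (start D7349) (orK (nat_lit 148) (fin (add (start D7348) D19228))))))))))))) (orK (nat_lit 164) (fin (add (add (start D19240) (orK (nat_lit 107) (fin (add (start D6618) (orK (nat_lit 148) (fin (add (start D6036) D19228))))))) (orK (nat_lit 107) (fin (add (start D6618) (orK (nat_lit 145) (fin (add (start D7350) (orK (nat_lit 124) (fin (add (start D7349) (orK (nat_lit 125) (fin (add (start D19245) D19248)))))))))))))))) (orK (nat_lit 145) (fin (add (start D19188) (orK (nat_lit 124) (fin (add (start D7349) (orK (nat_lit 164) (fin (add (start D7350) (orK (nat_lit 104) (fin (add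 (add (start (orK (nat_lit 184) D19273)) (orK (nat_lit 84) (fin (add (start (win (nat_lit 6) (nat_lit 4) (nat_lit 4) (nat_lit 5))) D11246)))) (orK (nat_lit 84) (fin (add (start D19282) D11246))))))))))))))))))) D18951)))) (orK (nat_lit 164) (fin (add (add (add (start (orK (nat_lit 165) (fin (add (start D461) D18786)))) (orK (nat_lit 184) (fin (add (add (start D19127) D19309) D19316)))) (orK (nat_lit 165) (fin (add (start D18786) (orK (nat_lit 124) (fin (add (add (start (orK (nat_lit 104) (fin (add (start D11291) (orK (nat_lit 85) (fin (add (start D19280) (orK (nat_lit 84) (fin (add (start D19279) D11246)))))))))) (orK (nat_lit 184) (fin (add (start D4171) (orK (nat_lit 205) (fin (add (start D7906) D19331))))))) (orK (nat_lit 184) (fin (add (start D4171) D19339)))))))))) (orK (nat_lit 184) (fin (add (add (add (add (add (start (orK (nat_lit 124) (fin (add (start (orK (nat_lit 183) (fin (add (start D19108) (orK (nat_lit 185) (fin (add (start D19299) D11231))))))) D16934)))) D19452) D19476) (orK (nat_lit 205) (fin (add (start D19331) (orK (nat_lit 124) (fin (add (start D7906) D19339))))))) (orK (nat_lit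 124) (fin (add (add (add (start (orK (nat_lit 205) (fin (add (start D7906) (orK (nat_lit 204) (fin (add (start D16924) D19130))))))) (orK (nat_lit 103) (fin (add (start D11293) (orK (nat_lit 104) (fin (add (start D11292) (orK (nat_lit 163) (fin (add (start D19490) (orK (nat_lit 84) (fin (add (start (win (nat_lit 1) (nat_lit 3) (nat_lit 4) (nat_lit 4))) D19282))))))))))))) (orK (nat_lit 205) (fin (add (start D7906) (orK (nat_lit 204) (fin (add (start D16924) (orK (nat_lit 183) (fin (add (start D19086) (orK (nat_lit 163) (fin (add (start (win (nat_lit 1) (nat_lit 3) (nat_lit 5) (nat_lit 0))) (orK (nat_lit 224) D19463)))))))))))))) (orK (nat_lit 185) (fin (add (start D11231) (orK (nat_lit 183) (fin (add (start D19299) (orK (nat_lit 104) (fin (add (start D10802) (orK (nat_lit 85) (fin (add (start D19280) D11295)))))))))))))))) D19134))))))) (orK (nat_lit 145) (fin (add (start D6398) (orK (nat_lit 186) (fin (add (add (start D19046) (orK (nat_lit 147) (fin (add (add (start D19048) (orK (nat_lit 124) (fin (add (start D7349) (orK (nat_lit 148) (fin (add (start D7348) (orK (nat_lit 129) (fin (add (start D7109)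 (orK (nat_lit 149) D19524))))))))))) (orK (nat_lit 107) (fin (add (start D6618) (orK (nat_lit 124) (fin (add (start D7349) (orK (nat_lit 125) (fin (add (start D19245) (orK (nat_lit 164) (fin (add (start D7350) D19248)))))))))))))))) D17389)))))))
noncomputable def D10770 : OP := orK (nat_lit 165) (fin (add (start D10708) (orK (nat_lit 86) (fin (add (start D10709) D10766)))))
noncomputable def D10787 : OP := orK (nat_lit 184) (fin (add (start D10781) (orK (nat_lit 204) (fin (add (start D10782) (win (nat_lit 3) (nat_lit 4) (nat_lit 6) (nat_lit 2)))))))
noncomputable def D10819 : OP := orK (nat_lit 125) (fin (add (start D10773) (orK (nat_lit 144) (fin (add (add (add (start (orK (nat_lit 143) (fin (add (start D10774) (orK (nat_lit 127) (fin (add (start D10775) (win (nat_lit 5) (nat_lit 3) (nat_lit 6) (nat_lit 3))))))))) (orK (nat_lit 145) (fin (add (start D6398) (orK (nat_lit 185) (fin (add (start D10690) D10787))))))) (orK (nat_lit 185) (fin (add (start D10690) (orK (nat_lit 127) (fin (add (start D10775) (orK (nat_lit 145) (fin (add (start (win (nat_lit 5) (nat_lit 4) (nat_lit 6) (nat_lit 0))) D10787))))))))))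 (orK (nat_lit 185) (fin (add (start D10690) (orK (nat_lit 127) (fin (add (start D10775) (orK (nat_lit 124) (fin (add (start D10799) (orK (nat_lit 104) (fin (add (start D10800) D10807)))))))))))))))))
noncomputable def D18900 : OP := orK (nat_lit 142) (fin (add (start (win (nat_lit 5) (nat_lit 1) (nat_lit 6) (nat_lit 5))) (win (nat_lit 5) (nat_lit 2) (nat_lit 6) (nat_lit 4))))
noncomputable def D18872 : OP := win (nat_lit 2) (nat_lit 1) (nat_lit 5) (nat_lit 5)
noncomputable def D18873 : OP := win (nat_lit 2) (nat_lit 2) (nat_lit 5) (nat_lit 4)
noncomputable def D18710 : OP := win (nat_lit 4) (nat_lit 5) (nat_lit 5) (nat_lit 5)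
noncomputable def D18862 : OP := win (nat_lit 4) (nat_lit 4) (nat_lit 5) (nat_lit 4)
noncomputable def D18871 : OP := win (nat_lit 0) (nat_lit 2) (nat_lit 6) (nat_lit 4)
noncomputable def D18881 : OP := orK (nat_lit 148) (fin (add (start D18810) D18832))
noncomputable def D18819 : OP := win (nat_lit 4) (nat_lit 4) (nat_lit 5) (nat_lit 5)
noncomputable def D17047 : AP := fin (add (start D13477) D13411)
noncomputable def D18861 : OP := orK (nat_lit 104) (fin (add (start D10800) (win (nat_lit 2) (nat_lit 4) (nat_lit 5) (nat_lit 4))))
noncomputable def D18834 : OP := orK (nat_lit 148) (fin (add (start D18811) D18832))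
noncomputable def D18803 : OP := win (nat_lit 7) (nat_lit 5) (nat_lit 5) (nat_lit 0)
noncomputable def D18821 : OP := orK (nat_lit 107) (fin (add (start D18818) D18819))
noncomputable def D10726 : OP := win (nat_lit 4) (nat_lit 4) (nat_lit 5) (nat_lit 0)
noncomputable def D8957 : OP := win (nat_lit 7) (nat_lit 8) (nat_lit 5) (nat_lit 0)
noncomputable def D16372 : OP := win (nat_lit 2) (nat_lit 6) (nat_lit 5) (nat_lit 0)
noncomputable def D10570 : OP := win (nat_lit 5) (nat_lit 5) (nat_lit 6) (nat_lit 0)
noncomputable def D18945 : AP := fin (add (add (add (add (start (orK (nat_lit 147) (fin (add (add (add (start (orK (nat_lit 106) (fin (add (start D6620) (orK (nat_lit 165) (fin (add (start D10708) D11536))))))) (orK (nat_lit 149) (fin (add (start D18701) D18707)))) (orK (nat_lit 127) (fin (add (add (add (start (orK (nat_lit 107) (fin (add (start D17090) (orK (nat_lit 108) (fin (add (start D8176) (orK (nat_lit 125) (fin (add (start D10726) (orK (nat_lit 128) (fin (add (start D18710) (orK (nat_lit 145) (fin (add (start D18711) D10570)))))))))))))))) (orK (nat_lit 106) (fin (add (start D6620) (orK (nat_lit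 165) (fin (add (start D10708) (orK (nat_lit 164) (fin (add (start D11205) (orK (nat_lit 144) (fin (add (start D461) (orK (nat_lit 145) (fin (add (start D18722) (orK (nat_lit 124) (fin (add (start D7349) D18724))))))))))))))))))) (orK (nat_lit 107) (fin (add (start D17090) (orK (nat_lit 108) (fin (add (start D8176) (orK (nat_lit 106) (fin (add (start D6620) (orK (nat_lit 165) (fin (add (start D10708) (orK (nat_lit 164) (fin (add (start D11205) (orK (nat_lit 144) (fin (add (start D461) (orK (nat_lit 128) (fin (add (start (win (nat_lit 4) (nat_lit 4) (nat_lit 6) (nat_lit 1))) (orK (nat_lit 129) (fin (add (start D16372) (orK (nat_lit 149) (fin (add (start D13467) D8957)))))))))))))))))))))))))))) (orK (nat_lit 107) (fin (add (start D17090) (orK (nat_lit 108) (fin (add (start D8176) (orK (nat_lit 125) (fin (add (start D10726) (orK (nat_lit 109) (fin (add (start (win (nat_lit 5) (nat_lit 5) (nat_lit 5) (nat_lit 3))) (win (nat_lit 5) (nat_lit 6) (nat_lit 5) (nat_lit 0)))))))))))))))))) (orK (nat_lit 149) (fin (add (start D18616) (orK (nat_lit 106) (fin (add (start D6620) D18707)))))))))) (orK (nat_lit 106)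 (fin (add (add (add (start D18785) D18614) (orK (nat_lit 165) (fin (add (start D10708) (orK (nat_lit 164) (fin (add (start D18786) (orK (nat_lit 105) (fin (add (start D10626) (orK (nat_lit 144) (fin (add (start D461) (orK (nat_lit 184) (fin (add (start D4171) (orK (nat_lit 125) (fin (add (start (win (nat_lit 1) (nat_lit 4) (nat_lit 5) (nat_lit 2))) D18788))))))))))))))))))) D10770)))) (orK (nat_lit 125) (fin (add (add (add (start (orK (nat_lit 105) (fin (add (start D18803) (orK (nat_lit 85) (fin (add (start (win (nat_lit 6) (nat_lit 5) (nat_lit 3) (nat_lit 0))) (win (nat_lit 6) (nat_lit 5) (nat_lit 4) (nat_lit 3))))))))) (orK (nat_lit 124) (fin (add (add (start (orK (nat_lit 127) (fin (add (start D18572) D18821)))) (orK (nat_lit 127) (fin (add (start D18821) D18560)))) (orK (nat_lit 147) (fin (add (start D18542) D18834))))))) (orK (nat_lit 127) (fin (add (add (start (orK (nat_lit 107) (fin (add (start D18818) (orK (nat_lit 87) (fin (add (start (win (nat_lit 1) (nat_lit 6) (nat_lit 3) (nat_lit 0))) (win (nat_lit 1) (nat_lit 6) (nat_lit 4) (nat_lit 3))))))))) (orK (nat_lit 105) (fin (add (start D18803)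 (orK (nat_lit 104) (fin (add (start (win (nat_lit 2) (nat_lit 4) (nat_lit 5) (nat_lit 0))) (orK (nat_lit 103) (fin (add (start D18847) (win (nat_lit 2) (nat_lit 3) (nat_lit 5) (nat_lit 3)))))))))))) (orK (nat_lit 124) (fin (add (start (orK (nat_lit 147) D18544)) (orK (nat_lit 128) (fin (add (start D18861) (orK (nat_lit 108) (fin (add (start D18862) D18710))))))))))))) (orK (nat_lit 124) (fin (add (add (add (start (orK (nat_lit 123) (fin (add (start D18539) (orK (nat_lit 122) (fin (add (start D18871) (orK (nat_lit 102) (fin (add (start D18872) D18873)))))))))) (orK (nat_lit 147) (fin (add (add (start D18834) D18881) (orK (nat_lit 127) (fin (add (start (orK (nat_lit 128) (fin (add (start D18861) (orK (nat_lit 129) D17047))))) (orK (nat_lit 107) (fin (add (start D17090) D18819)))))))))) (orK (nat_lit 147) (fin (add (start D18542) D18881)))) (orK (nat_lit 123) (fin (add (add (start (orK (nat_lit 122) (fin (add (start D18871) D18900)))) (orK (nat_lit 103) (fin (add (start D18561) (orK (nat_lit 127) (fin (add (start D18562) (orK (nat_lit 108) (fin (add (start D18862) (orK (nat_lit 128) (fin (add (start D18710)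 (orK (nat_lit 149) (fin (add (start D9655) (orK (nat_lit 129) D18903))))))))))))))))) (orK (nat_lit 102) (fin (add (start D18873) (orK (nat_lit 122) (fin (add (start D18872) D18900)))))))))))))))) D18936) (orK (nat_lit 106) (fin (add (add (start (orK (nat_lit 86) (fin (add (start D18938) D10713)))) D18942) (orK (nat_lit 186) (fin (add (start D10693) D10629)))))))
noncomputable def D20825 : AP := fin (add (add (add (add (add (add (add (add (add (add (add (add (start (orK (nat_lit 149) (fin (add (add (start (orK (nat_lit 186) (fin (add (add (add (start D17389) (orK (nat_lit 126) (fin (add (add (add (add (start D18611) D18620) (orK (nat_lit 185) (fin (add (start D10690) (orK (nat_lit 107) (fin (add (start D10625) (orK (nat_lit 106) (fin (add (start D6619) D18614)))))))))) (orK (nat_lit 185) (fin (add (start D10690) (orK (nat_lit 107) (fin (add (start D10625) (orK (nat_lit 106) (fin (add (start D6619) D18618)))))))))) D10633)))) D18641) D18649)))) D7101) (orK (nat_lit 189) (fin (add (start D5917) (orK (nat_lit 186) (fin (add (add (add (start D17389) (orK (nat_lit 147) (fin (add (add (start (orK (nat_lit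 148) (fin (add (start D6037) (orK (nat_lit 129) (fin (add (start D6617) D6588))))))) (orK (nat_lit 107) (fin (add (start D6618) (orK (nat_lit 148) (fin (add (start D6037) (orK (nat_lit 126) (fin (add (start D6616) (orK (nat_lit 185) (fin (add (start D10690) D6622))))))))))))) D18678)))) D18641) D18649)))))))))) (orK (nat_lit 126) D18945)) (orK (nat_lit 186) (fin (add (add (add (add (start D18951) (orK (nat_lit 126) (fin (add (add (add (start D10697) D10703) D10633) D10819)))) (orK (nat_lit 206) (fin (add (start D371) (orK (nat_lit 226) (fin (add (add (start (orK (nat_lit 225) (fin (add (start D18635) D7779)))) (orK (nat_lit 165) (fin (add (start D7782) (orK (nat_lit 185) (fin (add (start D10548) D18957))))))) D11078))))))) D18971) (orK (nat_lit 206) (fin (add (start D371) (orK (nat_lit 126) (fin (add (add (add (start D18583) (orK (nat_lit 145) (fin (add (start D7904) (orK (nat_lit 165) (fin (add (start D12824) (orK (nat_lit 106) (fin (add (start D18972) D10708)))))))))) (orK (nat_lit 107) (fin (add (start D10625) (orK (nat_lit 106) (fin (add (start D6619) D10770))))))) D10633)))))))))) (orK (nat_lit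 144) D19546)) (orK (nat_lit 186) (fin (add (add (add (start D18641) D18589) (orK (nat_lit 206) (fin (add (start D371) (orK (nat_lit 226) (fin (add (start D7796) D18529))))))) (orK (nat_lit 126) (fin (add (add (add (start D10703) D19555) (orK (nat_lit 105) (fin (add (start D10627) (orK (nat_lit 106) (fin (add (start D10626) D18928))))))) D19668))))))) (orK (nat_lit 186) (fin (add (add (add (start D17389) (orK (nat_lit 126) (fin (add (add (start D10697) D18578) (orK (nat_lit 185) (fin (add (start D10690) (orK (nat_lit 106) (fin (add (start D10691) (orK (nat_lit 86) (fin (add (start D18612) (orK (nat_lit 67) (fin (add (start D19673) (orK (nat_lit 66) (fin (add (start (win (nat_lit 3) (nat_lit 6) (nat_lit 2) (nat_lit 5))) (orK (nat_lit 125) (fin (add (start (win (nat_lit 1) (nat_lit 5) (nat_lit 3) (nat_lit 5))) D10773)))))))))))))))))))))) D18641) D18649)))) (orK (nat_lit 186) (fin (add (add (start D17389) D18589) (orK (nat_lit 126) (fin (add (add (add (start D10703) D18578) (orK (nat_lit 127) (fin (add (start D10775) (orK (nat_lit 147) (fin (add (start D19695) D19715))))))) (orK (nat_lit 185) (fin (add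 (start D10690) (orK (nat_lit 106) (fin (add (start D10691) (orK (nat_lit 127) (fin (add (start D10775) D18614)))))))))))))))) (orK (nat_lit 165) D20033)) (orK (nat_lit 186) (fin (add (add (start D17389) D18589) (orK (nat_lit 149) (fin (add (start (orK (nat_lit 126) (fin (add (add (add (add (start D10703) D18620) (orK (nat_lit 185) (fin (add (start D10690) (orK (nat_lit 106) (fin (add (start D10691) D18618))))))) D19668) D20046)))) D7101))))))) (orK (nat_lit 126) D20186)) (orK (nat_lit 186) (fin (add (add (add (start D17389) (orK (nat_lit 147) (fin (add (add (start (orK (nat_lit 126) (fin (add (add (start D6624) (orK (nat_lit 127) (fin (add (start D12185) (orK (nat_lit 125) (fin (add (start D10773) (orK (nat_lit 124) D18544)))))))) (orK (nat_lit 106) (fin (add (start D6620) D10629))))))) D19222) (orK (nat_lit 126) (fin (add (add (start D19695) D6624) (orK (nat_lit 127) (fin (add (start D12185) (orK (nat_lit 185) (fin (add (start D10690) (orK (nat_lit 125) (fin (add (start D10773) (orK (nat_lit 124) (fin (add (start D18542) (orK (nat_lit 104) (fin (add (start D10800) (orK (nat_lit 144) (fin (add (start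 D10799) D10807))))))))))))))))))))))))) D18641) D18971)))) (orK (nat_lit 149) (fin (add (add (start (orK (nat_lit 186) (fin (add (add (start D17389) (orK (nat_lit 126) (fin (add (add (add (add (start D18611) (orK (nat_lit 105) (fin (add (start D10627) (orK (nat_lit 106) (fin (add (start D10626) (orK (nat_lit 147) (fin (add (start D6620) D18701)))))))))) (orK (nat_lit 107) (fin (add (start D10625) (orK (nat_lit 106) (fin (add (start D6619) (orK (nat_lit 86) (fin (add (start D18612) (orK (nat_lit 145) (fin (add (start (win (nat_lit 1) (nat_lit 5) (nat_lit 4) (nat_lit 5))) D10766))))))))))))) (orK (nat_lit 107) (fin (add (start D10625) (orK (nat_lit 106) (fin (add (start D6619) (orK (nat_lit 147) (fin (add (start D6620) (orK (nat_lit 148) (fin (add (start D6616) D7139))))))))))))) D10633)))) D18951)))) D7101) D19921)))) (orK (nat_lit 147) D20823))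
noncomputable def D17399 : OP := orK (nat_lit 186) (fin (add (start D452) (orK (nat_lit 146) (fin (add (start D436) D17389)))))
noncomputable def D10621 : OP := orK (nat_lit 165) (fin (add (start D5906) D6438))
noncomputable def D10622 : AP := fin (add (start D502) D10621)
noncomputable def D10623 : OP := orK (nat_lit 189) D10622
noncomputable def D17604 : AP := fin (add (add (start D10623) D17399) D6692)
noncomputable def D7169 : OP := win (nat_lit 2) (nat_lit 7) (nat_lit 6) (nat_lit 0)
noncomputable def D16952 : AP := fin (add (start D1229) (orK (nat_lit 127) (fin (add (start D1228) (orK (nat_lit 151) (fin (add (start D1227) (orK (nat_lit 172) (fin (add (start D13706) D6062))))))))))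
noncomputable def D7265 : AP := fin (add (start D1610) D7264)
noncomputable def D7266 : OP := orK (nat_lit 108) D7265
noncomputable def D15070 : OP := orK (nat_lit 172) (fin (add (start D13706) D13707))
noncomputable def D16175 : AP := fin (add (start D15070) D9439)
noncomputable def D8679 : OP := win (nat_lit 3) (nat_lit 9) (nat_lit 5) (nat_lit 3)
noncomputable def D13019 : OP := win (nat_lit 1) (nat_lit 9) (nat_lit 4) (nat_lit 0)
noncomputable def D15554 : OP := orK (nat_lit 130) (fin (add (start D4053) (orK (nat_lit 110) (fin (add (start D13019) D8679)))))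
noncomputable def D15077 : OP := orK (nat_lit 129) (fin (add (start D8866) D15075))
noncomputable def D14233 : OP := win (nat_lit 0) (nat_lit 10) (nat_lit 7) (nat_lit 5)
noncomputable def D14232 : OP := win (nat_lit 0) (nat_lit 9) (nat_lit 7) (nat_lit 4)
noncomputable def D15074 : OP := orK (nat_lit 173) (fin (add (start D14232) D14233))
noncomputable def D8234 : OP := win (nat_lit 2) (nat_lit 8) (nat_lit 6) (nat_lit 4)
noncomputable def D13709 : OP := orK (nat_lit 128) (fin (add (start D1586) D8234))
noncomputable def D15085 : OP := orK (nat_lit 152) (fin (add (add (start (orK (nat_lit 148) (fin (add (start D15070) D13709)))) (orK (nat_lit 153) (fin (add (start D15074) D14313)))) (orK (nat_lit 153) (fin (add (start D15077) D14313)))))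
noncomputable def D13837 : OP := orK (nat_lit 127) (fin (add (start D1227) (orK (nat_lit 147) (fin (add (start D1228) D6062)))))
noncomputable def D17131 : OP := orK (nat_lit 109) (fin (add (start D7188) D6720))
noncomputable def D17129 : OP := orK (nat_lit 109) (fin (add (start D7188) D7429))
noncomputable def D17186 : OP := orK (nat_lit 150) (fin (add (add (add (start (orK (nat_lit 168) D17126)) (orK (nat_lit 168) (fin (add (start D6985) (orK (nat_lit 189) (fin (add (start D5917) (orK (nat_lit 129) (fin (add (add (add (start D17129) D17131) (orK (nat_lit 130) (fin (add (start D6603) (orK (nat_lit 128) (fin (add (start D7213) (orK (nat_lit 127) (fin (add (start D9063) (orK (nat_lit 107) (fin (add (start D14461) (orK (nat_lit 147) (fin (add (start D7408) D6962)))))))))))))))) D6724)))))))))) (orK (nat_lit 151) (fin (add (add (add (start (orK (nat_lit 168) D17124)) (orK (nat_lit 152) (fin (add (start (win (nat_lit 5) (nat_lit 8) (nat_lit 7) (nat_lit 5))) (orK (nat_lit 173) (fin (add (start D14232) (orK (nat_lit 153) (fin (add (start D14233) D15077)))))))))) (orK (nat_lit 148) (fin (add (start D1226)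 D13837)))) D15085)))) (orK (nat_lit 189) (fin (add (start D5917) (orK (nat_lit 148) (fin (add (add (add (start (orK (nat_lit 147) (fin (add (start D1229) D15554)))) (orK (nat_lit 151) (fin (add (start (orK (nat_lit 152) D16175)) (orK (nat_lit 128) (fin (add (start D1586) D7266))))))) (orK (nat_lit 147) D16952)) (orK (nat_lit 147) (fin (add (start D1229) (orK (nat_lit 127) (fin (add (start D1228) (orK (nat_lit 128) (fin (add (start D7169) (orK (nat_lit 108) (fin (add (start (win (nat_lit 1) (nat_lit 7) (nat_lit 4) (nat_lit 0))) D7264))))))))))))))))))))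
noncomputable def D13778 : OP := win (nat_lit 6) (nat_lit 8) (nat_lit 4) (nat_lit 1)
noncomputable def D8592 : OP := win (nat_lit 2) (nat_lit 8) (nat_lit 4) (nat_lit 4)
noncomputable def D8598 : OP := win (nat_lit 5) (nat_lit 8) (nat_lit 5) (nat_lit 4)
noncomputable def D13782 : OP := orK (nat_lit 109) (fin (add (start D8598) (orK (nat_lit 88) (fin (add (start D8592) D13778)))))
noncomputable def D14281 : OP := win (nat_lit 1) (nat_lit 10) (nat_lit 6) (nat_lit 4)
noncomputable def D14500 : OP := orK (nat_lit 191) (fin (add (start D14281) (orK (nat_lit 110) (fin (add (start D3520) (orK (nat_lit 111) (fin (add (start D3491) (orK (nat_lit 112) (fin (add (start D1589) D13782)))))))))))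
noncomputable def D15816 : OP := orK (nat_lit 128) (fin (add (start D1586) (orK (nat_lit 131) (fin (add (start D1587) (orK (nat_lit 171) (fin (add (start D6059) D14500))))))))
noncomputable def D13719 : OP := orK (nat_lit 152) (fin (add (start D8234) D9439))
noncomputable def D13721 : OP := orK (nat_lit 128) (fin (add (start D1586) D13719))
noncomputable def D13713 : OP := orK (nat_lit 172) (fin (add (start D13706) (orK (nat_lit 152) (fin (add (start D13707) D13709)))))
noncomputable def D16945 : OP := win (nat_lit 4) (nat_lit 6) (nat_lit 7) (nat_lit 2)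
noncomputable def D16991 : OP := orK (nat_lit 150) (fin (add (start D16945) (orK (nat_lit 148) (fin (add (add (add (add (start (orK (nat_lit 147) (fin (add (start D1229) D14455)))) (orK (nat_lit 151) (fin (add (add (add (start D13713) D13717) D13721) D15816)))) (orK (nat_lit 147) (fin (add (start D1229) D16971)))) (orK (nat_lit 147) (fin (add (start D1229) D16977)))) (orK (nat_lit 147) (fin (add (start D1229) D16985))))))))
noncomputable def D17083 : OP := orK (nat_lit 168) (fin (add (start D1485) (orK (nat_lit 189) (fin (add (start D502) D5917)))))
noncomputable def D17417 : AP := fin (add (start D5950) (orK (nat_lit 165) (fin (add (start D5550) D6324))))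
noncomputable def D6080 : OP := orK (nat_lit 107) D6079
noncomputable def D12195 : OP := orK (nat_lit 186) (fin (add (start D12184) D6080))
noncomputable def D12199 : OP := orK (nat_lit 128) (fin (add (start D6071) (orK (nat_lit 127) (fin (add (start D6072) D12195)))))
noncomputable def D4027 : AP := fin (add (start D1484) D4026)
noncomputable def D18147 : OP := orK (nat_lit 186) (fin (add (start D12184) (orK (nat_lit 166) (fin (add (start D12185) (orK (nat_lit 227) D4027))))))
noncomputable def D18149 : OP := orK (nat_lit 127) (fin (add (add (start D4210) D18147) D12195))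
noncomputable def D13839 : OP := win (nat_lit 1) (nat_lit 10) (nat_lit 6) (nat_lit 3)
noncomputable def D5953 : OP := win (nat_lit 2) (nat_lit 6) (nat_lit 8) (nat_lit 2)
noncomputable def D17418 : OP := orK (nat_lit 188) D17417
noncomputable def D17361 : OP := orK (nat_lit 188) D15394
noncomputable def D17364 : OP := orK (nat_lit 206) (fin (add (start D17361) D17362))
noncomputable def D10733 : OP := win (nat_lit 0) (nat_lit 5) (nat_lit 5) (nat_lit 4)
noncomputable def D18380 : OP := orK (nat_lit 150) D16952
noncomputable def D18379 : OP := orK (nat_lit 187) (fin (add (start D1381) D18377))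
noncomputable def D17040 : OP := win (nat_lit 7) (nat_lit 6) (nat_lit 5) (nat_lit 0)
noncomputable def D8574 : OP := win (nat_lit 5) (nat_lit 9) (nat_lit 5) (nat_lit 0)
noncomputable def D3490 : OP := win (nat_lit 5) (nat_lit 8) (nat_lit 5) (nat_lit 3)
noncomputable def D8527 : OP := win (nat_lit 4) (nat_lit 7) (nat_lit 5) (nat_lit 0)
noncomputable def D18163 : OP := orK (nat_lit 172) (fin (add (start D13706) (orK (nat_lit 152) (fin (add (start D13707) D8234)))))
noncomputable def D18167 : OP := orK (nat_lit 131) (fin (add (start D6060) (orK (nat_lit 151) (fin (add (start D1587) D18163)))))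
noncomputable def D7168 : OP := win (nat_lit 3) (nat_lit 7) (nat_lit 6) (nat_lit 1)
noncomputable def D18193 : OP := orK (nat_lit 128) (fin (add (start D7168) (orK (nat_lit 150) (fin (add (add (add (start (orK (nat_lit 151) (fin (add (start D1586) D6062)))) (orK (nat_lit 151) (fin (add (start D1586) D18163)))) D18167) (orK (nat_lit 130) (fin (add (start D4053) (orK (nat_lit 129) (fin (add (start D6561) (orK (nat_lit 110) (fin (add (start D13019) (orK (nat_lit 111) (fin (add (start D8527) (orK (nat_lit 112) (fin (add (start D3490) D8574))))))))))))))))))))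
noncomputable def D18159 : OP := orK (nat_lit 146) (fin (add (add (start D18153) (orK (nat_lit 128) (fin (add (start D7168) (orK (nat_lit 129) (fin (add (start D7253) D6617))))))) D7158))
noncomputable def D17022 : OP := orK (nat_lit 88) (fin (add (start D17014) (orK (nat_lit 87) (fin (add (start D14462) D17018)))))
noncomputable def D16993 : OP := win (nat_lit 1) (nat_lit 6) (nat_lit 6) (nat_lit 3)
noncomputable def D1230 : AP := fin (add (start D1228) D1229)
noncomputable def D18328 : OP := win (nat_lit 0) (nat_lit 2) (nat_lit 8) (nat_lit 4)
noncomputable def D10999 : OP := orK (nat_lit 243) (fin (add (start D10838) (orK (nat_lit 245) (fin (add (start D10994) D10995)))))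
noncomputable def D10966 : OP := win (nat_lit 4) (nat_lit 3) (nat_lit 11) (nat_lit 2)
noncomputable def D10839 : OP := win (nat_lit 5) (nat_lit 3) (nat_lit 11) (nat_lit 2)
noncomputable def D10841 : OP := orK (nat_lit 243) (fin (add (start D10838) D10839))
noncomputable def D11022 : OP := orK (nat_lit 204) (fin (add (start D4940) (orK (nat_lit 224) (fin (add (start D4738) (orK (nat_lit 244) (fin (add (add (add (start (orK (nat_lit 184) (fin (add (start D4939) D10841)))) (orK (nat_lit 243) (fin (add (start D10839) (orK (nat_lit 246) (fin (add (start D10966) (orK (nat_lit 266) (fin (add (start D2305) (orK (nat_lit 265) (fin (add (start D3638) (orK (nat_lit 267) (fin (add (start (win (nat_lit 2) (nat_lit 3) (nat_lit 12) (nat_lit 3))) D3612)))))))))))))))) (orK (nat_lit 184) (fin (add (start D4939) D10999)))) (orK (nat_lit 184) (fin (add (start D4939) (orK (nat_lit 265) (fin (add (start D11002) (orK (nat_lit 264) (fin (add (start D11003) (orK (nat_lit 283) (fin (add (start D11004) (orK (nat_lit 284) (fin (add (start D11005) (win (nat_lit 3) (nat_lit 4) (nat_lit 10) (nat_lit 4)))))))))))))))))))))))))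
noncomputable def D9863 : AP := fin (add (start (win (nat_lit 0) (nat_lit 4) (nat_lit 12) (nat_lit 2))) D3607)
noncomputable def D4603 : OP := win (nat_lit 7) (nat_lit 4) (nat_lit 8) (nat_lit 3)
noncomputable def D18222 : OP := orK (nat_lit 225) (fin (add (start D4602) (orK (nat_lit 245) (fin (add (start D4603) D4601)))))
noncomputable def D18141 : AP := fin (add (start D1445) (orK (nat_lit 186) (fin (add (start D4199) (orK (nat_lit 227) (fin (add (start D9231) D4201)))))))
noncomputable def D18375 : AP := fin (add (add (add (add (start (orK (nat_lit 187) D18141)) (orK (nat_lit 187) D18204)) (orK (nat_lit 205) (fin (add (add (add (start (orK (nat_lit 187) (fin (add (start D1445) (orK (nat_lit 204) (fin (add (start D17281) D10931))))))) (orK (nat_lit 226) (fin (add (start D11044) (orK (nat_lit 166) (fin (add (start D6037) (orK (nat_lit 165) (fin (add (start D7120) (orK (nat_lit 185) (fin (add (start D3024) (orK (nat_lit 225) (fin (add (start D3025) D3067)))))))))))))))) (orK (nat_lit 187) (fin (add (start D1445) (orK (nat_lit 166) (fin (add (start D6037) (orK (nat_lit 164) (fin (add (start D6036) (orK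 (nat_lit 204) (fin (add (start D17281) (orK (nat_lit 184) (fin (add (start D4939) D18222)))))))))))))))) (orK (nat_lit 204) (fin (add (add (start D10931) (orK (nat_lit 224) (fin (add (start D4738) (orK (nat_lit 227) (fin (add (start D4737) (orK (nat_lit 166) (fin (add (start D6037) (orK (nat_lit 165) (fin (add (start D7120) (orK (nat_lit 185) D11586)))))))))))))) (orK (nat_lit 184) (fin (add (start D4939) (orK (nat_lit 227) (fin (add (start D4737) (orK (nat_lit 166) (fin (add (start D6037) (orK (nat_lit 164) (fin (add (start D6036) D18222))))))))))))))))))) (orK (nat_lit 166) (fin (add (start D6037) (orK (nat_lit 165) (fin (add (add (start (orK (nat_lit 226) (fin (add (add (start (orK (nat_lit 186) (fin (add (start D7796) D7782)))) (orK (nat_lit 205) (fin (add (add (start (orK (nat_lit 185) D3143)) (orK (nat_lit 185) (fin (add (start D3024) (orK (nat_lit 204) (fin (add (start (orK (nat_lit 227) D18261)) (orK (nat_lit 184) (fin (add (start D4939) (orK (nat_lit 224) (fin (add (start D10851) D4738))))))))))))) (orK (nat_lit 227) (fin (add (add (start D18273) (orK (nat_lit 225) (fin (add (add (add (start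 (orK (nat_lit 228) (fin (add (start D18274) (orK (nat_lit 248) (fin (add (start D137) (orK (nat_lit 224) (fin (add (start D4390) D3065)))))))))) (orK (nat_lit 224) (fin (add (start D3065) (orK (nat_lit 247) (fin (add (start D4387) (orK (nat_lit 244) (fin (add (start D4403) (orK (nat_lit 267) (fin (add (start D4139) (orK (nat_lit 266) (fin (add (start D1302) (orK (nat_lit 268) (fin (add (start D572) (orK (nat_lit 245) D9863)))))))))))))))))))) (orK (nat_lit 228) (fin (add (start D18274) (orK (nat_lit 248) (fin (add (start D137) (orK (nat_lit 245) (fin (add (start D2535) (orK (nat_lit 265) (fin (add (start D2427) (orK (nat_lit 264) (fin (add (start D4589) (orK (nat_lit 247) (fin (add (start (win (nat_lit 5) (nat_lit 4) (nat_lit 12) (nat_lit 2))) (orK (nat_lit 266) (fin (add (start D18295) D3781)))))))))))))))))))))) (orK (nat_lit 228) (fin (add (start D18274) D7554))))))) D11022))))))) (orK (nat_lit 186) (fin (add (start D7796) (orK (nat_lit 245) (fin (add (start D7771) (orK (nat_lit 246) (fin (add (start D2417) D7783))))))))))))) (orK (nat_lit 186) (fin (add (start D16994) (orK (nat_lit 164) (fin (add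 (start D11161) (orK (nat_lit 163) (fin (add (add (add (start D18327) (orK (nat_lit 162) (fin (add (start D18328) (orK (nat_lit 144) (fin (add (start D461) (orK (nat_lit 161) (fin (add (start (win (nat_lit 4) (nat_lit 1) (nat_lit 7) (nat_lit 5))) D18333)))))))))) (orK (nat_lit 162) (fin (add (start D18328) (orK (nat_lit 141) (fin (add (start D18340) (orK (nat_lit 161) (fin (add (start D18341) (orK (nat_lit 145) (fin (add (start (win (nat_lit 4) (nat_lit 1) (nat_lit 7) (nat_lit 4))) D18333))))))))))))) (orK (nat_lit 162) (fin (add (start D18328) (orK (nat_lit 142) (fin (add (start (win (nat_lit 2) (nat_lit 1) (nat_lit 7) (nat_lit 5))) (win (nat_lit 2) (nat_lit 2) (nat_lit 7) (nat_lit 4)))))))))))))))))) (orK (nat_lit 164) (fin (add (start D11161) D11218)))))))))) (orK (nat_lit 127) (fin (add (add (start (orK (nat_lit 150) D1230)) (orK (nat_lit 186) (fin (add (start D16993) (orK (nat_lit 107) (fin (add (start D6074) D17022))))))) (orK (nat_lit 187) D18202)))))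
noncomputable def D18171 : OP := orK (nat_lit 128) (fin (add (start D7168) (orK (nat_lit 150) (fin (add (start D1229) D18167)))))
noncomputable def D18142 : OP := orK (nat_lit 206) D18141
noncomputable def D18175 : OP := orK (nat_lit 187) (fin (add (start D1381) D18142))
noncomputable def D7335 : OP := orK (nat_lit 166) (fin (add (start D5953) D6789))
noncomputable def D7322 : OP := orK (nat_lit 206) (fin (add (start D7315) D7320))
noncomputable def D7314 : OP := orK (nat_lit 188) D354
noncomputable def D17788 : OP := orK (nat_lit 189) (fin (add (start D5917) (orK (nat_lit 190) (fin (add (start D5916) (orK (nat_lit 187) (fin (add (add (add (start D7314) D7322) D17782) D7335))))))))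
noncomputable def D18504 : AP := fin (add (add (add (start D7101) D17788) (orK (nat_lit 147) (fin (add (add (add (add (add (start (orK (nat_lit 187) (fin (add (add (add (start D4214) (orK (nat_lit 146) (fin (add (start D1376) (orK (nat_lit 227) (fin (add (start D579) D7603))))))) D18142) D18149)))) (orK (nat_lit 148) (fin (add (add (start D7136) D18159) D18171)))) (orK (nat_lit 148) (fin (add (add (start D7136) D18175) D18193)))) (orK (nat_lit 148) (fin (add (add (add (add (start D18175) D18171) (orK (nat_lit 206) D18375)) D18379) D18380)))) (orK (nat_lit 148) (fin (add (add (add (add (start D18159) D18193) (orK (nat_lit 126) (fin (add (add (start (orK (nat_lit 146) D18152)) (orK (nat_lit 127) (fin (add (start D7277) (orK (nat_lit 106) (fin (add (start D17040) (orK (nat_lit 86) (fin (add (start (win (nat_lit 6) (nat_lit 6) (nat_lit 3) (nat_lit 0))) (win (nat_lit 7) (nat_lit 6) (nat_lit 4) (nat_lit 3)))))))))))) (orK (nat_lit 125) (fin (add (start D18392) (orK (nat_lit 127) (fin (add (start D18393) D7277)))))))))) D18379) D18401)))) (orK (nat_lit 148) (fin (add (add (add (start D7136) D18380) (orK (nat_lit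 146) (fin (add (add (add (start D7158) (orK (nat_lit 129) (fin (add (start D6617) (orK (nat_lit 145) (fin (add (start D7109) D7150))))))) D18407) (orK (nat_lit 126) (fin (add (start D6616) (orK (nat_lit 166) (fin (add (start D7139) (orK (nat_lit 106) (fin (add (start D6620) (orK (nat_lit 107) (fin (add (start D6619) (orK (nat_lit 127) (fin (add (start D16324) (orK (nat_lit 108) (fin (add (start D8176) (orK (nat_lit 129) (fin (add (start D6617) (orK (nat_lit 105) (fin (add (start D10733) D10626)))))))))))))))))))))))))))) D18401))))))) (orK (nat_lit 189) (fin (add (start D5917) (orK (nat_lit 187) (fin (add (add (add (add (start D17364) (orK (nat_lit 166) (fin (add (add (start D17418) D6789) (orK (nat_lit 190) (fin (add (start D5953) (orK (nat_lit 227) (fin (add (start D1484) D7603)))))))))) (orK (nat_lit 147) (fin (add (add (add (start D17210) (orK (nat_lit 148) (fin (add (start D1381) D7136)))) (orK (nat_lit 148) (fin (add (start D1381) (orK (nat_lit 150) (fin (add (start D1229) (orK (nat_lit 206) (fin (add (start D1445) (orK (nat_lit 127) (fin (add (start D1228) (orK (nat_lit 131) (fin (add (start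 D6060) (orK (nat_lit 151) (fin (add (start D1587) (orK (nat_lit 171) (fin (add (start D6059) (orK (nat_lit 190) (fin (add (start D13839) D7315))))))))))))))))))))))))) D6113)))) (orK (nat_lit 147) (fin (add (add (add (add (start D6113) D18482) D18149) (orK (nat_lit 128) (fin (add (start D6071) (orK (nat_lit 127) (fin (add (start D6072) D18147))))))) D12199)))) (orK (nat_lit 188) (fin (add (add (add (start D355) D15395) (orK (nat_lit 206) (fin (add (start D15393) (orK (nat_lit 147) (fin (add (start D1445) (orK (nat_lit 148) (fin (add (start D1381) (orK (nat_lit 150) (fin (add (start D1229) (orK (nat_lit 126) (fin (add (start D6014) D4208)))))))))))))))) (orK (nat_lit 166) D17417)))))))))))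
noncomputable def D14307 : OP := win (nat_lit 0) (nat_lit 7) (nat_lit 6) (nat_lit 3)
noncomputable def D15497 : OP := orK (nat_lit 151) (fin (add (start D14307) D14930))
noncomputable def D15498 : AP := fin (add (start D9063) D15497)
noncomputable def D15499 : OP := orK (nat_lit 127) D15498
noncomputable def D14306 : OP := win (nat_lit 2) (nat_lit 7) (nat_lit 6) (nat_lit 3)
noncomputable def D14932 : OP := orK (nat_lit 151) (fin (add (start D14306) D14930))
noncomputable def D14933 : AP := fin (add (start D9063) D14932)
noncomputable def D16127 : OP := orK (nat_lit 70) (fin (add (start D7444) (orK (nat_lit 69) (fin (add (start D7445) D7446)))))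
noncomputable def D17674 : OP := orK (nat_lit 168) (fin (add (start D7188) (orK (nat_lit 89) (fin (add (start D7430) (orK (nat_lit 70) (fin (add (start D7444) (orK (nat_lit 69) (fin (add (start D7445) D7435)))))))))))
noncomputable def D17676 : OP := orK (nat_lit 109) (fin (add (add (start D7429) D17674) D7443))
noncomputable def D17902 : OP := orK (nat_lit 129) (fin (add (add (add (add (start D6724) D13488) D17676) (orK (nat_lit 109) (fin (add (add (start D6720) D17674) (orK (nat_lit 128) (fin (add (start D7213) (orK (nat_lit 150) (fin (add (add (start (orK (nat_lit 168) (fin (add (start D7188) (orK (nat_lit 89) (fin (add (start D7430) D16127))))))) (orK (nat_lit 127) D14933)) D15499)))))))))) D7475))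
noncomputable def D17767 : OP := orK (nat_lit 129) (fin (add (start D6588) (orK (nat_lit 110) (fin (add (start D6716) (orK (nat_lit 109) (fin (add (start D6717) (orK (nat_lit 168) (fin (add (start D7188) (orK (nat_lit 89) (fin (add (start D7430) D13082))))))))))))))
noncomputable def D17532 : AP := fin (add (start D3277) D1376)
noncomputable def D17876 : OP := orK (nat_lit 146) D17532
noncomputable def D7282 : AP := fin (add (start D1381) (orK (nat_lit 126) (fin (add (start D4208) (orK (nat_lit 127) D7278)))))
noncomputable def D17222 : OP := orK (nat_lit 147) D7282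
noncomputable def D5034 : AP := fin (add (start D2422) (orK (nat_lit 285) (fin (add (start (win (nat_lit 3) (nat_lit 5) (nat_lit 10) (nat_lit 3))) D3789))))
noncomputable def D12494 : OP := orK (nat_lit 288) (fin (add (start D1785) (orK (nat_lit 287) (fin (add (start D1786) D1792)))))
noncomputable def D16642 : OP := orK (nat_lit 228) (fin (add (start D3008) (orK (nat_lit 247) (fin (add (add (add (start D16625) (orK (nat_lit 267) (fin (add (start D1791) D12494)))) (orK (nat_lit 266) (fin (add (start D1301) (orK (nat_lit 267) (fin (add (start D1302) D12494))))))) (orK (nat_lit 246) (fin (add (start D134) (orK (nat_lit 226) (fin (add (start D3935) (orK (nat_lit 245) (fin (add (start D135) (orK (nat_lit 265) D5034)))))))))))))))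
noncomputable def D17948 : OP := orK (nat_lit 206) (fin (add (add (start D17361) (orK (nat_lit 227) (fin (add (start D9231) D6168)))) (orK (nat_lit 227) (fin (add (add (start D9231) (orK (nat_lit 246) (fin (add (start D872) (orK (nat_lit 247) (fin (add (start D134) D17940))))))) D16642)))))
noncomputable def D8181 : OP := orK (nat_lit 108) (fin (add (start D8175) (orK (nat_lit 107) (fin (add (start D8176) (win (nat_lit 6) (nat_lit 7) (nat_lit 5) (nat_lit 4)))))))
noncomputable def D17520 : OP := orK (nat_lit 206) (fin (add (start D10830) D9231))
noncomputable def D1536 : OP := orK (nat_lit 168) (fin (add (start D1111) (orK (nat_lit 249) (fin (add (start D1526) D1532)))))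
noncomputable def D1444 : OP := win (nat_lit 1) (nat_lit 8) (nat_lit 8) (nat_lit 5)
noncomputable def D1511 : AP := fin (add (start D1444) D1510)
noncomputable def D1512 : OP := orK (nat_lit 228) D1511
noncomputable def D1550 : AP := fin (add (start D1507) (orK (nat_lit 229) (fin (add (add (start D1512) D1536) (orK (nat_lit 168) (fin (add (start D1111) (orK (nat_lit 188) (fin (add (start D1537) (orK (nat_lit 187) (fin (add (start D1538) (orK (nat_lit 227) (fin (add (start D38) D1539))))))))))))))))
noncomputable def D7877 : OP := orK (nat_lit 209) D1550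
noncomputable def D5913 : OP := orK (nat_lit 191) (fin (add (start (win (nat_lit 2) (nat_lit 7) (nat_lit 8) (nat_lit 3))) D1852))
noncomputable def D5914 : AP := fin (add (start D833) D5913)
noncomputable def D7313 : OP := orK (nat_lit 168) D5914
noncomputable def D16849 : AP := fin (add (start D5917) (orK (nat_lit 190) (fin (add (start D5916) D7313))))
noncomputable def D17413 : AP := fin (add (start D502) D17412)
noncomputable def D5915 : OP := orK (nat_lit 190) D5914
noncomputable def D17421 : AP := fin (add (add (start D10621) D6690) D17412)
noncomputable def D17422 : OP := orK (nat_lit 168) D17421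
noncomputable def D17414 : OP := orK (nat_lit 168) D17413
noncomputable def D17407 : OP := orK (nat_lit 168) D6691
noncomputable def D17406 : OP := orK (nat_lit 168) D10622
noncomputable def D17367 : OP := orK (nat_lit 148) (fin (add (start D7367) D7375))
noncomputable def D17365 : OP := orK (nat_lit 148) D7368
noncomputable def D1014 : OP := win (nat_lit 6) (nat_lit 8) (nat_lit 6) (nat_lit 3)
noncomputable def D8395 : OP := orK (nat_lit 128) (fin (add (start D1013) (orK (nat_lit 209) (fin (add (start D1014) D1858)))))
noncomputable def D8012 : AP := fin (add (start D134) D1473)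
noncomputable def D11693 : AP := fin (add (start D1307) (orK (nat_lit 246) (fin (add (start D872) (orK (nat_lit 247) D8012)))))
noncomputable def D11762 : OP := orK (nat_lit 187) D11693
noncomputable def D11975 : OP := orK (nat_lit 247) (fin (add (start D86) (orK (nat_lit 267) (fin (add (add (add (start (orK (nat_lit 286) (fin (add (start D1693) (orK (nat_lit 287) (fin (add (start D1694) (orK (nat_lit 248) (fin (add (start D189) D4291)))))))))) D4906) (orK (nat_lit 248) (fin (add (start D4291) (orK (nat_lit 287) (fin (add (start D189) D1788))))))) (orK (nat_lit 248) (fin (add (start D4291) (orK (nat_lit 266) (fin (add (start D1302) (orK (nat_lit 265) (fin (add (start D3901) (orK (nat_lit 268) (fin (add (start D3902) D572)))))))))))))))))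
noncomputable def D948 : OP := win (nat_lit 7) (nat_lit 8) (nat_lit 7) (nat_lit 1)
noncomputable def D17488 : OP := orK (nat_lit 148) (fin (add (add (start D17198) (orK (nat_lit 229) (fin (add (start D948) (orK (nat_lit 227) (fin (add (add (add (start (orK (nat_lit 228) (fin (add (start D1169) (orK (nat_lit 187) D17471))))) (orK (nat_lit 228) (fin (add (start D1169) D11975)))) D11762) (orK (nat_lit 228) (fin (add (start D1169) (orK (nat_lit 187) (fin (add (start D1307) (orK (nat_lit 246) (fin (add (start D872) D1170)))))))))))))))) D8395))
noncomputable def D17107 : OP := orK (nat_lit 187) (fin (add (start D4210) D7324))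
noncomputable def D9067 : AP := fin (add (start D7408) D9066)
noncomputable def D7171 : OP := orK (nat_lit 127) (fin (add (start D1228) D7169))
noncomputable def D7175 : OP := orK (nat_lit 128) (fin (add (start D7168) (orK (nat_lit 150) (fin (add (start D1229) D7171)))))
noncomputable def D16850 : OP := orK (nat_lit 189) D16849
noncomputable def D17577 : OP := orK (nat_lit 189) (fin (add (start D502) (orK (nat_lit 165) (fin (add (start D5906) D4181)))))
noncomputable def D7572 : OP := orK (nat_lit 186) (fin (add (start D140) (orK (nat_lit 206) (fin (add (start D1725) D7568)))))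
noncomputable def D7574 : OP := orK (nat_lit 247) (fin (add (add (start D3210) D7572) D3226))
noncomputable def D7584 : OP := orK (nat_lit 227) (fin (add (add (add (add (start D7548) (orK (nat_lit 226) (fin (add (start D2035) (orK (nat_lit 206) (fin (add (start D4140) (orK (nat_lit 228) (fin (add (start D32) D7560)))))))))) D7574) (orK (nat_lit 248) (fin (add (start D1368) (orK (nat_lit 247) (fin (add (start D1369) D3226))))))) (orK (nat_lit 248) (fin (add (start D1368) (orK (nat_lit 247) (fin (add (start D1369) D7572))))))))
noncomputable def D6454 : OP := orK (nat_lit 164) (fin (add (start D6445) D4177))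
noncomputable def D1727 : OP := win (nat_lit 7) (nat_lit 6) (nat_lit 8) (nat_lit 3)
noncomputable def D10624 : OP := win (nat_lit 6) (nat_lit 6) (nat_lit 6) (nat_lit 4)
noncomputable def D10641 : OP := orK (nat_lit 166) (fin (add (add (start D10623) (orK (nat_lit 186) (fin (add (start D452) (orK (nat_lit 146) (fin (add (start D436) (orK (nat_lit 126) (fin (add (start D10624) D10633)))))))))) D6692))
noncomputable def D8980 : OP := win (nat_lit 5) (nat_lit 9) (nat_lit 6) (nat_lit 0)
noncomputable def D8699 : OP := win (nat_lit 5) (nat_lit 9) (nat_lit 6) (nat_lit 4)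
noncomputable def D8903 : OP := win (nat_lit 0) (nat_lit 10) (nat_lit 6) (nat_lit 5)
noncomputable def D8991 : OP := orK (nat_lit 133) (fin (add (start D8903) D8699))
noncomputable def D16409 : OP := orK (nat_lit 112) (fin (add (start D7414) (orK (nat_lit 132) (fin (add (start D7415) (orK (nat_lit 153) (fin (add (start (win (nat_lit 0) (nat_lit 9) (nat_lit 6) (nat_lit 4))) D8991))))))))
noncomputable def D8306 : OP := orK (nat_lit 152) (fin (add (start D7400) (orK (nat_lit 132) (fin (add (start D7401) D7417)))))
noncomputable def D17245 : OP := win (nat_lit 5) (nat_lit 5) (nat_lit 8) (nat_lit 1)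
noncomputable def D8195 : OP := orK (nat_lit 146) D8194
noncomputable def D7284 : AP := fin (add (add (add (start D7136) D7175) (orK (nat_lit 187) (fin (add (start D1381) (orK (nat_lit 146) (fin (add (start D1376) (orK (nat_lit 166) (fin (add (start D7139) D2053)))))))))) (orK (nat_lit 187) D7282))
noncomputable def D16863 : AP := fin (add (start D7121) (orK (nat_lit 147) D7133))
noncomputable def D17063 : OP := orK (nat_lit 186) (fin (add (start D12185) (orK (nat_lit 206) (fin (add (start (win (nat_lit 3) (nat_lit 6) (nat_lit 6) (nat_lit 3))) D16994)))))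
noncomputable def D16998 : OP := orK (nat_lit 186) (fin (add (start D12185) (orK (nat_lit 206) (fin (add (start D16993) D16994)))))
noncomputable def D17094 : OP := orK (nat_lit 108) (fin (add (start D8176) D8175))
noncomputable def D16343 : OP := win (nat_lit 7) (nat_lit 8) (nat_lit 4) (nat_lit 3)
noncomputable def D16999 : OP := win (nat_lit 1) (nat_lit 7) (nat_lit 3) (nat_lit 0)
noncomputable def D17000 : OP := win (nat_lit 3) (nat_lit 7) (nat_lit 4) (nat_lit 3)
noncomputable def D16323 : OP := win (nat_lit 3) (nat_lit 7) (nat_lit 5) (nat_lit 0)
noncomputable def D15524 : OP := win (nat_lit 0) (nat_lit 6) (nat_lit 6) (nat_lit 3)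
noncomputable def D16325 : OP := win (nat_lit 5) (nat_lit 6) (nat_lit 7) (nat_lit 2)
noncomputable def D16870 : AP := fin (add (start D16868) (win (nat_lit 0) (nat_lit 3) (nat_lit 7) (nat_lit 3)))
noncomputable def D17187 : AP := fin (add (add (add (add (start D7101) D16850) (orK (nat_lit 166) (fin (add (add (add (add (start D16857) (orK (nat_lit 168) (fin (add (start D1485) D451)))) (orK (nat_lit 165) (fin (add (add (add (add (start (orK (nat_lit 168) (fin (add (start D3360) D6438)))) (orK (nat_lit 148) D16863)) (orK (nat_lit 168) D16865)) (orK (nat_lit 144) (fin (add (add (add (start (orK (nat_lit 143) (fin (add (start (win (nat_lit 2) (nat_lit 3) (nat_lit 7) (nat_lit 3))) (orK (nat_lit 145) D16870))))) (orK (nat_lit 164) (fin (add (start D461) (orK (nat_lit 184) (fin (add (start D4171) (orK (nat_lit 185) (fin (add (start D16874) (orK (nat_lit 124) D11232))))))))))) (orK (nat_lit 185) (fin (add (add (start (orK (nat_lit 184) (fin (add (start D16874) (orK (nat_lit 183) (fin (add (start D9699) D16884))))))) (orK (nat_lit 205) (fin (add (add (start (orK (nat_lit 225) (fin (add (start D3038) D3031))))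 (orK (nat_lit 124) (fin (add (start D11220) (orK (nat_lit 164) D16892))))) D11153)))) (orK (nat_lit 145) (fin (add (start D16898) (orK (nat_lit 205) (fin (add (start D3030) (orK (nat_lit 146) (fin (add (start D3029) D6466))))))))))))) (orK (nat_lit 145) (fin (add (start D16898) (orK (nat_lit 143) D16870)))))))) (orK (nat_lit 164) (fin (add (add (start D11167) D16940) D11181))))))) D16991) (orK (nat_lit 147) (fin (add (add (add (start D16992) (orK (nat_lit 150) (fin (add (start D16325) (orK (nat_lit 127) (fin (add (add (add (start D16998) (orK (nat_lit 128) (fin (add (start (orK (nat_lit 108) (fin (add (start D16323) (orK (nat_lit 88) (fin (add (start D16999) D17000))))))) (orK (nat_lit 129) D15498))))) (orK (nat_lit 187) (fin (add (start D7324) (orK (nat_lit 126) (fin (add (start D4207) (orK (nat_lit 128) (fin (add (start D15524) D6072)))))))))) (orK (nat_lit 107) (fin (add (start D16324) D17022)))))))))) (orK (nat_lit 127) (fin (add (add (add (start (orK (nat_lit 108) (fin (add (add (add (start (orK (nat_lit 88) (fin (add (start D17000) (orK (nat_lit 128) (fin (add (start D16999) D16323))))))) (orK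 (nat_lit 187) (fin (add (start D8175) D4210)))) (orK (nat_lit 107) (fin (add (start D8176) (orK (nat_lit 106) (fin (add (start D6075) (orK (nat_lit 126) (fin (add (start D17040) (orK (nat_lit 125) (fin (add (start D10726) D10727))))))))))))) (orK (nat_lit 88) (fin (add (start D17000) (orK (nat_lit 128) (fin (add (start D16999) (orK (nat_lit 129) (fin (add (start D16343) (orK (nat_lit 126) (fin (add (start D13467) (orK (nat_lit 146) D17047))))))))))))))))) (orK (nat_lit 187) D7596)) D16998) D17063)))) (orK (nat_lit 127) (fin (add (add (start (orK (nat_lit 187) (fin (add (start (orK (nat_lit 186) D17066)) D7326)))) (orK (nat_lit 187) D7330)) D17063)))))))))) (orK (nat_lit 166) (fin (add (add (add (start D17083) D16856) (orK (nat_lit 189) (fin (add (start D5917) (orK (nat_lit 168) (fin (add (start D502) (orK (nat_lit 165) (fin (add (start D5906) D3360)))))))))) (orK (nat_lit 147) (fin (add (add (start D16992) (orK (nat_lit 127) (fin (add (add (add (start (orK (nat_lit 107) (fin (add (add (start (orK (nat_lit 187) (fin (add (start (orK (nat_lit 146) (fin (add (start D17090) D1376)))) D17094)))) (orK (nat_lit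 187) (fin (add (start D17094) D6078)))) (orK (nat_lit 86) (fin (add (start D17016) (orK (nat_lit 87) (fin (add (start D17099) D17015)))))))))) D17107) D16998) D17063)))) (orK (nat_lit 148) (fin (add (start D6037) (orK (nat_lit 187) (fin (add (start D1381) (orK (nat_lit 165) (fin (add (start D7120) (orK (nat_lit 189) (fin (add (start D5917) (orK (nat_lit 188) D6325)))))))))))))))))))) D17186)
noncomputable def D20831 : AP := fin (add (add (add (add (add (add (add (add (add (add (add (add (add (start (orK (nat_lit 149) D17187)) (orK (nat_lit 149) (fin (add (add (start D7101) (orK (nat_lit 148) (fin (add (add (add (add (start (orK (nat_lit 166) (fin (add (add (add (start (orK (nat_lit 168) D17189)) (orK (nat_lit 165) D16863)) (orK (nat_lit 150) (fin (add (start D16945) D6547)))) (orK (nat_lit 147) D7135))))) (orK (nat_lit 168) D17199)) (orK (nat_lit 187) D17213)) (orK (nat_lit 187) (fin (add (start (orK (nat_lit 227) (fin (add (start D1382) D9331)))) D17222)))) (orK (nat_lit 147) D7284))))) D16850)))) (orK (nat_lit 187) (fin (add (add (add (add (add (add (start D7333) (orK (nat_lit 168) (fin (add (add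 (start D7371) (orK (nat_lit 166) (fin (add (add (start D8207) D6808) (orK (nat_lit 186) (fin (add (start D452) D8195))))))) D17241)))) (orK (nat_lit 166) (fin (add (add (add (start D6789) (orK (nat_lit 226) (fin (add (add (add (start (orK (nat_lit 227) (fin (add (start D2035) (orK (nat_lit 186) (fin (add (start D4026) (orK (nat_lit 185) (fin (add (start D17245) (orK (nat_lit 184) (fin (add (start D10781) (orK (nat_lit 164) (fin (add (start D7635) (orK (nat_lit 188) (fin (add (start D17246) D7638))))))))))))))))))) D17262) D17265) (orK (nat_lit 206) (fin (add (start D4140) (orK (nat_lit 186) (fin (add (add (start D17267) (orK (nat_lit 227) (fin (add (start D17268) (orK (nat_lit 225) (fin (add (start D7779) (orK (nat_lit 224) (fin (add (start D3065) (orK (nat_lit 185) (fin (add (start D17245) (orK (nat_lit 244) (fin (add (start D4403) (orK (nat_lit 165) (fin (add (start D7803) D7782))))))))))))))))))) (orK (nat_lit 225) (fin (add (start D7779) (orK (nat_lit 185) (fin (add (start D17245) (orK (nat_lit 184) (fin (add (start D5231) (orK (nat_lit 204) (fin (add (start D5352) (orK (nat_lit 164) (fin (add (start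 D7635) (orK (nat_lit 205) (fin (add (start D17281) D4602)))))))))))))))))))))))))))) D8125) (orK (nat_lit 146) (fin (add (add (start D6389) (orK (nat_lit 168) (fin (add (start D436) (orK (nat_lit 185) (fin (add (start D445) (orK (nat_lit 165) (fin (add (start D444) (orK (nat_lit 164) (fin (add (start D6171) (orK (nat_lit 143) (fin (add (start D11158) (orK (nat_lit 163) (fin (add (start D11159) (win (nat_lit 4) (nat_lit 3) (nat_lit 7) (nat_lit 5))))))))))))))))))))) D8123))))))) D7365) D17318) D17356) D17357)))) (orK (nat_lit 189) (fin (add (add (start D17360) (orK (nat_lit 166) (fin (add (add (add (add (start D17406) D17407) D17414) (orK (nat_lit 187) (fin (add (start D17418) D8125)))) D17422)))) (orK (nat_lit 149) (fin (add (start D5917) (orK (nat_lit 168) (fin (add (add (add (start (orK (nat_lit 166) (fin (add (start D1485) D6690)))) (orK (nat_lit 129) (fin (add (add (start D17129) D17131) (orK (nat_lit 130) (fin (add (start D6603) (orK (nat_lit 128) (fin (add (start D7213) (orK (nat_lit 131) (fin (add (add (add (start D8306) (orK (nat_lit 151) (fin (add (start D7214) (orK (nat_lit 127) (fin (add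 (start D7215) D17432))))))) D16409) (orK (nat_lit 112) (fin (add (start D7414) (orK (nat_lit 132) (fin (add (start D7415) (orK (nat_lit 150) (fin (add (start D8980) (orK (nat_lit 127) D9065))))))))))))))))))))))) (orK (nat_lit 166) D17421)) (orK (nat_lit 166) D17453))))))))))) (orK (nat_lit 168) (fin (add (add (add (add (add (add (add (start D10641) (orK (nat_lit 189) (fin (add (add (start D5915) D17488) (orK (nat_lit 166) (fin (add (start D502) (orK (nat_lit 186) (fin (add (start D452) (orK (nat_lit 206) (fin (add (add (start (orK (nat_lit 147) (fin (add (start D16994) (orK (nat_lit 127) (fin (add (start D12185) D16993))))))) (orK (nat_lit 146) D17388)) (orK (nat_lit 227) (fin (add (start D1726) (orK (nat_lit 247) (fin (add (start D1727) D1725))))))))))))))))))) (orK (nat_lit 187) (fin (add (add (start D7371) (orK (nat_lit 227) (fin (add (add (start (orK (nat_lit 247) (fin (add (start D1308) D3210)))) D17520) D5884)))) D7365)))) (orK (nat_lit 148) (fin (add (add (start D17198) (orK (nat_lit 187) (fin (add (start D1579) (orK (nat_lit 146) (fin (add (add (add (start (orK (nat_lit 166) D17527)) (orK (nat_lit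 145) (fin (add (start (win (nat_lit 0) (nat_lit 5) (nat_lit 7) (nat_lit 2))) D6600)))) D17531) (orK (nat_lit 147) D17532)))))))) (orK (nat_lit 189) (fin (add (start D8395) (orK (nat_lit 166) (fin (add (start D502) (orK (nat_lit 145) (fin (add (start D442) (orK (nat_lit 165) (fin (add (start D443) D6454)))))))))))))))) (orK (nat_lit 187) (fin (add (add (start D7371) D7584) (orK (nat_lit 148) (fin (add (add (start D7369) (orK (nat_lit 189) (fin (add (add (add (start D5915) (orK (nat_lit 166) (fin (add (start D502) (orK (nat_lit 185) (fin (add (start D445) (orK (nat_lit 165) (fin (add (start D444) (orK (nat_lit 144) (fin (add (start D462) (orK (nat_lit 164) (fin (add (start D461) D6445)))))))))))))))) (orK (nat_lit 209) (fin (add (start D1858) (orK (nat_lit 188) (fin (add (start D1538) (orK (nat_lit 190) (fin (add (start D910) D353)))))))))) (orK (nat_lit 209) (fin (add (start D1858) (orK (nat_lit 186) (fin (add (start D6073) D7881)))))))))) D7377))))))) (orK (nat_lit 187) (fin (add (add (add (start D7371) (orK (nat_lit 166) (fin (add (start D17577) D8125)))) D7379) (orK (nat_lit 128) (fin (add (add (add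 (start D17365) D17367) (orK (nat_lit 166) (fin (add (add (start (orK (nat_lit 146) (fin (add (start D436) D8123)))) D17577) (orK (nat_lit 189) (fin (add (start D502) (orK (nat_lit 147) (fin (add (add (start (orK (nat_lit 188) (fin (add (start D501) D8137)))) (orK (nat_lit 165) (fin (add (start D5906) (orK (nat_lit 184) (fin (add (start D4170) (orK (nat_lit 164) (fin (add (start D4171) D17587)))))))))) D6111)))))))))) D17380))))))) (orK (nat_lit 166) D17604)) (orK (nat_lit 187) (fin (add (add (start D7379) D17468) (orK (nat_lit 227) (fin (add (start D1307) (orK (nat_lit 166) (fin (add (start D1484) D17607))))))))))))) (orK (nat_lit 149) (fin (add (add (add (start D16850) D17666) (orK (nat_lit 189) (fin (add (start D5917) (orK (nat_lit 129) (fin (add (start D6588) D17676))))))) (orK (nat_lit 189) (fin (add (start D5917) (orK (nat_lit 129) (fin (add (start D6588) (orK (nat_lit 147) (fin (add (add (add (add (start (orK (nat_lit 130) (fin (add (start D6603) (orK (nat_lit 148) (fin (add (start D6561) (orK (nat_lit 128) (fin (add (start D7168) D9057)))))))))) (orK (nat_lit 148) (fin (add (add (start D7136)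 (orK (nat_lit 187) D4221)) D7175)))) (orK (nat_lit 130) (fin (add (start D6603) (orK (nat_lit 148) (fin (add (start D6561) D17691))))))) (orK (nat_lit 148) (fin (add (add (start (orK (nat_lit 128) (fin (add (start D7168) (orK (nat_lit 130) (fin (add (start D6603) D9057))))))) (orK (nat_lit 150) (fin (add (start D1229) (orK (nat_lit 127) (fin (add (start D1228) (orK (nat_lit 128) (fin (add (start D7169) D7168)))))))))) (orK (nat_lit 130) (fin (add (start D6603) D17691))))))) (orK (nat_lit 127) (fin (add (add (add (start (orK (nat_lit 130) (fin (add (start D6603) (orK (nat_lit 128) D9067))))) D17107) (orK (nat_lit 107) (fin (add (add (start (orK (nat_lit 87) (fin (add (start (orK (nat_lit 166) (fin (add (start D17099) D16324)))) D17018)))) (orK (nat_lit 146) (fin (add (start (orK (nat_lit 166) D17723)) (orK (nat_lit 130) (fin (add (start D6603) D17725))))))) (orK (nat_lit 106) (fin (add (start D6075) (orK (nat_lit 130) (fin (add (start D17730) D6603)))))))))) (orK (nat_lit 110) (fin (add (start D6716) (orK (nat_lit 109) (fin (add (start D6717) (orK (nat_lit 126) (fin (add (start (win (nat_lit 4) (nat_lit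 6) (nat_lit 5) (nat_lit 2))) (orK (nat_lit 187) (fin (add (start D4207) D7324)))))))))))))))))))))))))))) (orK (nat_lit 149) (fin (add (add (start D17666) (orK (nat_lit 189) (fin (add (start D5917) D17767)))) D17788)))) (orK (nat_lit 189) (fin (add (add (add (start D17360) D7877) (orK (nat_lit 168) (fin (add (add (start D5915) D17488) (orK (nat_lit 166) (fin (add (start D502) (orK (nat_lit 165) (fin (add (add (add (start D447) (orK (nat_lit 144) (fin (add (start D462) (orK (nat_lit 164) (fin (add (start D461) (orK (nat_lit 148) (fin (add (start D6445) (orK (nat_lit 187) (fin (add (start D1579) D6791))))))))))))) (orK (nat_lit 144) (fin (add (start D462) (orK (nat_lit 164) (fin (add (start D461) (orK (nat_lit 148) (fin (add (start D6445) (orK (nat_lit 187) (fin (add (start D1579) (orK (nat_lit 163) (fin (add (start D6796) (orK (nat_lit 108) (fin (add (start D9242) D6800))))))))))))))))))) D4181)))))))))) (orK (nat_lit 168) (fin (add (add (add (start D5915) (orK (nat_lit 187) (fin (add (add (add (start D7371) D17364) D7379) (orK (nat_lit 128) (fin (add (add (add (start D17365) D17367) (orK (nat_lit 206)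 (fin (add (add (start (orK (nat_lit 147) (fin (add (start D1445) (orK (nat_lit 127) (fin (add (start D4206) D6072))))))) D17361) (orK (nat_lit 147) (fin (add (start D1445) (orK (nat_lit 127) (fin (add (start D6072) (orK (nat_lit 188) (fin (add (start D129) D919))))))))))))) D17380))))))) (orK (nat_lit 166) (fin (add (start D502) (orK (nat_lit 149) (fin (add (start D1485) (orK (nat_lit 165) (fin (add (start D3360) (orK (nat_lit 144) (fin (add (start D462) D447))))))))))))) (orK (nat_lit 166) (fin (add (add (add (start (orK (nat_lit 165) (fin (add (start D5906) D6440)))) D6690) (orK (nat_lit 149) (fin (add (start D1485) (orK (nat_lit 186) (fin (add (start D452) (orK (nat_lit 187) (fin (add (add (start (orK (nat_lit 227) (fin (add (start D1307) D4026)))) (orK (nat_lit 129) (fin (add (add (start (orK (nat_lit 128) (fin (add (start D7213) (orK (nat_lit 188) (fin (add (start D8135) D6368))))))) (orK (nat_lit 206) (fin (add (start D7568) (orK (nat_lit 188) (fin (add (start D6368) D7968))))))) (orK (nat_lit 147) (fin (add (start D17839) (orK (nat_lit 128) (fin (add (start D6071) D7213)))))))))) (orK (nat_lit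 227) (fin (add (start D4026) (orK (nat_lit 226) (fin (add (start D2035) (orK (nat_lit 206) (fin (add (start D4140) (orK (nat_lit 225) (fin (add (start D7779) D9231)))))))))))))))))))))) D3364)))))))))) (orK (nat_lit 189) (fin (add (add (start D17360) (orK (nat_lit 166) (fin (add (add (add (add (start D17406) D17407) D17414) (orK (nat_lit 187) (fin (add (add (start D17418) D6789) (orK (nat_lit 190) (fin (add (start D5953) (orK (nat_lit 227) (fin (add (start D1484) D7548)))))))))) D17422)))) D7877)))) (orK (nat_lit 189) (fin (add (add (add (start D17360) (orK (nat_lit 168) (fin (add (add (add (start D5915) (orK (nat_lit 187) (fin (add (add (add (start D7371) D17364) D7379) (orK (nat_lit 148) (fin (add (add (start D7369) (orK (nat_lit 147) (fin (add (start D17876) (orK (nat_lit 206) (fin (add (start D1445) D17361))))))) D7377))))))) (orK (nat_lit 166) D17413)) (orK (nat_lit 187) (fin (add (start D7371) D17468))))))) (orK (nat_lit 149) D16849)) (orK (nat_lit 149) (fin (add (start D5917) D17902))))))) (orK (nat_lit 189) (fin (add (add (add (start D17360) D7877) (orK (nat_lit 187) (fin (add (add (add (add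 (add (start D7365) D17364) D17948) (orK (nat_lit 227) (fin (add (add (start D8204) D1373) D17520)))) (orK (nat_lit 227) (fin (add (add (add (start D6168) D7603) D5886) (orK (nat_lit 228) (fin (add (start D32) (orK (nat_lit 226) (fin (add (start D2035) (orK (nat_lit 147) (fin (add (add (add (start D1384) (orK (nat_lit 168) (fin (add (start D1307) (orK (nat_lit 209) (fin (add (start D2036) (orK (nat_lit 188) (fin (add (start D1538) (orK (nat_lit 191) (fin (add (start (win (nat_lit 2) (nat_lit 7) (nat_lit 8) (nat_lit 1))) D8149))))))))))))) (orK (nat_lit 209) (fin (add (start D2036) (orK (nat_lit 126) (fin (add (start D4208) (orK (nat_lit 127) (fin (add (start D4207) (orK (nat_lit 188) (fin (add (start D1538) D8181))))))))))))) D6113))))))))))))) (orK (nat_lit 168) (fin (add (start (orK (nat_lit 188) (fin (add (start (orK (nat_lit 186) (fin (add (start D6124) D2021)))) (orK (nat_lit 190) (fin (add (start D353) D17980))))))) D7379))))))) (orK (nat_lit 149) (fin (add (add (add (add (start (orK (nat_lit 187) (fin (add (add (add (add (start D17364) (orK (nat_lit 227) (fin (add (start (orK (nat_lit 148) (fin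 (add (start D1382) D17222)))) D7603)))) D17948) (orK (nat_lit 148) (fin (add (start (orK (nat_lit 227) (fin (add (start D1382) (orK (nat_lit 228) (fin (add (start D32) (orK (nat_lit 206) (fin (add (start D3008) (orK (nat_lit 205) (fin (add (start D3009) (orK (nat_lit 188) D12504)))))))))))))) D17222)))) D7365)))) D7099) (orK (nat_lit 129) (fin (add (start D6588) (orK (nat_lit 110) (fin (add (start D6716) (orK (nat_lit 109) (fin (add (start D6717) (orK (nat_lit 168) (fin (add (start D7188) (orK (nat_lit 148) (fin (add (start D6589) (orK (nat_lit 187) (fin (add (start D1579) (orK (nat_lit 147) (fin (add (start D1381) D17876)))))))))))))))))))))) D17767) D17902))))))) (orK (nat_lit 149) D18504)) (orK (nat_lit 166) (fin (add (add (add (add (start (orK (nat_lit 168) (fin (add (add (start D18509) D17399) D3364)))) (orK (nat_lit 149) (fin (add (start D16857) D7101)))) (orK (nat_lit 149) (fin (add (add (add (start D17083) D7101) D16991) D17186)))) (orK (nat_lit 168) D17604)) (orK (nat_lit 146) D20825))))) (orK (nat_lit 149) (fin (add (start D7101) D17666))))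
noncomputable def D16619 : OP := orK (nat_lit 247) D16618
noncomputable def D13344 : AP := fin (add (start D5953) D1484)
noncomputable def D13345 : OP := orK (nat_lit 167) D13344
noncomputable def D16685 : OP := orK (nat_lit 225) (fin (add (start (win (nat_lit 7) (nat_lit 5) (nat_lit 10) (nat_lit 5))) (win (nat_lit 7) (nat_lit 5) (nat_lit 11) (nat_lit 4))))
noncomputable def D16680 : OP := win (nat_lit 1) (nat_lit 5) (nat_lit 12) (nat_lit 5)
noncomputable def D16678 : OP := win (nat_lit 3) (nat_lit 6) (nat_lit 10) (nat_lit 4)
noncomputable def D16758 : OP := win (nat_lit 6) (nat_lit 6) (nat_lit 12) (nat_lit 5)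
noncomputable def D16749 : OP := orK (nat_lit 245) (fin (add (start (win (nat_lit 7) (nat_lit 5) (nat_lit 11) (nat_lit 5))) (win (nat_lit 7) (nat_lit 5) (nat_lit 12) (nat_lit 4))))
noncomputable def D10208 : OP := win (nat_lit 2) (nat_lit 5) (nat_lit 13) (nat_lit 0)
noncomputable def D13385 : OP := orK (nat_lit 166) D13344
noncomputable def D13390 : OP := win (nat_lit 6) (nat_lit 9) (nat_lit 6) (nat_lit 1)
noncomputable def D7781 : OP := orK (nat_lit 225) (fin (add (start D7779) D7550))
noncomputable def D7795 : OP := orK (nat_lit 228) (fin (add (start D3008) (orK (nat_lit 204) (fin (add (start D5351) (orK (nat_lit 166) (fin (add (start D1726) (orK (nat_lit 226) (fin (add (start D7781) (orK (nat_lit 246) (fin (add (start (orK (nat_lit 266) (fin (add (start D7774) D2305)))) D7785))))))))))))))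
noncomputable def D13410 : OP := orK (nat_lit 206) (fin (add (start D7315) (orK (nat_lit 186) (fin (add (add (start D13392) (orK (nat_lit 228) (fin (add (start D3008) (orK (nat_lit 205) (fin (add (start D3009) (orK (nat_lit 247) (fin (add (start D1725) (orK (nat_lit 246) (fin (add (start D134) (orK (nat_lit 245) (fin (add (start D135) (orK (nat_lit 265) (fin (add (start D13393) D13394))))))))))))))))))) D7795)))))
noncomputable def D16644 : OP := orK (nat_lit 206) (fin (add (start D7315) D16642))
noncomputable def D13630 : OP := orK (nat_lit 167) (fin (add (add (start (orK (nat_lit 206) (fin (add (start D7315) D10830)))) D3208) D13385))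
noncomputable def D13339 : OP := orK (nat_lit 188) (fin (add (start D353) (orK (nat_lit 166) (fin (add (start D866) (orK (nat_lit 186) D10515))))))
noncomputable def D3939 : AP := fin (add (start D3935) (orK (nat_lit 266) (fin (add (start D3936) D2305))))
noncomputable def D3940 : OP := orK (nat_lit 226) D3939
noncomputable def D12187 : OP := orK (nat_lit 166) (fin (add (start D12185) D1484))
noncomputable def D12201 : OP := orK (nat_lit 147) (fin (add (add (add (start D1378) (orK (nat_lit 128) (fin (add (start D6071) (orK (nat_lit 127) (fin (add (start D6072) (orK (nat_lit 186) (fin (add (start D12184) D12187)))))))))) D12199) D6113))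
noncomputable def D7973 : OP := win (nat_lit 3) (nat_lit 9) (nat_lit 9) (nat_lit 3)
noncomputable def D7974 : AP := fin (add (start D7973) D515)
noncomputable def D12517 : OP := orK (nat_lit 249) D7974
noncomputable def D10517 : AP := fin (add (start D6124) D10516)
noncomputable def D13382 : OP := orK (nat_lit 188) (fin (add (start D353) (orK (nat_lit 186) D10517)))
noncomputable def D16833 : AP := fin (add (add (start D5919) (orK (nat_lit 187) (fin (add (add (add (add (start D16644) D13382) D13630) (orK (nat_lit 246) (fin (add (add (start (orK (nat_lit 247) (fin (add (start D134) (orK (nat_lit 229) (fin (add (start D1152) (orK (nat_lit 186) (fin (add (start D140) (orK (nat_lit 267) (fin (add (start D1803) (orK (nat_lit 268) (fin (add (start D572) (orK (nat_lit 269) (fin (add (start D679) D12517))))))))))))))))))) (orK (nat_lit 167) (fin (add (start D872) D12201)))) D3940)))) (orK (nat_lit 166) (fin (add (add (start D13345) (orK (nat_lit 186) (fin (add (start D4026) (orK (nat_lit 188) D9693))))) (orK (nat_lit 146) (fin (add (start D6158) (orK (nat_lit 186) (fin (add (start D370) D4026))))))))))))) (orK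 (nat_lit 187) (fin (add (add (add (add (add (start D13339) D13630) D16644) D13410) D16675) (orK (nat_lit 129) (fin (add (start D13390) (orK (nat_lit 246) (fin (add (add (start (orK (nat_lit 167) (fin (add (start D872) D13385)))) (orK (nat_lit 266) (fin (add (start D3936) (orK (nat_lit 286) (fin (add (add (add (start (orK (nat_lit 226) (fin (add (start D16678) (orK (nat_lit 287) (fin (add (start (win (nat_lit 6) (nat_lit 6) (nat_lit 11) (nat_lit 5))) (orK (nat_lit 285) (fin (add (start (win (nat_lit 1) (nat_lit 5) (nat_lit 11) (nat_lit 5))) (orK (nat_lit 288) (fin (add (add (start (orK (nat_lit 289) (fin (add (start (orK (nat_lit 309) (fin (add (start (win (nat_lit 0) (nat_lit 5) (nat_lit 14) (nat_lit 4))) (win (nat_lit 0) (nat_lit 6) (nat_lit 14) (nat_lit 5)))))) (orK (nat_lit 269) (fin (add (start (win (nat_lit 4) (nat_lit 5) (nat_lit 13) (nat_lit 4))) (win (nat_lit 4) (nat_lit 6) (nat_lit 13) (nat_lit 5))))))))) (orK (nat_lit 265) (fin (add (start (win (nat_lit 2) (nat_lit 4) (nat_lit 13) (nat_lit 5))) D10208)))) (orK (nat_lit 284) (fin (add (start (orK (nat_lit 264) (fin (add (start (win (nat_lit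 2) (nat_lit 3) (nat_lit 13) (nat_lit 5))) (win (nat_lit 2) (nat_lit 4) (nat_lit 13) (nat_lit 4)))))) (orK (nat_lit 267) (fin (add (start D4345) (win (nat_lit 4) (nat_lit 4) (nat_lit 13) (nat_lit 5))))))))))))))))))))) (orK (nat_lit 306) (fin (add (add (start (orK (nat_lit 327) (fin (add (start (win (nat_lit 6) (nat_lit 6) (nat_lit 12) (nat_lit 4))) (orK (nat_lit 326) (fin (add (start (win (nat_lit 6) (nat_lit 6) (nat_lit 13) (nat_lit 5))) D16749))))))) (orK (nat_lit 325) (fin (add (start (win (nat_lit 1) (nat_lit 5) (nat_lit 12) (nat_lit 4))) (orK (nat_lit 326) (fin (add (start (win (nat_lit 1) (nat_lit 5) (nat_lit 13) (nat_lit 5))) D16749))))))) (orK (nat_lit 307) (fin (add (start D16758) (orK (nat_lit 305) (fin (add (start D16680) (orK (nat_lit 304) (fin (add (add (start (orK (nat_lit 287) (fin (add (start (win (nat_lit 4) (nat_lit 3) (nat_lit 14) (nat_lit 0))) (win (nat_lit 4) (nat_lit 4) (nat_lit 14) (nat_lit 5)))))) (orK (nat_lit 303) (fin (add (start (orK (nat_lit 283) (fin (add (start (win (nat_lit 2) (nat_lit 2) (nat_lit 14) (nat_lit 5))) (win (nat_lit 2) (nat_lit 3) (nat_lit 14) (nat_lit 4))))))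 (orK (nat_lit 323) (fin (add (start (win (nat_lit 5) (nat_lit 2) (nat_lit 15) (nat_lit 5))) (win (nat_lit 5) (nat_lit 3) (nat_lit 15) (nat_lit 4))))))))) (orK (nat_lit 308) (fin (add (start (orK (nat_lit 284) (fin (add (start (win (nat_lit 2) (nat_lit 3) (nat_lit 14) (nat_lit 5))) (win (nat_lit 2) (nat_lit 4) (nat_lit 14) (nat_lit 4)))))) (orK (nat_lit 288) (fin (add (start (win (nat_lit 4) (nat_lit 4) (nat_lit 14) (nat_lit 4))) (win (nat_lit 4) (nat_lit 5) (nat_lit 14) (nat_lit 5))))))))))))))))))))) (orK (nat_lit 226) (fin (add (start D16678) (orK (nat_lit 307) (fin (add (start (win (nat_lit 6) (nat_lit 6) (nat_lit 11) (nat_lit 4))) (orK (nat_lit 306) (fin (add (start D16758) D16685)))))))))) (orK (nat_lit 226) (fin (add (start D16678) (orK (nat_lit 305) (fin (add (start (win (nat_lit 1) (nat_lit 5) (nat_lit 11) (nat_lit 4))) (orK (nat_lit 306) (fin (add (start D16680) D16685)))))))))))))))) (orK (nat_lit 247) (fin (add (start D134) (orK (nat_lit 166) (fin (add (start D867) D13345))))))))))))))))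
noncomputable def D7976 : AP := fin (add (start D317) (orK (nat_lit 269) D7974))
noncomputable def D7977 : OP := orK (nat_lit 249) D7976
noncomputable def D7296 : OP := orK (nat_lit 149) (fin (add (start D1486) (orK (nat_lit 189) D5918)))
noncomputable def D16597 : OP := orK (nat_lit 167) (fin (add (start D7168) D7136))
noncomputable def D14088 : OP := win (nat_lit 5) (nat_lit 8) (nat_lit 5) (nat_lit 0)
noncomputable def D15206 : OP := win (nat_lit 5) (nat_lit 7) (nat_lit 5) (nat_lit 3)
noncomputable def D15208 : OP := orK (nat_lit 111) (fin (add (start D15206) D14088))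
noncomputable def D16243 : OP := orK (nat_lit 89) (fin (add (start D8376) D7461))
noncomputable def D3333 : OP := orK (nat_lit 229) D1509
noncomputable def D3269 : OP := win (nat_lit 5) (nat_lit 9) (nat_lit 7) (nat_lit 0)
noncomputable def D8244 : OP := orK (nat_lit 132) (fin (add (start D8239) (orK (nat_lit 152) (fin (add (start D8240) D3269)))))
noncomputable def D14234 : OP := win (nat_lit 5) (nat_lit 9) (nat_lit 7) (nat_lit 4)
noncomputable def D14238 : OP := orK (nat_lit 173) (fin (add (start D14232) (orK (nat_lit 153) (fin (add (start D14233) D14234)))))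
noncomputable def D15263 : OP := orK (nat_lit 132) (fin (add (start D8239) (orK (nat_lit 152) (fin (add (start D8240) D14238)))))
noncomputable def D13283 : OP := win (nat_lit 5) (nat_lit 5) (nat_lit 9) (nat_lit 1)
noncomputable def D16305 : OP := orK (nat_lit 189) (fin (add (start D5917) D7213))
noncomputable def D16612 : AP := fin (add (add (start (orK (nat_lit 109) (fin (add (add (add (start (orK (nat_lit 189) (fin (add (start D5917) D6720)))) (orK (nat_lit 90) (fin (add (start D7459) (orK (nat_lit 89) (fin (add (start D7458) D13515))))))) (orK (nat_lit 90) (fin (add (start D7459) (orK (nat_lit 89) (fin (add (start D7458) (orK (nat_lit 128) (fin (add (start D8376) D16305)))))))))) D13898)))) (orK (nat_lit 147) (fin (add (add (add (start D7210) (orK (nat_lit 146) (fin (add (start D6615) (orK (nat_lit 126) (fin (add (start D6616) (orK (nat_lit 166) (fin (add (start D7139) (orK (nat_lit 186) (fin (add (start D10624) D453))))))))))))) (orK (nat_lit 167) (fin (add (start (orK (nat_lit 187) (fin (add (add (start D3204) (orK (nat_lit 228) (fin (add (start D32) (orK (nat_lit 206) (fin (add (start D3008)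 (orK (nat_lit 205) (fin (add (start D3009) (orK (nat_lit 186) (fin (add (start D4199) (orK (nat_lit 189) (fin (add (start D13283) D5917)))))))))))))))) D16500)))) (orK (nat_lit 150) (fin (add (start D1229) (orK (nat_lit 151) (fin (add (add (add (start D7240) D13717) D15263) (orK (nat_lit 170) (fin (add (start D4051) D8244))))))))))))) (orK (nat_lit 209) (fin (add (start D1552) (orK (nat_lit 228) (fin (add (add (add (start D3333) (orK (nat_lit 226) (fin (add (start D2036) (orK (nat_lit 167) (fin (add (start D16385) D7136))))))) (orK (nat_lit 146) (fin (add (add (start (orK (nat_lit 206) (fin (add (start D3008) (orK (nat_lit 166) (fin (add (start D7139) D11048))))))) (orK (nat_lit 126) (fin (add (start D6616) (orK (nat_lit 150) (fin (add (start D6014) (orK (nat_lit 167) (fin (add (start D1229) D16525)))))))))) (orK (nat_lit 125) (fin (add (start D7104) (orK (nat_lit 145) (fin (add (start D7103) (orK (nat_lit 206) (fin (add (start D3008) (orK (nat_lit 165) (fin (add (start D7147) (orK (nat_lit 204) (fin (add (start D5351) (orK (nat_lit 185) (fin (add (start D5300) D3100)))))))))))))))))))))) (orK (nat_lit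 167) (fin (add (start D7136) (orK (nat_lit 187) (fin (add (start D32) D3204)))))))))))))))) (orK (nat_lit 128) (fin (add (add (start (orK (nat_lit 109) (fin (add (add (start D16243) (orK (nat_lit 110) (fin (add (start D6717) (orK (nat_lit 127) (fin (add (start D16566) D15208))))))) (orK (nat_lit 89) (fin (add (start D8376) (orK (nat_lit 88) (fin (add (start D13778) D13079)))))))))) (orK (nat_lit 147) (fin (add (add (add (start D7210) (orK (nat_lit 146) (fin (add (start D6615) (orK (nat_lit 165) (fin (add (start D7148) (orK (nat_lit 145) (fin (add (start D7147) (orK (nat_lit 124) (fin (add (start D7348) (orK (nat_lit 144) (fin (add (start D7349) D16577)))))))))))))))) (orK (nat_lit 167) (fin (add (start D7168) (orK (nat_lit 150) (fin (add (start D1229) (orK (nat_lit 171) (fin (add (start D6058) (orK (nat_lit 151) (fin (add (start D6059) D1586))))))))))))) D16597)))) (orK (nat_lit 147) (fin (add (add (start (orK (nat_lit 146) (fin (add (start D6615) (orK (nat_lit 125) (fin (add (start D7104) (orK (nat_lit 145) (fin (add (start D7103) D16448)))))))))) (orK (nat_lit 167) (fin (add (start D7168) (orK (nat_lit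 150) (fin (add (start D1229) (orK (nat_lit 171) (fin (add (start D6058) (orK (nat_lit 151) (fin (add (start D6059) D13719))))))))))))) D16597)))))))
noncomputable def D7261 : OP := orK (nat_lit 167) (fin (add (start D7168) D1229))
noncomputable def D15841 : AP := fin (add (start D7169) D7261)
noncomputable def D16370 : AP := fin (add (start D7169) D1229)
noncomputable def D16327 : OP := orK (nat_lit 166) (fin (add (start D16324) D16325))
noncomputable def D9661 : OP := orK (nat_lit 125) (fin (add (start D9655) (orK (nat_lit 145) (fin (add (start (win (nat_lit 5) (nat_lit 4) (nat_lit 6) (nat_lit 5))) (win (nat_lit 5) (nat_lit 5) (nat_lit 6) (nat_lit 4)))))))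
noncomputable def D16306 : OP := win (nat_lit 6) (nat_lit 8) (nat_lit 3) (nat_lit 0)
noncomputable def D16316 : OP := orK (nat_lit 106) (fin (add (start (win (nat_lit 0) (nat_lit 5) (nat_lit 5) (nat_lit 0))) D16314))
noncomputable def D14017 : OP := win (nat_lit 6) (nat_lit 8) (nat_lit 4) (nat_lit 3)
noncomputable def D8357 : OP := win (nat_lit 7) (nat_lit 10) (nat_lit 4) (nat_lit 3)
noncomputable def D8547 : OP := win (nat_lit 3) (nat_lit 9) (nat_lit 4) (nat_lit 3)
noncomputable def D7161 : OP := win (nat_lit 5) (nat_lit 6) (nat_lit 7) (nat_lit 4)
noncomputable def D15810 : OP := orK (nat_lit 147) (fin (add (add (start D14739) (orK (nat_lit 166) (fin (add (start D7161) (orK (nat_lit 146) (fin (add (start D7139) (orK (nat_lit 126) (fin (add (start D6616) (orK (nat_lit 186) (fin (add (start D10624) D15798))))))))))))) (orK (nat_lit 128) (fin (add (start D1586) D7261)))))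
noncomputable def D16275 : OP := orK (nat_lit 147) (fin (add (start D6561) D4053))
noncomputable def D16109 : OP := orK (nat_lit 127) (fin (add (start D9063) D14306))
noncomputable def D16111 : OP := orK (nat_lit 128) (fin (add (start D14930) D16109))
noncomputable def D7163 : OP := orK (nat_lit 166) (fin (add (start D7139) D7161))
noncomputable def D14459 : OP := orK (nat_lit 126) (fin (add (start D6014) (orK (nat_lit 146) (fin (add (start D6616) D7163)))))
noncomputable def D13722 : OP := win (nat_lit 1) (nat_lit 10) (nat_lit 4) (nat_lit 5)
noncomputable def D3515 : OP := win (nat_lit 3) (nat_lit 11) (nat_lit 4) (nat_lit 4)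
noncomputable def D14757 : OP := orK (nat_lit 110) (fin (add (start D6717) D14088))
noncomputable def D16133 : OP := orK (nat_lit 90) (fin (add (start D7459) (orK (nat_lit 89) (fin (add (start D7458) D7447)))))
noncomputable def D15257 : OP := orK (nat_lit 153) (fin (add (start D14234) D15074))
noncomputable def D16180 : OP := orK (nat_lit 152) (fin (add (add (start (orK (nat_lit 148) D16175)) D15257) (orK (nat_lit 153) (fin (add (start D14234) D14313)))))
noncomputable def D14308 : AP := fin (add (start D9063) D14307)
noncomputable def D15113 : OP := orK (nat_lit 127) D14308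
noncomputable def D15114 : AP := fin (add (start D14930) D15113)
noncomputable def D15118 : OP := orK (nat_lit 128) D15114
noncomputable def D8660 : OP := orK (nat_lit 70) (fin (add (start (win (nat_lit 7) (nat_lit 10) (nat_lit 2) (nat_lit 5))) (win (nat_lit 7) (nat_lit 10) (nat_lit 3) (nat_lit 4))))
noncomputable def D8488 : OP := win (nat_lit 3) (nat_lit 11) (nat_lit 2) (nat_lit 5)
noncomputable def D8487 : OP := win (nat_lit 3) (nat_lit 11) (nat_lit 3) (nat_lit 4)
noncomputable def D8792 : OP := orK (nat_lit 72) (fin (add (start D8487) (orK (nat_lit 71) (fin (add (start D8488) D8660)))))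
noncomputable def D3489 : OP := win (nat_lit 4) (nat_lit 8) (nat_lit 5) (nat_lit 2)
noncomputable def D8528 : OP := win (nat_lit 4) (nat_lit 8) (nat_lit 5) (nat_lit 5)
noncomputable def D14503 : OP := win (nat_lit 1) (nat_lit 10) (nat_lit 3) (nat_lit 0)
noncomputable def D16190 : OP := orK (nat_lit 91) (fin (add (start D13722) (orK (nat_lit 130) (fin (add (start D14503) D8528)))))
noncomputable def D13856 : OP := win (nat_lit 0) (nat_lit 8) (nat_lit 7) (nat_lit 0)
noncomputable def D16192 : OP := orK (nat_lit 172) (fin (add (start D13856) D12880))
noncomputable def D13737 : OP := win (nat_lit 1) (nat_lit 10) (nat_lit 3) (nat_lit 4)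
noncomputable def D13743 : OP := orK (nat_lit 91) (fin (add (start D13722) (orK (nat_lit 71) (fin (add (start D13737) (orK (nat_lit 72) (fin (add (start D8488) D8487))))))))
noncomputable def D8717 : OP := win (nat_lit 5) (nat_lit 10) (nat_lit 6) (nat_lit 0)
noncomputable def D8796 : OP := win (nat_lit 5) (nat_lit 9) (nat_lit 6) (nat_lit 3)
noncomputable def D8798 : OP := orK (nat_lit 133) (fin (add (start D8796) D8717))
noncomputable def D8795 : OP := win (nat_lit 4) (nat_lit 8) (nat_lit 6) (nat_lit 0)
noncomputable def D8799 : AP := fin (add (start D8795) D8798)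
noncomputable def D9346 : OP := orK (nat_lit 132) D8799
noncomputable def D14505 : OP := orK (nat_lit 91) (fin (add (start D14503) D13722))
noncomputable def D16302 : AP := fin (add (add (add (add (start (orK (nat_lit 189) (fin (add (start D5917) (orK (nat_lit 109) (fin (add (add (add (start D7429) (orK (nat_lit 130) (fin (add (start D6603) (orK (nat_lit 89) D16120))))) (orK (nat_lit 89) (fin (add (start D7447) D16127)))) D16133))))))) (orK (nat_lit 189) (fin (add (start D5917) (orK (nat_lit 130) (fin (add (start D6603) (orK (nat_lit 131) (fin (add (add (start (orK (nat_lit 148) (fin (add (start D15004) D7181)))) (orK (nat_lit 132) (fin (add (start D8980) (orK (nat_lit 152) (fin (add (start D7401) (orK (nat_lit 128) (fin (add (start D7400) (orK (nat_lit 127) (fin (add (start D9063) D7417))))))))))))) (orK (nat_lit 151) (fin (add (start (orK (nat_lit 172) (fin (add (start (orK (nat_lit 148) (fin (add (start D13706) D15004)))) (orK (nat_lit 152) (fin (add (start D13707) D13872))))))) (orK (nat_lit 111) (fin (add (start (orK (nat_lit 128) (fin (add (start (win (nat_lit 0) (nat_lit 7) (nat_lit 6) (nat_lit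 0))) D8528)))) D14505)))))))))))))))) (orK (nat_lit 151) (fin (add (add (start D16180) (orK (nat_lit 128) (fin (add (add (start D15113) (orK (nat_lit 131) (fin (add (add (add (start D9346) (orK (nat_lit 148) (fin (add (start D1587) (orK (nat_lit 171) (fin (add (start D6059) (orK (nat_lit 147) (fin (add (start D6058) D7261)))))))))) (orK (nat_lit 111) (fin (add (add (add (start D16190) (orK (nat_lit 112) (fin (add (start D3489) (orK (nat_lit 171) (fin (add (start D1589) D16192))))))) D13743) (orK (nat_lit 91) (fin (add (start D13722) (orK (nat_lit 92) (fin (add (start D3514) (orK (nat_lit 171) (fin (add (start D3515) D16192))))))))))))) (orK (nat_lit 111) (fin (add (add (start D16190) (orK (nat_lit 112) (fin (add (start D3489) (orK (nat_lit 92) (fin (add (start (win (nat_lit 3) (nat_lit 11) (nat_lit 4) (nat_lit 0))) (orK (nat_lit 72) (fin (add (start (win (nat_lit 1) (nat_lit 11) (nat_lit 2) (nat_lit 0))) (win (nat_lit 1) (nat_lit 11) (nat_lit 3) (nat_lit 3)))))))))))) (orK (nat_lit 91) (fin (add (start D13722) D8792)))))))))) D16109)))) D15118)))) (orK (nat_lit 151) (fin (add (add (add (start D16111)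 D16180) (orK (nat_lit 152) (fin (add (start D8866) D14238)))) (orK (nat_lit 148) (fin (add (add (add (start D15810) (orK (nat_lit 131) (fin (add (start D1587) (orK (nat_lit 109) (fin (add (add (add (start (orK (nat_lit 128) (fin (add (start D1586) (orK (nat_lit 89) (fin (add (start D8376) D7447))))))) D16133) (orK (nat_lit 111) (fin (add (add (start (orK (nat_lit 128) (fin (add (start D1586) D14757)))) (orK (nat_lit 92) (fin (add (start (orK (nat_lit 171) (fin (add (start D6059) D3515)))) (orK (nat_lit 91) (fin (add (start D13722) D3514))))))) (orK (nat_lit 90) (fin (add (start D7459) (orK (nat_lit 91) (fin (add (start D13722) D8462)))))))))) (orK (nat_lit 128) (fin (add (start D1586) D16243)))))))))) (orK (nat_lit 171) (fin (add (start D6059) (orK (nat_lit 147) (fin (add (start D6058) (orK (nat_lit 166) (fin (add (start D7161) (orK (nat_lit 146) (fin (add (start D7139) D16253))))))))))))) (orK (nat_lit 171) (fin (add (start D6059) (orK (nat_lit 147) (fin (add (start D6058) D14459))))))))))))) (orK (nat_lit 189) (fin (add (start D5917) (orK (nat_lit 151) (fin (add (add (add (start (orK (nat_lit 152)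 (fin (add (start D8866) (orK (nat_lit 130) (fin (add (start D13872) D6603))))))) D16111) (orK (nat_lit 130) (fin (add (start D6603) (orK (nat_lit 152) (fin (add (start D13872) (orK (nat_lit 172) (fin (add (start D13707) (orK (nat_lit 148) (fin (add (start D13706) D16275))))))))))))) (orK (nat_lit 148) (fin (add (add (start (orK (nat_lit 130) (fin (add (start D6603) D16275)))) D15810) (orK (nat_lit 128) (fin (add (start D1586) (orK (nat_lit 131) (fin (add (start D1587) (orK (nat_lit 110) (fin (add (start D6716) (orK (nat_lit 171) (fin (add (start D6059) (orK (nat_lit 90) (fin (add (start D8547) D8357)))))))))))))))))))))))))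
noncomputable def D15196 : OP := orK (nat_lit 69) (fin (add (start D7446) D7435))
noncomputable def D16040 : OP := orK (nat_lit 150) (fin (add (start D7447) D15196))
noncomputable def D15186 : OP := orK (nat_lit 48) (fin (add (start (win (nat_lit 7) (nat_lit 8) (nat_lit 1) (nat_lit 5))) (win (nat_lit 7) (nat_lit 8) (nat_lit 2) (nat_lit 4))))
noncomputable def D15182 : OP := win (nat_lit 1) (nat_lit 8) (nat_lit 2) (nat_lit 4)
noncomputable def D13489 : OP := win (nat_lit 1) (nat_lit 8) (nat_lit 3) (nat_lit 5)
noncomputable def D15171 : OP := win (nat_lit 3) (nat_lit 9) (nat_lit 2) (nat_lit 4)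
noncomputable def D15172 : OP := win (nat_lit 3) (nat_lit 9) (nat_lit 1) (nat_lit 5)
noncomputable def D16614 : AP := fin (add (add (add (add (add (add (start (orK (nat_lit 189) (fin (add (start D5917) D6724)))) (orK (nat_lit 189) (fin (add (start D5917) D13488)))) (orK (nat_lit 109) (fin (add (add (add (add (start D13898) D15170) (orK (nat_lit 89) (fin (add (add (start D13082) (orK (nat_lit 150) (fin (add (start D7447) (orK (nat_lit 69) (fin (add (start D7446) (orK (nat_lit 128) (fin (add (start D13489) (orK (nat_lit 49) (fin (add (start D15182) (orK (nat_lit 50) (fin (add (start D15172) D15171)))))))))))))))) D16040)))) (orK (nat_lit 90) (fin (add (start D7459) (orK (nat_lit 89) (fin (add (start D7458) (orK (nat_lit 150) (fin (add (start D7447) (orK (nat_lit 69) (fin (add (start D7446) (orK (nat_lit 128) (fin (add (start D13489) (orK (nat_lit 49) (fin (add (start D15182) (orK (nat_lit 30) (fin (add (start (win (nat_lit 3) (nat_lit 9) (nat_lit 1) (nat_lit 4))) D15186)))))))))))))))))))))) (orK (nat_lit 90) (fin (add (start D7459) (orK (nat_lit 89) (fin (add (start D7458) D16040)))))))))) (orK (nat_lit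 150) D16302)) (orK (nat_lit 128) (fin (add (add (start D16305) (orK (nat_lit 108) (fin (add (add (start (orK (nat_lit 88) (fin (add (start D16306) D14017)))) (orK (nat_lit 130) (fin (add (add (start D7423) (orK (nat_lit 107) (fin (add (start D16316) (orK (nat_lit 127) (fin (add (add (start D9066) (orK (nat_lit 146) (fin (add (start D13478) (orK (nat_lit 126) (fin (add (start D13477) (orK (nat_lit 125) (fin (add (start D9655) D10726)))))))))) (orK (nat_lit 150) (fin (add (start D9064) (orK (nat_lit 147) (fin (add (start D7408) (orK (nat_lit 167) (fin (add (start D16323) D16327)))))))))))))))) (orK (nat_lit 107) (fin (add (start (win (nat_lit 2) (nat_lit 7) (nat_lit 5) (nat_lit 0))) D16316))))))) (orK (nat_lit 88) (fin (add (start D16306) D16343))))))) (orK (nat_lit 127) (fin (add (add (add (start (orK (nat_lit 126) (fin (add (add (start D16357) D9661) (orK (nat_lit 106) (fin (add (start D7217) (orK (nat_lit 130) (fin (add (start D7218) D13480)))))))))) (orK (nat_lit 147) (fin (add (add (add (start (orK (nat_lit 146) D16366)) (orK (nat_lit 167) (fin (add (add (start (orK (nat_lit 150) (fin (add (add (start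 (orK (nat_lit 148) D16370)) D15497) (orK (nat_lit 107) (fin (add (start D16327) (orK (nat_lit 106) (fin (add (start D16372) D6075)))))))))) (orK (nat_lit 228) (fin (add (add (add (start (orK (nat_lit 187) (fin (add (start D32) D7324)))) (orK (nat_lit 209) (fin (add (start D1552) D3333)))) (orK (nat_lit 226) (fin (add (start D16385) D15970)))) (orK (nat_lit 206) (fin (add (start D3008) (orK (nat_lit 187) (fin (add (start D4206) D32)))))))))) (orK (nat_lit 148) (fin (add (start D7168) (orK (nat_lit 150) D16370)))))))) (orK (nat_lit 148) (fin (add (start D16399) (orK (nat_lit 150) D15841))))) (orK (nat_lit 130) (fin (add (start D7408) (orK (nat_lit 131) (fin (add (add (add (start D7407) D8306) D16409) (orK (nat_lit 150) (fin (add (start D9064) (orK (nat_lit 112) (fin (add (start D7414) (orK (nat_lit 132) (fin (add (start D7415) D8980))))))))))))))))))) (orK (nat_lit 150) D14933)) (orK (nat_lit 150) D15498)))))))) (orK (nat_lit 189) (fin (add (start D5917) D16440)))) (orK (nat_lit 148) D16612))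
noncomputable def D15962 : OP := orK (nat_lit 228) (fin (add (start D2036) (orK (nat_lit 248) (fin (add (start D2197) D15958)))))
noncomputable def D15953 : OP := orK (nat_lit 248) D15952
noncomputable def D15937 : OP := orK (nat_lit 246) (fin (add (add (start D4411) (orK (nat_lit 204) (fin (add (start D4294) (orK (nat_lit 224) (fin (add (start D4295) (orK (nat_lit 223) (fin (add (start D15906) (orK (nat_lit 222) D15922))))))))))) (orK (nat_lit 205) (fin (add (start D2466) D15933)))))
noncomputable def D4637 : OP := orK (nat_lit 284) (fin (add (start D4634) D4635))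
noncomputable def D10056 : OP := orK (nat_lit 206) D3133
noncomputable def D3349 : OP := orK (nat_lit 146) (fin (add (start D579) (orK (nat_lit 147) (fin (add (start D1376) (orK (nat_lit 148) (fin (add (start D3343) D1381))))))))
noncomputable def D15868 : OP := win (nat_lit 7) (nat_lit 7) (nat_lit 10) (nat_lit 1)
noncomputable def D15303 : OP := orK (nat_lit 167) D2039
noncomputable def D15324 : OP := orK (nat_lit 209) (fin (add (start D1552) (orK (nat_lit 167) (fin (add (start (orK (nat_lit 146) (fin (add (start D579) (orK (nat_lit 147) (fin (add (start (win (nat_lit 0) (nat_lit 6) (nat_lit 7) (nat_lit 2))) D1376))))))) D2040)))))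
noncomputable def D15388 : AP := fin (add (start D6089) D260)
noncomputable def D15404 : OP := orK (nat_lit 170) (fin (add (start D6229) (orK (nat_lit 190) D15388)))
noncomputable def D15391 : OP := orK (nat_lit 190) (fin (add (start D353) (orK (nat_lit 170) D15388)))
noncomputable def D13865 : OP := orK (nat_lit 130) (fin (add (start D4053) (orK (nat_lit 146) (fin (add (start D4052) D7163)))))
noncomputable def D14098 : AP := fin (add (start D1555) D4051)
noncomputable def D15233 : OP := orK (nat_lit 170) D14098
noncomputable def D14463 : OP := win (nat_lit 6) (nat_lit 7) (nat_lit 3) (nat_lit 0)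
noncomputable def D14483 : OP := orK (nat_lit 147) (fin (add (add (add (start D14455) D13865) D14459) (orK (nat_lit 130) (fin (add (start D4053) (orK (nat_lit 167) (fin (add (start D1229) (orK (nat_lit 128) (fin (add (start D7168) (orK (nat_lit 88) (fin (add (start (win (nat_lit 1) (nat_lit 7) (nat_lit 4) (nat_lit 1))) (orK (nat_lit 127) (fin (add (start D1228) (orK (nat_lit 110) (fin (add (start D13019) (orK (nat_lit 129) (fin (add (start D11726) (orK (nat_lit 107) (fin (add (start D14461) (orK (nat_lit 87) (fin (add (start D14462) D14463)))))))))))))))))))))))))))))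
noncomputable def D1590 : OP := win (nat_lit 4) (nat_lit 8) (nat_lit 5) (nat_lit 1)
noncomputable def D13728 : OP := orK (nat_lit 112) (fin (add (start D1589) D1590))
noncomputable def D8355 : OP := win (nat_lit 7) (nat_lit 10) (nat_lit 5) (nat_lit 0)
noncomputable def D13753 : OP := orK (nat_lit 151) (fin (add (add (add (start D13713) D13717) D13721) (orK (nat_lit 131) (fin (add (start D1587) (orK (nat_lit 111) (fin (add (add (start (orK (nat_lit 171) (fin (add (start D6059) (orK (nat_lit 110) (fin (add (start D3491) (orK (nat_lit 130) (fin (add (start D8355) (orK (nat_lit 128) (fin (add (start D1586) D13728))))))))))))) D13743) (orK (nat_lit 171) (fin (add (start D6059) (orK (nat_lit 91) (fin (add (start D13722) D8465))))))))))))))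
noncomputable def D8425 : OP := win (nat_lit 0) (nat_lit 7) (nat_lit 5) (nat_lit 0)
noncomputable def D1588 : OP := win (nat_lit 1) (nat_lit 10) (nat_lit 4) (nat_lit 0)
noncomputable def D8867 : OP := win (nat_lit 6) (nat_lit 9) (nat_lit 4) (nat_lit 0)
noncomputable def D13068 : OP := win (nat_lit 4) (nat_lit 8) (nat_lit 4) (nat_lit 5)
noncomputable def D14593 : OP := win (nat_lit 3) (nat_lit 10) (nat_lit 4) (nat_lit 2)
noncomputable def D8771 : OP := win (nat_lit 2) (nat_lit 7) (nat_lit 5) (nat_lit 5)
noncomputable def D14743 : OP := orK (nat_lit 108) (fin (add (start D8771) D1610))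
noncomputable def D13957 : OP := win (nat_lit 5) (nat_lit 6) (nat_lit 5) (nat_lit 4)
noncomputable def D10732 : OP := win (nat_lit 5) (nat_lit 5) (nat_lit 5) (nat_lit 5)
noncomputable def D13980 : OP := orK (nat_lit 126) (fin (add (start D10732) D13957))
noncomputable def D13984 : OP := orK (nat_lit 86) (fin (add (start D13977) (orK (nat_lit 106) (fin (add (start D13978) D13980)))))
noncomputable def D14562 : OP := win (nat_lit 0) (nat_lit 7) (nat_lit 5) (nat_lit 4)
noncomputable def D14570 : OP := orK (nat_lit 109) (fin (add (start D8867) (orK (nat_lit 110) (fin (add (start D6717) (orK (nat_lit 108) (fin (add (start D6590) (orK (nat_lit 107) (fin (add (start D14562) D13984)))))))))))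
noncomputable def D13873 : OP := win (nat_lit 1) (nat_lit 9) (nat_lit 4) (nat_lit 1)
noncomputable def D14806 : OP := orK (nat_lit 129) (fin (add (add (add (add (add (start (orK (nat_lit 128) (fin (add (start D1586) (orK (nat_lit 131) (fin (add (start D1587) (orK (nat_lit 111) (fin (add (start D1588) (orK (nat_lit 130) (fin (add (start D8528) (orK (nat_lit 90) (fin (add (start D13873) D14743)))))))))))))))) (orK (nat_lit 131) (fin (add (start D1587) D14570)))) (orK (nat_lit 128) (fin (add (start D1586) (orK (nat_lit 131) (fin (add (start D1587) (orK (nat_lit 109) (fin (add (start D8867) (orK (nat_lit 111) (fin (add (start D1588) D14757))))))))))))) (orK (nat_lit 89) (fin (add (start (win (nat_lit 6) (nat_lit 9) (nat_lit 4) (nat_lit 1))) (orK (nat_lit 128) (fin (add (start D1586) (orK (nat_lit 131) (fin (add (start D1587) (orK (nat_lit 111) (fin (add (start D1588) (orK (nat_lit 130) (fin (add (start D8528) D14743)))))))))))))))) (orK (nat_lit 128) (fin (add (start D1586) (orK (nat_lit 108) (fin (add (start D1610) (orK (nat_lit 109) (fin (add (start D8867) (orK (nat_lit 110) (fin (add (start D6717) (orK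 (nat_lit 111) (fin (add (start D14088) (orK (nat_lit 91) (fin (add (start D14593) D13068))))))))))))))))))) (orK (nat_lit 131) (fin (add (start D1587) (orK (nat_lit 109) (fin (add (start D8867) (orK (nat_lit 110) (fin (add (start D6717) (orK (nat_lit 111) (fin (add (start D1588) (orK (nat_lit 112) (fin (add (start D8583) (orK (nat_lit 92) (fin (add (start D9421) (orK (nat_lit 130) (fin (add (start D8574) (orK (nat_lit 108) (fin (add (start D8425) D6590))))))))))))))))))))))))))
noncomputable def D8236 : OP := orK (nat_lit 152) (fin (add (start D8234) D3269))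
noncomputable def D8237 : AP := fin (add (start D1586) D8236)
noncomputable def D8238 : OP := orK (nat_lit 128) D8237
noncomputable def D14328 : OP := orK (nat_lit 147) D14098
noncomputable def D15230 : OP := orK (nat_lit 170) (fin (add (start D1553) (orK (nat_lit 148) (fin (add (start D14328) (orK (nat_lit 151) (fin (add (add (start D8238) D8244) D14806))))))))
noncomputable def D8868 : OP := win (nat_lit 2) (nat_lit 8) (nat_lit 5) (nat_lit 2)
noncomputable def D14542 : OP := orK (nat_lit 152) (fin (add (start D3269) (orK (nat_lit 132) (fin (add (start D8240) (orK (nat_lit 129) (fin (add (start D8866) (orK (nat_lit 109) (fin (add (start D8867) (orK (nat_lit 110) (fin (add (start D6717) (orK (nat_lit 108) (fin (add (start D6590) (orK (nat_lit 131) (fin (add (start (win (nat_lit 0) (nat_lit 8) (nat_lit 5) (nat_lit 3))) D8868))))))))))))))))))))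
noncomputable def D14435 : OP := win (nat_lit 7) (nat_lit 11) (nat_lit 5) (nat_lit 0)
noncomputable def D14445 : OP := orK (nat_lit 152) (fin (add (start D3269) (orK (nat_lit 132) (fin (add (start D8240) (orK (nat_lit 131) (fin (add (start D8795) (orK (nat_lit 172) (fin (add (start D13707) (orK (nat_lit 111) (fin (add (start D1588) D14435))))))))))))))
noncomputable def D14812 : OP := orK (nat_lit 170) (fin (add (start D1553) (orK (nat_lit 151) (fin (add (add (add (start (orK (nat_lit 152) (fin (add (start D3269) (orK (nat_lit 128) (fin (add (start D8234) (orK (nat_lit 148) (fin (add (start D1586) (orK (nat_lit 147) (fin (add (start D1555) D7261))))))))))))) D14445) (orK (nat_lit 148) (fin (add (add (start (orK (nat_lit 147) (fin (add (start D1555) D14739)))) (orK (nat_lit 147) (fin (add (start D1555) D6062)))) D14806)))) D14542)))))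
noncomputable def D14325 : OP := orK (nat_lit 148) (fin (add (start D1586) (orK (nat_lit 131) (fin (add (start D1587) (orK (nat_lit 147) (fin (add (start D6060) D7261))))))))
noncomputable def D15015 : OP := win (nat_lit 0) (nat_lit 10) (nat_lit 7) (nat_lit 4)
noncomputable def D14401 : OP := win (nat_lit 4) (nat_lit 10) (nat_lit 6) (nat_lit 4)
noncomputable def D14995 : OP := orK (nat_lit 134) (fin (add (start D14401) D14402))
noncomputable def D15117 : OP := orK (nat_lit 128) (fin (add (add (add (start (orK (nat_lit 152) (fin (add (start D8234) (orK (nat_lit 153) (fin (add (add (add (start D14313) (orK (nat_lit 174) (fin (add (start D15015) (orK (nat_lit 154) (fin (add (start D15016) D14995))))))) (orK (nat_lit 174) (fin (add (start D15015) (orK (nat_lit 154) (fin (add (start D15016) D15093))))))) (orK (nat_lit 132) (fin (add (start D8240) (orK (nat_lit 131) (fin (add (start D8795) (orK (nat_lit 154) (fin (add (start D14391) (win (nat_lit 2) (nat_lit 11) (nat_lit 6) (nat_lit 0)))))))))))))))))) D14325) (orK (nat_lit 127) (fin (add (start D14306) (orK (nat_lit 129) (fin (add (start D9063) D14930)))))))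 (orK (nat_lit 129) D15114)))
noncomputable def D15212 : OP := orK (nat_lit 127) (fin (add (start D9063) (orK (nat_lit 110) (fin (add (start D6717) D15208)))))
noncomputable def D15187 : AP := fin (add (start D15182) D15186)
noncomputable def D14317 : OP := orK (nat_lit 173) (fin (add (start D14232) (orK (nat_lit 153) (fin (add (start D14233) D14313)))))
noncomputable def D14240 : OP := win (nat_lit 3) (nat_lit 12) (nat_lit 4) (nat_lit 4)
noncomputable def D14241 : OP := win (nat_lit 3) (nat_lit 12) (nat_lit 3) (nat_lit 5)
noncomputable def D14685 : OP := win (nat_lit 1) (nat_lit 11) (nat_lit 4) (nat_lit 5)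
noncomputable def D15135 : OP := orK (nat_lit 111) (fin (add (start D12879) D14435))
noncomputable def D8418 : OP := win (nat_lit 1) (nat_lit 11) (nat_lit 3) (nat_lit 0)
noncomputable def D15222 : OP := orK (nat_lit 129) (fin (add (add (add (start D15118) (orK (nat_lit 152) (fin (add (add (add (start (orK (nat_lit 173) (fin (add (start D14232) (orK (nat_lit 153) (fin (add (start D14233) D15075))))))) D15124) D14317) (orK (nat_lit 172) (fin (add (start D13707) (orK (nat_lit 132) (fin (add (start D8240) (orK (nat_lit 112) (fin (add (add (start (orK (nat_lit 131) (fin (add (start (orK (nat_lit 113) (fin (add (start D12896) (win (nat_lit 4) (nat_lit 9) (nat_lit 5) (nat_lit 1)))))) D15135)))) (orK (nat_lit 131) (fin (add (start (orK (nat_lit 92) (fin (add (start D8418) D14685)))) D15135)))) (orK (nat_lit 92) (fin (add (start D14685) (orK (nat_lit 93) (fin (add (start D14241) D14240))))))))))))))))))) (orK (nat_lit 152) (fin (add (start D8866) D14317)))) (orK (nat_lit 109) (fin (add (add (add (add (start D13898) D15170) (orK (nat_lit 89) (fin (add (add (add (start D13082) (orK (nat_lit 69) (fin (add (start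 D7446) (orK (nat_lit 50) (fin (add (start D15171) (orK (nat_lit 49) (fin (add (start D15172) (orK (nat_lit 108) (fin (add (start (win (nat_lit 1) (nat_lit 8) (nat_lit 2) (nat_lit 5))) D6590))))))))))))) (orK (nat_lit 69) (fin (add (start D7446) (orK (nat_lit 50) (fin (add (start D15171) (orK (nat_lit 49) (fin (add (start D15172) (orK (nat_lit 128) D15187))))))))))) D15196)))) (orK (nat_lit 128) (fin (add (add (start D15113) (orK (nat_lit 90) (fin (add (start D7459) (orK (nat_lit 89) (fin (add (start D7458) (orK (nat_lit 69) (fin (add (start D7446) (orK (nat_lit 49) D15187))))))))))) D15212)))) (orK (nat_lit 90) (fin (add (start D7459) (orK (nat_lit 89) (fin (add (start D7458) D15196)))))))))))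
noncomputable def D9498 : OP := win (nat_lit 2) (nat_lit 10) (nat_lit 7) (nat_lit 0)
noncomputable def D13859 : OP := orK (nat_lit 173) (fin (add (start (win (nat_lit 0) (nat_lit 9) (nat_lit 7) (nat_lit 3))) D9498))
noncomputable def D13860 : AP := fin (add (start D13856) D13859)
noncomputable def D13906 : OP := orK (nat_lit 172) (fin (add (add (start (orK (nat_lit 171) D13860)) (orK (nat_lit 148) (fin (add (start D13706) (orK (nat_lit 127) (fin (add (start D1227) (orK (nat_lit 147) (fin (add (start D1228) D13865)))))))))) (orK (nat_lit 152) (fin (add (start D13707) (orK (nat_lit 129) (fin (add (start D8866) (orK (nat_lit 109) (fin (add (add (add (start (orK (nat_lit 130) (fin (add (start D13872) (orK (nat_lit 90) (fin (add (start D13873) (orK (nat_lit 89) (fin (add (start D7458) D13874)))))))))) (orK (nat_lit 130) (fin (add (start D13872) (orK (nat_lit 110) (fin (add (start D13019) (orK (nat_lit 108) (fin (add (start D6590) (orK (nat_lit 107) D13883))))))))))) (orK (nat_lit 130) (fin (add (start D13872) (orK (nat_lit 89) (fin (add (start D13874) D13082))))))) D13898)))))))))))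
noncomputable def D8402 : OP := win (nat_lit 7) (nat_lit 10) (nat_lit 5) (nat_lit 5)
noncomputable def D15768 : AP := fin (add (start D1587) (orK (nat_lit 171) (fin (add (start D6059) (orK (nat_lit 191) (fin (add (start D14281) (orK (nat_lit 130) (fin (add (start D15004) D8402))))))))))

end Vale.Agent.Lib.P062.CT
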