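import Vale.Agent.Lib.P062.CT.C0

namespace Vale.Agent.Lib.P062.CT
open Vale.Agent.Lib.P062.Core
set_option maxRecDepth 100000
set_option linter.all false

noncomputable def D3482 : OP := win (nat_lit 6) (nat_lit 11) (nat_lit 6) (nat_lit 5)
noncomputable def D3517 : OP := orK (nat_lit 92) (fin (add (start D3514) D3515))
noncomputable def D14283 : OP := orK (nat_lit 191) (fin (add (start D14281) D3481))
noncomputable def D8928 : OP := win (nat_lit 4) (nat_lit 9) (nat_lit 6) (nat_lit 3)
noncomputable def D15759 : OP := orK (nat_lit 133) (fin (add (start D8928) D8717))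
noncomputable def D8469 : OP := orK (nat_lit 92) (fin (add (start D3515) (orK (nat_lit 91) (fin (add (start D3514) D8465)))))
noncomputable def D15062 : OP := orK (nat_lit 111) (fin (add (add (add (start (orK (nat_lit 191) (fin (add (start D14281) D3522)))) D8469) (orK (nat_lit 191) (fin (add (start D14281) (orK (nat_lit 92) (fin (add (start D3515) (orK (nat_lit 91) (fin (add (start D3514) (orK (nat_lit 130) (fin (add (start D14503) D8402))))))))))))) (orK (nat_lit 191) (fin (add (start D14281) (orK (nat_lit 92) (fin (add (start D3515) (orK (nat_lit 91) (fin (add (start D3514) (orK (nat_lit 71) (fin (add (start D13737) D8660))))))))))))))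
noncomputable def D3497 : OP := orK (nat_lit 112) (fin (add (start D1589) (orK (nat_lit 129) (fin (add (start D3489) (orK (nat_lit 110) (fin (add (start D3490) D3491))))))))
noncomputable def D8246 : OP := orK (nat_lit 111) (fin (add (start D1588) D3497))
noncomputable def D14502 : OP := orK (nat_lit 110) (fin (add (start D13019) D8355))
noncomputable def D14485 : OP := orK (nat_lit 170) (fin (add (start D3269) D1553))
noncomputable def D14451 : OP := orK (nat_lit 170) (fin (add (start D1553) D14328))
noncomputable def D14528 : OP := orK (nat_lit 148) (fin (add (add (start D14451) D14483) (orK (nat_lit 151) (fin (add (add (add (start D13713) (orK (nat_lit 172) (fin (add (start D13706) (orK (nat_lit 152) (fin (add (start D13707) D14485))))))) (orK (nat_lit 128) (fin (add (start D1586) (orK (nat_lit 152) (fin (add (start D8234) D14485))))))) (orK (nat_lit 171) (fin (add (start D6059) (orK (nat_lit 128) (fin (add (start D1586) (orK (nat_lit 131) (fin (add (add (add (start (orK (nat_lit 190) (fin (add (start D13839) (win (nat_lit 3) (nat_lit 10) (nat_lit 6) (nat_lit 2)))))) D14500) (orK (nat_lit 111) (fin (add (add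 (start (orK (nat_lit 130) (fin (add (start D14502) D14505)))) (orK (nat_lit 91) (fin (add (start D13722) D3517)))) (orK (nat_lit 130) (fin (add (start D14502) D13728))))))) (orK (nat_lit 170) (fin (add (start (win (nat_lit 3) (nat_lit 10) (nat_lit 6) (nat_lit 1))) D8246)))))))))))))))))
noncomputable def D14075 : OP := win (nat_lit 4) (nat_lit 7) (nat_lit 4) (nat_lit 4)
noncomputable def D14077 : OP := orK (nat_lit 91) (fin (add (start D14075) D13068))
noncomputable def D13947 : OP := win (nat_lit 2) (nat_lit 6) (nat_lit 4) (nat_lit 5)
noncomputable def D14074 : OP := orK (nat_lit 87) (fin (add (start D13947) (win (nat_lit 2) (nat_lit 7) (nat_lit 4) (nat_lit 4))))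
noncomputable def D14078 : AP := fin (add (start D14074) D14077)
noncomputable def D14126 : OP := orK (nat_lit 106) (fin (add (start D14117) D13980))
noncomputable def D14119 : OP := win (nat_lit 4) (nat_lit 7) (nat_lit 4) (nat_lit 5)
noncomputable def D14121 : OP := orK (nat_lit 90) (fin (add (start D14118) D14119))
noncomputable def D14970 : OP := orK (nat_lit 106) (fin (add (start D14121) D13980))
noncomputable def D14925 : OP := win (nat_lit 5) (nat_lit 6) (nat_lit 5) (nat_lit 3)
noncomputable def D14123 : OP := orK (nat_lit 106) (fin (add (start D14117) D14121))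
noncomputable def D14107 : OP := orK (nat_lit 107) (fin (add (start D13949) (orK (nat_lit 86) (fin (add (start D13977) (orK (nat_lit 106) (fin (add (start D13978) (orK (nat_lit 147) (fin (add (start (win (nat_lit 7) (nat_lit 6) (nat_lit 4) (nat_lit 0))) (orK (nat_lit 148) D14098))))))))))))
noncomputable def D14080 : AP := fin (add (start D14077) D13952)
noncomputable def D8597 : OP := win (nat_lit 5) (nat_lit 7) (nat_lit 5) (nat_lit 5)
noncomputable def D8591 : OP := win (nat_lit 2) (nat_lit 7) (nat_lit 4) (nat_lit 5)
noncomputable def D14020 : AP := fin (add (start D8591) (orK (nat_lit 128) (fin (add (start D8597) D14017))))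
noncomputable def D14021 : OP := orK (nat_lit 88) D14020
noncomputable def D14079 : OP := orK (nat_lit 107) D14078
noncomputable def D14031 : OP := win (nat_lit 5) (nat_lit 9) (nat_lit 4) (nat_lit 0)
noncomputable def D13940 : OP := win (nat_lit 4) (nat_lit 7) (nat_lit 4) (nat_lit 0)
noncomputable def D13065 : OP := win (nat_lit 3) (nat_lit 9) (nat_lit 4) (nat_lit 2)
noncomputable def D14069 : OP := orK (nat_lit 90) (fin (add (start D13065) (orK (nat_lit 91) (fin (add (start D13940) (orK (nat_lit 92) (fin (add (start (win (nat_lit 4) (nat_lit 8) (nat_lit 4) (nat_lit 3))) D14031))))))))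
noncomputable def D14063 : OP := orK (nat_lit 129) (fin (add (start D6717) D6590))
noncomputable def D14085 : OP := orK (nat_lit 108) (fin (add (add (add (start D14063) D14069) (orK (nat_lit 88) (fin (add (start D13801) (orK (nat_lit 111) D14020))))) (orK (nat_lit 111) (fin (add (add (start D14079) D14021) (orK (nat_lit 107) D14080))))))
noncomputable def D14225 : OP := orK (nat_lit 129) (fin (add (start D6717) D8867))
noncomputable def D14141 : OP := orK (nat_lit 93) (fin (add (start (win (nat_lit 4) (nat_lit 9) (nat_lit 4) (nat_lit 4))) (win (nat_lit 4) (nat_lit 10) (nat_lit 4) (nat_lit 5))))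
noncomputable def D8580 : OP := win (nat_lit 0) (nat_lit 10) (nat_lit 5) (nat_lit 5)
noncomputable def D8579 : OP := win (nat_lit 0) (nat_lit 9) (nat_lit 5) (nat_lit 4)
noncomputable def D6554 : OP := win (nat_lit 0) (nat_lit 7) (nat_lit 7) (nat_lit 0)
noncomputable def D3504 : OP := win (nat_lit 6) (nat_lit 10) (nat_lit 5) (nat_lit 1)
noncomputable def D13769 : OP := orK (nat_lit 148) (fin (add (start D6554) D1554))
noncomputable def D9378 : OP := win (nat_lit 7) (nat_lit 9) (nat_lit 4) (nat_lit 2)
noncomputable def D14221 : OP := orK (nat_lit 89) (fin (add (start (win (nat_lit 6) (nat_lit 9) (nat_lit 4) (nat_lit 2))) D9378))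
noncomputable def D13939 : OP := win (nat_lit 1) (nat_lit 9) (nat_lit 4) (nat_lit 2)
noncomputable def D14218 : OP := orK (nat_lit 90) (fin (add (start D13939) D13065))
noncomputable def D14223 : OP := orK (nat_lit 130) (fin (add (start D13019) D756))
noncomputable def D14591 : OP := orK (nat_lit 109) (fin (add (add (add (start D14223) D14218) D14221) D14225))
noncomputable def D13936 : OP := orK (nat_lit 130) (fin (add (start D13019) (orK (nat_lit 171) (fin (add (start D754) D13769)))))
noncomputable def D14983 : OP := orK (nat_lit 170) (fin (add (start D1553) (orK (nat_lit 110) (fin (add (add (add (start D13936) D14591) (orK (nat_lit 171) (fin (add (add (start D13769) (orK (nat_lit 172) (fin (add (start D6556) (orK (nat_lit 152) (fin (add (start D1565) (orK (nat_lit 191) (fin (add (start D3504) (orK (nat_lit 192) (fin (add (start D982) (orK (nat_lit 132) (fin (add (start (win (nat_lit 1) (nat_lit 11) (nat_lit 5) (nat_lit 0))) (orK (nat_lit 133) (fin (add (start D12886) (win (nat_lit 4) (nat_lit 9) (nat_lit 6) (nat_lit 2))))))))))))))))))))) (orK (nat_lit 148) (fin (add (start D6554) (orK (nat_lit 128) (fin (add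 (add (start (orK (nat_lit 151) D8237)) (orK (nat_lit 130) (fin (add (start D754) (orK (nat_lit 109) (fin (add (start D756) (orK (nat_lit 111) (fin (add (start D769) (orK (nat_lit 112) (fin (add (start D8598) (orK (nat_lit 133) (fin (add (start D8579) (orK (nat_lit 113) (fin (add (start D8580) D14141))))))))))))))))))) (orK (nat_lit 127) (fin (add (start D7169) (orK (nat_lit 108) (fin (add (start D1610) (orK (nat_lit 125) (fin (add (start (win (nat_lit 0) (nat_lit 5) (nat_lit 6) (nat_lit 1))) (orK (nat_lit 111) (fin (add (start (win (nat_lit 5) (nat_lit 7) (nat_lit 5) (nat_lit 2))) (orK (nat_lit 130) (fin (add (start D769) D754))))))))))))))))))))))))) (orK (nat_lit 109) (fin (add (add (add (start D14225) D14085) (orK (nat_lit 129) (fin (add (start D8867) (orK (nat_lit 127) (fin (add (add (add (start (orK (nat_lit 126) (fin (add (start (win (nat_lit 0) (nat_lit 6) (nat_lit 6) (nat_lit 2))) (orK (nat_lit 108) (fin (add (start D14925) D6590))))))) (orK (nat_lit 128) D14933)) (orK (nat_lit 108) (fin (add (start D6590) (orK (nat_lit 128) (fin (add (start D14935) D14932))))))) (orK (nat_lit 108) (fin (add (start D6590)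 D14107)))))))))) (orK (nat_lit 148) (fin (add (start D14328) (orK (nat_lit 108) (fin (add (add (add (start (orK (nat_lit 88) (fin (add (start D13800) (orK (nat_lit 87) (fin (add (start D2098) (orK (nat_lit 86) (fin (add (start (win (nat_lit 0) (nat_lit 5) (nat_lit 4) (nat_lit 0))) (win (nat_lit 0) (nat_lit 6) (nat_lit 4) (nat_lit 3)))))))))))) (orK (nat_lit 107) (fin (add (start D14123) (orK (nat_lit 127) (fin (add (start D13949) (orK (nat_lit 128) (fin (add (start D7169) D14935)))))))))) (orK (nat_lit 128) (fin (add (start D1610) (orK (nat_lit 127) (fin (add (start D7169) (orK (nat_lit 126) (fin (add (start D7216) D14925)))))))))) (orK (nat_lit 107) (fin (add (add (start D14970) D14126) (orK (nat_lit 111) D14078))))))))))))))))))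
noncomputable def D9397 : OP := orK (nat_lit 133) (fin (add (start D8717) (orK (nat_lit 110) (fin (add (start (win (nat_lit 0) (nat_lit 9) (nat_lit 5) (nat_lit 0))) D3491)))))
noncomputable def D8739 : AP := fin (add (start D6554) D1587)
noncomputable def D8744 : OP := orK (nat_lit 148) D8739
noncomputable def D8887 : OP := orK (nat_lit 109) (fin (add (start D8867) (orK (nat_lit 108) (fin (add (start (win (nat_lit 0) (nat_lit 8) (nat_lit 5) (nat_lit 2))) D6590)))))
noncomputable def D8880 : OP := orK (nat_lit 148) (fin (add (start D6554) D8238))
noncomputable def D8231 : OP := orK (nat_lit 193) (fin (add (start D279) (orK (nat_lit 173) (fin (add (start D280) D1561)))))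
noncomputable def D14878 : OP := orK (nat_lit 170) (fin (add (start D1553) (orK (nat_lit 171) (fin (add (add (start D13769) (orK (nat_lit 172) (fin (add (add (add (start D8231) D1571) D981) (orK (nat_lit 192) (fin (add (start D982) (orK (nat_lit 152) (fin (add (start D1565) D12932)))))))))) (orK (nat_lit 151) (fin (add (add (add (start D8880) (orK (nat_lit 148) (fin (add (start D6554) D8244)))) (orK (nat_lit 152) (fin (add (start D3269) (orK (nat_lit 129) (fin (add (start D8866) (orK (nat_lit 132) (fin (add (start D8240) (orK (nat_lit 112) (fin (add (start D8435) (orK (nat_lit 131) (fin (add (start D8417) (orK (nat_lit 111) (fin (add (start D1588) D8887))))))))))))))))))) (orK (nat_lit 131) (fin (add (add (start D8744) (orK (nat_lit 111) (fin (add (start D1588) (orK (nat_lit 112) (fin (add (start D1589) (orK (nat_lit 132) (fin (add (start D8417) D9397)))))))))) (orK (nat_lit 111) (fin (add (start D1588) (orK (nat_lit 112) (fin (add (start D1589) (orK (nat_lit 148) (fin (add (start D6554) (orK (nat_lit 128) (fin (add (start D1586) (orK (nat_lit 110) (fin (add (start D3491) D13782))))))))))))))))))))))))))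
noncomputable def D13761 : OP := orK (nat_lit 127) (fin (add (start D1228) (orK (nat_lit 151) (fin (add (start D1227) D6062)))))
noncomputable def D14555 : OP := orK (nat_lit 152) (fin (add (start D13707) D3269))
noncomputable def D14840 : OP := orK (nat_lit 170) (fin (add (start D1553) (orK (nat_lit 148) (fin (add (add (start D14328) (orK (nat_lit 151) (fin (add (add (start (orK (nat_lit 172) (fin (add (start D13706) D14555)))) (orK (nat_lit 171) (fin (add (start D6059) (orK (nat_lit 128) (fin (add (start D1586) (orK (nat_lit 131) (fin (add (start D1587) (orK (nat_lit 111) (fin (add (start D1588) (orK (nat_lit 110) (fin (add (start D3491) (orK (nat_lit 130) (fin (add (start D754) (orK (nat_lit 112) (fin (add (start D1589) (orK (nat_lit 108) (fin (add (start D1610) (orK (nat_lit 109) (fin (add (start D8425) D756)))))))))))))))))))))))))))) D8244)))) (orK (nat_lit 147) (fin (add (start D1555) D13761))))))))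
noncomputable def D14249 : OP := orK (nat_lit 93) (fin (add (start D14240) (orK (nat_lit 92) (fin (add (start D14241) (orK (nat_lit 91) (fin (add (start (win (nat_lit 7) (nat_lit 11) (nat_lit 3) (nat_lit 5))) (win (nat_lit 7) (nat_lit 11) (nat_lit 4) (nat_lit 4))))))))))
noncomputable def D14250 : OP := win (nat_lit 7) (nat_lit 11) (nat_lit 4) (nat_lit 5)
noncomputable def D8584 : OP := win (nat_lit 5) (nat_lit 9) (nat_lit 5) (nat_lit 4)
noncomputable def D14239 : OP := orK (nat_lit 171) D12884
noncomputable def D13912 : OP := orK (nat_lit 193) (fin (add (start (win (nat_lit 0) (nat_lit 9) (nat_lit 8) (nat_lit 2))) (win (nat_lit 6) (nat_lit 12) (nat_lit 6) (nat_lit 5))))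
noncomputable def D13928 : OP := orK (nat_lit 152) (fin (add (start D3269) (orK (nat_lit 129) (fin (add (start D8866) (orK (nat_lit 109) (fin (add (start D8867) (orK (nat_lit 132) (fin (add (start D8240) (orK (nat_lit 172) (fin (add (start D13707) (orK (nat_lit 108) (fin (add (start D6590) (orK (nat_lit 131) (fin (add (start D8868) (orK (nat_lit 192) (fin (add (start D3427) D13912)))))))))))))))))))))))
noncomputable def D8582 : OP := orK (nat_lit 133) (fin (add (start D8579) D8580))
noncomputable def D14669 : OP := orK (nat_lit 113) (fin (add (start D8582) D14141))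
noncomputable def D14137 : OP := win (nat_lit 2) (nat_lit 9) (nat_lit 4) (nat_lit 4)
noncomputable def D9377 : OP := win (nat_lit 2) (nat_lit 8) (nat_lit 4) (nat_lit 5)
noncomputable def D14665 : OP := orK (nat_lit 89) (fin (add (start D9377) D14137))
noncomputable def D8594 : OP := orK (nat_lit 88) (fin (add (start D8591) D8592))
noncomputable def D14627 : AP := fin (add (start D8594) D14026)
noncomputable def D14129 : AP := fin (add (start D14023) D8594)
noncomputable def D14592 : OP := win (nat_lit 1) (nat_lit 10) (nat_lit 4) (nat_lit 2)
noncomputable def D8569 : OP := win (nat_lit 0) (nat_lit 8) (nat_lit 5) (nat_lit 5)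
noncomputable def D14622 : OP := orK (nat_lit 91) (fin (add (start D13068) (orK (nat_lit 131) (fin (add (start D8569) (win (nat_lit 1) (nat_lit 10) (nat_lit 4) (nat_lit 3)))))))
noncomputable def D14130 : OP := orK (nat_lit 112) D14129
noncomputable def D8600 : OP := orK (nat_lit 128) (fin (add (start D8597) D8598))
noncomputable def D14603 : OP := orK (nat_lit 112) (fin (add (start D14023) D8600))
noncomputable def D14632 : OP := orK (nat_lit 108) (fin (add (add (start (orK (nat_lit 129) (fin (add (start D8867) D6590)))) (orK (nat_lit 111) (fin (add (add (start D14603) D14622) (orK (nat_lit 112) (fin (add (start D14026) D8600))))))) (orK (nat_lit 111) (fin (add (add (start D14130) D14622) (orK (nat_lit 112) D14627))))))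
noncomputable def D14587 : OP := orK (nat_lit 111) (fin (add (start D769) (orK (nat_lit 171) (fin (add (start D754) (orK (nat_lit 172) (fin (add (start D6556) (orK (nat_lit 192) (fin (add (start D982) (win (nat_lit 6) (nat_lit 11) (nat_lit 5) (nat_lit 1)))))))))))))
noncomputable def D14044 : OP := orK (nat_lit 88) (fin (add (start D8591) D13801))
noncomputable def D14607 : OP := orK (nat_lit 108) (fin (add (start D13068) D14044))
noncomputable def D14595 : OP := orK (nat_lit 91) (fin (add (start D14592) D14593))
noncomputable def D14296 : AP := fin (add (start D6556) D12878)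
noncomputable def D14726 : AP := fin (add (add (add (add (add (start D14542) (orK (nat_lit 152) (fin (add (start D3269) (orK (nat_lit 172) (fin (add (start D13707) (orK (nat_lit 132) (fin (add (start D8240) (orK (nat_lit 192) (fin (add (start D13912) (orK (nat_lit 131) (fin (add (start D14543) D3427)))))))))))))))) (orK (nat_lit 172) (fin (add (add (start D14555) (orK (nat_lit 171) D14296)) (orK (nat_lit 152) (fin (add (start D3269) (orK (nat_lit 131) (fin (add (start (orK (nat_lit 111) (fin (add (start D1588) (orK (nat_lit 192) (fin (add (start (win (nat_lit 6) (nat_lit 11) (nat_lit 5) (nat_lit 3))) D3427))))))) (orK (nat_lit 129) (fin (add (start D8866) D14570))))))))))))) (orK (nat_lit 110) (fin (add (add (add (start (orK (nat_lit 130) (fin (add (start D13019) D14587)))) D14591) (orK (nat_lit 109) (fin (add (add (add (start D14221) (orK (nat_lit 111) (fin (add (add (add (start D14595) (orK (nat_lit 108) (fin (add (add (start (orK (nat_lit 107) (fin (add (start (orK (nat_lit 131) (fin (add (start D14562) D8569)))) D14074)))) D14603) D14044)))) (orK (nat_lit 91) (fin (add (start D14592) D14607)))) (orK (nat_lit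 91) (fin (add (start D14593) D14607))))))) (orK (nat_lit 130) (fin (add (start D756) D14587)))) D14632)))) (orK (nat_lit 109) (fin (add (add (add (start D14225) (orK (nat_lit 108) (fin (add (add (start D14063) (orK (nat_lit 111) (fin (add (start D14622) (orK (nat_lit 107) (fin (add (start D14074) D13952))))))) D14069)))) D14632) (orK (nat_lit 111) (fin (add (add (add (start (orK (nat_lit 131) (fin (add (start D1588) (orK (nat_lit 171) (fin (add (start D3491) (orK (nat_lit 172) (fin (add (start D6556) D12880)))))))))) (orK (nat_lit 91) (fin (add (start D14592) (orK (nat_lit 92) (fin (add (start (win (nat_lit 4) (nat_lit 8) (nat_lit 4) (nat_lit 0))) (orK (nat_lit 93) (fin (add (start (win (nat_lit 4) (nat_lit 9) (nat_lit 4) (nat_lit 3))) (win (nat_lit 5) (nat_lit 10) (nat_lit 4) (nat_lit 0)))))))))))) (orK (nat_lit 112) (fin (add (add (start (orK (nat_lit 108) D14129)) D14669) (orK (nat_lit 113) (fin (add (start D14665) D14141))))))) (orK (nat_lit 112) (fin (add (add (start (orK (nat_lit 108) D14627)) (orK (nat_lit 113) (fin (add (start D8582) D14665)))) D14669))))))))))))) D13928) (orK (nat_lit 152) (fin (add (start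 D3269) (orK (nat_lit 132) (fin (add (start D8240) (orK (nat_lit 112) (fin (add (add (add (start (orK (nat_lit 172) (fin (add (start D13707) D14239)))) (orK (nat_lit 92) (fin (add (start D14685) (orK (nat_lit 129) (fin (add (start D8866) (orK (nat_lit 73) (fin (add (start (win (nat_lit 3) (nat_lit 12) (nat_lit 3) (nat_lit 4))) (orK (nat_lit 72) (fin (add (start (win (nat_lit 3) (nat_lit 12) (nat_lit 2) (nat_lit 5))) (orK (nat_lit 71) (fin (add (start (win (nat_lit 7) (nat_lit 11) (nat_lit 2) (nat_lit 5))) (win (nat_lit 7) (nat_lit 11) (nat_lit 3) (nat_lit 4)))))))))))))))))) (orK (nat_lit 172) (fin (add (start D13707) (orK (nat_lit 171) (fin (add (start D12883) (orK (nat_lit 192) (fin (add (start D982) (orK (nat_lit 129) (fin (add (start D8866) (orK (nat_lit 109) (fin (add (start D8867) (orK (nat_lit 110) (fin (add (start D6717) (orK (nat_lit 113) (fin (add (start D12896) (orK (nat_lit 111) (fin (add (start D8584) D14250))))))))))))))))))))))))) (orK (nat_lit 172) (fin (add (start D13707) (orK (nat_lit 129) (fin (add (start D8866) D14249))))))))))))))))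
noncomputable def D14727 : OP := orK (nat_lit 151) D14726
noncomputable def D14729 : OP := orK (nat_lit 170) (fin (add (start D1553) D14727))
noncomputable def D14229 : OP := orK (nat_lit 170) (fin (add (start D1553) (orK (nat_lit 109) (fin (add (add (add (start D14218) D14221) D14223) D14225)))))
noncomputable def D14096 : OP := orK (nat_lit 132) (fin (add (start D13968) (orK (nat_lit 112) (fin (add (start D8473) D14026)))))
noncomputable def D14163 : OP := orK (nat_lit 111) (fin (add (add (add (start D14096) (orK (nat_lit 91) (fin (add (start D13068) (orK (nat_lit 107) (fin (add (start D14075) D13952))))))) (orK (nat_lit 132) (fin (add (start D13968) (orK (nat_lit 112) (fin (add (start D8473) (orK (nat_lit 89) (fin (add (start D9377) (orK (nat_lit 113) (fin (add (start D14137) D14141))))))))))))) (orK (nat_lit 132) (fin (add (start D13968) (orK (nat_lit 112) (fin (add (start D8473) (orK (nat_lit 89) (fin (add (start D9377) (orK (nat_lit 90) (fin (add (start (win (nat_lit 2) (nat_lit 9) (nat_lit 4) (nat_lit 0))) (orK (nat_lit 107) (fin (add (start (win (nat_lit 4) (nat_lit 6) (nat_lit 4) (nat_lit 0))) D14119)))))))))))))))))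
noncomputable def D14132 : OP := orK (nat_lit 111) (fin (add (add (start D14079) D14130) D14028))
noncomputable def D10749 : OP := win (nat_lit 4) (nat_lit 5) (nat_lit 4) (nat_lit 4)
noncomputable def D10750 : OP := win (nat_lit 4) (nat_lit 6) (nat_lit 4) (nat_lit 5)
noncomputable def D10752 : OP := orK (nat_lit 89) (fin (add (start D10749) D10750))
noncomputable def D14016 : OP := orK (nat_lit 107) (fin (add (add (add (add (start (orK (nat_lit 126) (fin (add (start D13957) (orK (nat_lit 106) (fin (add (start D10732) (orK (nat_lit 85) (fin (add (start (win (nat_lit 2) (nat_lit 5) (nat_lit 4) (nat_lit 4))) (orK (nat_lit 105) (fin (add (start (win (nat_lit 2) (nat_lit 4) (nat_lit 4) (nat_lit 5))) D10752))))))))))))) (orK (nat_lit 127) (fin (add (start D13949) (orK (nat_lit 111) (fin (add (start D13950) (orK (nat_lit 132) (fin (add (start D13968) (orK (nat_lit 112) (fin (add (start D8473) D8594))))))))))))) D13984) (orK (nat_lit 86) (fin (add (start D13977) (orK (nat_lit 106) (fin (add (start D13978) (orK (nat_lit 89) (fin (add (start D10750) (orK (nat_lit 88) (fin (add (start (win (nat_lit 4) (nat_lit 5) (nat_lit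 4) (nat_lit 0))) (orK (nat_lit 111) (fin (add (start (win (nat_lit 2) (nat_lit 8) (nat_lit 4) (nat_lit 0))) (orK (nat_lit 128) (fin (add (start D8597) (orK (nat_lit 69) (fin (add (start (win (nat_lit 1) (nat_lit 8) (nat_lit 2) (nat_lit 0))) (win (nat_lit 3) (nat_lit 8) (nat_lit 3) (nat_lit 0)))))))))))))))))))))))) (orK (nat_lit 86) (fin (add (start D13977) (orK (nat_lit 106) (fin (add (start D13978) (orK (nat_lit 89) (fin (add (start D10750) (orK (nat_lit 105) (fin (add (start D10749) (orK (nat_lit 125) (fin (add (start D14003) (win (nat_lit 5) (nat_lit 5) (nat_lit 5) (nat_lit 4)))))))))))))))))))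
noncomputable def D14128 : OP := orK (nat_lit 107) (fin (add (add (start D14123) (orK (nat_lit 111) D14080)) D14126))
noncomputable def D14030 : OP := orK (nat_lit 111) (fin (add (start D14021) D14028))
noncomputable def D14059 : OP := orK (nat_lit 170) (fin (add (start D8867) (win (nat_lit 6) (nat_lit 9) (nat_lit 5) (nat_lit 5))))
noncomputable def D14115 : OP := orK (nat_lit 108) (fin (add (add (start (orK (nat_lit 129) (fin (add (start D6590) D14059)))) D14030) (orK (nat_lit 170) (fin (add (start D1553) (orK (nat_lit 111) (fin (add (start D14096) (orK (nat_lit 127) (fin (add (start D13950) D14107)))))))))))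
noncomputable def D14061 : OP := orK (nat_lit 129) (fin (add (start D6717) D14059))
noncomputable def D8570 : AP := fin (add (start D8425) D8569)
noncomputable def D14056 : OP := orK (nat_lit 170) (fin (add (start D1553) (orK (nat_lit 171) (fin (add (start D13769) (orK (nat_lit 130) (fin (add (start D754) (orK (nat_lit 109) (fin (add (start D756) (orK (nat_lit 111) (fin (add (start D769) (orK (nat_lit 108) (fin (add (start (orK (nat_lit 131) D8570)) D14044)))))))))))))))))
noncomputable def D14041 : OP := orK (nat_lit 90) (fin (add (start D13939) (orK (nat_lit 109) (fin (add (start D13065) (orK (nat_lit 108) (fin (add (add (start D14016) D14030) (orK (nat_lit 91) (fin (add (start D13940) (orK (nat_lit 92) (fin (add (start (win (nat_lit 5) (nat_lit 8) (nat_lit 4) (nat_lit 3))) D14031))))))))))))))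
noncomputable def D13938 : OP := orK (nat_lit 170) (fin (add (start D1553) D13936))
noncomputable def D14388 : OP := win (nat_lit 5) (nat_lit 10) (nat_lit 7) (nat_lit 4)
noncomputable def D14406 : OP := orK (nat_lit 134) (fin (add (start D14401) (orK (nat_lit 154) (fin (add (start D14402) D14388)))))
noncomputable def D9002 : OP := win (nat_lit 5) (nat_lit 11) (nat_lit 5) (nat_lit 0)
noncomputable def D14267 : OP := orK (nat_lit 172) (fin (add (start D13707) (orK (nat_lit 132) (fin (add (start D8240) (orK (nat_lit 112) (fin (add (add (start D14239) D14249) (orK (nat_lit 171) (fin (add (start D12883) (orK (nat_lit 111) (fin (add (start D14250) (orK (nat_lit 131) (fin (add (start D12880) (orK (nat_lit 113) (fin (add (start D12896) (orK (nat_lit 114) (fin (add (start (win (nat_lit 5) (nat_lit 10) (nat_lit 5) (nat_lit 5))) D9002)))))))))))))))))))))))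
noncomputable def D14297 : OP := orK (nat_lit 172) D14296
noncomputable def D14449 : OP := orK (nat_lit 170) (fin (add (start D1553) (orK (nat_lit 151) (fin (add (add (add (add (add (start (orK (nat_lit 152) (fin (add (start D3269) (orK (nat_lit 172) (fin (add (start D13707) (orK (nat_lit 171) (fin (add (start D13856) (orK (nat_lit 132) (fin (add (start D8240) D12885))))))))))))) (orK (nat_lit 171) (fin (add (add (start (orK (nat_lit 148) (fin (add (start D6554) D6059)))) D14297) (orK (nat_lit 148) (fin (add (start D6554) (orK (nat_lit 131) (fin (add (start D1587) (orK (nat_lit 111) (fin (add (start D1588) (orK (nat_lit 110) (fin (add (start D3491) (orK (nat_lit 130) (fin (add (start D754) (orK (nat_lit 112) (fin (add (start D1589) (orK (nat_lit 113) (fin (add (start (win (nat_lit 5) (nat_lit 9) (nat_lit 5) (nat_lit 5))) D8646))))))))))))))))))))))))) (orK (nat_lit 152) (fin (add (start D3269) (orK (nat_lit 132) (fin (add (start D8240) (orK (nat_lit 148) (fin (add (start D8239) D14328)))))))))) (orK (nat_lit 152) (fin (add (start D3269) (orK (nat_lit 172) (fin (add (start D13707) (orK (nat_lit 171) (fin (add (start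 D13856) (orK (nat_lit 192) (fin (add (start D982) D3429))))))))))))) (orK (nat_lit 152) (fin (add (add (add (add (start D14317) D14267) (orK (nat_lit 153) (fin (add (add (start D14313) (orK (nat_lit 154) (fin (add (start D14388) D14398)))) D14406)))) (orK (nat_lit 173) (fin (add (start D14232) (orK (nat_lit 153) (fin (add (start D14233) D14406))))))) (orK (nat_lit 173) (fin (add (start D14232) (orK (nat_lit 153) (fin (add (start D14233) (orK (nat_lit 154) (fin (add (start D14388) (orK (nat_lit 131) (fin (add (start D14391) (orK (nat_lit 155) (fin (add (start D14392) (orK (nat_lit 176) (fin (add (start (win (nat_lit 0) (nat_lit 12) (nat_lit 7) (nat_lit 4))) (orK (nat_lit 156) (fin (add (start (win (nat_lit 0) (nat_lit 13) (nat_lit 7) (nat_lit 5))) D14418))))))))))))))))))))))))) D14445)))))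
noncomputable def D13838 : OP := win (nat_lit 3) (nat_lit 10) (nat_lit 7) (nat_lit 3)
noncomputable def D13845 : OP := orK (nat_lit 171) (fin (add (start D6059) (orK (nat_lit 190) (fin (add (start D13838) (orK (nat_lit 131) (fin (add (start D13839) D1587))))))))
noncomputable def D7164 : AP := fin (add (start D4055) D7163)
noncomputable def D15275 : OP := orK (nat_lit 146) D7164
noncomputable def D7263 : OP := orK (nat_lit 128) (fin (add (start D7171) D7261))
noncomputable def D16616 : AP := fin (add (add (add (add (start D7063) (orK (nat_lit 150) (fin (add (add (add (add (add (add (add (add (add (add (add (start (orK (nat_lit 148) (fin (add (add (start D14451) (orK (nat_lit 147) (fin (add (add (start D7263) D15275) D15241)))) (orK (nat_lit 151) (fin (add (add (start D13845) D13713) D13721))))))) D14449) (orK (nat_lit 110) (fin (add (add (add (add (start D13938) D14041) D14056) (orK (nat_lit 109) (fin (add (add (add (start D14061) D14085) D14115) (orK (nat_lit 108) (fin (add (add (add (add (add (start D14030) D14128) D14016) D14132) D14163) (orK (nat_lit 148) (fin (add (start D14451) (orK (nat_lit 128) (fin (add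 (start D1610) (orK (nat_lit 107) (fin (add (add (start (orK (nat_lit 127) (fin (add (start D13949) (orK (nat_lit 87) (fin (add (start D13947) D14463))))))) D14123) D14970)))))))))))))))) D14229)))) D14729) D14840) D14878) D14983) D14528) (orK (nat_lit 151) (fin (add (add (add (add (add (add (start (orK (nat_lit 131) (fin (add (add (add (start (orK (nat_lit 171) (fin (add (start (orK (nat_lit 172) D13860)) D15062)))) (orK (nat_lit 132) (fin (add (start D8795) D15759)))) (orK (nat_lit 148) D15768)) (orK (nat_lit 132) (fin (add (add (start D15759) (orK (nat_lit 171) (fin (add (add (start D14283) (orK (nat_lit 111) (fin (add (start (orK (nat_lit 172) (fin (add (start D12880) D13859)))) (orK (nat_lit 91) (fin (add (start D3517) D8465))))))) (orK (nat_lit 191) (fin (add (start D14281) (orK (nat_lit 192) (fin (add (start D3482) (orK (nat_lit 111) (fin (add (start (win (nat_lit 6) (nat_lit 11) (nat_lit 5) (nat_lit 4))) D3522))))))))))))) D8798))))))) (orK (nat_lit 148) (fin (add (add (start (orK (nat_lit 131) D15768)) D15810) D15816)))) D15085) (orK (nat_lit 148) (fin (add (start D13717) D15810)))) D13906) D15222) D15117))))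 D14812) D15230) (orK (nat_lit 148) (fin (add (add (add (start D13753) (orK (nat_lit 147) (fin (add (start D15233) (orK (nat_lit 127) (fin (add (start D1228) (orK (nat_lit 128) D15841)))))))) D14483) (orK (nat_lit 147) (fin (add (add (start D15233) D13865) D6066)))))))))) (orK (nat_lit 187) (fin (add (add (add (add (start (orK (nat_lit 189) (fin (add (start D5917) (orK (nat_lit 188) (fin (add (add (add (start D15391) D15395) (orK (nat_lit 186) D15857)) D15404))))))) (orK (nat_lit 170) (fin (add (start D1553) D15324)))) (orK (nat_lit 209) (fin (add (start D1552) (orK (nat_lit 226) (fin (add (add (add (start D15303) D9565) (orK (nat_lit 228) (fin (add (start D2036) (orK (nat_lit 225) (fin (add (add (add (add (start D9615) (orK (nat_lit 248) (fin (add (start D137) (orK (nat_lit 245) (fin (add (start D2535) (orK (nat_lit 206) (fin (add (add (add (start (orK (nat_lit 186) (fin (add (start D2416) D9593)))) (orK (nat_lit 266) (fin (add (start D15867) (orK (nat_lit 265) (fin (add (start D2427) (orK (nat_lit 286) (fin (add (start D4613) (orK (nat_lit 288) (fin (add (start D15868) (orK (nat_lit 287) (fin (add (start D10208)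 (orK (nat_lit 264) (fin (add (start D3714) (win (nat_lit 0) (nat_lit 4) (nat_lit 13) (nat_lit 3))))))))))))))))))))) D15886) (orK (nat_lit 186) (fin (add (start D2416) (orK (nat_lit 246) (fin (add (start D708) (orK (nat_lit 185) (fin (add (start D2349) (orK (nat_lit 184) (fin (add (start D5231) (orK (nat_lit 164) (fin (add (start D7635) D15887))))))))))))))))))))))))) (orK (nat_lit 248) (fin (add (start D137) (orK (nat_lit 244) (fin (add (start D4404) (orK (nat_lit 224) (fin (add (start D4403) D15910)))))))))) (orK (nat_lit 248) (fin (add (start D137) (orK (nat_lit 288) (fin (add (start D15868) D15937))))))) D15953))))))) D15962))))))) (orK (nat_lit 170) (fin (add (start D1553) (orK (nat_lit 167) (fin (add (add (start D9235) D3349) D7609))))))) (orK (nat_lit 170) (fin (add (start D1553) (orK (nat_lit 226) (fin (add (add (add (start D9565) (orK (nat_lit 167) (fin (add (start D2035) D15972)))) (orK (nat_lit 209) (fin (add (start D1552) (orK (nat_lit 228) (fin (add (start D2036) (orK (nat_lit 225) (fin (add (add (add (add (start D9615) (orK (nat_lit 205) (fin (add (start D2466) (orK (nat_lit 245) (fin (add (start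 D2535) (orK (nat_lit 248) (fin (add (start D137) (orK (nat_lit 265) (fin (add (add (start D10056) (orK (nat_lit 285) (fin (add (start D4637) D4641)))) (orK (nat_lit 206) (fin (add (start D3132) (orK (nat_lit 266) (fin (add (start D15867) D3781))))))))))))))))))) (orK (nat_lit 224) (fin (add (add (add (start D4406) (orK (nat_lit 223) (fin (add (start D15906) (orK (nat_lit 202) (fin (add (start D15991) (orK (nat_lit 222) (fin (add (start D15992) (orK (nat_lit 245) (fin (add (start D15993) D2535))))))))))))) D16008) D15947)))) D15937) D15953)))))))))) (orK (nat_lit 209) (fin (add (start D1552) D15962))))))))))))) D7101) (orK (nat_lit 129) D16614))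
noncomputable def D2918 : AP := fin (add (start D1513) D1507)
noncomputable def D6959 : OP := orK (nat_lit 189) D2918
noncomputable def D15674 : AP := fin (add (start D1508) D6959)
noncomputable def D12295 : OP := orK (nat_lit 267) (fin (add (add (add (start D574) D4906) D10240) D12293))
noncomputable def D7629 : OP := win (nat_lit 4) (nat_lit 6) (nat_lit 8) (nat_lit 2)
noncomputable def D13084 : OP := orK (nat_lit 89) (fin (add (start D9075) D13082))
noncomputable def D13085 : AP := fin (add (start D6717) D13084)
noncomputable def D13538 : OP := orK (nat_lit 110) (fin (add (start D6716) (orK (nat_lit 109) D13085)))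
noncomputable def D13533 : OP := orK (nat_lit 147) (fin (add (start D1555) (orK (nat_lit 130) (fin (add (start D6603) D7183)))))
noncomputable def D13521 : OP := orK (nat_lit 110) (fin (add (start D6716) (orK (nat_lit 109) (fin (add (start D6717) (orK (nat_lit 89) (fin (add (start D9075) D13515))))))))
noncomputable def D13508 : OP := orK (nat_lit 109) (fin (add (add (add (start D6720) (orK (nat_lit 89) (fin (add (start D9075) (orK (nat_lit 70) (fin (add (start D7444) (orK (nat_lit 69) (fin (add (start D7445) (orK (nat_lit 128) (fin (add (start D13489) D7213))))))))))))) (orK (nat_lit 89) (fin (add (start D9075) (orK (nat_lit 70) (fin (add (start D7444) (orK (nat_lit 69) (fin (add (start D7445) (orK (nat_lit 148) D13499))))))))))) D13084))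
noncomputable def D15334 : OP := orK (nat_lit 129) (fin (add (add (add (add (start D6724) D13488) D13508) (orK (nat_lit 148) (fin (add (add (start D9150) D13521) D13533)))) D13538))
noncomputable def D3350 : AP := fin (add (start D32) D3349)
noncomputable def D2905 : AP := fin (add (start D1444) D1513)
noncomputable def D13454 : OP := orK (nat_lit 209) (fin (add (start D1508) (orK (nat_lit 189) D2905)))
noncomputable def D13455 : AP := fin (add (start D1169) D13454)
noncomputable def D3922 : OP := orK (nat_lit 268) (fin (add (start D572) (orK (nat_lit 248) (fin (add (start D1770) D3918)))))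
noncomputable def D11360 : OP := orK (nat_lit 190) D939
noncomputable def D13282 : OP := orK (nat_lit 189) (fin (add (add (add (start D7880) D13276) D7876) (orK (nat_lit 170) (fin (add (start D7629) D13278)))))
noncomputable def D7049 : OP := orK (nat_lit 246) D3939
noncomputable def D15574 : OP := orK (nat_lit 287) (fin (add (start D13158) (orK (nat_lit 306) (fin (add (start D5832) (orK (nat_lit 307) (fin (add (start D5833) D13159))))))))
noncomputable def D15568 : OP := orK (nat_lit 286) (fin (add (start D1693) (orK (nat_lit 287) (fin (add (start D1694) D13158)))))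
noncomputable def D13312 : OP := orK (nat_lit 287) D13171
noncomputable def D7259 : OP := orK (nat_lit 146) (fin (add (start D6615) (orK (nat_lit 129) (fin (add (start D6617) (orK (nat_lit 128) (fin (add (start D7253) D7213))))))))
noncomputable def D15383 : OP := orK (nat_lit 167) D3207
noncomputable def D15472 : OP := orK (nat_lit 111) (fin (add (start D14250) (win (nat_lit 7) (nat_lit 11) (nat_lit 5) (nat_lit 4))))
noncomputable def D13108 : OP := win (nat_lit 0) (nat_lit 7) (nat_lit 7) (nat_lit 1)
noncomputable def D15364 : OP := orK (nat_lit 167) (fin (add (start D1381) D1229))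
noncomputable def D15366 : OP := orK (nat_lit 148) (fin (add (start D4051) D15364))
noncomputable def D15362 : OP := orK (nat_lit 148) D7209
noncomputable def D4146 : OP := orK (nat_lit 206) (fin (add (start D1791) (orK (nat_lit 226) (fin (add (start D4139) (orK (nat_lit 167) D4141))))))
noncomputable def D4152 : OP := orK (nat_lit 267) (fin (add (add (start D1304) D4146) D4150))
noncomputable def D4045 : OP := orK (nat_lit 226) (fin (add (start D3935) D4043))
noncomputable def D4162 : OP := orK (nat_lit 247) (fin (add (add (add (add (start D3218) (orK (nat_lit 246) (fin (add (start D134) (orK (nat_lit 248) (fin (add (start D1369) D4045))))))) D4152) D4156) (orK (nat_lit 268) (fin (add (start D571) (orK (nat_lit 267) (fin (add (start D572) D4146))))))))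
noncomputable def D15406 : OP := orK (nat_lit 188) (fin (add (add (add (start D15391) D15395) (orK (nat_lit 186) D15400)) D15404))
noncomputable def D15349 : AP := fin (add (start D579) D15348)
noncomputable def D12674 : OP := orK (nat_lit 185) (fin (add (add (add (start D12660) (orK (nat_lit 164) (fin (add (start D7634) (orK (nat_lit 184) (fin (add (start D7635) (orK (nat_lit 206) (fin (add (start D5231) D7968)))))))))) (orK (nat_lit 164) (fin (add (start D7634) (orK (nat_lit 184) (fin (add (start D7635) D12668))))))) D7642))
noncomputable def D9170 : OP := orK (nat_lit 126) (fin (add (start D6616) (orK (nat_lit 150) (fin (add (start D6014) D4055)))))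
noncomputable def D15372 : OP := orK (nat_lit 167) (fin (add (start D1229) (orK (nat_lit 206) (fin (add (start D1445) (orK (nat_lit 127) (fin (add (start D4206) D1228))))))))
noncomputable def D15599 : AP := fin (add (add (add (add (start (orK (nat_lit 149) (fin (add (add (add (start (orK (nat_lit 170) (fin (add (start D1553) (orK (nat_lit 147) (fin (add (add (start D15362) (orK (nat_lit 150) (fin (add (add (add (start D15366) D14727) (orK (nat_lit 148) (fin (add (start D4051) (orK (nat_lit 130) (fin (add (start D4053) D15372))))))) (orK (nat_lit 148) (fin (add (add (start D15364) D13761) D15372))))))) D15383))))))) (orK (nat_lit 189) (fin (add (start D5917) D15406)))) D7101) (orK (nat_lit 189) (fin (add (start D5917) (orK (nat_lit 146) (fin (add (add (add (add (start (orK (nat_lit 166) D12811)) (orK (nat_lit 147) (fin (add (add (start (orK (nat_lit 167) (fin (add (start D1376) D3204)))) (orK (nat_lit 148) (fin (add (start D6615) (orK (nat_lit 167) (fin (add (start D1381) D3204))))))) (orK (nat_lit 148) (fin (add (start D6615) D9170))))))) (orK (nat_lit 166) (fin (add (start D6158) (orK (nat_lit 186) (fin (add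 (start D453) (orK (nat_lit 188) (fin (add (start D369) D7878)))))))))) (orK (nat_lit 186) (fin (add (add (start D15430) (orK (nat_lit 188) (fin (add (start D7878) D12674)))) (orK (nat_lit 188) (fin (add (start D7878) (orK (nat_lit 166) (fin (add (start D369) D370)))))))))) (orK (nat_lit 167) D15349))))))))))) (orK (nat_lit 189) (fin (add (add (add (start D7876) (orK (nat_lit 186) (fin (add (add (start (orK (nat_lit 188) D10517)) (orK (nat_lit 188) D7971)) D7746)))) (orK (nat_lit 209) (fin (add (start D1507) (orK (nat_lit 186) (fin (add (start D6073) (orK (nat_lit 247) (fin (add (start D140) D7754)))))))))) D15406)))) D4162) (orK (nat_lit 149) (fin (add (add (add (start (orK (nat_lit 170) (fin (add (start D1553) (orK (nat_lit 147) (fin (add (add (start D15362) (orK (nat_lit 150) (fin (add (add (add (start D15366) (orK (nat_lit 171) (fin (add (start D13108) (orK (nat_lit 172) (fin (add (start D6556) (orK (nat_lit 152) (fin (add (start D1565) (orK (nat_lit 192) (fin (add (start D982) (orK (nat_lit 132) (fin (add (add (add (start D12930) (orK (nat_lit 130) (fin (add (start (orK (nat_lit 110) (fin (add (start D13019)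 D754)))) (orK (nat_lit 133) (fin (add (start D12886) (win (nat_lit 5) (nat_lit 9) (nat_lit 6) (nat_lit 2))))))))) (orK (nat_lit 112) (fin (add (start D12883) D15472)))) (orK (nat_lit 112) (fin (add (start D12928) D15472))))))))))))))))))) D14727) (orK (nat_lit 128) (fin (add (add (add (start (orK (nat_lit 148) (fin (add (start D15487) D7171)))) (orK (nat_lit 148) (fin (add (start D15487) (orK (nat_lit 131) (fin (add (start D6060) (orK (nat_lit 151) (fin (add (start D1587) D8236)))))))))) (orK (nat_lit 129) (fin (add (add (add (start D15499) (orK (nat_lit 151) (fin (add (start D14930) (orK (nat_lit 109) (fin (add (start D8867) (orK (nat_lit 110) (fin (add (start D6717) (orK (nat_lit 111) (fin (add (start D14088) D14595))))))))))))) (orK (nat_lit 109) (fin (add (start D8867) (orK (nat_lit 127) (fin (add (start D9063) (orK (nat_lit 110) (fin (add (start D6717) (orK (nat_lit 111) (fin (add (start (win (nat_lit 4) (nat_lit 7) (nat_lit 5) (nat_lit 3))) D15206))))))))))))) (orK (nat_lit 152) (fin (add (start (win (nat_lit 2) (nat_lit 8) (nat_lit 6) (nat_lit 1))) (orK (nat_lit 109) (fin (add (start D8867) D15212))))))))))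 (orK (nat_lit 167) (fin (add (start D6071) (orK (nat_lit 127) (fin (add (start D6072) (orK (nat_lit 126) (fin (add (start D15524) D4207)))))))))))))))) D15383))))))) (orK (nat_lit 189) (fin (add (start D5917) (orK (nat_lit 190) (fin (add (start D1486) D13630))))))) D7101) (orK (nat_lit 189) (fin (add (start D5917) (orK (nat_lit 226) (fin (add (add (start (orK (nat_lit 147) (fin (add (add (start (orK (nat_lit 167) D4263)) (orK (nat_lit 167) (fin (add (start D3202) D15548)))) (orK (nat_lit 148) (fin (add (add (start D7210) (orK (nat_lit 150) (fin (add (add (start D15554) (orK (nat_lit 128) (fin (add (start D7171) D7266)))) D15241)))) D7259))))))) (orK (nat_lit 247) (fin (add (add (add (start (orK (nat_lit 246) (fin (add (start D134) D7756)))) (orK (nat_lit 267) (fin (add (add (add (start D1304) D15568) D15574) (orK (nat_lit 246) (fin (add (start D134) D13312))))))) (orK (nat_lit 268) (fin (add (start D571) (orK (nat_lit 267) (fin (add (start D572) D15568))))))) (orK (nat_lit 268) (fin (add (start D571) (orK (nat_lit 267) (fin (add (start D572) D15574)))))))))) D7049)))))))))) (orK (nat_lit 247) (fin (add (start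 D3218) (orK (nat_lit 186) (fin (add (start D140) D13282)))))))
noncomputable def D15336 : OP := orK (nat_lit 170) (fin (add (start D7629) D15334))
noncomputable def D15309 : OP := orK (nat_lit 209) (fin (add (start D1552) (orK (nat_lit 226) (fin (add (add (start D15303) D7049) (orK (nat_lit 228) (fin (add (start D2036) D4410))))))))
noncomputable def D15271 : OP := orK (nat_lit 146) (fin (add (start D7115) D7163))
noncomputable def D14989 : OP := orK (nat_lit 147) (fin (add (add (start D14739) (orK (nat_lit 167) (fin (add (start D1229) (orK (nat_lit 187) (fin (add (start D1381) D7603))))))) D14459))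
noncomputable def D8362 : OP := win (nat_lit 2) (nat_lit 10) (nat_lit 6) (nat_lit 0)
noncomputable def D14992 : OP := win (nat_lit 2) (nat_lit 9) (nat_lit 6) (nat_lit 5)
noncomputable def D14993 : OP := win (nat_lit 2) (nat_lit 10) (nat_lit 6) (nat_lit 4)
noncomputable def D13851 : OP := orK (nat_lit 172) (fin (add (start D13707) (orK (nat_lit 148) (fin (add (start D13706) D9439)))))
noncomputable def D14172 : OP := win (nat_lit 1) (nat_lit 7) (nat_lit 2) (nat_lit 0)
noncomputable def D9445 : OP := orK (nat_lit 152) (fin (add (start D3269) (orK (nat_lit 128) (fin (add (start D8234) (orK (nat_lit 148) (fin (add (start D1586) D9439))))))))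
noncomputable def D15297 : AP := fin (add (add (add (add (add (add (add (add (add (add (add (add (start (orK (nat_lit 151) (fin (add (add (add (add (add (start (orK (nat_lit 170) (fin (add (start D1553) (orK (nat_lit 152) (fin (add (start D3269) (orK (nat_lit 172) (fin (add (start D13707) (orK (nat_lit 148) (fin (add (start D13706) D13709))))))))))))) (orK (nat_lit 148) (fin (add (add (start (orK (nat_lit 171) (fin (add (start D6059) (orK (nat_lit 170) (fin (add (start D6554) D1910))))))) D13837) D13845)))) (orK (nat_lit 170) (fin (add (start D1553) (orK (nat_lit 152) (fin (add (start D3269) D13851))))))) D13906) (orK (nat_lit 170) (fin (add (start D1553) D9445)))) (orK (nat_lit 170) (fin (add (start D1553) D13928))))))) (orK (nat_lit 110) (fin (add (add (add (add (start D13938) D14041) D14056) (orK (nat_lit 109) (fin (add (add (add (start D14061) D14085) D14115) (orK (nat_lit 108) (fin (add (add (add (add (add (start D14030) D14128) D14016) D14132) D14163) (orK (nat_lit 107) (fin (add (add (add (start (orK (nat_lit 86) (fin (add (start D13977) (orK (nat_lit 106) (fin (add (start D13978) D14121))))))) (orK (nat_lit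 90) (fin (add (start D14119) (orK (nat_lit 106) (fin (add (start D14118) D13980))))))) D13984) (orK (nat_lit 88) (fin (add (add (start (orK (nat_lit 87) (fin (add (start D13947) (orK (nat_lit 127) (fin (add (start D13949) (orK (nat_lit 68) (fin (add (start D14172) (win (nat_lit 3) (nat_lit 7) (nat_lit 3) (nat_lit 0)))))))))))) (orK (nat_lit 87) (fin (add (start D13947) (orK (nat_lit 90) (fin (add (start D14119) (orK (nat_lit 128) (fin (add (start D14017) (orK (nat_lit 67) (fin (add (start (win (nat_lit 6) (nat_lit 7) (nat_lit 2) (nat_lit 0))) (orK (nat_lit 89) (fin (add (start (win (nat_lit 2) (nat_lit 6) (nat_lit 3) (nat_lit 5))) (orK (nat_lit 49) (fin (add (start (win (nat_lit 1) (nat_lit 8) (nat_lit 2) (nat_lit 1))) (orK (nat_lit 70) (fin (add (start (win (nat_lit 4) (nat_lit 7) (nat_lit 3) (nat_lit 5))) (orK (nat_lit 50) (fin (add (start (win (nat_lit 1) (nat_lit 9) (nat_lit 1) (nat_lit 0))) (win (nat_lit 7) (nat_lit 9) (nat_lit 1) (nat_lit 5))))))))))))))))))))))))))) (orK (nat_lit 127) (fin (add (start D13949) (orK (nat_lit 68) (fin (add (start D14172) (orK (nat_lit 128) (fin (add (start (win (nat_lit 1)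 (nat_lit 7) (nat_lit 3) (nat_lit 5))) D14017)))))))))))))))))))))) D14229)))) (orK (nat_lit 151) (fin (add (add (add (start (orK (nat_lit 152) (fin (add (add (start D14238) D14267) (orK (nat_lit 133) (fin (add (start D14268) (orK (nat_lit 153) (fin (add (start D14269) D14234)))))))))) (orK (nat_lit 171) (fin (add (add (add (start (orK (nat_lit 172) (fin (add (start D13856) (orK (nat_lit 173) (fin (add (start (win (nat_lit 2) (nat_lit 9) (nat_lit 7) (nat_lit 3))) D9498))))))) (orK (nat_lit 131) (fin (add (add (start D9346) (orK (nat_lit 192) (fin (add (start (orK (nat_lit 172) (fin (add (start D13856) D3426)))) (orK (nat_lit 191) (fin (add (start D14281) D3482))))))) (orK (nat_lit 132) (fin (add (start D14283) D8798))))))) (orK (nat_lit 170) (fin (add (start D1910) D14297)))) (orK (nat_lit 190) (fin (add (start D13838) (orK (nat_lit 131) (fin (add (start D13839) D9346)))))))))) (orK (nat_lit 128) (fin (add (add (start (orK (nat_lit 127) (fin (add (start D14306) (orK (nat_lit 129) D14308))))) (orK (nat_lit 152) (fin (add (start D8234) D14317)))) D14325)))) (orK (nat_lit 170) (fin (add (start D1553) (orK (nat_lit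 152) (fin (add (start D3269) (orK (nat_lit 128) (fin (add (start D8234) (orK (nat_lit 148) (fin (add (start D1586) D14328)))))))))))))))) D14449) D14528) D14729) D14812) D14840) D14878) D14983) (orK (nat_lit 151) (fin (add (add (add (add (add (add (start (orK (nat_lit 148) (fin (add (start D13717) D14989)))) (orK (nat_lit 152) (fin (add (add (add (add (add (start D13851) D14317) (orK (nat_lit 173) (fin (add (start D14232) (orK (nat_lit 153) (fin (add (start D14233) (orK (nat_lit 130) (fin (add (start D14992) (orK (nat_lit 154) (fin (add (start D14993) D14995))))))))))))) (orK (nat_lit 172) (fin (add (start D13707) (orK (nat_lit 148) (fin (add (start D13706) (orK (nat_lit 131) (fin (add (start D1587) (orK (nat_lit 130) (fin (add (start D15004) (orK (nat_lit 153) (fin (add (start D14992) D8362)))))))))))))))) (orK (nat_lit 133) (fin (add (start D14268) (orK (nat_lit 153) (fin (add (start D14269) (orK (nat_lit 174) (fin (add (start D15015) (orK (nat_lit 154) (fin (add (start D15016) (orK (nat_lit 130) (fin (add (start D14992) D14993)))))))))))))))) (orK (nat_lit 133) (fin (add (start D14268) (orK (nat_lit 153) (fin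 (add (start D14269) (orK (nat_lit 130) (fin (add (start D14992) (orK (nat_lit 110) (fin (add (start D13019) (orK (nat_lit 131) (fin (add (start D8362) (orK (nat_lit 148) (fin (add (start D15004) (orK (nat_lit 171) (fin (add (start D6059) D8355))))))))))))))))))))))))) (orK (nat_lit 148) (fin (add (start (orK (nat_lit 131) (fin (add (start D1587) (orK (nat_lit 171) (fin (add (start D6059) D15062))))))) D14989)))) D15085) D15117) D13906) D15222)))) D15230) (orK (nat_lit 148) (fin (add (add (add (add (start (orK (nat_lit 151) (fin (add (add (add (start (orK (nat_lit 152) (fin (add (add (start (orK (nat_lit 170) (fin (add (start D3269) D14328)))) D15070) D15257)))) D13717) D15263) (orK (nat_lit 131) (fin (add (start D1587) (orK (nat_lit 147) (fin (add (start D6060) D15233)))))))))) (orK (nat_lit 147) (fin (add (add (start D15233) D15239) D15271)))) D13753) (orK (nat_lit 147) (fin (add (add (start D15241) D15275) D15271)))) (orK (nat_lit 147) (fin (add (add (start D15233) D14455) (orK (nat_lit 127) (fin (add (start D1228) (orK (nat_lit 170) (fin (add (start D4051) (orK (nat_lit 130) (fin (add (start D4053) (orK (nat_lit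 110) (fin (add (start D13019) (orK (nat_lit 111) (fin (add (start D769) (orK (nat_lit 128) (fin (add (start (win (nat_lit 4) (nat_lit 7) (nat_lit 5) (nat_lit 2))) (orK (nat_lit 109) (fin (add (start D15206) D756))))))))))))))))))))))))))))
noncomputable def D9932 : OP := orK (nat_lit 307) (fin (add (start D4002) (orK (nat_lit 266) (fin (add (start D1302) (orK (nat_lit 328) (fin (add (start D9826) (orK (nat_lit 327) (fin (add (start D9827) D9849)))))))))))
noncomputable def D9924 : OP := orK (nat_lit 307) (fin (add (start D4002) (orK (nat_lit 326) (fin (add (start D5838) (orK (nat_lit 327) (fin (add (start D5839) D9829))))))))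
noncomputable def D9934 : OP := orK (nat_lit 287) (fin (add (add (start D1784) D9924) D9932))
noncomputable def D4502 : OP := win (nat_lit 7) (nat_lit 5) (nat_lit 9) (nat_lit 2)
noncomputable def D9866 : OP := orK (nat_lit 185) (fin (add (start D3645) D4502))
noncomputable def D10337 : OP := orK (nat_lit 287) (fin (add (start D1792) D9924))
noncomputable def D5853 : AP := fin (add (start D5840) (win (nat_lit 7) (nat_lit 6) (nat_lit 12) (nat_lit 0)))
noncomputable def D10360 : OP := orK (nat_lit 266) (fin (add (start D1302) (orK (nat_lit 246) D5853)))
noncomputable def D10402 : OP := orK (nat_lit 267) (fin (add (add (add (add (start D4150) (orK (nat_lit 287) (fin (add (add (add (start D1784) D10119) (orK (nat_lit 307) (fin (add (start D4002) (orK (nat_lit 326) (fin (add (start D5838) (orK (nat_lit 327) (fin (add (start D5839) (orK (nat_lit 308) (fin (add (start D4004) D5843))))))))))))) (orK (nat_lit 307) (fin (add (start D4002) D10360))))))) (orK (nat_lit 206) (fin (add (start D1791) D10337)))) (orK (nat_lit 206) (fin (add (start D1791) (orK (nat_lit 266) (fin (add (start D1302) (orK (nat_lit 205) (fin (add (start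 D3009) (orK (nat_lit 246) (fin (add (add (add (start (orK (nat_lit 245) (fin (add (start D135) D9866)))) (orK (nat_lit 226) (fin (add (start D3613) (orK (nat_lit 265) (fin (add (start D3638) D4921))))))) (orK (nat_lit 265) (fin (add (start (orK (nat_lit 248) (fin (add (start D3901) D4612)))) (orK (nat_lit 268) (fin (add (start D3881) D4913))))))) (orK (nat_lit 245) (fin (add (start D135) (orK (nat_lit 269) (fin (add (start (win (nat_lit 2) (nat_lit 5) (nat_lit 12) (nat_lit 1))) (orK (nat_lit 225) (fin (add (start D2387) (orK (nat_lit 248) (fin (add (start D136) (orK (nat_lit 249) (fin (add (start D2459) D611)))))))))))))))))))))))))))) (orK (nat_lit 186) (fin (add (start D1803) D9934)))))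
noncomputable def D10074 : OP := orK (nat_lit 225) (fin (add (start D136) (orK (nat_lit 205) (fin (add (start D2387) D3816)))))
noncomputable def D10022 : OP := orK (nat_lit 265) (fin (add (start D138) D4612))
noncomputable def D10078 : OP := orK (nat_lit 248) (fin (add (add (start D10022) (orK (nat_lit 225) (fin (add (start D136) (orK (nat_lit 226) (fin (add (start D137) (orK (nat_lit 205) (fin (add (start D2466) D2387)))))))))) (orK (nat_lit 265) (fin (add (start D138) D10074)))))
noncomputable def D7995 : OP := orK (nat_lit 190) D7976
noncomputable def D10176 : AP := fin (add (start D1152) (orK (nat_lit 249) (fin (add (start D1714) D7995))))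
noncomputable def D10177 : OP := orK (nat_lit 229) D10176
noncomputable def D10329 : OP := orK (nat_lit 307) (fin (add (start D5840) (orK (nat_lit 326) (fin (add (start D5838) (orK (nat_lit 327) (fin (add (start D5839) D5841))))))))
noncomputable def D10167 : OP := orK (nat_lit 206) (fin (add (start D1724) D1791))
noncomputable def D10135 : OP := orK (nat_lit 249) (fin (add (start D515) (orK (nat_lit 190) (fin (add (start D317) D7973)))))
noncomputable def D9891 : OP := win (nat_lit 0) (nat_lit 5) (nat_lit 12) (nat_lit 3)
noncomputable def D9895 : OP := orK (nat_lit 246) (fin (add (start D679) (orK (nat_lit 245) (fin (add (start D3879) D9891)))))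
noncomputable def D10131 : OP := orK (nat_lit 246) (fin (add (start D1152) (orK (nat_lit 245) (fin (add (start D3879) (orK (nat_lit 248) (fin (add (start D4571) D80))))))))
noncomputable def D10263 : OP := orK (nat_lit 205) (fin (add (start D3009) (orK (nat_lit 226) (fin (add (start D3638) D3613)))))
noncomputable def D10046 : OP := orK (nat_lit 204) (fin (add (start D3782) D3814))
noncomputable def D10143 : OP := win (nat_lit 1) (nat_lit 4) (nat_lit 12) (nat_lit 5)
noncomputable def D10142 : OP := win (nat_lit 1) (nat_lit 4) (nat_lit 11) (nat_lit 4)
noncomputable def D10309 : OP := orK (nat_lit 267) (fin (add (add (add (start D4150) D10240) (orK (nat_lit 206) (fin (add (start D1791) (orK (nat_lit 287) (fin (add (start D1792) (orK (nat_lit 307) (fin (add (start D4002) (orK (nat_lit 326) (fin (add (start D5838) D4006))))))))))))) (orK (nat_lit 266) (fin (add (start D1302) (orK (nat_lit 265) (fin (add (add (add (start (orK (nat_lit 264) (fin (add (start D4919) (orK (nat_lit 263) (fin (add (start (win (nat_lit 4) (nat_lit 3) (nat_lit 12) (nat_lit 4))) D3695))))))) (orK (nat_lit 246) (fin (add (add (add (start (orK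 (nat_lit 206) (fin (add (start D1791) D10263)))) (orK (nat_lit 245) (fin (add (start D135) (orK (nat_lit 248) (fin (add (start D4612) (orK (nat_lit 225) (fin (add (start D136) (orK (nat_lit 206) (fin (add (start D1791) (orK (nat_lit 285) (fin (add (start D4911) (orK (nat_lit 304) (fin (add (start D10142) (orK (nat_lit 305) (fin (add (start D10143) D3793)))))))))))))))))))))) (orK (nat_lit 245) (fin (add (start D135) (orK (nat_lit 248) (fin (add (start D4612) D10074))))))) (orK (nat_lit 245) (fin (add (start D135) (orK (nat_lit 248) (fin (add (start D4612) (orK (nat_lit 225) (fin (add (start D136) (orK (nat_lit 205) (fin (add (start D2387) D10046)))))))))))))))) (orK (nat_lit 264) (fin (add (start D4919) D3699)))) (orK (nat_lit 206) (fin (add (start D1791) (orK (nat_lit 246) (fin (add (start (orK (nat_lit 244) (fin (add (start D879) (orK (nat_lit 264) (fin (add (start D3579) D4918))))))) D10263))))))))))))))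
noncomputable def D4283 : OP := orK (nat_lit 252) (fin (add (start D2680) (orK (nat_lit 232) (fin (add (start D791) (orK (nat_lit 209) (fin (add (start D789) D1508))))))))
noncomputable def D5438 : AP := fin (add (start (win (nat_lit 7) (nat_lit 7) (nat_lit 10) (nat_lit 3))) D4843)
noncomputable def D5439 : OP := orK (nat_lit 288) D5438
noncomputable def D10205 : OP := orK (nat_lit 268) (fin (add (start D5439) (orK (nat_lit 269) (fin (add (start D678) (orK (nat_lit 270) (fin (add (start (win (nat_lit 0) (nat_lit 6) (nat_lit 12) (nat_lit 3))) D3896))))))))
noncomputable def D4986 : OP := orK (nat_lit 249) (fin (add (start D4840) (orK (nat_lit 269) (fin (add (start D2459) (orK (nat_lit 245) (fin (add (start D4978) (orK (nat_lit 224) (fin (add (start D2381) D644)))))))))))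
noncomputable def D5079 : AP := fin (add (start D2387) D5078)
noncomputable def D5038 : OP := orK (nat_lit 184) (fin (add (start D4939) (win (nat_lit 7) (nat_lit 4) (nat_lit 9) (nat_lit 2))))
noncomputable def D5097 : OP := orK (nat_lit 248) (fin (add (add (add (start (orK (nat_lit 249) (fin (add (start D4840) (orK (nat_lit 269) (fin (add (start D2459) (orK (nat_lit 245) (fin (add (start D4978) D5002)))))))))) (orK (nat_lit 245) (fin (add (add (add (add (start D2386) (orK (nat_lit 268) (fin (add (start D4571) (orK (nat_lit 265) (fin (add (start D138) (orK (nat_lit 226) (fin (add (add (add (start (orK (nat_lit 206) (fin (add (start D2422) D5010)))) (orK (nat_lit 286) (fin (add (start D5013) (orK (nat_lit 285) (fin (add (start D3789) (orK (nat_lit 306) (fin (add (start (win (nat_lit 6) (nat_lit 5) (nat_lit 11) (nat_lit 0))) (orK (nat_lit 308) (fin (add (start (win (nat_lit 7) (nat_lit 7) (nat_lit 11) (nat_lit 1))) (orK (nat_lit 307) (fin (add (start (win (nat_lit 2) (nat_lit 5) (nat_lit 14) (nat_lit 0))) (orK (nat_lit 284) (fin (add (start (win (nat_lit 0) (nat_lit 3) (nat_lit 14) (nat_lit 0))) (win (nat_lit 0)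 (nat_lit 4) (nat_lit 14) (nat_lit 3))))))))))))))))))))) (orK (nat_lit 206) D5034)) (orK (nat_lit 206) (fin (add (start D2422) (orK (nat_lit 266) (fin (add (start D2305) (orK (nat_lit 205) (fin (add (start D3613) (orK (nat_lit 204) (fin (add (start D4940) D5038)))))))))))))))))))))) (orK (nat_lit 268) (fin (add (start D4571) D5062)))) (orK (nat_lit 268) (fin (add (start D4571) (orK (nat_lit 288) (fin (add (start D4843) (orK (nat_lit 266) (fin (add (add (start D1815) (orK (nat_lit 224) (fin (add (start D2381) (orK (nat_lit 244) (fin (add (start D2382) (orK (nat_lit 243) (fin (add (start D4846) (orK (nat_lit 242) (fin (add (start (win (nat_lit 0) (nat_lit 2) (nat_lit 12) (nat_lit 4))) (orK (nat_lit 262) (fin (add (start (win (nat_lit 5) (nat_lit 1) (nat_lit 12) (nat_lit 5))) (win (nat_lit 5) (nat_lit 2) (nat_lit 12) (nat_lit 4)))))))))))))))))) (orK (nat_lit 225) (fin (add (start D136) (orK (nat_lit 286) (fin (add (start D1717) (orK (nat_lit 205) D5079))))))))))))))))) (orK (nat_lit 268) D4853))))) (orK (nat_lit 249) (fin (add (start D4840) (orK (nat_lit 266) (fin (add (start D611) D1815))))))) D4986))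
noncomputable def D5247 : OP := orK (nat_lit 264) (fin (add (start D4589) (orK (nat_lit 263) (fin (add (start (win (nat_lit 4) (nat_lit 2) (nat_lit 12) (nat_lit 0))) (win (nat_lit 4) (nat_lit 3) (nat_lit 12) (nat_lit 3)))))))
noncomputable def D5216 : OP := win (nat_lit 6) (nat_lit 6) (nat_lit 8) (nat_lit 0)
noncomputable def D4644 : OP := win (nat_lit 7) (nat_lit 4) (nat_lit 10) (nat_lit 4)
noncomputable def D5318 : OP := orK (nat_lit 245) (fin (add (start D135) (orK (nat_lit 205) (fin (add (add (add (add (add (start (orK (nat_lit 204) (fin (add (start D3782) (orK (nat_lit 225) (fin (add (start D3783) (orK (nat_lit 265) (fin (add (start D3814) (orK (nat_lit 284) (fin (add (start D4634) (orK (nat_lit 285) (fin (add (start D4635) D4644)))))))))))))))) (orK (nat_lit 206) (fin (add (start D3009) (orK (nat_lit 226) (fin (add (start (orK (nat_lit 186) (fin (add (start D2417) D5216)))) D5220))))))) (orK (nat_lit 225) (fin (add (add (add (start (orK (nat_lit 266) (fin (add (start D2387) D1815)))) (orK (nat_lit 185) (fin (add (add (start (orK (nat_lit 166) (fin (add (start D3039) (orK (nat_lit 165) (fin (add (start D3038)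 D881))))))) D5237) (orK (nat_lit 165) (fin (add (start D881) D3076))))))) (orK (nat_lit 265) (fin (add (add (start D5247) (orK (nat_lit 206) (fin (add (start D3132) D5249)))) (orK (nat_lit 284) (fin (add (start D4634) (orK (nat_lit 285) (fin (add (start D4635) D3813)))))))))) (orK (nat_lit 266) (fin (add (start D2387) (orK (nat_lit 286) (fin (add (start D1717) D5078)))))))))) (orK (nat_lit 266) (fin (add (add (start D1815) (orK (nat_lit 225) (fin (add (start D2387) (orK (nat_lit 204) (fin (add (start D3783) (orK (nat_lit 265) (fin (add (start D3814) (orK (nat_lit 264) (fin (add (start D4589) D4918))))))))))))) (orK (nat_lit 286) (fin (add (start D1717) (orK (nat_lit 225) D5079)))))))) (orK (nat_lit 206) (fin (add (start D3009) (orK (nat_lit 225) (fin (add (add (add (start (orK (nat_lit 265) (fin (add (start D3132) D5247)))) (orK (nat_lit 266) D5284)) (orK (nat_lit 185) (fin (add (start D3040) D5287)))) D5294))))))) (orK (nat_lit 204) (fin (add (start D3782) (orK (nat_lit 225) (fin (add (start D3783) (orK (nat_lit 185) (fin (add (start D3040) (orK (nat_lit 166) (fin (add (start D3039) (orK (nat_lit 165) (fin (add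 (start D3038) (orK (nat_lit 145) D5303)))))))))))))))))))))
noncomputable def D9948 : OP := orK (nat_lit 288) (fin (add (start D1785) (orK (nat_lit 287) (fin (add (start D1786) (orK (nat_lit 306) (fin (add (start D5832) (orK (nat_lit 307) (fin (add (start D5833) (orK (nat_lit 228) (fin (add (start D4002) D3243))))))))))))))
noncomputable def D3895 : OP := win (nat_lit 2) (nat_lit 6) (nat_lit 12) (nat_lit 5)
noncomputable def D3898 : OP := orK (nat_lit 270) (fin (add (start D3895) D3896))
noncomputable def D10025 : AP := fin (add (start D135) (orK (nat_lit 248) (fin (add (start D4571) D10022))))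
noncomputable def D9868 : OP := orK (nat_lit 205) (fin (add (start D3009) D9866))
noncomputable def D10082 : OP := orK (nat_lit 267) (fin (add (start D3605) (orK (nat_lit 206) (fin (add (start D1791) D9868)))))
noncomputable def D10042 : OP := orK (nat_lit 248) D9990
noncomputable def D9874 : OP := orK (nat_lit 204) (fin (add (start D5351) (orK (nat_lit 225) (fin (add (start D3811) D4644)))))
noncomputable def D9876 : OP := orK (nat_lit 285) (fin (add (start D3595) D9874))
noncomputable def D10014 : OP := orK (nat_lit 206) (fin (add (start D1791) D9876))
noncomputable def D10015 : AP := fin (add (start D3589) D10014)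
noncomputable def D4561 : AP := fin (add (start D3589) D4560)
noncomputable def D10026 : OP := orK (nat_lit 245) D10025
noncomputable def D4838 : OP := orK (nat_lit 286) (fin (add (start D1716) (orK (nat_lit 246) D1814)))
noncomputable def D9880 : OP := orK (nat_lit 245) (fin (add (add (start (orK (nat_lit 244) D9863)) (orK (nat_lit 246) (fin (add (start D3605) D9868)))) (orK (nat_lit 265) (fin (add (start D3589) D9876)))))
noncomputable def D10413 : AP := fin (add (add (add (add (add (add (add (add (add (add (add (add (start D9861) (orK (nat_lit 267) (fin (add (add (add (start D4906) D4910) D4150) (orK (nat_lit 268) (fin (add (start D572) (orK (nat_lit 266) (fin (add (start D1302) (orK (nat_lit 206) (fin (add (start D1791) (orK (nat_lit 228) (fin (add (start D3008) D9880)))))))))))))))) (orK (nat_lit 267) (fin (add (add (add (start D4906) (orK (nat_lit 206) (fin (add (start D1791) (orK (nat_lit 268) (fin (add (start D572) (orK (nat_lit 229) (fin (add (start D1724) (orK (nat_lit 269) (fin (add (add (start D9895) (orK (nat_lit 289) (fin (add (start D674) D9902)))) (orK (nat_lit 249) (fin (add (start D515) (orK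 (nat_lit 246) (fin (add (start D1714) (orK (nat_lit 245) (fin (add (start D3879) D4434)))))))))))))))))))))) (orK (nat_lit 206) (fin (add (start D1791) (orK (nat_lit 228) (fin (add (start D3008) D9934))))))) D9948)))) D4937) (orK (nat_lit 267) (fin (add (add (add (start D4906) D4910) D4150) (orK (nat_lit 206) (fin (add (start D1791) (orK (nat_lit 268) (fin (add (start D572) (orK (nat_lit 266) (fin (add (start D1302) (orK (nat_lit 265) (fin (add (start D4560) (orK (nat_lit 285) (fin (add (start D3595) (orK (nat_lit 245) (fin (add (start D3589) (orK (nat_lit 228) (fin (add (start D3008) D9874))))))))))))))))))))))))) (orK (nat_lit 228) (fin (add (add (add (start D3243) D9979) (orK (nat_lit 268) (fin (add (add (add (start (orK (nat_lit 288) (fin (add (start D1680) D3566)))) (orK (nat_lit 267) (fin (add (start D572) (orK (nat_lit 266) (fin (add (start D1302) (orK (nat_lit 206) (fin (add (start D1791) D9880)))))))))) (orK (nat_lit 248) (fin (add (start D402) (orK (nat_lit 246) (fin (add (start D9989) (orK (nat_lit 226) (fin (add (add (start D9991) (orK (nat_lit 266) (fin (add (start D2305) (orK (nat_lit 265) (fin (add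 (start D4612) (orK (nat_lit 206) (fin (add (start D3638) D3615)))))))))) D10006)))))))))) (orK (nat_lit 266) (fin (add (add (add (add (start D4838) (orK (nat_lit 267) (fin (add (start D1302) (orK (nat_lit 265) (fin (add (start D4560) (orK (nat_lit 245) D10015)))))))) (orK (nat_lit 286) (fin (add (start D1716) (orK (nat_lit 246) (fin (add (start D1717) D10026))))))) (orK (nat_lit 246) (fin (add (start D1815) D10026)))) (orK (nat_lit 245) (fin (add (add (add (start (orK (nat_lit 265) (fin (add (add (add (start (orK (nat_lit 267) D4561)) (orK (nat_lit 267) D10015)) (orK (nat_lit 267) (fin (add (start D4560) D10014)))) (orK (nat_lit 225) (fin (add (add (start (orK (nat_lit 226) (fin (add (start D2535) D10042)))) (orK (nat_lit 205) (fin (add (add (start D10046) (orK (nat_lit 185) (fin (add (start D4591) (orK (nat_lit 186) (fin (add (start D4578) D4795))))))) (orK (nat_lit 185) D4595))))) (orK (nat_lit 205) (fin (add (add (start (orK (nat_lit 226) (fin (add (start D10042) D10056)))) D3816) D10046)))))))))) (orK (nat_lit 246) (fin (add (add (start (orK (nat_lit 269) (fin (add (start D9891) (win (nat_lit 2) (nat_lit 5)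 (nat_lit 12) (nat_lit 2)))))) D10078) D10082)))) (orK (nat_lit 246) (fin (add (start D135) D10082)))) (orK (nat_lit 246) D10025))))))))))) D3252)))) (orK (nat_lit 267) (fin (add (add (add (start D4906) D4910) D4150) (orK (nat_lit 206) (fin (add (start D1791) (orK (nat_lit 229) (fin (add (start D1724) (orK (nat_lit 266) (fin (add (start D1302) (orK (nat_lit 268) (fin (add (start D572) (orK (nat_lit 269) (fin (add (add (start (orK (nat_lit 289) (fin (add (start D3586) D674)))) (orK (nat_lit 270) (fin (add (start D3895) D3731)))) (orK (nat_lit 248) (fin (add (start D3898) D3904)))))))))))))))))))))) (orK (nat_lit 267) (fin (add (add (add (add (start D4910) D10125) D9809) D9948) (orK (nat_lit 268) (fin (add (start D572) (orK (nat_lit 229) (fin (add (add (start D10131) (orK (nat_lit 246) (fin (add (add (start (orK (nat_lit 269) (fin (add (start D679) D10135)))) (orK (nat_lit 245) (fin (add (start D3879) (orK (nat_lit 269) (fin (add (start D9891) D679))))))) (orK (nat_lit 206) (fin (add (start D1791) (orK (nat_lit 245) (fin (add (start D3879) (orK (nat_lit 248) (fin (add (start D80) (orK (nat_lit 225) (fin (add (start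 D136) (orK (nat_lit 265) (fin (add (start D138) (orK (nat_lit 285) (fin (add (start D3811) (orK (nat_lit 304) (fin (add (start D10142) (orK (nat_lit 305) (fin (add (start D10143) (orK (nat_lit 306) (fin (add (start (win (nat_lit 6) (nat_lit 5) (nat_lit 11) (nat_lit 4))) (win (nat_lit 6) (nat_lit 5) (nat_lit 12) (nat_lit 5))))))))))))))))))))))))))))))))) D10167)))))))))) (orK (nat_lit 246) (fin (add (add (add (start D10177) (orK (nat_lit 228) (fin (add (start D567) D5318)))) D5097) (orK (nat_lit 266) (fin (add (add (start D1815) (orK (nat_lit 245) (fin (add (add (start (orK (nat_lit 244) (fin (add (start D4233) D5058)))) (orK (nat_lit 248) (fin (add (start D10022) (orK (nat_lit 268) (fin (add (start D4571) D5439))))))) (orK (nat_lit 248) (fin (add (add (start D10022) (orK (nat_lit 269) (fin (add (start D4978) (orK (nat_lit 249) (fin (add (start D2459) D5002))))))) D2386))))))) (orK (nat_lit 286) (fin (add (start D1717) (orK (nat_lit 248) (fin (add (add (add (start (orK (nat_lit 265) (fin (add (start D4612) (orK (nat_lit 264) (fin (add (start D4918) (win (nat_lit 5) (nat_lit 4) (nat_lit 12) (nat_lit 3)))))))))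 D10205) (orK (nat_lit 265) (fin (add (start D4612) (orK (nat_lit 264) (fin (add (start D4918) (orK (nat_lit 288) (fin (add (start (orK (nat_lit 268) D5438)) (orK (nat_lit 287) (fin (add (start (win (nat_lit 2) (nat_lit 4) (nat_lit 13) (nat_lit 3))) D10208))))))))))))) (orK (nat_lit 268) (fin (add (start D5439) (orK (nat_lit 245) (fin (add (start D4571) (orK (nat_lit 225) (fin (add (start D136) (orK (nat_lit 265) (fin (add (start D138) D4613))))))))))))))))))))))))) (orK (nat_lit 228) (fin (add (add (add (start D3243) (orK (nat_lit 229) (fin (add (start D86) (orK (nat_lit 231) (fin (add (start D2582) D4283))))))) D10309) D3252)))) (orK (nat_lit 267) (fin (add (add (add (start D4910) (orK (nat_lit 268) (fin (add (start D572) (orK (nat_lit 229) (fin (add (add (start D10131) (orK (nat_lit 206) (fin (add (start D1791) (orK (nat_lit 269) (fin (add (start D9895) D10135))))))) D10167))))))) (orK (nat_lit 288) (fin (add (start D1785) (orK (nat_lit 287) (fin (add (start D1786) (orK (nat_lit 246) (fin (add (start D10329) D10177)))))))))) (orK (nat_lit 206) (fin (add (start D1791) (orK (nat_lit 228) (fin (add (start D3008)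 D10337)))))))))) (orK (nat_lit 228) (fin (add (add (add (start D3243) (orK (nat_lit 246) (fin (add (start D567) (orK (nat_lit 245) (fin (add (start D135) (orK (nat_lit 266) (fin (add (start D10078) D1719)))))))))) D10402) D3252)))) (orK (nat_lit 267) (fin (add (add (start D4910) D9797) (orK (nat_lit 206) (fin (add (start D1791) (orK (nat_lit 228) (fin (add (start D3008) (orK (nat_lit 287) (fin (add (start D1792) D9932)))))))))))))
noncomputable def D10414 : OP := orK (nat_lit 247) D10413
noncomputable def D13363 : AP := fin (add (start D28) D13362)
noncomputable def D13366 : OP := orK (nat_lit 170) (fin (add (start D260) (orK (nat_lit 229) D13363)))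
noncomputable def D13387 : OP := orK (nat_lit 167) (fin (add (start D13385) D7603))
noncomputable def D5837 : OP := orK (nat_lit 306) (fin (add (start D5832) (orK (nat_lit 307) (fin (add (start D5833) D4006)))))
noncomputable def D11623 : OP := orK (nat_lit 287) (fin (add (start D1792) D5837))
noncomputable def D13343 : OP := orK (nat_lit 206) (fin (add (start D7315) (orK (nat_lit 228) (fin (add (start D3008) D3196)))))
noncomputable def D13371 : OP := orK (nat_lit 229) (fin (add (add (start D7977) D9739) (orK (nat_lit 170) D13363)))
noncomputable def D11615 : OP := orK (nat_lit 225) (fin (add (start D136) (orK (nat_lit 226) (fin (add (start D137) (orK (nat_lit 205) (fin (add (start D2466) D11609))))))))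
noncomputable def D11617 : OP := orK (nat_lit 245) (fin (add (start D135) D11615))
noncomputable def D13566 : OP := orK (nat_lit 248) (fin (add (start D189) D4768))
noncomputable def D4615 : OP := orK (nat_lit 286) (fin (add (start D1717) D4613))
noncomputable def D11398 : AP := fin (add (start D28) (orK (nat_lit 209) (fin (add (start D27) D1539))))
noncomputable def D12710 : OP := orK (nat_lit 190) (fin (add (start D28) (orK (nat_lit 171) (fin (add (start D45) (orK (nat_lit 231) (fin (add (start D752) D5988))))))))
noncomputable def D13619 : AP := fin (add (add (add (start D13445) (orK (nat_lit 229) (fin (add (add (start D9739) D12710) (orK (nat_lit 190) D13363))))) (orK (nat_lit 190) (fin (add (start D260) (orK (nat_lit 229) D11398))))) (orK (nat_lit 228) (fin (add (add (add (add (start D4277) D4774) (orK (nat_lit 229) D13455)) (orK (nat_lit 229) (fin (add (add (start D4275) D4772) D13454)))) (orK (nat_lit 247) (fin (add (add (add (add (add (add (start D10402) (orK (nat_lit 267) (fin (add (add (add (start D4910) (orK (nat_lit 288) (fin (add (start D1785) (orK (nat_lit 287) (fin (add (start D1786) D10119)))))))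 (orK (nat_lit 206) (fin (add (start D1791) D10121)))) (orK (nat_lit 186) (fin (add (start D1803) (orK (nat_lit 189) (fin (add (start (orK (nat_lit 187) (fin (add (start D7629) D574)))) (orK (nat_lit 149) (fin (add (start D5917) (orK (nat_lit 129) (fin (add (add (add (add (start D6724) D13488) D13508) (orK (nat_lit 148) (fin (add (add (add (start (orK (nat_lit 147) (fin (add (start D1555) (orK (nat_lit 150) D13511))))) D13521) (orK (nat_lit 147) (fin (add (start D1555) (orK (nat_lit 150) (fin (add (start D4051) (orK (nat_lit 127) (fin (add (start D1228) (orK (nat_lit 151) (fin (add (start D1227) D8244))))))))))))) D13533)))) D13538)))))))))))))))) (orK (nat_lit 246) (fin (add (add (start D1817) (orK (nat_lit 245) (fin (add (start D135) (orK (nat_lit 248) (fin (add (start D4573) D11615))))))) (orK (nat_lit 245) (fin (add (start D135) (orK (nat_lit 248) (fin (add (start D4573) (orK (nat_lit 265) (fin (add (start D138) (orK (nat_lit 266) (fin (add (start D4612) (orK (nat_lit 225) (fin (add (start D136) D4615))))))))))))))))))) (orK (nat_lit 267) (fin (add (add (add (add (start D4906) (orK (nat_lit 287) (fin (add (add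 (start D13566) D1788) D4008)))) D3922) D10240) (orK (nat_lit 286) (fin (add (start D1693) (orK (nat_lit 287) (fin (add (start D1694) D13566)))))))))) (orK (nat_lit 248) (fin (add (add (start D4768) (orK (nat_lit 226) (fin (add (add (start D9991) (orK (nat_lit 206) (fin (add (start D12724) (orK (nat_lit 246) (fin (add (start D5643) (orK (nat_lit 266) (fin (add (start D3615) (orK (nat_lit 265) (fin (add (start D3638) D4612))))))))))))) (orK (nat_lit 268) (fin (add (start D402) (orK (nat_lit 225) (fin (add (start D4041) (orK (nat_lit 205) (fin (add (start D2466) (orK (nat_lit 245) (fin (add (start D2535) (orK (nat_lit 246) (fin (add (start D4571) (orK (nat_lit 185) D4374)))))))))))))))))))) (orK (nat_lit 187) (fin (add (start D2197) (orK (nat_lit 246) (fin (add (start D134) D11617)))))))))) (orK (nat_lit 267) (fin (add (add (add (start D4906) D4910) D4150) (orK (nat_lit 206) (fin (add (start D1791) (orK (nat_lit 268) (fin (add (start D572) (orK (nat_lit 266) (fin (add (start D1302) D9880))))))))))))) D10309)))))))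
noncomputable def D13379 : OP := orK (nat_lit 206) (fin (add (start D7315) (orK (nat_lit 228) D12716)))
noncomputable def D11061 : AP := fin (add (start D32) D11060)
noncomputable def D11678 : OP := orK (nat_lit 228) D4773
noncomputable def D1821 : OP := orK (nat_lit 247) D1820
noncomputable def D1769 : OP := orK (nat_lit 246) (fin (add (start D1714) D1767))
noncomputable def D9753 : OP := orK (nat_lit 246) (fin (add (start D1714) D1152))
noncomputable def D9777 : OP := orK (nat_lit 249) (fin (add (add (start D7995) (orK (nat_lit 247) (fin (add (add (add (start D9753) D1769) (orK (nat_lit 248) (fin (add (start D1775) (orK (nat_lit 228) (fin (add (start D4291) (orK (nat_lit 226) (fin (add (start D2304) D4271)))))))))) D9765)))) (orK (nat_lit 190) (fin (add (start D317) (orK (nat_lit 247) (fin (add (add (add (start D9753) D1769) (orK (nat_lit 269) (fin (add (start D515) D9769)))) D9765))))))))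
noncomputable def D953 : OP := win (nat_lit 4) (nat_lit 7) (nat_lit 8) (nat_lit 0)
noncomputable def D956 : OP := orK (nat_lit 188) (fin (add (start D953) D954))
noncomputable def D1635 : OP := orK (nat_lit 171) (fin (add (start D45) D956))
noncomputable def D1639 : OP := orK (nat_lit 170) (fin (add (start D1513) (orK (nat_lit 190) (fin (add (start D28) D1635)))))
noncomputable def D9750 : AP := fin (add (start D1169) (orK (nat_lit 209) (fin (add (start D1508) (orK (nat_lit 189) (fin (add (start D1444) D1639)))))))
noncomputable def D9751 : OP := orK (nat_lit 228) D9750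
noncomputable def D9781 : OP := orK (nat_lit 229) (fin (add (add (add (add (start D9739) (orK (nat_lit 228) (fin (add (start D1169) (orK (nat_lit 247) D9742))))) D9751) D9777) (orK (nat_lit 249) (fin (add (start D7995) D1821)))))
noncomputable def D5854 : OP := orK (nat_lit 307) D5853
noncomputable def D5860 : OP := orK (nat_lit 287) (fin (add (add (add (start D1784) D5837) D5851) (orK (nat_lit 266) (fin (add (start D1302) (orK (nat_lit 246) (fin (add (start D1715) D5854))))))))
noncomputable def D11625 : OP := orK (nat_lit 206) (fin (add (start D1791) D11623))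
noncomputable def D4898 : OP := orK (nat_lit 266) (fin (add (start D1302) (orK (nat_lit 187) (fin (add (start D1301) D1805)))))
noncomputable def D4079 : OP := orK (nat_lit 229) (fin (add (start D80) D1152))
noncomputable def D5497 : OP := orK (nat_lit 187) D5496
noncomputable def D12795 : OP := orK (nat_lit 167) (fin (add (start D32) (orK (nat_lit 226) (fin (add (start D2035) (orK (nat_lit 147) (fin (add (start D3202) (orK (nat_lit 128) (fin (add (start D6071) D1378)))))))))))
noncomputable def D13270 : OP := orK (nat_lit 209) (fin (add (start D1508) (orK (nat_lit 189) (fin (add (start D1444) D1507)))))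
noncomputable def D16845 : AP := fin (add (add (add (add (add (add (add (add (add (add (add (add (start (orK (nat_lit 228) (fin (add (add (add (add (start D4277) D4774) (orK (nat_lit 229) (fin (add (start D1169) D13270)))) (orK (nat_lit 229) (fin (add (add (start D4275) D4772) D13270)))) (orK (nat_lit 187) (fin (add (add (start D3196) (orK (nat_lit 186) (fin (add (add (start D7746) D13282) (orK (nat_lit 247) (fin (add (start D140) (orK (nat_lit 206) (fin (add (start D1725) (orK (nat_lit 205) (fin (add (start D3009) (orK (nat_lit 189) (fin (add (start D13283) D7876)))))))))))))))) D12795))))))) (orK (nat_lit 247) (fin (add (add (add (add (add (start D1809) D5497) (orK (nat_lit 246) (fin (add (add (start D1721) (orK (nat_lit 248) (fin (add (add (add (start D4079) D4986) D10205) D5645)))) (orK (nat_lit 229) (fin (add (start D1152) (orK (nat_lit 248) (fin (add (start D80) (orK (nat_lit 268) (fin (add (start D1770) (orK (nat_lit 245) (fin (add (start D4571) (orK (nat_lit 267) (fin (add (start D3879) D572))))))))))))))))))) (orK (nat_lit 229) (fin (add (add (add (start D1713) D9765) (orK (nat_lit 267) (fin (add (add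 (add (start D4898) D11625) D5860) (orK (nat_lit 187) (fin (add (add (start D1805) (orK (nat_lit 246) (fin (add (start D134) (orK (nat_lit 226) (fin (add (start D3935) D13312))))))) D4866))))))) D13322)))) D4937) (orK (nat_lit 267) (fin (add (add (add (start (orK (nat_lit 268) (fin (add (start D572) (orK (nat_lit 187) (fin (add (start D571) D1805))))))) D9809) D10125) D4910))))))) D9781) (orK (nat_lit 190) (fin (add (add (add (start D7296) (orK (nat_lit 229) (fin (add (start D7977) D11678)))) (orK (nat_lit 189) (fin (add (start D5919) (orK (nat_lit 187) (fin (add (add (add (add (start D13339) D13343) D8045) (orK (nat_lit 166) (fin (add (start D13345) D6164)))) (orK (nat_lit 206) (fin (add (start D7315) (orK (nat_lit 228) (fin (add (start D3008) (orK (nat_lit 167) D11061)))))))))))))) D13366)))) (orK (nat_lit 190) (fin (add (add (add (start D7296) D13371) (orK (nat_lit 189) (fin (add (add (start D5919) (orK (nat_lit 187) (fin (add (add (add (start D13379) D13382) D13384) D13387)))) (orK (nat_lit 129) (fin (add (start D13390) (orK (nat_lit 187) (fin (add (add (add (add (start D13339) D13379) D13410) (orK (nat_lit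 167) (fin (add (add (start D9235) (orK (nat_lit 146) (fin (add (start D579) (orK (nat_lit 147) (fin (add (start D1376) (orK (nat_lit 128) (fin (add (start D6071) (orK (nat_lit 127) (fin (add (start D6072) D13411))))))))))))) D7609)))) D13387)))))))))) D13366)))) (orK (nat_lit 170) D13619)) (orK (nat_lit 190) (fin (add (add (add (start D7296) D13371) (orK (nat_lit 189) (fin (add (start D5919) (orK (nat_lit 187) (fin (add (add (add (add (start D13630) D13343) (orK (nat_lit 206) (fin (add (start D7315) (orK (nat_lit 204) (fin (add (add (start D12830) (orK (nat_lit 205) (fin (add (add (add (start D10899) D10905) (orK (nat_lit 184) (fin (add (start D4939) (orK (nat_lit 224) (fin (add (start D4738) (orK (nat_lit 244) (fin (add (start (orK (nat_lit 225) (fin (add (start D10908) (orK (nat_lit 164) D10915))))) D11025)))))))))) D10931)))) (orK (nat_lit 247) (fin (add (add (add (add (start D13648) D3218) (orK (nat_lit 267) (fin (add (add (start D574) (orK (nat_lit 229) (fin (add (start D1724) D11623)))) (orK (nat_lit 228) (fin (add (start D3008) (orK (nat_lit 248) (fin (add (start D1369) (orK (nat_lit 287) (fin (add (start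 D189) D1792))))))))))))) (orK (nat_lit 266) (fin (add (start D1301) (orK (nat_lit 267) (fin (add (start D1302) (orK (nat_lit 228) (fin (add (start D3008) D12494)))))))))) (orK (nat_lit 266) (fin (add (start D1301) (orK (nat_lit 267) (fin (add (start D1302) (orK (nat_lit 228) (fin (add (start D3008) (orK (nat_lit 287) (fin (add (start D1792) (orK (nat_lit 307) (fin (add (start D4002) (orK (nat_lit 326) (fin (add (start D5838) (orK (nat_lit 327) (fin (add (start D5839) D4006))))))))))))))))))))))))))))))) D13690) D13387))))))) D13366)))) D10414) (orK (nat_lit 149) (fin (add (add (add (start (orK (nat_lit 150) D15297)) (orK (nat_lit 170) (fin (add (start D1553) (orK (nat_lit 187) (fin (add (add (add (add (start (orK (nat_lit 189) (fin (add (start D5917) (orK (nat_lit 186) (fin (add (start D7629) D7766))))))) D15309) D5882) (orK (nat_lit 189) (fin (add (start D5917) (orK (nat_lit 186) (fin (add (start D7629) D15311))))))) D15324))))))) D7101) (orK (nat_lit 187) (fin (add (add (add (add (start D5882) (orK (nat_lit 189) (fin (add (start D5917) (orK (nat_lit 186) (fin (add (add (start (orK (nat_lit 188) D15329)) D15336)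 D7766))))))) D15309) (orK (nat_lit 189) (fin (add (start D5917) (orK (nat_lit 186) (fin (add (start D15336) D15311))))))) (orK (nat_lit 209) (fin (add (start D1552) (orK (nat_lit 167) (fin (add (start D2040) (orK (nat_lit 146) D15349)))))))))))))) (orK (nat_lit 187) D15599)) (orK (nat_lit 170) (fin (add (add (add (add (start D7482) (orK (nat_lit 190) (fin (add (start D260) (orK (nat_lit 229) (fin (add (start D28) (orK (nat_lit 228) (fin (add (start D1169) (orK (nat_lit 209) (fin (add (start D1508) (orK (nat_lit 248) (fin (add (start D1881) (orK (nat_lit 288) (fin (add (start (win (nat_lit 3) (nat_lit 8) (nat_lit 10) (nat_lit 1))) (orK (nat_lit 231) (fin (add (start D2667) D752)))))))))))))))))))))) D13445) (orK (nat_lit 229) (fin (add (add (start D11360) (orK (nat_lit 247) (fin (add (add (add (start D15617) D13322) D15621) (orK (nat_lit 267) (fin (add (add (start D4150) D4910) D3922))))))) (orK (nat_lit 228) D13455))))) (orK (nat_lit 228) (fin (add (add (add (add (start (orK (nat_lit 248) (fin (add (start D4315) (orK (nat_lit 229) (fin (add (start D1169) D15630))))))) (orK (nat_lit 187) (fin (add (add (start D3196)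 (orK (nat_lit 167) D3350)) (orK (nat_lit 186) (fin (add (start (orK (nat_lit 189) (fin (add (start D7629) (orK (nat_lit 149) (fin (add (start D5917) D15334))))))) (orK (nat_lit 247) D8048)))))))) (orK (nat_lit 209) (fin (add (add (start (orK (nat_lit 189) (fin (add (start D1507) (orK (nat_lit 187) (fin (add (add (add (start D3196) (orK (nat_lit 167) (fin (add (start D32) (orK (nat_lit 186) (fin (add (start D7629) (orK (nat_lit 147) (fin (add (add (add (start D1378) (orK (nat_lit 128) (fin (add (start D6071) (orK (nat_lit 127) (fin (add (start D6072) D12187))))))) (orK (nat_lit 128) (fin (add (start D6071) (orK (nat_lit 127) (fin (add (start D6072) D6080))))))) D6113)))))))))) (orK (nat_lit 247) (fin (add (start (orK (nat_lit 186) (fin (add (start D6073) D140)))) D12295)))) (orK (nat_lit 186) (fin (add (start D6073) D7766)))))))))) (orK (nat_lit 226) (fin (add (start D2036) (orK (nat_lit 248) (fin (add (start D4315) D9617))))))) (orK (nat_lit 229) D15674))))) (orK (nat_lit 206) (fin (add (start D3008) (orK (nat_lit 187) (fin (add (add (start D3196) (orK (nat_lit 186) (fin (add (start D13392) (orK (nat_lit 188)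 (fin (add (start D9562) D13190))))))) (orK (nat_lit 167) (fin (add (start D32) (orK (nat_lit 147) (fin (add (start D1445) D1378))))))))))))) (orK (nat_lit 229) (fin (add (start D1169) (orK (nat_lit 209) D15674))))))))))) (orK (nat_lit 149) D16616)) (orK (nat_lit 190) (fin (add (add (add (start D7296) (orK (nat_lit 229) (fin (add (start D7977) D16619)))) (orK (nat_lit 189) D16833)) (orK (nat_lit 170) (fin (add (start D260) (orK (nat_lit 151) (fin (add (start D22) (orK (nat_lit 150) (fin (add (start D21) (orK (nat_lit 229) (fin (add (start D28) D16619))))))))))))))))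
noncomputable def D8690 : OP := win (nat_lit 1) (nat_lit 9) (nat_lit 5) (nat_lit 5)
noncomputable def D8842 : OP := orK (nat_lit 109) (fin (add (start (orK (nat_lit 108) D8570)) (orK (nat_lit 150) (fin (add (start D8690) D756)))))
noncomputable def D3519 : OP := orK (nat_lit 91) (fin (add (start D3513) D3517))
noncomputable def D8364 : OP := win (nat_lit 0) (nat_lit 9) (nat_lit 6) (nat_lit 3)
noncomputable def D8363 : OP := win (nat_lit 0) (nat_lit 8) (nat_lit 6) (nat_lit 0)
noncomputable def D8409 : AP := fin (add (start D8363) (orK (nat_lit 153) (fin (add (start D8364) D8362))))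
noncomputable def D8554 : OP := orK (nat_lit 129) (fin (add (start (orK (nat_lit 149) (fin (add (start D8537) (orK (nat_lit 90) (fin (add (start (win (nat_lit 1) (nat_lit 9) (nat_lit 3) (nat_lit 0))) D8547))))))) (orK (nat_lit 152) D8409)))
noncomputable def D8424 : OP := win (nat_lit 2) (nat_lit 9) (nat_lit 5) (nat_lit 0)
noncomputable def D8440 : OP := win (nat_lit 2) (nat_lit 8) (nat_lit 5) (nat_lit 5)
noncomputable def D8543 : OP := orK (nat_lit 129) (fin (add (start (orK (nat_lit 128) (fin (add (start D7214) (orK (nat_lit 111) (fin (add (start D8527) D8528))))))) (orK (nat_lit 132) (fin (add (start (orK (nat_lit 109) (fin (add (start D8440) D8424)))) (orK (nat_lit 149) (fin (add (start D8537) D7399))))))))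
noncomputable def D8356 : OP := win (nat_lit 6) (nat_lit 10) (nat_lit 3) (nat_lit 0)
noncomputable def D8359 : OP := orK (nat_lit 90) (fin (add (start D8356) D8357))
noncomputable def D8472 : OP := win (nat_lit 0) (nat_lit 8) (nat_lit 5) (nat_lit 0)
noncomputable def D8563 : AP := fin (add (start D3491) (orK (nat_lit 112) (fin (add (start D1589) (orK (nat_lit 132) (fin (add (start D8417) (orK (nat_lit 109) (fin (add (start D8472) D8473))))))))))
noncomputable def D8555 : AP := fin (add (start D8355) D8554)
noncomputable def D8526 : OP := orK (nat_lit 90) (fin (add (start D8357) (orK (nat_lit 130) (fin (add (start D8356) D8355)))))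
noncomputable def D8568 : OP := orK (nat_lit 110) (fin (add (add (add (add (start D8526) (orK (nat_lit 130) (fin (add (start D8355) D8543)))) (orK (nat_lit 130) D8555)) (orK (nat_lit 111) D8563)) (orK (nat_lit 130) (fin (add (add (start D8359) D8543) D8554)))))
noncomputable def D8678 : OP := win (nat_lit 1) (nat_lit 9) (nat_lit 5) (nat_lit 2)
noncomputable def D8689 : OP := orK (nat_lit 110) (fin (add (add (start (orK (nat_lit 130) (fin (add (start D8355) (orK (nat_lit 189) (fin (add (start D8678) (orK (nat_lit 149) (fin (add (start D8679) D5917)))))))))) (orK (nat_lit 111) (fin (add (start D3491) D3519)))) D8526))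
noncomputable def D9029 : OP := orK (nat_lit 111) (fin (add (add (start D3519) (orK (nat_lit 110) D8563)) D8830))
noncomputable def D8410 : OP := orK (nat_lit 129) D8409
noncomputable def D8692 : AP := fin (add (start D8690) (win (nat_lit 6) (nat_lit 10) (nat_lit 4) (nat_lit 0)))
noncomputable def D8434 : OP := orK (nat_lit 152) (fin (add (start D8363) D7401))
noncomputable def D8983 : OP := win (nat_lit 0) (nat_lit 9) (nat_lit 6) (nat_lit 0)
noncomputable def D8423 : OP := orK (nat_lit 112) (fin (add (start D8417) (orK (nat_lit 92) (fin (add (start D8418) (win (nat_lit 1) (nat_lit 11) (nat_lit 4) (nat_lit 3)))))))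
noncomputable def D8695 : OP := orK (nat_lit 110) (fin (add (start D8355) (orK (nat_lit 150) D8692)))
noncomputable def D8921 : OP := win (nat_lit 3) (nat_lit 11) (nat_lit 4) (nat_lit 3)
noncomputable def D8969 : OP := orK (nat_lit 149) (fin (add (start D8795) D8796))
noncomputable def D8749 : OP := win (nat_lit 2) (nat_lit 8) (nat_lit 5) (nat_lit 4)
noncomputable def D8933 : OP := win (nat_lit 5) (nat_lit 11) (nat_lit 6) (nat_lit 4)
noncomputable def D8705 : OP := orK (nat_lit 114) (fin (add (start (win (nat_lit 4) (nat_lit 10) (nat_lit 5) (nat_lit 4))) (win (nat_lit 4) (nat_lit 11) (nat_lit 5) (nat_lit 5))))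
noncomputable def D8701 : OP := win (nat_lit 0) (nat_lit 11) (nat_lit 6) (nat_lit 5)
noncomputable def D8700 : OP := win (nat_lit 0) (nat_lit 10) (nat_lit 6) (nat_lit 4)
noncomputable def D8729 : AP := fin (add (start (orK (nat_lit 154) (fin (add (start D8700) D8701)))) D8705)
noncomputable def D9049 : AP := fin (add (add (add (add (add (add (start (orK (nat_lit 150) (fin (add (add (start (orK (nat_lit 111) (fin (add (start D1588) (orK (nat_lit 110) (fin (add (start D3491) (orK (nat_lit 130) (fin (add (start D8690) D754)))))))))) (orK (nat_lit 149) (fin (add (add (start D8744) (orK (nat_lit 152) (fin (add (start D3269) (orK (nat_lit 129) (fin (add (start D8866) (orK (nat_lit 132) (fin (add (start D8240) (orK (nat_lit 109) (fin (add (start D8867) (orK (nat_lit 108) (fin (add (start D8868) D6590)))))))))))))))) D8880)))) (orK (nat_lit 149) (fin (add (add (start D8744) (orK (nat_lit 111) (fin (add (start D1588) (orK (nat_lit 152) (fin (add (start D3269) (orK (nat_lit 129) (fin (add (start D8866) (orK (nat_lit 132) (fin (add (start D8240) D8887))))))))))))) D8880))))))) (orK (nat_lit 132) (fin (add (start (orK (nat_lit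 133) (fin (add (add (add (start (orK (nat_lit 150) (fin (add (start D8717) (orK (nat_lit 149) (fin (add (start D8795) D8928))))))) (orK (nat_lit 134) (fin (add (add (start (orK (nat_lit 135) (fin (add (start D8933) (orK (nat_lit 155) (fin (add (start (win (nat_lit 0) (nat_lit 11) (nat_lit 6) (nat_lit 4))) (win (nat_lit 0) (nat_lit 12) (nat_lit 6) (nat_lit 5))))))))) (orK (nat_lit 130) D8729)) (orK (nat_lit 135) (fin (add (start D8933) (orK (nat_lit 115) (fin (add (start (win (nat_lit 4) (nat_lit 11) (nat_lit 5) (nat_lit 4))) (win (nat_lit 4) (nat_lit 12) (nat_lit 5) (nat_lit 5)))))))))))) (orK (nat_lit 153) (fin (add (add (add (start (orK (nat_lit 154) (fin (add (start (win (nat_lit 0) (nat_lit 10) (nat_lit 6) (nat_lit 0))) (win (nat_lit 5) (nat_lit 10) (nat_lit 7) (nat_lit 2)))))) (orK (nat_lit 152) D1977)) (orK (nat_lit 130) (fin (add (start D8903) (orK (nat_lit 149) (fin (add (start D8699) (orK (nat_lit 129) (fin (add (start D7399) (orK (nat_lit 108) (fin (add (start D8749) (orK (nat_lit 128) (fin (add (start D8771) D8957)))))))))))))))) (orK (nat_lit 150) (fin (add (start (win (nat_lit 5) (nat_lit 9) (nat_lit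 7) (nat_lit 1))) D8969))))))) (orK (nat_lit 150) (fin (add (start D8717) D8969))))))) (orK (nat_lit 112) (fin (add (start D8417) (orK (nat_lit 92) (fin (add (start D8418) D8921)))))))))) (orK (nat_lit 130) (fin (add (add (add (start D8695) (orK (nat_lit 132) (fin (add (add (start D8423) (orK (nat_lit 149) (fin (add (add (start (orK (nat_lit 150) (fin (add (start D8795) D8980)))) (orK (nat_lit 153) (fin (add (add (start (orK (nat_lit 152) (fin (add (start D8983) D8362)))) D8991) (orK (nat_lit 152) (fin (add (start D8983) D1963))))))) (orK (nat_lit 129) (fin (add (start D7399) D8434))))))) (orK (nat_lit 112) (fin (add (start D8417) (orK (nat_lit 113) (fin (add (start D9000) (orK (nat_lit 114) (fin (add (start (win (nat_lit 4) (nat_lit 10) (nat_lit 5) (nat_lit 3))) D9002))))))))))))) (orK (nat_lit 110) D8555)) (orK (nat_lit 152) (fin (add (add (start (orK (nat_lit 153) (fin (add (start D8362) D1963)))) (orK (nat_lit 132) (fin (add (start (orK (nat_lit 150) (fin (add (start (orK (nat_lit 110) D8692)) (orK (nat_lit 149) (fin (add (start D8795) D8240))))))) (orK (nat_lit 129) (fin (add (start D8363) (orK (nat_lit 112)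 (fin (add (start D8435) D7415)))))))))) D8410))))))) D9029) D8689) D8568) (orK (nat_lit 111) (fin (add (add (add (start D3519) D8830) (orK (nat_lit 110) (fin (add (start D3491) (orK (nat_lit 130) (fin (add (start D8842) (orK (nat_lit 129) (fin (add (start (orK (nat_lit 128) (fin (add (start D7214) D8527)))) (orK (nat_lit 112) (fin (add (start D1589) D8574))))))))))))) D8469))))
noncomputable def D9050 : OP := orK (nat_lit 131) D9049
noncomputable def D8844 : OP := orK (nat_lit 112) (fin (add (start D1589) (orK (nat_lit 129) (fin (add (start (win (nat_lit 4) (nat_lit 8) (nat_lit 5) (nat_lit 0))) D8574)))))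
noncomputable def D8850 : OP := orK (nat_lit 111) (fin (add (add (add (start D3519) D8830) (orK (nat_lit 110) (fin (add (start D3491) (orK (nat_lit 130) (fin (add (start D8842) D8844))))))) D8469))
noncomputable def D3484 : OP := orK (nat_lit 192) (fin (add (start D3391) D3482))
noncomputable def D8836 : OP := orK (nat_lit 191) (fin (add (start D3484) D8834))
noncomputable def D8361 : OP := orK (nat_lit 110) (fin (add (start D8355) D8359))
noncomputable def D7190 : OP := orK (nat_lit 168) D7189
noncomputable def D13116 : OP := orK (nat_lit 130) (fin (add (start D6603) D7181))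
noncomputable def D3510 : OP := orK (nat_lit 111) (fin (add (start D1588) (orK (nat_lit 110) (fin (add (start D3491) (orK (nat_lit 191) (fin (add (start D3504) D3484))))))))
noncomputable def D13071 : AP := fin (add (start D8569) (orK (nat_lit 91) (fin (add (start D3513) D13068))))
noncomputable def D12997 : OP := win (nat_lit 6) (nat_lit 8) (nat_lit 5) (nat_lit 3)
noncomputable def D8275 : OP := orK (nat_lit 111) (fin (add (start D1588) D3491))
noncomputable def D8273 : OP := win (nat_lit 1) (nat_lit 9) (nat_lit 5) (nat_lit 1)
noncomputable def D9079 : OP := orK (nat_lit 168) (fin (add (start D7188) (orK (nat_lit 89) (fin (add (start D7430) D9075)))))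
noncomputable def D7201 : AP := fin (add (start D1556) D1574)
noncomputable def D9091 : OP := orK (nat_lit 189) (fin (add (start D5917) (orK (nat_lit 129) (fin (add (add (add (start D6724) (orK (nat_lit 130) (fin (add (start D6603) (orK (nat_lit 128) (fin (add (start D7213) (orK (nat_lit 147) (fin (add (add (start (orK (nat_lit 148) (fin (add (start D1555) D9057)))) (orK (nat_lit 148) (fin (add (start D9057) (orK (nat_lit 171) D7201))))) (orK (nat_lit 127) D9067))))))))))) (orK (nat_lit 110) (fin (add (start D6716) (orK (nat_lit 109) (fin (add (start D6717) D9079))))))) (orK (nat_lit 108) (fin (add (start D6718) (orK (nat_lit 109) (fin (add (start D6590) D9079)))))))))))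
noncomputable def D8794 : OP := orK (nat_lit 91) (fin (add (start D3513) D8792))
noncomputable def D3529 : OP := orK (nat_lit 112) (fin (add (start D1589) D3527))
noncomputable def D8808 : OP := orK (nat_lit 191) (fin (add (start D3484) (orK (nat_lit 111) (fin (add (add (start D3529) D8794) (orK (nat_lit 150) (fin (add (start D1588) (orK (nat_lit 132) (fin (add (start D3481) (orK (nat_lit 149) D8799))))))))))))
noncomputable def D11732 : OP := orK (nat_lit 130) (fin (add (start D7215) (orK (nat_lit 191) (fin (add (start D733) (orK (nat_lit 110) (fin (add (start D11726) D2100))))))))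
noncomputable def D11736 : OP := orK (nat_lit 127) (fin (add (start D523) (orK (nat_lit 129) (fin (add (start D6254) D11732)))))
noncomputable def D9202 : OP := win (nat_lit 6) (nat_lit 8) (nat_lit 6) (nat_lit 5)
noncomputable def D11725 : OP := orK (nat_lit 189) (fin (add (start D1013) D9202))
noncomputable def D8696 : OP := win (nat_lit 5) (nat_lit 8) (nat_lit 6) (nat_lit 3)
noncomputable def D8447 : OP := orK (nat_lit 113) (fin (add (start (win (nat_lit 4) (nat_lit 9) (nat_lit 5) (nat_lit 4))) (win (nat_lit 4) (nat_lit 10) (nat_lit 5) (nat_lit 5))))
noncomputable def D8711 : OP := orK (nat_lit 133) (fin (add (start D8699) (orK (nat_lit 154) (fin (add (start D8700) (orK (nat_lit 134) (fin (add (start D8701) D8705))))))))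
noncomputable def D3486 : OP := orK (nat_lit 191) (fin (add (start D3481) D3484))
noncomputable def D8414 : OP := orK (nat_lit 191) (fin (add (start D8402) D3484))
noncomputable def D8761 : OP := orK (nat_lit 130) (fin (add (add (add (start D8414) D8695) (orK (nat_lit 132) (fin (add (add (start D3486) (orK (nat_lit 149) (fin (add (start D8711) (orK (nat_lit 148) (fin (add (start D8696) D1576))))))) (orK (nat_lit 133) (fin (add (add (start (orK (nat_lit 150) (fin (add (start (win (nat_lit 5) (nat_lit 9) (nat_lit 6) (nat_lit 5))) D8717)))) (orK (nat_lit 129) (fin (add (start D8447) (orK (nat_lit 149) (fin (add (start D7399) D8699))))))) (orK (nat_lit 134) D8729)))))))) (orK (nat_lit 149) (fin (add (add (add (start (orK (nat_lit 189) (fin (add (start D5917) (orK (nat_lit 110) (fin (add (start D8678) D8679))))))) (orK (nat_lit 148) (fin (add (start (orK (nat_lit 132) (fin (add (start D3480) D8696)))) D1576)))) (orK (nat_lit 189) (fin (add (start D5917) (orK (nat_lit 150) (fin (add (start D6209) D8744))))))) (orK (nat_lit 189) (fin (add (start D5917) (orK (nat_lit 129) (fin (add (start D6603) (orK (nat_lit 132) (fin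 (add (start D7399) (orK (nat_lit 108) (fin (add (start D8749) D6718)))))))))))))))))
noncomputable def D8522 : OP := orK (nat_lit 191) (fin (add (start D3484) D8350))
noncomputable def D8610 : OP := win (nat_lit 3) (nat_lit 11) (nat_lit 1) (nat_lit 5)
noncomputable def D8609 : OP := win (nat_lit 3) (nat_lit 11) (nat_lit 2) (nat_lit 4)
noncomputable def D8489 : OP := win (nat_lit 6) (nat_lit 11) (nat_lit 3) (nat_lit 4)
noncomputable def D8614 : OP := orK (nat_lit 50) (fin (add (start (win (nat_lit 7) (nat_lit 10) (nat_lit 1) (nat_lit 5))) (win (nat_lit 7) (nat_lit 10) (nat_lit 2) (nat_lit 4))))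
noncomputable def D8635 : OP := orK (nat_lit 91) (fin (add (add (start D8465) (orK (nat_lit 152) (fin (add (start D1911) (orK (nat_lit 71) (fin (add (start D8489) (orK (nat_lit 52) (fin (add (start D8609) (orK (nat_lit 51) (fin (add (start D8610) D8614))))))))))))) (orK (nat_lit 152) (fin (add (start D1911) (orK (nat_lit 71) (fin (add (start D8489) (orK (nat_lit 52) (fin (add (start D8609) (orK (nat_lit 51) (fin (add (start D8610) (orK (nat_lit 110) (fin (add (start (win (nat_lit 1) (nat_lit 10) (nat_lit 2) (nat_lit 5))) D3491)))))))))))))))))
noncomputable def D12965 : OP := orK (nat_lit 189) (fin (add (start D1013) D8374))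
noncomputable def D12956 : AP := fin (add (start D1589) D3489)
noncomputable def D12955 : OP := orK (nat_lit 188) (fin (add (start D522) D6254))
noncomputable def D8520 : OP := orK (nat_lit 168) (fin (add (start D1584) (orK (nat_lit 148) (fin (add (start D265) (orK (nat_lit 191) (fin (add (start D733) (orK (nat_lit 110) (fin (add (start D3520) (orK (nat_lit 111) (fin (add (start D3491) (orK (nat_lit 92) (fin (add (start D3515) (orK (nat_lit 91) (fin (add (start D3514) (orK (nat_lit 108) (fin (add (start D8502) D8504)))))))))))))))))))))))
noncomputable def D8457 : OP := orK (nat_lit 168) (fin (add (start D733) D1584))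
noncomputable def D8459 : OP := orK (nat_lit 191) (fin (add (start D3527) D8457))
noncomputable def D8501 : OP := orK (nat_lit 111) (fin (add (add (add (start (orK (nat_lit 112) (fin (add (start D1589) D8459)))) D8469) (orK (nat_lit 132) (fin (add (add (start (orK (nat_lit 191) (fin (add (start D3481) D8457)))) (orK (nat_lit 110) (fin (add (start D3491) (orK (nat_lit 109) (fin (add (start D8472) (orK (nat_lit 112) (fin (add (start D8473) D8417)))))))))) (orK (nat_lit 152) (fin (add (start D1911) (orK (nat_lit 91) (fin (add (start (win (nat_lit 6) (nat_lit 11) (nat_lit 3) (nat_lit 0))) D8465)))))))))) (orK (nat_lit 152) (fin (add (start D1911) (orK (nat_lit 90) (fin (add (start D8463) (orK (nat_lit 91) (fin (add (start D8462) (orK (nat_lit 72) (fin (add (start D8487) (orK (nat_lit 71) (fin (add (start D8488) D8489)))))))))))))))))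
noncomputable def D8455 : OP := orK (nat_lit 130) (fin (add (add (start (orK (nat_lit 152) (fin (add (start D1911) D8410)))) D8414) (orK (nat_lit 132) (fin (add (add (start D8423) (orK (nat_lit 110) (fin (add (start D8355) (orK (nat_lit 109) (fin (add (start D8424) (orK (nat_lit 108) (fin (add (start D8425) (win (nat_lit 2) (nat_lit 8) (nat_lit 5) (nat_lit 3)))))))))))) (orK (nat_lit 129) (fin (add (start D8434) (orK (nat_lit 133) (fin (add (start (orK (nat_lit 109) (fin (add (start D8440) (win (nat_lit 2) (nat_lit 9) (nat_lit 5) (nat_lit 4)))))) D8447)))))))))))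
noncomputable def D8372 : OP := orK (nat_lit 152) (fin (add (start D1911) (orK (nat_lit 130) (fin (add (start D8361) (orK (nat_lit 153) (fin (add (start D8362) (orK (nat_lit 129) (fin (add (start D8363) D8364)))))))))))
noncomputable def D13139 : AP := fin (add (add (add (add (start D8340) (orK (nat_lit 168) (fin (add (start D1584) (orK (nat_lit 131) (fin (add (add (add (add (start (orK (nat_lit 191) (fin (add (start D733) (orK (nat_lit 132) (fin (add (start D3481) (orK (nat_lit 148) (fin (add (start D265) (orK (nat_lit 149) (fin (add (start D3480) (orK (nat_lit 130) (fin (add (start D8696) D8402)))))))))))))))) (orK (nat_lit 191) (fin (add (start D733) (orK (nat_lit 110) (fin (add (start D3520) (orK (nat_lit 111) (fin (add (start D3491) (orK (nat_lit 91) (fin (add (start D3513) (orK (nat_lit 92) (fin (add (start D3514) (orK (nat_lit 108) (fin (add (start D8502) (orK (nat_lit 148) (fin (add (start D265) (orK (nat_lit 128) (fin (add (start D8772) (orK (nat_lit 88) (fin (add (start D2096) D9267)))))))))))))))))))))))))))) D8850) (orK (nat_lit 111) (fin (add (add (add (start (orK (nat_lit 191) (fin (add (start D733)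 D3529)))) D3519) (orK (nat_lit 148) (fin (add (start D265) (orK (nat_lit 191) (fin (add (start D733) (orK (nat_lit 150) (fin (add (start D1588) (orK (nat_lit 132) (fin (add (start D3481) (win (nat_lit 4) (nat_lit 8) (nat_lit 6) (nat_lit 1))))))))))))))) (orK (nat_lit 191) (fin (add (start D733) D8794))))))) (orK (nat_lit 191) (fin (add (start D733) D8350)))))))))) (orK (nat_lit 131) (fin (add (add (add (add (add (add (add (start D8372) (orK (nat_lit 112) (fin (add (add (start D8459) (orK (nat_lit 168) (fin (add (start D1584) (orK (nat_lit 148) (fin (add (start D265) (orK (nat_lit 128) (fin (add (start (orK (nat_lit 129) (fin (add (start D12955) (orK (nat_lit 111) D12956))))) D12965)))))))))) (orK (nat_lit 92) (fin (add (start D8921) (orK (nat_lit 132) (fin (add (start D8418) D8417)))))))))) D8455) D8501) D8520) D8522) D8568) (orK (nat_lit 111) (fin (add (add (start D8469) (orK (nat_lit 168) (fin (add (start D1584) (orK (nat_lit 148) (fin (add (start D265) (orK (nat_lit 128) (fin (add (start (orK (nat_lit 129) (fin (add (start D12955) (orK (nat_lit 112) D12956))))) D12965)))))))))) D8635))))))) (orK (nat_lit 131)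 (fin (add (add (add (add (add (add (add (start D8689) D8522) D8761) (orK (nat_lit 111) (fin (add (add (start D3519) (orK (nat_lit 112) (fin (add (start D1589) (orK (nat_lit 191) (fin (add (start D3527) D3484))))))) (orK (nat_lit 150) (fin (add (start D1588) (orK (nat_lit 148) (fin (add (add (start (orK (nat_lit 149) (fin (add (start D1587) (orK (nat_lit 128) (fin (add (start D1586) (orK (nat_lit 108) (fin (add (start D1610) (orK (nat_lit 189) (fin (add (start D12997) D5917))))))))))))) (orK (nat_lit 168) (fin (add (start D265) (orK (nat_lit 188) (fin (add (start D269) (orK (nat_lit 128) (fin (add (start D11725) D11736)))))))))) (orK (nat_lit 149) D8739))))))))))) D8808) (orK (nat_lit 149) (fin (add (add (add (add (add (start D9091) (orK (nat_lit 150) (fin (add (start D8744) (orK (nat_lit 110) (fin (add (start (orK (nat_lit 189) (fin (add (start D8273) D5917)))) D8275))))))) (orK (nat_lit 189) (fin (add (start D5917) (orK (nat_lit 148) (fin (add (add (start D1558) (orK (nat_lit 128) (fin (add (start (orK (nat_lit 150) (fin (add (start D1586) D1587)))) (orK (nat_lit 108) (fin (add (start D1610) D12997))))))) (orK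 (nat_lit 108) (fin (add (start D1576) (orK (nat_lit 128) D7265))))))))))) (orK (nat_lit 110) (fin (add (add (start (orK (nat_lit 90) (fin (add (start D8357) (orK (nat_lit 130) (fin (add (start (win (nat_lit 1) (nat_lit 9) (nat_lit 4) (nat_lit 3))) D8356))))))) (orK (nat_lit 109) (fin (add (add (add (start (orK (nat_lit 90) (fin (add (start D13065) D8357)))) (orK (nat_lit 108) (fin (add (start (orK (nat_lit 111) D13071)) (orK (nat_lit 129) (fin (add (start D6590) (orK (nat_lit 189) (fin (add (start D5917) D6718)))))))))) (orK (nat_lit 129) D13085)) (orK (nat_lit 111) (fin (add (start D3491) (orK (nat_lit 108) D13071)))))))) (orK (nat_lit 189) (fin (add (start D5917) (orK (nat_lit 130) (fin (add (start D8679) D8355)))))))))) (orK (nat_lit 150) (fin (add (add (start D8744) (orK (nat_lit 111) (fin (add (start D1588) (orK (nat_lit 110) (fin (add (start D3491) (orK (nat_lit 130) (fin (add (start D754) (orK (nat_lit 132) (fin (add (start D8980) (orK (nat_lit 109) (fin (add (start D8472) D756)))))))))))))))) (orK (nat_lit 147) (fin (add (start D13108) D3510))))))) (orK (nat_lit 148) (fin (add (add (start D1576) (orK (nat_lit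 189) (fin (add (start D5917) (orK (nat_lit 129) (fin (add (add (start (orK (nat_lit 168) (fin (add (start D9125) D13116)))) (orK (nat_lit 108) (fin (add (start D6718) D13116)))) (orK (nat_lit 109) (fin (add (start D7190) D6720)))))))))) (orK (nat_lit 130) (fin (add (start (orK (nat_lit 129) (fin (add (start D7181) (orK (nat_lit 147) (fin (add (start D1555) D7180))))))) D8361)))))))))) D8836) D8850)))) D9050)
noncomputable def D7066 : AP := fin (add (start D2026) (orK (nat_lit 189) (fin (add (start D261) D5917))))
noncomputable def D9096 : OP := orK (nat_lit 172) (fin (add (start (orK (nat_lit 149) D7066)) D981))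
noncomputable def D7505 : OP := orK (nat_lit 192) (fin (add (start D982) (orK (nat_lit 168) (fin (add (start D983) D272)))))
noncomputable def D9536 : OP := orK (nat_lit 172) (fin (add (add (start D7505) (orK (nat_lit 152) (fin (add (start D1565) (orK (nat_lit 168) (fin (add (start D1564) D272))))))) D981))
noncomputable def D1569 : OP := orK (nat_lit 168) D1568
noncomputable def D7527 : OP := orK (nat_lit 209) (fin (add (start D1507) (orK (nat_lit 229) (fin (add (start D1513) D1512)))))
noncomputable def D7529 : OP := orK (nat_lit 189) (fin (add (start D7071) D7527))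
noncomputable def D7509 : OP := orK (nat_lit 171) (fin (add (start D45) (orK (nat_lit 172) (fin (add (add (start D264) D981) D7505)))))
noncomputable def D7511 : OP := orK (nat_lit 190) (fin (add (add (start D940) D7509) D7310))
noncomputable def D8233 : OP := orK (nat_lit 172) (fin (add (start D2026) D8231))
noncomputable def D12748 : OP := orK (nat_lit 246) (fin (add (start D134) D10177))
noncomputable def D5904 : AP := fin (add (start D5897) D5903)
noncomputable def D9688 : OP := orK (nat_lit 148) (fin (add (start D158) D8161))
noncomputable def D9686 : OP := orK (nat_lit 189) D7971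
noncomputable def D9692 : OP := orK (nat_lit 188) (fin (add (start D9686) (orK (nat_lit 168) (fin (add (start D38) D9688)))))
noncomputable def D11803 : OP := orK (nat_lit 150) (fin (add (start D936) (orK (nat_lit 131) (fin (add (start D780) (orK (nat_lit 130) (fin (add (start D779) (orK (nat_lit 110) (fin (add (start D8690) D759)))))))))))
noncomputable def D12132 : OP := orK (nat_lit 190) (fin (add (start D28) D11803))
noncomputable def D3282 : OP := orK (nat_lit 147) D3281
noncomputable def D3304 : OP := orK (nat_lit 148) (fin (add (start D273) D3282))
noncomputable def D11795 : OP := orK (nat_lit 209) (fin (add (start D27) (orK (nat_lit 231) (fin (add (start D752) (orK (nat_lit 232) (fin (add (start D789) (orK (nat_lit 168) (fin (add (add (add (start (orK (nat_lit 167) (fin (add (start D945) (orK (nat_lit 189) (fin (add (start D833) D1111))))))) D11774) (orK (nat_lit 148) (fin (add (start D273) (orK (nat_lit 171) (fin (add (start D265) (orK (nat_lit 192) (fin (add (start D983) (orK (nat_lit 172) (fin (add (start D982) (orK (nat_lit 153) (fin (add (start D285) (orK (nat_lit 212) (fin (add (start (win (nat_lit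 3) (nat_lit 12) (nat_lit 7) (nat_lit 4))) D790))))))))))))))))))) D3304)))))))))))
noncomputable def D12130 : OP := orK (nat_lit 190) (fin (add (start D28) D11795))
noncomputable def D10542 : OP := orK (nat_lit 168) (fin (add (start D9698) D7738))
noncomputable def D10604 : OP := orK (nat_lit 185) (fin (add (add (add (add (add (start D7642) D7676) (orK (nat_lit 168) (fin (add (start D9698) (orK (nat_lit 128) (fin (add (start D8135) D10536))))))) D10542) (orK (nat_lit 168) (fin (add (start D9698) (orK (nat_lit 165) (fin (add (start D357) (orK (nat_lit 206) (fin (add (add (add (start (orK (nat_lit 166) (fin (add (start D1726) (orK (nat_lit 226) (fin (add (start D7782) D10548))))))) (orK (nat_lit 166) (fin (add (start D1726) (orK (nat_lit 183) (fin (add (start (win (nat_lit 0) (nat_lit 3) (nat_lit 9) (nat_lit 1))) (orK (nat_lit 226) (fin (add (start D10548) (orK (nat_lit 225) (fin (add (start D7779) (orK (nat_lit 224) (fin (add (start D3065) (orK (nat_lit 244) (fin (add (start D7803) D4403))))))))))))))))))) D10569) (orK (nat_lit 146) (fin (add (start D7825) (orK (nat_lit 145) (fin (add (start D7651) (orK (nat_lit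 126) (fin (add (start D6458) (orK (nat_lit 128) (fin (add (start D8135) (orK (nat_lit 127) (fin (add (start D10570) (orK (nat_lit 144) (fin (add (start (win (nat_lit 4) (nat_lit 3) (nat_lit 6) (nat_lit 0))) (win (nat_lit 4) (nat_lit 4) (nat_lit 6) (nat_lit 3)))))))))))))))))))))))))))))) (orK (nat_lit 164) (fin (add (start D7634) (orK (nat_lit 184) (fin (add (start D7635) (orK (nat_lit 183) (fin (add (start D7679) (orK (nat_lit 168) (fin (add (start D9698) D10594))))))))))))))
noncomputable def D12685 : OP := orK (nat_lit 169) (fin (add (start D9562) (orK (nat_lit 168) D2022)))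
noncomputable def D10514 : OP := orK (nat_lit 247) (fin (add (start D41) D140))
noncomputable def D12314 : OP := orK (nat_lit 247) (fin (add (start D41) D7750))
noncomputable def D11863 : AP := fin (add (start D2021) D9562)
noncomputable def D11865 : AP := fin (add (start D1826) (orK (nat_lit 186) D11863))
noncomputable def D12589 : OP := orK (nat_lit 188) (fin (add (start D38) (orK (nat_lit 169) D11865)))
noncomputable def D4025 : OP := win (nat_lit 5) (nat_lit 6) (nat_lit 8) (nat_lit 1)
noncomputable def D3373 : AP := fin (add (start D1063) (orK (nat_lit 146) (fin (add (start D1117) D579))))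
noncomputable def D4074 : AP := fin (add (start D1307) (orK (nat_lit 169) D3373))
noncomputable def D12703 : AP := fin (add (add (add (add (add (add (add (add (start (orK (nat_lit 167) (fin (add (add (add (start D4262) D4266) D3945) (orK (nat_lit 166) (fin (add (start D1484) (orK (nat_lit 168) (fin (add (start D1307) (orK (nat_lit 226) (fin (add (start D2035) (orK (nat_lit 165) (fin (add (add (start D6187) (orK (nat_lit 186) (fin (add (start D6173) D6177)))) (orK (nat_lit 186) (fin (add (start (orK (nat_lit 145) (fin (add (start D443) D12557)))) D6177))))))))))))))))))) (orK (nat_lit 246) (fin (add (add (add (start (orK (nat_lit 247) (fin (add (start D134) D6291)))) D12578) D9548) (orK (nat_lit 167) (fin (add (start D872) D12582))))))) (orK (nat_lit 168) (fin (add (add (start D11659) D12589) (orK (nat_lit 167) D4074))))) (orK (nat_lit 167) (fin (add (add (add (start D4098) D12201) D7574) (orK (nat_lit 226) (fin (add (start D2035) (orK (nat_lit 147) (fin (add (start D3202) D6113)))))))))) (orK (nat_lit 168) (fin (add (add (add (start D11659) D12589) (orK (nat_lit 167) (fin (add (start D1307) (orK (nat_lit 226)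 (fin (add (start D2035) (orK (nat_lit 206) (fin (add (start D4140) (orK (nat_lit 186) (fin (add (start D4025) (orK (nat_lit 247) (fin (add (start D5216) D1725)))))))))))))))) (orK (nat_lit 167) (fin (add (start D1307) (orK (nat_lit 226) (fin (add (start D2035) (orK (nat_lit 169) (fin (add (start D1063) D5939))))))))))))) (orK (nat_lit 246) (fin (add (add (start (orK (nat_lit 247) (fin (add (start D134) (orK (nat_lit 186) (fin (add (start D140) (orK (nat_lit 188) (fin (add (start D41) (orK (nat_lit 189) (fin (add (start D6125) (orK (nat_lit 206) (fin (add (start D7968) D1725)))))))))))))))) (orK (nat_lit 167) (fin (add (start D872) (orK (nat_lit 168) (fin (add (add (start (orK (nat_lit 169) (fin (add (start D1063) D12628)))) (orK (nat_lit 166) (fin (add (start D1484) (orK (nat_lit 247) (fin (add (start D1308) D867))))))) (orK (nat_lit 146) (fin (add (start D579) (orK (nat_lit 147) (fin (add (start (win (nat_lit 2) (nat_lit 6) (nat_lit 7) (nat_lit 1))) D1376))))))))))))) D9548)))) (orK (nat_lit 168) (fin (add (add (start D11659) D12589) (orK (nat_lit 167) (fin (add (start D1307) (orK (nat_lit 226) (fin (add (start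 D2035) (orK (nat_lit 147) (fin (add (start D3202) (orK (nat_lit 169) D7590)))))))))))))) (orK (nat_lit 186) (fin (add (add (add (start D7746) (orK (nat_lit 188) (fin (add (add (start (orK (nat_lit 168) (fin (add (start D38) (orK (nat_lit 169) D11863))))) D12314) (orK (nat_lit 189) (fin (add (start D6125) D12674))))))) (orK (nat_lit 188) (fin (add (add (start (orK (nat_lit 166) (fin (add (start D4026) (orK (nat_lit 189) (fin (add (start D369) D6125))))))) D10514) D12685)))) (orK (nat_lit 188) (fin (add (add (add (start D12685) (orK (nat_lit 189) (fin (add (start D6125) (orK (nat_lit 166) (fin (add (start D369) (orK (nat_lit 206) (fin (add (start D7968) D1726)))))))))) (orK (nat_lit 166) (fin (add (start D7744) D12696)))) D10604))))))) D10439)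
noncomputable def D999 : OP := orK (nat_lit 171) (fin (add (start D45) (orK (nat_lit 172) (fin (add (add (start D264) D981) (orK (nat_lit 192) (fin (add (start D982) (orK (nat_lit 168) (fin (add (start D983) (orK (nat_lit 147) (fin (add (start D984) (orK (nat_lit 167) (fin (add (start D985) (orK (nat_lit 189) (fin (add (start D833) D261))))))))))))))))))))
noncomputable def D11804 : AP := fin (add (add (add (start D938) D999) D11795) D11803)
noncomputable def D1731 : OP := orK (nat_lit 186) (fin (add (start D1725) (orK (nat_lit 166) (fin (add (start D1726) D1727)))))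
noncomputable def D1733 : OP := orK (nat_lit 206) (fin (add (start D1724) D1731))
noncomputable def D12014 : OP := orK (nat_lit 286) (fin (add (start D1693) (orK (nat_lit 287) (fin (add (start D1694) (orK (nat_lit 268) (fin (add (start D1695) D572))))))))
noncomputable def D12071 : OP := orK (nat_lit 267) (fin (add (add (start (orK (nat_lit 268) (fin (add (start D572) (orK (nat_lit 270) (fin (add (start D3895) D12061))))))) (orK (nat_lit 266) (fin (add (start D1302) (orK (nat_lit 187) (fin (add (start D1301) D6291))))))) D12014))
noncomputable def D12006 : OP := orK (nat_lit 246) (fin (add (start D1152) D1721))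
noncomputable def D1072 : OP := orK (nat_lit 171) D1071
noncomputable def D11805 : OP := orK (nat_lit 190) D11804
noncomputable def D3305 : OP := orK (nat_lit 171) D1993
noncomputable def D11755 : OP := orK (nat_lit 171) (fin (add (start (orK (nat_lit 172) (fin (add (start D261) D1054)))) D1994))
noncomputable def D1585 : OP := win (nat_lit 4) (nat_lit 7) (nat_lit 7) (nat_lit 0)
noncomputable def D3273 : OP := orK (nat_lit 151) (fin (add (start D1585) (orK (nat_lit 152) (fin (add (start D3268) D3269)))))
noncomputable def D11373 : OP := win (nat_lit 3) (nat_lit 9) (nat_lit 7) (nat_lit 1)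
noncomputable def D11757 : OP := orK (nat_lit 189) (fin (add (add (add (start (orK (nat_lit 209) D3265)) (orK (nat_lit 150) (fin (add (start D11373) D3273)))) (orK (nat_lit 148) (fin (add (start D948) D3282)))) D11755))
noncomputable def D11685 : OP := orK (nat_lit 192) (fin (add (start D983) (orK (nat_lit 172) (fin (add (start D982) D272)))))
noncomputable def D11746 : OP := orK (nat_lit 171) (fin (add (add (add (start D2050) D11685) (orK (nat_lit 152) (fin (add (start D1564) (orK (nat_lit 172) (fin (add (start D1565) D272))))))) (orK (nat_lit 148) (fin (add (start D265) (orK (nat_lit 188) (fin (add (start D269) (orK (nat_lit 128) (fin (add (start D11725) (orK (nat_lit 151) (fin (add (start D1584) D11736))))))))))))))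
noncomputable def D12088 : OP := orK (nat_lit 168) (fin (add (add (add (start D11746) (orK (nat_lit 187) (fin (add (start D1308) (orK (nat_lit 186) (fin (add (start D2020) D140))))))) D11757) (orK (nat_lit 167) (fin (add (add (start D3286) (orK (nat_lit 187) D3373)) D3305)))))
noncomputable def D1845 : OP := orK (nat_lit 168) (fin (add (start D1111) (orK (nat_lit 188) (fin (add (start D1537) (orK (nat_lit 187) (fin (add (start D1538) D1826))))))))
noncomputable def D1847 : OP := orK (nat_lit 189) (fin (add (start D1513) D1845))
noncomputable def D1974 : OP := orK (nat_lit 192) (fin (add (start D982) D1972))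
noncomputable def D11951 : OP := orK (nat_lit 190) (fin (add (start D28) (orK (nat_lit 171) (fin (add (start D45) (orK (nat_lit 172) (fin (add (add (add (start D981) D1974) (orK (nat_lit 153) (fin (add (start D285) (orK (nat_lit 173) (fin (add (start D286) (orK (nat_lit 194) (fin (add (start D1933) (orK (nat_lit 174) (fin (add (start D1934) D1935))))))))))))) D11945))))))))
noncomputable def D12153 : OP := orK (nat_lit 170) (fin (add (add (add (add (start D11951) D12130) D12132) (orK (nat_lit 228) (fin (add (add (add (start D4275) (orK (nat_lit 209) (fin (add (start D1508) D1847)))) (orK (nat_lit 187) (fin (add (add (start D12138) (orK (nat_lit 168) D2060)) (orK (nat_lit 247) (fin (add (start D86) (orK (nat_lit 188) (fin (add (start D41) (orK (nat_lit 186) (fin (add (start D9562) D140))))))))))))) (orK (nat_lit 247) (fin (add (start D86) D12088))))))) D11805))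
noncomputable def D1660 : OP := orK (nat_lit 190) D29
noncomputable def D1859 : AP := fin (add (start (win (nat_lit 6) (nat_lit 8) (nat_lit 6) (nat_lit 0))) D1858)
noncomputable def D12447 : OP := orK (nat_lit 189) D1859
noncomputable def D1091 : OP := orK (nat_lit 232) (fin (add (start D789) (orK (nat_lit 252) (fin (add (start D791) (orK (nat_lit 212) (fin (add (start D790) (orK (nat_lit 192) (fin (add (start D792) (orK (nat_lit 193) (fin (add (start D1080) (win (nat_lit 3) (nat_lit 12) (nat_lit 8) (nat_lit 5))))))))))))))))
noncomputable def D1924 : OP := win (nat_lit 0) (nat_lit 7) (nat_lit 8) (nat_lit 4)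
noncomputable def D1866 : OP := orK (nat_lit 148) (fin (add (start D265) D1858))
noncomputable def D1646 : OP := win (nat_lit 3) (nat_lit 9) (nat_lit 7) (nat_lit 2)
noncomputable def D1648 : OP := orK (nat_lit 150) (fin (add (start (win (nat_lit 1) (nat_lit 9) (nat_lit 7) (nat_lit 2))) D1646))
noncomputable def D12482 : AP := fin (add (start D1169) (orK (nat_lit 209) (fin (add (start D1508) (orK (nat_lit 170) (fin (add (add (add (start D1648) (orK (nat_lit 171) (fin (add (add (add (add (start D1919) (orK (nat_lit 189) (fin (add (add (start (orK (nat_lit 172) (fin (add (start D261) (orK (nat_lit 193) (fin (add (start D279) (orK (nat_lit 173) (fin (add (start D280) D12420)))))))))) (orK (nat_lit 168) (fin (add (add (start D1866) (orK (nat_lit 191) (fin (add (start D733) (orK (nat_lit 167) (fin (add (start D1924) D3400))))))) (orK (nat_lit 191) (fin (add (start D733) (orK (nat_lit 190) (fin (add (start D732) (orK (nat_lit 229) (fin (add (start D28) D1111))))))))))))) (orK (nat_lit 188) (fin (add (start D954) (orK (nat_lit 187) (fin (add (start D1538) D1396)))))))))) (orK (nat_lit 190) (fin (add (start D45) (orK (nat_lit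 229) (fin (add (start D28) (orK (nat_lit 231) (fin (add (start D752) D1091)))))))))) (orK (nat_lit 151) (fin (add (start D1910) (orK (nat_lit 168) (fin (add (start D1584) (orK (nat_lit 148) (fin (add (start D265) (orK (nat_lit 188) (fin (add (start D269) D12447))))))))))))) (orK (nat_lit 188) (fin (add (add (start (orK (nat_lit 172) (fin (add (start D270) D981)))) (orK (nat_lit 168) (fin (add (start D269) (orK (nat_lit 148) (fin (add (start D265) D12447))))))) (orK (nat_lit 168) (fin (add (start D269) (orK (nat_lit 192) (fin (add (start D983) (orK (nat_lit 172) (fin (add (start D982) (orK (nat_lit 147) (fin (add (start D984) D1567))))))))))))))))))) D1660) D1847)))))))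
noncomputable def D12217 : OP := orK (nat_lit 167) (fin (add (start D32) (orK (nat_lit 168) (fin (add (start D1307) (orK (nat_lit 170) (fin (add (start D1063) (orK (nat_lit 190) (fin (add (start D945) (orK (nat_lit 166) (fin (add (start D1116) D1484))))))))))))))
noncomputable def D9724 : OP := orK (nat_lit 186) (fin (add (add (add (start D7746) D9692) D7766) (orK (nat_lit 166) (fin (add (add (start D7744) (orK (nat_lit 188) (fin (add (add (start (orK (nat_lit 189) D9693)) (orK (nat_lit 165) (fin (add (add (start (orK (nat_lit 164) (fin (add (start D4163) D9695)))) (orK (nat_lit 168) (fin (add (start D9688) (orK (nat_lit 185) (fin (add (start D9698) D9705))))))) D9712)))) (orK (nat_lit 189) (fin (add (start D6124) (orK (nat_lit 190) (fin (add (start D866) D353)))))))))) D7764)))))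
noncomputable def D10526 : OP := orK (nat_lit 189) D10525
noncomputable def D10510 : OP := orK (nat_lit 189) (fin (add (start D6124) (orK (nat_lit 168) (fin (add (start D38) D10506)))))
noncomputable def D4762 : OP := orK (nat_lit 252) (fin (add (start D2680) (orK (nat_lit 232) (fin (add (start D791) D4758)))))
noncomputable def D12237 : OP := orK (nat_lit 147) (fin (add (start D4199) D1384))
noncomputable def D12233 : OP := orK (nat_lit 189) (fin (add (start D6124) D129))
noncomputable def D12359 : AP := fin (add (add (add (add (start (orK (nat_lit 187) (fin (add (add (add (add (start (orK (nat_lit 229) (fin (add (start D1169) (orK (nat_lit 170) (fin (add (add (add (start D11360) (orK (nat_lit 189) (fin (add (start (orK (nat_lit 209) D2905)) (orK (nat_lit 188) D12174))))) (orK (nat_lit 190) (fin (add (start D28) (orK (nat_lit 171) (fin (add (start D45) (orK (nat_lit 188) (fin (add (start D46) D1396)))))))))) D12132))))))) (orK (nat_lit 167) (fin (add (start D32) D12201)))) D12207) D12217) (orK (nat_lit 206) (fin (add (start D3008) (orK (nat_lit 186) (fin (add (add (add (start (orK (nat_lit 188) (fin (add (start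 (orK (nat_lit 185) (fin (add (start (orK (nat_lit 204) (fin (add (start D12225) D5354)))) (orK (nat_lit 168) (fin (add (start D9698) D9688))))))) D12233)))) (orK (nat_lit 167) (fin (add (add (start D12237) (orK (nat_lit 168) (fin (add (start D1307) (orK (nat_lit 185) (fin (add (start D4182) (orK (nat_lit 166) (fin (add (start D6175) D1726)))))))))) D12247)))) (orK (nat_lit 188) (fin (add (start (orK (nat_lit 185) (fin (add (add (start D12251) D12255) (orK (nat_lit 165) (fin (add (start D357) (orK (nat_lit 205) (fin (add (start D2363) (orK (nat_lit 145) (fin (add (start D7651) (orK (nat_lit 146) (fin (add (start D3029) (orK (nat_lit 166) D12256))))))))))))))))) D12233)))) (orK (nat_lit 167) (fin (add (add (start D12237) (orK (nat_lit 168) (fin (add (start D1307) (orK (nat_lit 166) (fin (add (start D1726) (orK (nat_lit 169) (fin (add (start D5556) (orK (nat_lit 189) (fin (add (start D502) (orK (nat_lit 188) (fin (add (start D501) D6124)))))))))))))))) D12247))))))))))))) (orK (nat_lit 187) (fin (add (add (add (start D3196) D12205) (orK (nat_lit 247) (fin (add (add (start D569) (orK (nat_lit 188) (fin (add (start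 D41) (orK (nat_lit 166) (fin (add (start D867) D12295))))))) (orK (nat_lit 229) D7988))))) D12304)))) (orK (nat_lit 229) (fin (add (start D1169) (orK (nat_lit 247) (fin (add (start D86) (orK (nat_lit 231) (fin (add (start D2582) D4762)))))))))) (orK (nat_lit 187) (fin (add (add (add (start D3196) D12205) (orK (nat_lit 186) (fin (add (add (add (start D7746) (orK (nat_lit 188) (fin (add (add (start D9686) D12314) D10510)))) D12324) (orK (nat_lit 188) (fin (add (add (start D9686) (orK (nat_lit 185) (fin (add (add (add (add (start D7642) (orK (nat_lit 165) (fin (add (start D357) (orK (nat_lit 205) (fin (add (start D364) (orK (nat_lit 145) (fin (add (add (start (orK (nat_lit 146) (fin (add (start D3029) (orK (nat_lit 166) (fin (add (start D6466) D453))))))) (orK (nat_lit 125) (fin (add (start D4184) D3108)))) D7670)))))))))) D7712) D10536) D10542)))) D10526))))))) D9724)))) (orK (nat_lit 247) (fin (add (add (start D3243) (orK (nat_lit 186) (fin (add (start D8047) (orK (nat_lit 187) (fin (add (start D140) (orK (nat_lit 188) (fin (add (start D41) D11660)))))))))) (orK (nat_lit 246) (fin (add (start D567) D1721)))))))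
noncomputable def D12029 : OP := orK (nat_lit 286) (fin (add (start D1693) (orK (nat_lit 287) (fin (add (start D1694) D1695)))))
noncomputable def D1651 : OP := orK (nat_lit 168) (fin (add (start D1111) D1526))
noncomputable def D3321 : AP := fin (add (start D1444) D1508)
noncomputable def D9626 : OP := orK (nat_lit 228) D3321
noncomputable def D11480 : OP := orK (nat_lit 209) (fin (add (start D1111) D9626))
noncomputable def D9627 : AP := fin (add (start D1513) D9626)
noncomputable def D11491 : OP := orK (nat_lit 209) D9627
noncomputable def D11478 : OP := orK (nat_lit 146) (fin (add (start D1117) (orK (nat_lit 166) (fin (add (start D436) (orK (nat_lit 150) (fin (add (start D1998) (orK (nat_lit 189) (fin (add (start D11373) D6690)))))))))))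
noncomputable def D11881 : AP := fin (add (start D522) D11725)
noncomputable def D3549 : OP := orK (nat_lit 151) (fin (add (start D1584) (orK (nat_lit 167) (fin (add (start D1990) D3289)))))
noncomputable def D11720 : OP := orK (nat_lit 171) (fin (add (add (start D2050) D3549) D11685))
noncomputable def D3295 : OP := orK (nat_lit 167) (fin (add (add (start D3286) D3289) D3293))
noncomputable def D947 : OP := orK (nat_lit 167) D946
noncomputable def D1515 : OP := orK (nat_lit 168) (fin (add (start D1111) D947))
noncomputable def D4862 : OP := orK (nat_lit 266) (fin (add (add (add (start (orK (nat_lit 267) (fin (add (start D1302) (orK (nat_lit 268) (fin (add (start D572) (orK (nat_lit 248) (fin (add (start D1770) D3904)))))))))) D4838) (orK (nat_lit 246) D1816)) (orK (nat_lit 246) (fin (add (start D1715) D4858)))))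
noncomputable def D12154 : AP := fin (add (add (add (add (add (add (add (start (orK (nat_lit 247) (fin (add (add (add (start D9765) (orK (nat_lit 246) D5686)) D4862) (orK (nat_lit 187) (fin (add (start D6291) (orK (nat_lit 248) (fin (add (start D1369) D11817)))))))))) (orK (nat_lit 228) (fin (add (add (start D4275) D4772) (orK (nat_lit 209) (fin (add (start D1508) (orK (nat_lit 189) (fin (add (start D1444) (orK (nat_lit 170) (fin (add (start D1513) (orK (nat_lit 168) (fin (add (start D1111) (orK (nat_lit 167) (fin (add (add (add (start D3400) (orK (nat_lit 187) (fin (add (start D1063) D2052)))) (orK (nat_lit 146) (fin (add (start D1117) (orK (nat_lit 166) (fin (add (start D436) (orK (nat_lit 188) (fin (add (start D501) (orK (nat_lit 171) (fin (add (start D269) D954))))))))))))) (orK (nat_lit 146) (fin (add (start D1117) (orK (nat_lit 166) (fin (add (start D436) D6690))))))))))))))))))))))))) D9777) (orK (nat_lit 170) (fin (add (add (add (start D11360) (orK (nat_lit 190) (fin (add (start D28) (orK (nat_lit 209) (fin (add (start D27) (orK (nat_lit 228) (fin (add (start D1508) (orK (nat_lit 189) (fin (add (start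 D1444) (orK (nat_lit 231) (fin (add (start D752) (orK (nat_lit 232) (fin (add (start D789) D1515))))))))))))))))))) (orK (nat_lit 168) (fin (add (add (add (add (add (start D3295) (orK (nat_lit 187) (fin (add (add (start (orK (nat_lit 167) D3285)) (orK (nat_lit 188) D11865)) (orK (nat_lit 148) (fin (add (start D8161) (orK (nat_lit 188) D11867)))))))) D11720) (orK (nat_lit 148) (fin (add (add (add (start (orK (nat_lit 171) (fin (add (start D265) (orK (nat_lit 188) (fin (add (start D269) (orK (nat_lit 189) (fin (add (start D954) D948)))))))))) (orK (nat_lit 171) (fin (add (start D265) D2050)))) (orK (nat_lit 128) (fin (add (add (add (start (orK (nat_lit 188) D11881)) (orK (nat_lit 108) (fin (add (start D8772) (orK (nat_lit 89) (fin (add (start D2117) (orK (nat_lit 88) (fin (add (start D2118) D9267)))))))))) (orK (nat_lit 188) (fin (add (start D522) (orK (nat_lit 129) (fin (add (start D6254) (orK (nat_lit 127) (fin (add (start D523) (orK (nat_lit 189) (fin (add (start D9202) (orK (nat_lit 130) (fin (add (start (orK (nat_lit 150) (fin (add (start D9064) D6209)))) (orK (nat_lit 147) (fin (add (start D7408) D9057)))))))))))))))))))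 (orK (nat_lit 188) (fin (add (start D522) D2083))))))) (orK (nat_lit 188) (fin (add (add (add (start D11907) (orK (nat_lit 187) D11865)) (orK (nat_lit 128) D11881)) (orK (nat_lit 128) (fin (add (add (start D11725) D2083) (orK (nat_lit 129) (fin (add (start D6254) (orK (nat_lit 127) (fin (add (start D523) (orK (nat_lit 189) (fin (add (start D9202) (orK (nat_lit 171) (fin (add (start D954) (orK (nat_lit 151) (fin (add (start D1584) D11732))))))))))))))))))))))))) (orK (nat_lit 167) (fin (add (add (start D3286) D3289) D11478)))) (orK (nat_lit 189) (fin (add (add (start D11491) D11480) D11755))))))) D11951)))) (orK (nat_lit 228) (fin (add (add (start D4275) D11975) (orK (nat_lit 209) (fin (add (start D1508) (orK (nat_lit 189) (fin (add (start D1444) (orK (nat_lit 170) (fin (add (start D1513) (orK (nat_lit 249) (fin (add (start D1649) D1651)))))))))))))))) (orK (nat_lit 247) (fin (add (add (start (orK (nat_lit 246) D10176)) (orK (nat_lit 268) (fin (add (start (orK (nat_lit 267) (fin (add (start D572) (orK (nat_lit 286) (fin (add (start D1693) (orK (nat_lit 287) (fin (add (start D1694) (orK (nat_lit 269) (fin (add (start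 D1695) D10135))))))))))))) (orK (nat_lit 187) (fin (add (start D571) D6291))))))) D12006)))) (orK (nat_lit 249) (fin (add (add (start D7995) (orK (nat_lit 269) (fin (add (start D515) (orK (nat_lit 247) (fin (add (add (add (add (start D1777) (orK (nat_lit 267) (fin (add (add (add (start D12014) (orK (nat_lit 268) (fin (add (start D572) D9895)))) (orK (nat_lit 287) (fin (add (add (add (start D1784) D5837) D5851) (orK (nat_lit 308) (fin (add (start D4003) (orK (nat_lit 307) (fin (add (start D4004) D10360)))))))))) (orK (nat_lit 268) (fin (add (add (start D12029) D9895) (orK (nat_lit 266) (fin (add (start D1302) (orK (nat_lit 245) (fin (add (start D3590) (orK (nat_lit 265) (fin (add (start D3589) (orK (nat_lit 264) (fin (add (start D4919) D3659))))))))))))))))))) (orK (nat_lit 187) (fin (add (start D6291) (orK (nat_lit 268) (fin (add (start D571) (orK (nat_lit 267) (fin (add (start D572) D12029)))))))))) D12071) D1819))))))) (orK (nat_lit 170) (fin (add (start D1649) (orK (nat_lit 247) (fin (add (start D12088) (orK (nat_lit 267) (fin (add (add (add (add (start D4906) (orK (nat_lit 268) (fin (add (start D572) (orK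 (nat_lit 266) (fin (add (start D1302) (orK (nat_lit 265) (fin (add (start D4880) D4878)))))))))) (orK (nat_lit 246) (fin (add (start D1714) (orK (nat_lit 287) (fin (add (add (add (start D1784) (orK (nat_lit 306) (fin (add (start D5832) (orK (nat_lit 307) (fin (add (start D5833) D5840))))))) D10329) (orK (nat_lit 266) (fin (add (start D1302) D5854)))))))))) (orK (nat_lit 288) (fin (add (start D1785) (orK (nat_lit 287) (fin (add (start D1786) (orK (nat_lit 306) (fin (add (start D5832) (orK (nat_lit 307) (fin (add (start D5833) (orK (nat_lit 246) (fin (add (start D1714) D5840)))))))))))))))) (orK (nat_lit 288) (fin (add (start D1785) (orK (nat_lit 287) (fin (add (start D1786) (orK (nat_lit 246) (fin (add (start D1714) D10329)))))))))))))))))))))) D12153)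
noncomputable def D8013 : OP := orK (nat_lit 246) D8012
noncomputable def D6865 : OP := win (nat_lit 7) (nat_lit 10) (nat_lit 10) (nat_lit 0)
noncomputable def D2839 : OP := win (nat_lit 6) (nat_lit 9) (nat_lit 10) (nat_lit 5)
noncomputable def D2673 : OP := win (nat_lit 1) (nat_lit 8) (nat_lit 9) (nat_lit 0)
noncomputable def D1711 : OP := win (nat_lit 3) (nat_lit 9) (nat_lit 9) (nat_lit 0)
noncomputable def D1762 : OP := orK (nat_lit 190) (fin (add (start D317) D1711))
noncomputable def D10500 : OP := orK (nat_lit 229) (fin (add (add (start D4275) D4772) (orK (nat_lit 209) (fin (add (start D1508) (orK (nat_lit 249) (fin (add (add (start D1762) (orK (nat_lit 269) (fin (add (start D515) (orK (nat_lit 268) (fin (add (start D1528) (orK (nat_lit 248) (fin (add (start D2673) (orK (nat_lit 231) (fin (add (start D2890) (orK (nat_lit 251) (fin (add (start D7297) (orK (nat_lit 270) (fin (add (start D2839) (orK (nat_lit 271) (fin (add (start (win (nat_lit 2) (nat_lit 8) (nat_lit 12) (nat_lit 0))) D6865)))))))))))))))))))))) (orK (nat_lit 170) (fin (add (start D1649) (orK (nat_lit 189) (fin (add (add (start (orK (nat_lit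 169) D2905)) (orK (nat_lit 248) (fin (add (start D1670) (orK (nat_lit 187) (fin (add (start D2197) (orK (nat_lit 188) (fin (add (start D1538) D10482)))))))))) (orK (nat_lit 169) (fin (add (start D1513) D1651)))))))))))))))))
noncomputable def D10466 : OP := orK (nat_lit 229) D9750
noncomputable def D10933 : OP := orK (nat_lit 204) (fin (add (add (add (start D10899) D10905) (orK (nat_lit 224) (fin (add (start D4738) (orK (nat_lit 184) (fin (add (start D4939) (orK (nat_lit 225) (fin (add (start (orK (nat_lit 244) (fin (add (start D10908) D10911)))) (orK (nat_lit 245) (fin (add (start D10919) D4601))))))))))))) D10931))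
noncomputable def D11511 : OP := orK (nat_lit 190) (fin (add (start D1116) (orK (nat_lit 170) (fin (add (start D945) D28)))))
noncomputable def D3317 : OP := orK (nat_lit 147) (fin (add (start D985) (orK (nat_lit 171) (fin (add (start D984) D2050)))))
noncomputable def D11359 : OP := orK (nat_lit 190) (fin (add (start D28) D1174))
noncomputable def D11401 : OP := orK (nat_lit 171) (fin (add (start D984) D45))
noncomputable def D2908 : OP := orK (nat_lit 252) (fin (add (start D2680) D791))
noncomputable def D2909 : AP := fin (add (start D789) D2908)
noncomputable def D1012 : OP := orK (nat_lit 172) D263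
noncomputable def D3471 : OP := orK (nat_lit 146) D3327
noncomputable def D11602 : AP := fin (add (add (add (add (add (add (start (orK (nat_lit 228) (fin (add (start D1169) (orK (nat_lit 209) (fin (add (start D1508) (orK (nat_lit 189) (fin (add (start D1444) (orK (nat_lit 168) (fin (add (start D1111) (orK (nat_lit 166) D10622)))))))))))))) (orK (nat_lit 170) (fin (add (add (start D11359) D11360) (orK (nat_lit 168) (fin (add (add (start D3330) (orK (nat_lit 151) (fin (add (start D1990) (orK (nat_lit 171) (fin (add (start D1584) (orK (nat_lit 192) (fin (add (start D983) (orK (nat_lit 172) (fin (add (start D982) (orK (nat_lit 148) (fin (add (start D265) (orK (nat_lit 189) (fin (add (start D261) D948))))))))))))))))))) (orK (nat_lit 150) (fin (add (start D1998) (orK (nat_lit 189) (fin (add (start D11373) (orK (nat_lit 166) (fin (add (add (start D10621) D3471) D6690)))))))))))))))) (orK (nat_lit 228) (fin (add (start D1169) (orK (nat_lit 209) (fin (add (start D1508) (orK (nat_lit 189) (fin (add (start D1444) (orK (nat_lit 170) (fin (add (start D1513) (orK (nat_lit 190) (fin (add (start D28) (orK (nat_lit 171) (fin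 (add (start D45) D1012))))))))))))))))))) (orK (nat_lit 170) (fin (add (add (add (add (start (orK (nat_lit 190) (fin (add (start D28) (orK (nat_lit 168) (fin (add (start D945) (orK (nat_lit 150) (fin (add (start D936) D1998)))))))))) (orK (nat_lit 190) D11398)) (orK (nat_lit 190) (fin (add (start D28) (orK (nat_lit 168) (fin (add (start D945) (orK (nat_lit 147) (fin (add (start D985) (orK (nat_lit 228) (fin (add (start D1169) D11401))))))))))))) (orK (nat_lit 228) (fin (add (start D1169) (orK (nat_lit 168) (fin (add (add (start D3293) (orK (nat_lit 146) (fin (add (start D1117) (orK (nat_lit 166) (fin (add (start D436) (orK (nat_lit 226) (fin (add (start D4271) (orK (nat_lit 185) (fin (add (start D445) (orK (nat_lit 165) (fin (add (start D444) (orK (nat_lit 225) (fin (add (start (win (nat_lit 3) (nat_lit 5) (nat_lit 7) (nat_lit 1))) (orK (nat_lit 248) (fin (add (start D137) D5765)))))))))))))))))))))) (orK (nat_lit 151) (fin (add (start D1990) (orK (nat_lit 209) (fin (add (start D1508) (orK (nat_lit 171) (fin (add (start D1584) (orK (nat_lit 192) (fin (add (start D983) (orK (nat_lit 172) (fin (add (start D982)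 (orK (nat_lit 232) (fin (add (start (win (nat_lit 7) (nat_lit 11) (nat_lit 7) (nat_lit 1))) (orK (nat_lit 231) D2909)))))))))))))))))))))))))) (orK (nat_lit 228) (fin (add (start D1169) (orK (nat_lit 209) (fin (add (start D1508) (orK (nat_lit 190) (fin (add (start D27) (orK (nat_lit 168) (fin (add (start D945) (orK (nat_lit 147) (fin (add (start D985) D11401))))))))))))))))))) (orK (nat_lit 228) (fin (add (start D1169) (orK (nat_lit 209) (fin (add (start D1508) (orK (nat_lit 189) (fin (add (start D1444) (orK (nat_lit 168) (fin (add (start D1111) (orK (nat_lit 170) (fin (add (start D1513) (orK (nat_lit 146) (fin (add (start D1117) (orK (nat_lit 166) (fin (add (start D436) (orK (nat_lit 188) (fin (add (start D501) D1537))))))))))))))))))))))))) (orK (nat_lit 170) (fin (add (add (start D11359) D11360) (orK (nat_lit 168) (fin (add (add (add (start D11478) (orK (nat_lit 151) (fin (add (start D1990) (orK (nat_lit 171) (fin (add (start D1584) (orK (nat_lit 192) (fin (add (start D983) (orK (nat_lit 172) (fin (add (start D982) (orK (nat_lit 189) (fin (add (start D261) D11480)))))))))))))))) D3317) (orK (nat_lit 147) (fin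 (add (start D985) (orK (nat_lit 171) (fin (add (start D984) (orK (nat_lit 192) (fin (add (start D983) (orK (nat_lit 172) (fin (add (start D982) (orK (nat_lit 153) (fin (add (start D285) (orK (nat_lit 189) (fin (add (start D261) D11491))))))))))))))))))))))))) (orK (nat_lit 166) (fin (add (add (add (add (start (orK (nat_lit 206) (fin (add (start D1724) (orK (nat_lit 146) (fin (add (start D11048) (orK (nat_lit 168) (fin (add (start D436) D11511)))))))))) (orK (nat_lit 206) (fin (add (start D1724) (orK (nat_lit 186) (fin (add (start D1726) (orK (nat_lit 226) (fin (add (start D7796) (orK (nat_lit 225) (fin (add (start D7779) (orK (nat_lit 224) (fin (add (start D3065) (orK (nat_lit 165) (fin (add (start D7782) (orK (nat_lit 244) (fin (add (start D4403) (orK (nat_lit 185) (fin (add (start D7803) D10548))))))))))))))))))))))))) (orK (nat_lit 168) (fin (add (add (start D11511) (orK (nat_lit 165) (fin (add (add (add (start D6438) (orK (nat_lit 146) (fin (add (start D436) (orK (nat_lit 147) (fin (add (start D11534) D11536))))))) (orK (nat_lit 184) (fin (add (start D4170) (orK (nat_lit 164) (fin (add (start D4171) D11167)))))))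 D4181)))) D10623)))) (orK (nat_lit 206) (fin (add (start D1724) (orK (nat_lit 186) (fin (add (start D1726) (orK (nat_lit 168) (fin (add (start D452) D11511)))))))))) (orK (nat_lit 206) (fin (add (start D1724) (orK (nat_lit 168) (fin (add (start D11511) (orK (nat_lit 185) (fin (add (add (start (orK (nat_lit 184) (fin (add (start D11555) (orK (nat_lit 186) (fin (add (start D5231) D6175))))))) (orK (nat_lit 186) (fin (add (start D6175) (orK (nat_lit 226) (fin (add (start D7796) (orK (nat_lit 245) (fin (add (start D7771) (orK (nat_lit 246) (fin (add (start D2417) (orK (nat_lit 266) (fin (add (start D2305) (win (nat_lit 7) (nat_lit 5) (nat_lit 9) (nat_lit 4)))))))))))))))))) (orK (nat_lit 205) (fin (add (add (add (start (orK (nat_lit 165) (fin (add (start D444) (orK (nat_lit 145) (fin (add (start D443) D7652))))))) (orK (nat_lit 184) (fin (add (start D11555) (orK (nat_lit 183) (fin (add (start D3011) (win (nat_lit 2) (nat_lit 3) (nat_lit 9) (nat_lit 3))))))))) D10933) (orK (nat_lit 204) (fin (add (add (start D10905) (orK (nat_lit 226) (fin (add (start D4940) D11580)))) (orK (nat_lit 224) (fin (add (start D4738) (orK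 (nat_lit 165) D11586)))))))))))))))))))))))
noncomputable def D11070 : OP := orK (nat_lit 204) (fin (add (start D5351) D7781))
noncomputable def D11330 : AP := fin (add (add (add (add (start (orK (nat_lit 228) (fin (add (start D3008) D10832)))) (orK (nat_lit 226) (fin (add (add (start (orK (nat_lit 187) D4141)) (orK (nat_lit 205) (fin (add (add (add (add (add (add (start (orK (nat_lit 185) (fin (add (add (start (orK (nat_lit 165) (fin (add (start D3024) (orK (nat_lit 246) (fin (add (start D3092) D3093))))))) (orK (nat_lit 204) (fin (add (start D4940) (orK (nat_lit 184) (fin (add (start D4939) (orK (nat_lit 224) (fin (add (start D4738) (orK (nat_lit 244) (fin (add (start D10837) D10841))))))))))))) (orK (nat_lit 204) (fin (add (start D4940) (orK (nat_lit 184) (fin (add (start D4939) (orK (nat_lit 224) (fin (add (start D4738) D10853))))))))))))) D10892) D10933) (orK (nat_lit 246) (fin (add (add (start D5220) (orK (nat_lit 186) (fin (add (add (start D10865) D10867) (orK (nat_lit 165) (fin (add (start D7783) (orK (nat_lit 204) (fin (add (start D4940) (orK (nat_lit 245) (fin (add (start D2417) (orK (nat_lit 224) (fin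 (add (start D4738) (orK (nat_lit 184) (fin (add (start D4939) (orK (nat_lit 164) (fin (add (start D10934) D10935)))))))))))))))))))))) (orK (nat_lit 204) (fin (add (start D4940) (orK (nat_lit 266) (fin (add (start D2305) (orK (nat_lit 265) (fin (add (start D3638) (orK (nat_lit 245) (fin (add (start D2422) D5038)))))))))))))))) (orK (nat_lit 204) (fin (add (start D4940) (orK (nat_lit 224) (fin (add (start D4738) (orK (nat_lit 246) (fin (add (add (start D5220) (orK (nat_lit 185) (fin (add (start (orK (nat_lit 244) (fin (add (start D10837) (orK (nat_lit 243) (fin (add (start D10966) D10839))))))) (orK (nat_lit 165) (fin (add (start D10850) D3093))))))) D10890)))))))))) D11022) (orK (nat_lit 204) (fin (add (start D4940) (orK (nat_lit 184) (fin (add (start D4939) (orK (nat_lit 224) (fin (add (start D4738) (orK (nat_lit 244) (fin (add (start D11025) D10999)))))))))))))))) (orK (nat_lit 166) (fin (add (add (add (start (orK (nat_lit 187) (fin (add (start D4140) D1484)))) (orK (nat_lit 147) (fin (add (start D11044) D11045)))) (orK (nat_lit 146) (fin (add (start D11048) D437)))) (orK (nat_lit 186) D11051)))))))) (orK (nat_lit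 228) (fin (add (start D3008) (orK (nat_lit 187) D11061))))) (orK (nat_lit 228) (fin (add (start D3008) D11066)))) (orK (nat_lit 228) (fin (add (start D3008) (orK (nat_lit 166) (fin (add (add (add (add (add (add (add (start (orK (nat_lit 186) (fin (add (start D1726) (orK (nat_lit 226) (fin (add (start D7796) D11070))))))) D11082) D11128) (orK (nat_lit 186) (fin (add (start D1726) (orK (nat_lit 226) (fin (add (add (add (start D11070) D11078) D11130) D11132))))))) D11311) D11315) D11321) (orK (nat_lit 186) (fin (add (start D1726) (orK (nat_lit 226) (fin (add (start D7796) D11132)))))))))))))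
noncomputable def D466 : OP := orK (nat_lit 164) (fin (add (start (win (nat_lit 0) (nat_lit 4) (nat_lit 8) (nat_lit 4))) D464))
noncomputable def D10666 : OP := orK (nat_lit 190) (fin (add (start D1116) (orK (nat_lit 170) (fin (add (start D945) D1117)))))
noncomputable def D12865 : AP := fin (add (add (add (add (add (add (add (add (add (add (add (add (start (orK (nat_lit 187) (fin (add (add (add (add (start D5881) D9724) D9558) (orK (nat_lit 247) (fin (add (start D3218) (orK (nat_lit 188) (fin (add (start D41) (orK (nat_lit 186) (fin (add (start D140) D9686)))))))))) D9736)))) D9781) D10414) (orK (nat_lit 187) (fin (add (add (add (add (add (start D10437) D10439) D4162) D4226) (orK (nat_lit 247) (fin (add (start D1306) D5681)))) (orK (nat_lit 167) (fin (add (add (add (start D4262) D4266) D3945) (orK (nat_lit 166) (fin (add (start D1484) (orK (nat_lit 168) (fin (add (start D1307) (orK (nat_lit 165) (fin (add (start D6174) (orK (nat_lit 145) (fin (add (start D443) (orK (nat_lit 226) (fin (add (start D2035) (orK (nat_lit 185) (fin (add (start D444) (orK (nat_lit 206) (fin (add (start D10446) D10447))))))))))))))))))))))))))))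 (orK (nat_lit 228) (fin (add (add (add (add (start D4277) D4774) D10466) D10500) (orK (nat_lit 187) (fin (add (add (start D3196) (orK (nat_lit 186) (fin (add (add (add (start D7746) (orK (nat_lit 188) (fin (add (add (start D9686) (orK (nat_lit 168) (fin (add (start D38) D10502)))) D10510)))) (orK (nat_lit 188) (fin (add (add (add (start D10514) D10510) (orK (nat_lit 189) D10517)) D10526)))) (orK (nat_lit 188) (fin (add (add (start D9686) D10604) D10526))))))) D10610))))))) (orK (nat_lit 167) (fin (add (add (add (add (add (add (start (orK (nat_lit 168) (fin (add (add (start D10641) (orK (nat_lit 187) D10642)) (orK (nat_lit 170) (fin (add (add (start (orK (nat_lit 171) (fin (add (start (orK (nat_lit 191) (fin (add (start D1924) D733)))) D1992)))) (orK (nat_lit 166) D6433)) D3305))))))) (orK (nat_lit 187) D10656)) (orK (nat_lit 187) (fin (add (start D7620) D9734)))) (orK (nat_lit 166) (fin (add (add (add (add (start (orK (nat_lit 146) (fin (add (start D437) (orK (nat_lit 168) (fin (add (start D436) D10666))))))) (orK (nat_lit 146) (fin (add (start D437) (orK (nat_lit 186) (fin (add (start D453) (orK (nat_lit 168)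 (fin (add (start D452) D10666)))))))))) (orK (nat_lit 168) (fin (add (add (start D6503) (orK (nat_lit 186) (fin (add (start D452) (orK (nat_lit 170) (fin (add (start D2011) D10677))))))) (orK (nat_lit 185) (fin (add (start D445) (orK (nat_lit 165) (fin (add (start D444) (orK (nat_lit 188) (fin (add (start D5551) D466))))))))))))) (orK (nat_lit 146) (fin (add (start D437) (orK (nat_lit 126) (fin (add (add (add (add (start (orK (nat_lit 186) (fin (add (start D453) D10697)))) (orK (nat_lit 186) (fin (add (start D453) D10703)))) (orK (nat_lit 186) (fin (add (start D453) D10633)))) (orK (nat_lit 106) (fin (add (add (start D10717) (orK (nat_lit 105) (fin (add (start D10626) (orK (nat_lit 107) (fin (add (start D6619) (orK (nat_lit 108) (fin (add (add (start (orK (nat_lit 104) (fin (add (start (orK (nat_lit 127) D10720)) (orK (nat_lit 124) (fin (add (start D10743) (win (nat_lit 5) (nat_lit 4) (nat_lit 5) (nat_lit 4))))))))) (orK (nat_lit 109) (fin (add (start (orK (nat_lit 129) (fin (add (start D10733) D10734)))) D10752)))) (orK (nat_lit 109) (fin (add (start D10732) D10752))))))))))))) D10770)))) (orK (nat_lit 186) (fin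 (add (start D453) D10819)))))))))) (orK (nat_lit 168) (fin (add (start D3471) D6503))))))) (orK (nat_lit 206) D11330)) (orK (nat_lit 187) D8062)) (orK (nat_lit 229) D11602))))) (orK (nat_lit 228) (fin (add (add (add (add (start D4277) D4774) D10466) D10500) (orK (nat_lit 187) (fin (add (add (add (start D3196) D10610) (orK (nat_lit 247) (fin (add (add (add (add (start D3218) (orK (nat_lit 246) (fin (add (start D134) (orK (nat_lit 248) (fin (add (start D1369) D11617))))))) (orK (nat_lit 267) (fin (add (add (start D574) D11625) (orK (nat_lit 206) (fin (add (start D1791) (orK (nat_lit 287) (fin (add (start D1792) (orK (nat_lit 306) (fin (add (start D5832) (orK (nat_lit 307) (fin (add (start D5833) (orK (nat_lit 248) (fin (add (start D9820) D1369))))))))))))))))))) D11641) (orK (nat_lit 266) (fin (add (start D1301) (orK (nat_lit 267) (fin (add (start D1302) (orK (nat_lit 206) (fin (add (start D1791) (orK (nat_lit 204) (fin (add (start D5351) (orK (nat_lit 188) (fin (add (start D41) D11643))))))))))))))))))) D11673))))))) (orK (nat_lit 229) (fin (add (add (add (add (start D9739) D11678) D9751) D9777) (orK (nat_lit 170)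 (fin (add (add (add (add (start D11360) (orK (nat_lit 209) (fin (add (add (add (start D1648) (orK (nat_lit 249) (fin (add (start D1649) (orK (nat_lit 269) (fin (add (start D515) (orK (nat_lit 268) (fin (add (start D1528) (orK (nat_lit 189) (fin (add (start D1527) D1651))))))))))))) D1660) (orK (nat_lit 189) (fin (add (start D1513) D1536))))))) (orK (nat_lit 190) (fin (add (start D28) D7509)))) (orK (nat_lit 168) (fin (add (add (add (add (add (start (orK (nat_lit 187) (fin (add (add (add (start D11659) (orK (nat_lit 247) (fin (add (start D1308) D8013)))) (orK (nat_lit 167) D11693)) (orK (nat_lit 167) (fin (add (start D1307) (orK (nat_lit 226) (fin (add (start D2035) (orK (nat_lit 147) (fin (add (start D3202) (orK (nat_lit 126) (fin (add (start D4208) (orK (nat_lit 127) (fin (add (start D4207) (orK (nat_lit 108) (fin (add (start D8175) (orK (nat_lit 107) (fin (add (start D8176) D6962))))))))))))))))))))))))) (orK (nat_lit 171) (fin (add (add (start D2050) (orK (nat_lit 151) (fin (add (start D1584) (orK (nat_lit 167) (fin (add (start D1990) (orK (nat_lit 187) (fin (add (start D1307) D1064)))))))))) D11685)))) D11720)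 D11746) D11757) (orK (nat_lit 167) (fin (add (add (start D11762) D3289) D3293))))))) D11805))))))) (orK (nat_lit 229) D12154)) (orK (nat_lit 228) D12359)) (orK (nat_lit 228) (fin (add (add (add (start (orK (nat_lit 187) (fin (add (add (add (start D3196) D12378) (orK (nat_lit 247) (fin (add (add (start (orK (nat_lit 229) (fin (add (start D1169) D7987)))) D12295) (orK (nat_lit 206) (fin (add (start D3008) D12381))))))) D4226)))) (orK (nat_lit 229) (fin (add (start D1169) (orK (nat_lit 209) (fin (add (start D1508) (orK (nat_lit 248) (fin (add (start D1881) (orK (nat_lit 231) (fin (add (start D2667) (orK (nat_lit 232) (fin (add (start D789) D2832)))))))))))))))) (orK (nat_lit 187) (fin (add (add (add (start D3196) D12217) (orK (nat_lit 247) (fin (add (start D12295) (orK (nat_lit 188) (fin (add (start D41) (orK (nat_lit 186) (fin (add (start D140) D11660)))))))))) (orK (nat_lit 168) (fin (add (add (start D11659) D11664) (orK (nat_lit 167) (fin (add (start D1307) (orK (nat_lit 170) D3373))))))))))) (orK (nat_lit 229) D12482))))) (orK (nat_lit 229) (fin (add (add (add (add (add (start D9739) (orK (nat_lit 228) D12482))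 D12153) (orK (nat_lit 206) (fin (add (start D1724) (orK (nat_lit 247) (fin (add (add (add (start D3250) (orK (nat_lit 267) (fin (add (add (start D12490) D12494) (orK (nat_lit 266) (fin (add (start D1302) (orK (nat_lit 246) (fin (add (start D1715) (orK (nat_lit 268) (fin (add (start D572) D3881))))))))))))) D1731) (orK (nat_lit 187) (fin (add (add (start D6287) (orK (nat_lit 188) (fin (add (start D41) D12507)))) D4866)))))))))) (orK (nat_lit 190) (fin (add (add (add (start D7977) (orK (nat_lit 170) (fin (add (start D28) D1072)))) (orK (nat_lit 247) (fin (add (add (add (start D1713) D12006) (orK (nat_lit 269) (fin (add (add (add (start D12517) (orK (nat_lit 289) (fin (add (start D674) D12071)))) (orK (nat_lit 186) (fin (add (add (start (orK (nat_lit 267) (fin (add (start D1803) (orK (nat_lit 286) (fin (add (start D1693) (orK (nat_lit 287) (fin (add (start D1694) (orK (nat_lit 270) (fin (add (start (win (nat_lit 5) (nat_lit 6) (nat_lit 13) (nat_lit 2))) (orK (nat_lit 288) (fin (add (start (win (nat_lit 4) (nat_lit 6) (nat_lit 13) (nat_lit 3))) D1786)))))))))))))))) D12071) (orK (nat_lit 187) (fin (add (start D140)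 (orK (nat_lit 188) (fin (add (start D41) (orK (nat_lit 189) (fin (add (start D6124) D353))))))))))))) (orK (nat_lit 209) (fin (add (start (win (nat_lit 3) (nat_lit 9) (nat_lit 9) (nat_lit 1))) (orK (nat_lit 186) (fin (add (start (orK (nat_lit 187) (fin (add (start D140) (orK (nat_lit 188) (fin (add (start D12541) D41))))))) D8047)))))))))) D1733)))) (orK (nat_lit 170) D11804))))) (orK (nat_lit 170) (fin (add (add (add (add (start D11360) (orK (nat_lit 187) D12703)) D12710) D12130) D12132))))))) (orK (nat_lit 187) (fin (add (add (add (add (add (add (start D8063) (orK (nat_lit 247) (fin (add (add (start D3226) D12748) (orK (nat_lit 186) (fin (add (start D140) (orK (nat_lit 188) (fin (add (start D41) (orK (nat_lit 189) (fin (add (start D6124) (orK (nat_lit 170) (fin (add (start D6125) (orK (nat_lit 190) (fin (add (start D6089) D353))))))))))))))))))) (orK (nat_lit 186) (fin (add (add (add (start D7746) D9692) D7766) (orK (nat_lit 167) (fin (add (add (start D4262) (orK (nat_lit 168) (fin (add (start D1307) (orK (nat_lit 185) (fin (add (start D4182) (orK (nat_lit 169) D5904)))))))) D4266))))))) (orK (nat_lit 246) (fin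 (add (add (add (start (orK (nat_lit 247) D12774)) D12578) D9548) D9554)))) (orK (nat_lit 228) (fin (add (add (add (add (start D4277) D12782) (orK (nat_lit 229) (fin (add (start D1169) (orK (nat_lit 247) (fin (add (start D86) (orK (nat_lit 248) (fin (add (start D4291) D2197)))))))))) D12795) (orK (nat_lit 229) (fin (add (start D1169) (orK (nat_lit 248) (fin (add (start D2197) D12801)))))))))) (orK (nat_lit 247) (fin (add (start D12748) D6291)))) (orK (nat_lit 166) (fin (add (add (add (start D12812) (orK (nat_lit 167) (fin (add (start D1484) D12816)))) (orK (nat_lit 186) (fin (add (start D4026) (orK (nat_lit 206) (fin (add (add (add (start D7770) (orK (nat_lit 185) (fin (add (start (orK (nat_lit 165) (fin (add (start D12821) (orK (nat_lit 145) (fin (add (start D7651) D12824))))))) D12832)))) (orK (nat_lit 167) (fin (add (start (orK (nat_lit 188) (fin (add (start (orK (nat_lit 165) (fin (add (start D5550) D12694)))) D7568)))) D12847)))) (orK (nat_lit 228) (fin (add (start D3008) (orK (nat_lit 204) (fin (add (start D5351) (orK (nat_lit 167) (fin (add (start D32) D12847)))))))))))))))) D12860)))))))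
noncomputable def D7611 : OP := orK (nat_lit 227) (fin (add (add (add (start D7603) D5890) D4098) D7609))
noncomputable def D7740 : OP := orK (nat_lit 185) (fin (add (add (add (add (start D7642) D7676) D7712) (orK (nat_lit 184) (fin (add (add (start D7638) D7704) (orK (nat_lit 205) (fin (add (start D364) (orK (nat_lit 166) (fin (add (add (start (orK (nat_lit 206) (fin (add (start D5231) (orK (nat_lit 146) (fin (add (start D7643) D7713))))))) D7723) D7728)))))))))) D7738))
noncomputable def D3260 : OP := orK (nat_lit 228) (fin (add (start D1444) D1169))
noncomputable def D3263 : AP := fin (add (start D1507) (orK (nat_lit 229) (fin (add (start D1513) D3260))))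
noncomputable def D7628 : OP := orK (nat_lit 188) (fin (add (start D1396) (orK (nat_lit 189) (fin (add (start D6229) D7527)))))
noncomputable def D9336 : AP := fin (add (start D1064) (orK (nat_lit 167) D9334))
noncomputable def D7543 : OP := orK (nat_lit 168) (fin (add (start D1064) (orK (nat_lit 151) (fin (add (start D1584) (orK (nat_lit 167) (fin (add (start D1990) D1063))))))))
noncomputable def D3386 : OP := orK (nat_lit 192) (fin (add (start D982) (orK (nat_lit 168) (fin (add (start D983) D1567)))))
noncomputable def D9651 : AP := fin (add (add (add (add (start D9096) D7529) (orK (nat_lit 172) (fin (add (add (add (add (start D3386) D981) (orK (nat_lit 173) (fin (add (add (start D288) (orK (nat_lit 150) (fin (add (start D3407) (orK (nat_lit 174) (fin (add (start D3408) (orK (nat_lit 195) (fin (add (start D3409) (orK (nat_lit 175) (fin (add (start D3410) D9489))))))))))))) (orK (nat_lit 150) (fin (add (start D3407) (orK (nat_lit 151) (fin (add (start D9498) (orK (nat_lit 152) (fin (add (start D1911) D1565))))))))))))) (orK (nat_lit 193) (fin (add (start D279) (orK (nat_lit 173) (fin (add (start D280) (orK (nat_lit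 150) (fin (add (start D3407) (orK (nat_lit 174) (fin (add (start D3408) D9510))))))))))))) (orK (nat_lit 192) (fin (add (start D982) (orK (nat_lit 168) (fin (add (start D983) (orK (nat_lit 151) (fin (add (start D1584) (orK (nat_lit 150) (fin (add (start D1585) (orK (nat_lit 173) (fin (add (start D3407) D9498))))))))))))))))))) D9536) (orK (nat_lit 187) (fin (add (add (add (add (add (start D7543) (orK (nat_lit 168) D9336)) D7628) (orK (nat_lit 227) (fin (add (add (add (add (add (start D8045) (orK (nat_lit 186) (fin (add (start (orK (nat_lit 189) (fin (add (start D7629) (orK (nat_lit 209) (fin (add (start D1507) (orK (nat_lit 229) (fin (add (start D1513) D1539)))))))))) D7766)))) D9556) D9558) D5882) (orK (nat_lit 186) (fin (add (add (add (start (orK (nat_lit 189) (fin (add (start D7629) (orK (nat_lit 209) D3263))))) (orK (nat_lit 188) (fin (add (start D9562) D7740)))) (orK (nat_lit 166) (fin (add (add (start D7744) (orK (nat_lit 226) (fin (add (add (add (start D9565) (orK (nat_lit 228) (fin (add (add (add (start D4329) (orK (nat_lit 229) (fin (add (start D4271) (orK (nat_lit 245) (fin (add (start D5763) (orK (nat_lit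 225) (fin (add (start D2535) (orK (nat_lit 248) (fin (add (start D137) (orK (nat_lit 205) (fin (add (start D2466) D2537)))))))))))))))) (orK (nat_lit 209) (fin (add (start D2036) (orK (nat_lit 248) (fin (add (start D2197) (orK (nat_lit 225) (fin (add (start D137) (orK (nat_lit 205) (fin (add (start D2466) (orK (nat_lit 245) (fin (add (start D2537) D2535)))))))))))))))) (orK (nat_lit 246) (fin (add (start D3935) (orK (nat_lit 229) (fin (add (start D4271) D1171)))))))))) (orK (nat_lit 206) (fin (add (add (start D9595) (orK (nat_lit 228) (fin (add (start D3008) (orK (nat_lit 204) (fin (add (start D5351) (orK (nat_lit 246) (fin (add (start D708) D5356)))))))))) D9609)))) D9621)))) D7764)))) (orK (nat_lit 189) (fin (add (start D7629) (orK (nat_lit 209) (fin (add (start D1507) (orK (nat_lit 229) D9627)))))))))))))) (orK (nat_lit 168) (fin (add (start D1064) (orK (nat_lit 151) (fin (add (start D1584) (orK (nat_lit 167) (fin (add (start D1990) D9333)))))))))) (orK (nat_lit 167) (fin (add (add (start (orK (nat_lit 168) (fin (add (start D1063) D1992)))) D7611) (orK (nat_lit 168) (fin (add (start D1992) D9333))))))))))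
noncomputable def D3388 : OP := orK (nat_lit 172) (fin (add (start D2026) D3386))
noncomputable def D1573 : OP := orK (nat_lit 172) (fin (add (add (start (orK (nat_lit 173) (fin (add (start D1561) D282)))) D1569) D1571))
noncomputable def D9410 : AP := fin (add (start D8417) D8795)
noncomputable def D9479 : AP := fin (add (add (add (start D8340) (orK (nat_lit 168) (fin (add (start D1584) (orK (nat_lit 187) D9336))))) (orK (nat_lit 131) (fin (add (add (add (add (add (add (start (orK (nat_lit 191) (fin (add (start D3484) (orK (nat_lit 130) (fin (add (start D8402) (orK (nat_lit 132) (fin (add (start D3481) D8711)))))))))) D8808) (orK (nat_lit 150) (fin (add (add (start D9346) (orK (nat_lit 111) (fin (add (start D1588) (orK (nat_lit 168) (fin (add (start D1585) (orK (nat_lit 191) (fin (add (start D733) (orK (nat_lit 188) (fin (add (start D269) (orK (nat_lit 110) (fin (add (start D3504) D3491)))))))))))))))) (orK (nat_lit 132) (fin (add (start D8795) (orK (nat_lit 111) (fin (add (start D1588) (orK (nat_lit 168) (fin (add (start D1585) (orK (nat_lit 188) (fin (add (start D269) (orK (nat_lit 109) (fin (add (start D1608)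 (orK (nat_lit 110) (fin (add (start D8472) D3491)))))))))))))))))))))) D9029) (orK (nat_lit 111) (fin (add (add (start D3519) (orK (nat_lit 110) (fin (add (start D3491) (orK (nat_lit 130) (fin (add (start D8355) D8844))))))) D8830)))) D8522) (orK (nat_lit 150) (fin (add (add (start D9346) (orK (nat_lit 168) (fin (add (start D1585) (orK (nat_lit 111) (fin (add (start D1588) (orK (nat_lit 188) (fin (add (start D269) (orK (nat_lit 109) (fin (add (start D1608) (orK (nat_lit 110) (fin (add (start D3491) (orK (nat_lit 112) (fin (add (start D1589) (orK (nat_lit 89) (fin (add (start D9377) D9378)))))))))))))))))))))) (orK (nat_lit 168) (fin (add (start D1585) (orK (nat_lit 111) (fin (add (start D1588) (orK (nat_lit 132) (fin (add (start D8795) (orK (nat_lit 112) (fin (add (start D1589) D9397))))))))))))))))))) (orK (nat_lit 150) (fin (add (add (add (add (start (orK (nat_lit 152) (fin (add (start D3269) (orK (nat_lit 129) (fin (add (start D8866) (orK (nat_lit 109) (fin (add (start D8867) (orK (nat_lit 110) (fin (add (start D6717) (orK (nat_lit 130) (fin (add (start D754) (orK (nat_lit 111) (fin (add (start D769) (orK (nat_lit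 112) (fin (add (start D8574) (orK (nat_lit 92) (fin (add (start (win (nat_lit 3) (nat_lit 11) (nat_lit 4) (nat_lit 2))) D9421))))))))))))))))))))))))) D9445) (orK (nat_lit 152) (fin (add (start D3269) (orK (nat_lit 132) (fin (add (start D8240) (orK (nat_lit 112) (fin (add (start D8435) (orK (nat_lit 131) D9410))))))))))) (orK (nat_lit 131) (fin (add (add (start D9346) (orK (nat_lit 111) (fin (add (start D1588) (orK (nat_lit 110) (fin (add (start D3491) (orK (nat_lit 130) (fin (add (start D754) D8844)))))))))) (orK (nat_lit 111) (fin (add (start D1588) (orK (nat_lit 112) (fin (add (start D1589) (orK (nat_lit 132) D9410))))))))))) (orK (nat_lit 152) (fin (add (start D3269) (orK (nat_lit 129) (fin (add (start D8866) (orK (nat_lit 132) (fin (add (start D8240) (orK (nat_lit 109) (fin (add (start D8867) (orK (nat_lit 110) (fin (add (start D6717) (orK (nat_lit 130) (fin (add (start D754) (orK (nat_lit 112) (fin (add (start D8435) (orK (nat_lit 111) (fin (add (start D769) D8574))))))))))))))))))))))))))))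
noncomputable def D7238 : OP := orK (nat_lit 130) (fin (add (start D4053) (orK (nat_lit 170) (fin (add (start D4051) D6209)))))
noncomputable def D7208 : OP := orK (nat_lit 170) D7207
noncomputable def D7194 : OP := orK (nat_lit 108) (fin (add (start D6718) (orK (nat_lit 109) (fin (add (start D6590) D7190)))))
noncomputable def D7232 : OP := orK (nat_lit 130) (fin (add (start D6603) (orK (nat_lit 128) (fin (add (start D7213) D7228)))))
noncomputable def D7198 : OP := orK (nat_lit 110) (fin (add (start D6716) (orK (nat_lit 109) (fin (add (start D6717) D7190)))))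
noncomputable def D7177 : OP := orK (nat_lit 167) (fin (add (add (start D7125) (orK (nat_lit 187) (fin (add (start D1381) (orK (nat_lit 226) (fin (add (start D3202) (orK (nat_lit 227) (fin (add (start D2035) D1382)))))))))) D7175))
noncomputable def D7074 : OP := orK (nat_lit 148) D1906
noncomputable def D1623 : OP := orK (nat_lit 188) (fin (add (start D269) (orK (nat_lit 128) (fin (add (start (orK (nat_lit 109) (fin (add (start D1608) D1612)))) (orK (nat_lit 127) (fin (add (start D523) (orK (nat_lit 151) (fin (add (start D1615) D1584)))))))))))
noncomputable def D9103 : OP := orK (nat_lit 89) (fin (add (start D9101) D9075))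
noncomputable def D7067 : OP := orK (nat_lit 172) D7066
noncomputable def D8344 : OP := orK (nat_lit 147) (fin (add (start D984) (orK (nat_lit 167) (fin (add (start D985) D1990)))))
noncomputable def D9051 : AP := fin (add (add (add (add (start D8340) (orK (nat_lit 168) (fin (add (start D1584) D8344)))) (orK (nat_lit 131) (fin (add (add (add (add (add (add (add (start D8372) (orK (nat_lit 168) (fin (add (start D1584) (orK (nat_lit 148) (fin (add (start D265) (orK (nat_lit 189) (fin (add (add (start D8374) (orK (nat_lit 128) (fin (add (start D1013) (orK (nat_lit 191) (fin (add (start D733) (orK (nat_lit 112) (fin (add (start D3527) (orK (nat_lit 111) (fin (add (start D1589) (orK (nat_lit 129) (fin (add (start D3489) (orK (nat_lit 109) (fin (add (start (win (nat_lit 3) (nat_lit 8) (nat_lit 5) (nat_lit 0))) (orK (nat_lit 89) (fin (add (start D8376) (win (nat_lit 1) (nat_lit 8) (nat_lit 4) (nat_lit 3)))))))))))))))))))))))) D8395)))))))))) D8455) D8501) D8520) D8522) D8568) (orK (nat_lit 111) (fin (add (add (add (add (start D8469) (orK (nat_lit 112) (fin (add (start D1589) (orK (nat_lit 110) (fin (add (start D3491)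 (orK (nat_lit 109) (fin (add (add (start (orK (nat_lit 113) (fin (add (start D8582) (orK (nat_lit 129) (fin (add (start D8583) D8584))))))) (orK (nat_lit 108) (fin (add (start D8569) D8594)))) (orK (nat_lit 108) (fin (add (start D8594) D8600))))))))))))) D8635) (orK (nat_lit 152) (fin (add (start D1911) (orK (nat_lit 130) (fin (add (add (start D8410) (orK (nat_lit 92) (fin (add (start D3515) (orK (nat_lit 91) (fin (add (start D3514) (orK (nat_lit 71) (fin (add (start D8489) (orK (nat_lit 51) (fin (add (start (win (nat_lit 1) (nat_lit 10) (nat_lit 2) (nat_lit 4))) D8614))))))))))))) (orK (nat_lit 129) (fin (add (start D8363) (orK (nat_lit 112) (fin (add (start D1589) (orK (nat_lit 113) (fin (add (start (win (nat_lit 5) (nat_lit 9) (nat_lit 5) (nat_lit 3))) D8646)))))))))))))))) (orK (nat_lit 92) (fin (add (start D3515) (orK (nat_lit 91) (fin (add (start D3514) (orK (nat_lit 152) (fin (add (start D1911) (orK (nat_lit 71) (fin (add (start D8489) D8660))))))))))))))))))) (orK (nat_lit 131) (fin (add (add (add (add (add (add (add (start D8689) D8522) D8761) (orK (nat_lit 168) (fin (add (add (start D8344) (orK (nat_lit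 191) (fin (add (start D733) (orK (nat_lit 112) (fin (add (start D3527) (orK (nat_lit 111) (fin (add (start D1589) (orK (nat_lit 150) (fin (add (start D1588) D1585))))))))))))) (orK (nat_lit 191) (fin (add (start D733) (orK (nat_lit 148) (fin (add (start D265) (orK (nat_lit 132) (fin (add (start D3481) (orK (nat_lit 130) (fin (add (start D8402) (orK (nat_lit 129) (fin (add (start (win (nat_lit 5) (nat_lit 8) (nat_lit 6) (nat_lit 4))) (orK (nat_lit 108) (fin (add (start D8749) (orK (nat_lit 128) (fin (add (start D8771) D8772))))))))))))))))))))))))) D8808) (orK (nat_lit 110) (fin (add (add (start (orK (nat_lit 90) (fin (add (start D8357) (orK (nat_lit 130) (fin (add (start D8356) (win (nat_lit 6) (nat_lit 10) (nat_lit 4) (nat_lit 3))))))))) (orK (nat_lit 191) (fin (add (start D3520) D3484)))) (orK (nat_lit 111) (fin (add (start D3491) (orK (nat_lit 150) (fin (add (start D1588) (orK (nat_lit 168) (fin (add (start D1585) (orK (nat_lit 191) (fin (add (start D733) (orK (nat_lit 148) (fin (add (start D265) (orK (nat_lit 149) (fin (add (start D1587) (orK (nat_lit 128) (fin (add (start D1586) D8812)))))))))))))))))))))))))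 D8836) D8850)))) D9050)
noncomputable def D3464 : OP := orK (nat_lit 192) (fin (add (add (add (start D3396) (orK (nat_lit 168) (fin (add (start D983) (orK (nat_lit 147) (fin (add (start D984) (orK (nat_lit 167) (fin (add (start D985) D1992)))))))))) (orK (nat_lit 172) (fin (add (start D982) (orK (nat_lit 151) (fin (add (add (start D3445) (orK (nat_lit 153) (fin (add (start D285) (orK (nat_lit 173) (fin (add (start D286) (orK (nat_lit 174) (fin (add (start D3446) D3415)))))))))) D3458))))))) D3435))
noncomputable def D7533 : OP := orK (nat_lit 172) (fin (add (start D981) (orK (nat_lit 189) (fin (add (start D261) D7527)))))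
noncomputable def D8300 : OP := win (nat_lit 5) (nat_lit 7) (nat_lit 6) (nat_lit 5)
noncomputable def D8227 : OP := orK (nat_lit 148) (fin (add (start D1554) (orK (nat_lit 147) D7201)))
noncomputable def D1625 : OP := orK (nat_lit 168) (fin (add (add (start D1583) (orK (nat_lit 151) (fin (add (start D1584) (orK (nat_lit 150) (fin (add (start D1585) (orK (nat_lit 191) (fin (add (start D733) (orK (nat_lit 128) (fin (add (start D1586) (orK (nat_lit 131) (fin (add (start D1587) (orK (nat_lit 111) (fin (add (start D1588) (orK (nat_lit 112) (fin (add (start D1589) (orK (nat_lit 130) (fin (add (start D1590) D1591))))))))))))))))))))))))) D1623))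
noncomputable def D7381 : OP := orK (nat_lit 168) (fin (add (start D5913) D7379))
noncomputable def D7992 : OP := orK (nat_lit 227) D4276
noncomputable def D7991 : OP := orK (nat_lit 227) D7990
noncomputable def D8080 : OP := orK (nat_lit 251) (fin (add (start D7297) D6864))
noncomputable def D7981 : OP := win (nat_lit 1) (nat_lit 8) (nat_lit 8) (nat_lit 2)
noncomputable def D8092 : OP := orK (nat_lit 248) (fin (add (start D7981) (orK (nat_lit 231) (fin (add (start D2667) D8080)))))
noncomputable def D7980 : OP := orK (nat_lit 209) D1511
noncomputable def D7994 : OP := orK (nat_lit 228) (fin (add (add (add (start D7980) (orK (nat_lit 248) (fin (add (start D7981) (orK (nat_lit 247) (fin (add (start D4291) D82))))))) D7991) D7992))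
noncomputable def D7839 : OP := orK (nat_lit 227) (fin (add (add (add (start D7746) D7762) D7766) (orK (nat_lit 206) (fin (add (add (add (start D7770) D7795) (orK (nat_lit 166) (fin (add (start D1726) (orK (nat_lit 226) (fin (add (add (start (orK (nat_lit 245) (fin (add (start D7771) (orK (nat_lit 246) (fin (add (start D2417) (orK (nat_lit 167) (fin (add (start D1172) D7796)))))))))) (orK (nat_lit 165) (fin (add (start D7782) (orK (nat_lit 225) (fin (add (start D7779) (orK (nat_lit 224) (fin (add (start D3065) (orK (nat_lit 204) (fin (add (start D4295) D7808))))))))))))) (orK (nat_lit 167) (fin (add (start D7796) (orK (nat_lit 246) (fin (add (start D1172) D7785))))))))))))) (orK (nat_lit 228) (fin (add (start D3008) (orK (nat_lit 204) (fin (add (start D5351) (orK (nat_lit 146) (fin (add (start D7825) (orK (nat_lit 167) (fin (add (start D32) (orK (nat_lit 147) (fin (add (start D4199) D1376))))))))))))))))))))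
noncomputable def D1154 : OP := orK (nat_lit 246) (fin (add (start D134) D1152))
noncomputable def D8218 : AP := fin (add (add (add (add (add (add (add (start D7956) (orK (nat_lit 188) (fin (add (start D7957) (orK (nat_lit 190) (fin (add (start D353) (orK (nat_lit 167) (fin (add (start D352) (orK (nat_lit 168) (fin (add (start D910) (orK (nat_lit 227) D7958)))))))))))))) (orK (nat_lit 188) (fin (add (add (add (start D7957) D7972) (orK (nat_lit 229) (fin (add (add (add (add (start (orK (nat_lit 190) (fin (add (start D353) D7977)))) D7994) (orK (nat_lit 249) (fin (add (start D7995) (orK (nat_lit 247) (fin (add (add (add (start (orK (nat_lit 227) (fin (add (start D41) (orK (nat_lit 246) (fin (add (start D134) D1714))))))) D8001) (orK (nat_lit 248) (fin (add (start (orK (nat_lit 227) (fin (add (start D41) D1369)))) D2892)))) (orK (nat_lit 227) (fin (add (start D41) D1154)))))))))) (orK (nat_lit 206) (fin (add (start D129) (orK (nat_lit 227) (fin (add (start D1724) (orK (nat_lit 247) (fin (add (start D41) D8013)))))))))) (orK (nat_lit 206) (fin (add (start D129) (orK (nat_lit 227) (fin (add (start D1724) (orK (nat_lit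 168) (fin (add (start D38) (orK (nat_lit 148) (fin (add (start D158) D948)))))))))))))))) (orK (nat_lit 186) (fin (add (start D7878) D7970))))))) (orK (nat_lit 186) (fin (add (start D7880) D7839)))) (orK (nat_lit 227) (fin (add (add (add (add (add (start D8043) (orK (nat_lit 167) (fin (add (add (start D3206) D3212) D1386)))) D8045) D3949) D8061) D8063)))) (orK (nat_lit 190) (fin (add (add (add (start (orK (nat_lit 206) (fin (add (start D7315) (orK (nat_lit 229) (fin (add (add (add (start D7977) (orK (nat_lit 228) (fin (add (start D63) (orK (nat_lit 248) (fin (add (start D7981) (orK (nat_lit 231) (fin (add (start D2667) D4310)))))))))) (orK (nat_lit 228) (fin (add (start D63) (orK (nat_lit 231) (fin (add (add (start (orK (nat_lit 232) (fin (add (start D2908) D2834)))) D8080) (orK (nat_lit 249) (fin (add (start D317) (orK (nat_lit 248) (fin (add (start D2667) D2890))))))))))))) (orK (nat_lit 228) (fin (add (start D63) D8092)))))))))) (orK (nat_lit 229) (fin (add (add (add (start D7977) D7994) (orK (nat_lit 170) (fin (add (start D28) (orK (nat_lit 231) (fin (add (start D752) (orK (nat_lit 167) (fin (add (add (start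 D8099) (orK (nat_lit 227) (fin (add (add (start (orK (nat_lit 228) (fin (add (start D1169) D32)))) (orK (nat_lit 247) (fin (add (start D3210) (orK (nat_lit 248) (fin (add (start D2889) D1369))))))) D3208)))) (orK (nat_lit 168) (fin (add (start D945) D2008))))))))))))) (orK (nat_lit 228) (fin (add (add (add (start D7980) D8092) D7991) D7992))))))) (orK (nat_lit 167) (fin (add (add (start D7381) (orK (nat_lit 166) (fin (add (start D5953) D8125)))) (orK (nat_lit 168) D8131))))) (orK (nat_lit 188) (fin (add (start D353) D8155))))))) (orK (nat_lit 188) (fin (add (add (add (start (orK (nat_lit 186) D7953)) (orK (nat_lit 186) (fin (add (start D6124) (orK (nat_lit 168) (fin (add (start D2021) D8165))))))) (orK (nat_lit 167) (fin (add (add (start (orK (nat_lit 166) D8170)) (orK (nat_lit 227) (fin (add (start D7603) (orK (nat_lit 147) (fin (add (add (add (start D1384) (orK (nat_lit 168) (fin (add (start D1307) D8149)))) (orK (nat_lit 126) (fin (add (start D4208) (orK (nat_lit 127) (fin (add (start D4207) D8181))))))) D6113))))))) (orK (nat_lit 166) (fin (add (start D5950) D8125))))))) (orK (nat_lit 186) (fin (add (start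 D6124) (orK (nat_lit 166) (fin (add (start D369) (orK (nat_lit 167) (fin (add (start D5950) D8195))))))))))))) D8217)
noncomputable def D7841 : OP := orK (nat_lit 247) (fin (add (start D86) D140))
noncomputable def D7586 : AP := fin (add (start (win (nat_lit 2) (nat_lit 6) (nat_lit 7) (nat_lit 2))) D1376)
noncomputable def D23934 : AP := fin (add (add (add (add (add (add (add (add (add (add (add (add (add (add (start (orK (nat_lit 170) (fin (add (add (add (add (start D7482) D7499) D7501) D7511) (orK (nat_lit 171) (fin (add (add (add (add (start D7529) D7533) D3437) (orK (nat_lit 172) (fin (add (add (start D981) D7519) (orK (nat_lit 152) (fin (add (start D1565) D7515))))))) (orK (nat_lit 187) (fin (add (add (add (add (start D7543) (orK (nat_lit 167) (fin (add (add (add (add (start D7544) D7584) (orK (nat_lit 147) (fin (add (add (start (orK (nat_lit 186) (fin (add (start (win (nat_lit 5) (nat_lit 6) (nat_lit 8) (nat_lit 2))) D7593)))) D7597) (orK (nat_lit 146) D7586))))) D7611) (orK (nat_lit 227) (fin (add (start (orK (nat_lit 146) (fin (add (start D579) (orK (nat_lit 147) D7586))))) D7620))))))) D7628) (orK (nat_lit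 186) (fin (add (add (add (add (start (orK (nat_lit 189) (fin (add (start D7629) D7527)))) (orK (nat_lit 188) (fin (add (start (orK (nat_lit 189) (fin (add (start D6124) D6125)))) D7740)))) D7839) (orK (nat_lit 189) (fin (add (start D7629) (orK (nat_lit 209) (fin (add (start D1507) (orK (nat_lit 229) (fin (add (start D1513) (orK (nat_lit 228) (fin (add (start D1444) (orK (nat_lit 227) (fin (add (start D1508) D7841)))))))))))))))) (orK (nat_lit 189) (fin (add (start D7629) (orK (nat_lit 209) (fin (add (start D1507) (orK (nat_lit 229) (fin (add (start D1513) (orK (nat_lit 228) (fin (add (start D1444) (orK (nat_lit 227) (fin (add (start D1169) D7841))))))))))))))))))) (orK (nat_lit 168) (fin (add (start D1064) (orK (nat_lit 151) (fin (add (start D1584) (orK (nat_lit 167) (fin (add (start D1990) D2057))))))))))))))))))) (orK (nat_lit 189) (fin (add (add (add (start D7876) D7877) (orK (nat_lit 187) D8218)) (orK (nat_lit 190) (fin (add (start D8220) (orK (nat_lit 167) (fin (add (add (add (start D7313) (orK (nat_lit 187) (fin (add (add (add (start D7314) D7322) D7333) D7335)))) (orK (nat_lit 187) (fin (add (add (add (start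 (orK (nat_lit 188) (fin (add (start D353) D7341)))) D7322) D7365) D7381)))) (orK (nat_lit 187) (fin (add (add (add (start (orK (nat_lit 166) (fin (add (start D5954) D6789)))) (orK (nat_lit 168) (fin (add (start D833) D7379)))) D7365) D7333))))))))))))) (orK (nat_lit 149) (fin (add (add (add (add (start D7063) (orK (nat_lit 170) (fin (add (start D1553) (orK (nat_lit 171) (fin (add (add (add (add (start D8227) D1573) D3388) D8233) (orK (nat_lit 148) (fin (add (add (start D1625) D1907) (orK (nat_lit 150) (fin (add (start D6554) (orK (nat_lit 151) (fin (add (add (start D8238) D8244) (orK (nat_lit 128) (fin (add (start D1586) (orK (nat_lit 131) (fin (add (start D1587) D8246)))))))))))))))))))))) (orK (nat_lit 170) (fin (add (start D1553) (orK (nat_lit 189) (fin (add (start D5917) (orK (nat_lit 171) (fin (add (add (add (start (orK (nat_lit 172) (fin (add (start D2026) D261)))) D7071) (orK (nat_lit 168) (fin (add (add (add (start D7074) (orK (nat_lit 148) (fin (add (start D265) (orK (nat_lit 151) (fin (add (start D1584) (orK (nat_lit 150) (fin (add (start D1585) (orK (nat_lit 191) (fin (add (start D733) (orK (nat_lit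 128) (fin (add (start D1586) D1013)))))))))))))))) D6978) (orK (nat_lit 187) (fin (add (start D1064) (orK (nat_lit 148) (fin (add (start D265) (orK (nat_lit 151) (fin (add (start D1584) (orK (nat_lit 128) (fin (add (start D1013) (orK (nat_lit 150) (fin (add (start D1586) (orK (nat_lit 191) (fin (add (start D733) (orK (nat_lit 110) (fin (add (start D8273) (orK (nat_lit 131) (fin (add (start D1587) D8275)))))))))))))))))))))))))))) D8227)))))))))) D7101) (orK (nat_lit 189) (fin (add (start D5917) (orK (nat_lit 129) (fin (add (add (add (add (start D6724) (orK (nat_lit 130) (fin (add (start D6603) (orK (nat_lit 128) (fin (add (start D7213) (orK (nat_lit 131) (fin (add (add (start (orK (nat_lit 148) (fin (add (start D8300) D7181)))) D8306) (orK (nat_lit 148) (fin (add (start D8300) D7226))))))))))))) D7467) D7471) D7475)))))))))) (orK (nat_lit 170) (fin (add (add (add (add (start D8329) D7501) (orK (nat_lit 190) (fin (add (add (start D940) D999) D7310)))) D8337) (orK (nat_lit 171) (fin (add (add (add (add (add (start D7533) D3464) (orK (nat_lit 151) D9051)) (orK (nat_lit 149) (fin (add (add (add (start D7067) D1560)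 (orK (nat_lit 189) (fin (add (start D5917) (orK (nat_lit 172) (fin (add (start D261) D8231))))))) D9091)))) D9096) (orK (nat_lit 149) (fin (add (add (add (start D7067) D1560) (orK (nat_lit 189) (fin (add (start D5917) (orK (nat_lit 172) (fin (add (start D261) D1571))))))) (orK (nat_lit 189) (fin (add (start D5917) (orK (nat_lit 148) (fin (add (add (start D1558) (orK (nat_lit 129) (fin (add (add (add (start (orK (nat_lit 110) (fin (add (start D6716) (orK (nat_lit 109) (fin (add (start D6717) D9103))))))) D7232) (orK (nat_lit 108) (fin (add (start D6718) (orK (nat_lit 109) (fin (add (start D6590) D9103))))))) D6724)))) D1576)))))))))))))))) (orK (nat_lit 149) (fin (add (add (add (add (start D7063) (orK (nat_lit 170) (fin (add (start D1553) (orK (nat_lit 148) (fin (add (add (add (start (orK (nat_lit 171) (fin (add (start D1554) (orK (nat_lit 168) (fin (add (add (add (start D1583) D1623) (orK (nat_lit 151) (fin (add (start D1584) (orK (nat_lit 150) (fin (add (start D1585) (orK (nat_lit 128) (fin (add (start D1586) (orK (nat_lit 131) (fin (add (start D1587) (orK (nat_lit 111) (fin (add (start D1588) (orK (nat_lit 112)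 (fin (add (start D1589) (orK (nat_lit 129) (fin (add (start D3489) D9125)))))))))))))))))))))) D9144))))))) D9149) D9150) (orK (nat_lit 147) (fin (add (add (start D7177) (orK (nat_lit 146) (fin (add (start D4050) (orK (nat_lit 129) (fin (add (start D6617) (orK (nat_lit 145) (fin (add (start D7109) (orK (nat_lit 124) (fin (add (start D7348) D7150))))))))))))) (orK (nat_lit 146) (fin (add (start D4050) D9170))))))))))))) (orK (nat_lit 170) (fin (add (start D1553) (orK (nat_lit 171) (fin (add (add (start D1560) (orK (nat_lit 189) (fin (add (start D5917) D7071)))) (orK (nat_lit 168) (fin (add (add (add (start D7074) D7079) D6978) (orK (nat_lit 148) (fin (add (start D265) (orK (nat_lit 151) (fin (add (start D1584) (orK (nat_lit 188) (fin (add (start D269) (orK (nat_lit 189) (fin (add (start D5917) D7083)))))))))))))))))))))) D7101) (orK (nat_lit 189) (fin (add (start D5917) (orK (nat_lit 148) (fin (add (add (add (add (start (orK (nat_lit 129) (fin (add (add (start (orK (nat_lit 130) (fin (add (start D6603) (orK (nat_lit 147) D7184))))) D7194) D7198)))) (orK (nat_lit 147) (fin (add (add (start D7177) D7208) D7210))))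 (orK (nat_lit 129) (fin (add (add (start D7198) D7232) D7194)))) (orK (nat_lit 147) (fin (add (add (add (start (orK (nat_lit 146) (fin (add (start (orK (nat_lit 145) (fin (add (start D7102) D7106)))) (orK (nat_lit 150) D7164))))) (orK (nat_lit 150) (fin (add (add (start D7238) (orK (nat_lit 151) (fin (add (start D7240) D7244)))) (orK (nat_lit 151) (fin (add (start D6062) D7244))))))) D7208) D7210)))) (orK (nat_lit 147) (fin (add (add (add (start D7210) D7259) (orK (nat_lit 150) (fin (add (start D7263) D7238)))) (orK (nat_lit 167) D7284)))))))))))))) (orK (nat_lit 149) (fin (add (add (add (start (orK (nat_lit 170) (fin (add (start D1553) (orK (nat_lit 171) (fin (add (add (add (add (start D8233) (orK (nat_lit 151) D9479)) D1573) D3388) (orK (nat_lit 172) D6979)))))))) (orK (nat_lit 170) (fin (add (start D1553) (orK (nat_lit 171) D9651))))) D7101) (orK (nat_lit 189) (fin (add (start D5917) (orK (nat_lit 129) (fin (add (add (add (add (start D6724) (orK (nat_lit 130) (fin (add (start D6603) (orK (nat_lit 128) (fin (add (start D7213) (orK (nat_lit 127) (fin (add (add (start D9066) (orK (nat_lit 106) (fin (add (start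 D7218) (orK (nat_lit 126) (fin (add (start D7217) D9661))))))) (orK (nat_lit 151) (fin (add (start D7215) (orK (nat_lit 131) (fin (add (start D7214) (orK (nat_lit 112) (fin (add (start D7414) (orK (nat_lit 132) (fin (add (start D7415) D7399)))))))))))))))))))))) D7467) D7471) D7475)))))))))) (orK (nat_lit 227) D12865)) (orK (nat_lit 170) (fin (add (add (add (add (start D7501) (orK (nat_lit 171) (fin (add (add (add (start D1898) D12914) (orK (nat_lit 149) (fin (add (start D1553) D8233)))) D12940)))) D7511) D8337) (orK (nat_lit 171) (fin (add (add (add (add (start D7529) (orK (nat_lit 172) (fin (add (add (start D1569) (orK (nat_lit 173) (fin (add (start D282) D9222)))) (orK (nat_lit 168) (fin (add (start D1986) D1567))))))) D9536) D9096) (orK (nat_lit 151) D13139)))))))) (orK (nat_lit 227) D16845)) (orK (nat_lit 167) D20831)) (orK (nat_lit 170) (fin (add (add (add (add (start D8329) D7501) (orK (nat_lit 190) (fin (add (add (start D940) D2758) D7310)))) D8337) (orK (nat_lit 171) D20998))))) (orK (nat_lit 170) D21188)) (orK (nat_lit 187) D23701)) (orK (nat_lit 170) (fin (add (add (add (add (add (add (add (start D7499)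 (orK (nat_lit 190) (fin (add (start D260) (orK (nat_lit 229) (fin (add (start D28) (orK (nat_lit 231) (fin (add (start D752) (orK (nat_lit 167) (fin (add (add (add (start D1174) (orK (nat_lit 168) (fin (add (start D945) D2740)))) (orK (nat_lit 168) (fin (add (start D945) (orK (nat_lit 150) (fin (add (start D1998) D2010))))))) (orK (nat_lit 227) (fin (add (add (add (add (start D21067) (orK (nat_lit 206) (fin (add (start D1724) (orK (nat_lit 187) (fin (add (add (start D10830) D11060) (orK (nat_lit 226) (fin (add (start D2035) (orK (nat_lit 166) (fin (add (start D1484) (orK (nat_lit 205) (fin (add (add (start D21853) (orK (nat_lit 165) (fin (add (add (start (orK (nat_lit 145) (fin (add (start (win (nat_lit 6) (nat_lit 5) (nat_lit 7) (nat_lit 2))) D10447)))) D23712) (orK (nat_lit 164) (fin (add (start D6171) (orK (nat_lit 144) (fin (add (start D461) (orK (nat_lit 185) (fin (add (start D3024) D11184))))))))))))) D23374)))))))))))))))) D21083) D21010) D21087)))))))))))))))) D13445) D8329) (orK (nat_lit 171) (fin (add (add (add (add (start (orK (nat_lit 190) D1071)) (orK (nat_lit 192) (fin (add (add (start (orK (nat_lit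 191) (fin (add (start D3391) (orK (nat_lit 193) (fin (add (start D1080) (win (nat_lit 2) (nat_lit 9) (nat_lit 8) (nat_lit 3))))))))) D1972) (orK (nat_lit 172) (fin (add (start D982) (orK (nat_lit 153) (fin (add (start D285) (orK (nat_lit 173) (fin (add (start D286) (orK (nat_lit 189) (fin (add (start D261) D12420)))))))))))))))) D13443) (orK (nat_lit 151) (fin (add (start D1910) D8340)))) (orK (nat_lit 152) (fin (add (add (start D7515) (orK (nat_lit 172) (fin (add (start D1565) D7519)))) D1980))))))) (orK (nat_lit 149) (fin (add (start D1553) (orK (nat_lit 148) D23902))))) (orK (nat_lit 168) (fin (add (add (add (add (start D2019) D2134) (orK (nat_lit 171) (fin (add (add (start D1989) D1058) (orK (nat_lit 167) (fin (add (start D1992) D1066))))))) D2070) D1996)))) D1921)))) (orK (nat_lit 149) (fin (add (add (add (add (start D7063) (orK (nat_lit 170) (fin (add (start D1553) D7021)))) (orK (nat_lit 189) (fin (add (start D5917) (orK (nat_lit 170) (fin (add (start D1553) (orK (nat_lit 171) (fin (add (add (start D7071) (orK (nat_lit 168) (fin (add (add (add (start D7079) D6978) D1131) (orK (nat_lit 148) (fin (add (start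 D265) (orK (nat_lit 151) (fin (add (start D1584) (orK (nat_lit 188) (fin (add (start D269) D7083))))))))))))) D1560)))))))))) D7101) (orK (nat_lit 189) D23930)))))
noncomputable def D3997 : OP := win (nat_lit 5) (nat_lit 6) (nat_lit 10) (nat_lit 2)
noncomputable def D2664 : OP := win (nat_lit 5) (nat_lit 8) (nat_lit 11) (nat_lit 5)
noncomputable def D1106 : OP := win (nat_lit 0) (nat_lit 7) (nat_lit 10) (nat_lit 1)
noncomputable def D1074 : OP := orK (nat_lit 169) (fin (add (start D260) D1072))
noncomputable def D26 : OP := orK (nat_lit 150) (fin (add (start D20) D24))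
noncomputable def D964 : OP := orK (nat_lit 168) (fin (add (start (orK (nat_lit 189) (fin (add (start (orK (nat_lit 148) (fin (add (start D265) D948)))) D956)))) D735))
noncomputable def D3990 : AP := fin (add (start D2582) (orK (nat_lit 252) (fin (add (start D2680) (orK (nat_lit 232) (fin (add (start D791) D789)))))))
noncomputable def D3991 : OP := orK (nat_lit 231) D3990
noncomputable def D3257 : AP := fin (add (start D0) D18)
noncomputable def D3258 : OP := orK (nat_lit 208) D3257
noncomputable def D5473 : OP := orK (nat_lit 187) (fin (add (start D19) (orK (nat_lit 190) (fin (add (start D11) D52)))))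
noncomputable def D5477 : OP := orK (nat_lit 209) (fin (add (start D18) D5473))
noncomputable def D1395 : OP := win (nat_lit 1) (nat_lit 9) (nat_lit 8) (nat_lit 4)
noncomputable def D5424 : OP := orK (nat_lit 167) (fin (add (start D31) D1743))
noncomputable def D3974 : AP := fin (add (start D61) D86)
noncomputable def D3975 : OP := orK (nat_lit 229) D3974
noncomputable def D5433 : AP := fin (add (start D37) D861)
noncomputable def D5436 : OP := orK (nat_lit 188) (fin (add (start D42) (orK (nat_lit 168) D5433)))
noncomputable def D5430 : OP := orK (nat_lit 267) (fin (add (start D570) (orK (nat_lit 268) (fin (add (start D572) (orK (nat_lit 187) (fin (add (start D571) D5424))))))))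
noncomputable def D5432 : OP := orK (nat_lit 228) (fin (add (start D3975) D5430))
noncomputable def D860 : OP := win (nat_lit 1) (nat_lit 7) (nat_lit 8) (nat_lit 3)
noncomputable def D5419 : AP := fin (add (start D37) D860)
noncomputable def D5422 : OP := orK (nat_lit 188) (fin (add (start D42) (orK (nat_lit 168) D5419)))
noncomputable def D3558 : OP := orK (nat_lit 209) D3257
noncomputable def D578 : OP := orK (nat_lit 247) (fin (add (start D569) (orK (nat_lit 267) (fin (add (start D570) D574)))))
noncomputable def D592 : OP := orK (nat_lit 187) (fin (add (start D19) (orK (nat_lit 228) (fin (add (add (start D566) D578) (orK (nat_lit 167) (fin (add (start D31) (orK (nat_lit 146) (fin (add (start D579) (orK (nat_lit 247) (fin (add (start (orK (nat_lit 267) D581)) D569))))))))))))))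
noncomputable def D6281 : OP := orK (nat_lit 209) (fin (add (start D0) D1316))
noncomputable def D2888 : OP := win (nat_lit 2) (nat_lit 7) (nat_lit 12) (nat_lit 1)
noncomputable def D2528 : OP := win (nat_lit 1) (nat_lit 7) (nat_lit 8) (nat_lit 1)
noncomputable def D303 : AP := fin (add (start D18) D302)
noncomputable def D5585 : OP := orK (nat_lit 209) D303
noncomputable def D6427 : OP := orK (nat_lit 187) (fin (add (start D1307) D34))
noncomputable def D6766 : OP := orK (nat_lit 228) (fin (add (start D342) D5549))
noncomputable def D6674 : OP := orK (nat_lit 187) D33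
noncomputable def D6673 : OP := orK (nat_lit 229) (fin (add (start D61) (orK (nat_lit 188) (fin (add (start D521) D342)))))
noncomputable def D6686 : OP := orK (nat_lit 228) (fin (add (add (start (orK (nat_lit 229) (fin (add (start D61) (orK (nat_lit 187) (fin (add (start D32) (orK (nat_lit 188) (fin (add (start D521) D6678)))))))))) D6673) D6674))
noncomputable def D6545 : OP := win (nat_lit 1) (nat_lit 7) (nat_lit 7) (nat_lit 2)
noncomputable def D6470 : OP := win (nat_lit 6) (nat_lit 5) (nat_lit 5) (nat_lit 5)
noncomputable def D6463 : OP := orK (nat_lit 124) (fin (add (start (win (nat_lit 2) (nat_lit 4) (nat_lit 6) (nat_lit 1))) D3105))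
noncomputable def D6460 : OP := orK (nat_lit 126) (fin (add (start D6457) D6458))
noncomputable def D6533 : OP := orK (nat_lit 166) (fin (add (add (add (start (orK (nat_lit 165) (fin (add (add (add (start D6452) (orK (nat_lit 148) (fin (add (start D6446) D6454)))) D4181) (orK (nat_lit 145) (fin (add (start D443) (orK (nat_lit 185) (fin (add (start D444) (orK (nat_lit 148) (fin (add (start D6446) (orK (nat_lit 125) (fin (add (add (start (orK (nat_lit 146) (fin (add (start D6460) D6463)))) (orK (nat_lit 146) (fin (add (start D6463) (orK (nat_lit 105) (fin (add (start D6469) D6470))))))) (orK (nat_lit 105) (fin (add (start D6470) (orK (nat_lit 106) (fin (add (start D6479) (win (nat_lit 3) (nat_lit 5) (nat_lit 5) (nat_lit 4)))))))))))))))))))))))) (orK (nat_lit 169) (fin (add (add (start D6497) D3364) D6503)))) (orK (nat_lit 169) (fin (add (start D451) D6503)))) (orK (nat_lit 170) (fin (add (add (start (orK (nat_lit 169) (fin (add (start D1119) D2000)))) (orK (nat_lit 190) (fin (add (start D6519) (orK (nat_lit 151) (fin (add (start D22) (orK (nat_lit 150) (fin (add (start D21) D6522)))))))))) (orK (nat_lit 169) D6433))))))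
noncomputable def D6819 : OP := orK (nat_lit 166) (fin (add (add (start D6789) (orK (nat_lit 169) (fin (add (start D6497) D6808)))) D6817))
noncomputable def D6821 : OP := orK (nat_lit 187) (fin (add (start D34) D6819))
noncomputable def D6732 : OP := orK (nat_lit 169) (fin (add (add (start D6714) D6509) (orK (nat_lit 189) (fin (add (start D502) D6728)))))
noncomputable def D5555 : OP := orK (nat_lit 166) (fin (add (start D1484) D5553))
noncomputable def D5560 : OP := orK (nat_lit 187) (fin (add (start D5555) D5558))
noncomputable def D5562 : OP := orK (nat_lit 169) (fin (add (start D308) D5560))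
noncomputable def D5622 : AP := fin (add (start D37) (orK (nat_lit 228) (fin (add (start D5549) (orK (nat_lit 169) (fin (add (start D308) (orK (nat_lit 248) (fin (add (start D307) D2203))))))))))
noncomputable def D6592 : OP := orK (nat_lit 109) D6591
noncomputable def D6838 : AP := fin (add (add (add (add (add (add (start (orK (nat_lit 148) (fin (add (start D6545) (orK (nat_lit 167) (fin (add (start D3465) (orK (nat_lit 149) (fin (add (add (add (start (orK (nat_lit 150) (fin (add (start D6552) (orK (nat_lit 170) (fin (add (add (start (orK (nat_lit 190) D254)) (orK (nat_lit 171) (fin (add (start D6554) (orK (nat_lit 172) (fin (add (start (win (nat_lit 2) (nat_lit 8) (nat_lit 7) (nat_lit 3))) D6556))))))) (orK (nat_lit 147) (fin (add (start D4051) (orK (nat_lit 130) (fin (add (start D4053) (orK (nat_lit 129) (fin (add (start D6561) D6562)))))))))))))))) (orK (nat_lit 166) (fin (add (start D3470) (orK (nat_lit 150) (fin (add (start D6546) D6552))))))) (orK (nat_lit 169) (fin (add (add (add (start (orK (nat_lit 166) (fin (add (start D3470) (orK (nat_lit 190) (fin (add (start D1116) D1486))))))) (orK (nat_lit 170)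 (fin (add (start D1553) (orK (nat_lit 147) (fin (add (start D1555) D3276))))))) (orK (nat_lit 189) (fin (add (add (start (orK (nat_lit 166) (fin (add (start D502) D3470)))) (orK (nat_lit 108) (fin (add (start D6587) (orK (nat_lit 129) (fin (add (start D6588) D6592))))))) (orK (nat_lit 129) (fin (add (start (orK (nat_lit 108) (fin (add (start D6587) D6592)))) (orK (nat_lit 146) (fin (add (start (orK (nat_lit 130) (fin (add (start D6603) (win (nat_lit 4) (nat_lit 6) (nat_lit 6) (nat_lit 1)))))) (orK (nat_lit 166) (fin (add (start D436) D3470))))))))))))) (orK (nat_lit 166) (fin (add (start D3470) (orK (nat_lit 146) (fin (add (start D436) (orK (nat_lit 147) (fin (add (start D6615) (orK (nat_lit 126) (fin (add (start D6616) (orK (nat_lit 129) (fin (add (start D6617) (orK (nat_lit 186) (fin (add (start D452) D6624)))))))))))))))))))))) D6642)))))))))) (orK (nat_lit 188) D5622)) (orK (nat_lit 188) (fin (add (start D37) (orK (nat_lit 228) (fin (add (start D5549) (orK (nat_lit 167) (fin (add (start D342) (orK (nat_lit 187) (fin (add (start D32) (orK (nat_lit 226) (fin (add (start D2035) D5555)))))))))))))))) (orK (nat_lit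 167) (fin (add (add (add (add (add (start (orK (nat_lit 228) (fin (add (add (start (orK (nat_lit 229) (fin (add (start D61) (orK (nat_lit 187) (fin (add (start D32) (orK (nat_lit 188) (fin (add (start D521) D5555)))))))))) D6673) D6674)))) D6686) (orK (nat_lit 166) (fin (add (add (add (start (orK (nat_lit 146) (fin (add (start D437) D6403)))) (orK (nat_lit 169) (fin (add (add (start D6497) D6692) (orK (nat_lit 150) (fin (add (start D1997) (orK (nat_lit 170) (fin (add (start D1998) D2013)))))))))) (orK (nat_lit 165) (fin (add (add (start (orK (nat_lit 188) (fin (add (start D5551) (orK (nat_lit 187) D6699))))) D4181) (orK (nat_lit 146) (fin (add (start D437) (orK (nat_lit 145) (fin (add (start D443) (orK (nat_lit 185) (fin (add (start D444) D6460))))))))))))) D6732)))) (orK (nat_lit 228) (fin (add (add (add (start (orK (nat_lit 248) (fin (add (start D6362) D4696)))) (orK (nat_lit 229) (fin (add (start D61) (orK (nat_lit 188) (fin (add (start D521) D508))))))) (orK (nat_lit 229) (fin (add (start D61) (orK (nat_lit 188) (fin (add (start D521) D5562))))))) (orK (nat_lit 187) (fin (add (start D32) (orK (nat_lit 226)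 (fin (add (start D2035) (orK (nat_lit 225) (fin (add (start D2230) (orK (nat_lit 166) (fin (add (start D1484) (orK (nat_lit 205) (fin (add (start D2466) (orK (nat_lit 245) (fin (add (start D2535) (orK (nat_lit 185) (fin (add (start D3039) (orK (nat_lit 164) (fin (add (start D3074) (orK (nat_lit 165) (fin (add (start D6171) D3073))))))))))))))))))))))))))))))) (orK (nat_lit 188) (fin (add (add (start D6766) (orK (nat_lit 166) (fin (add (add (add (start D6413) D6768) D6732) (orK (nat_lit 169) (fin (add (start D451) D6780))))))) (orK (nat_lit 228) (fin (add (start D5549) D508))))))) D6821)))) (orK (nat_lit 188) (fin (add (start D37) (orK (nat_lit 228) (fin (add (start D5549) D5760))))))) (orK (nat_lit 167) (fin (add (add (add (start D6427) (orK (nat_lit 187) (fin (add (start D1307) D6819)))) D6821) D6533)))) (orK (nat_lit 167) (fin (add (add (add (start (orK (nat_lit 148) (fin (add (start D6545) D3465)))) D6686) (orK (nat_lit 188) (fin (add (start D37) D6766)))) D6427))))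
noncomputable def D5483 : OP := orK (nat_lit 286) (fin (add (start D1693) (orK (nat_lit 287) (fin (add (start D1694) D3950)))))
noncomputable def D5799 : OP := orK (nat_lit 267) (fin (add (add (start D5483) D3965) D3922))
noncomputable def D908 : AP := fin (add (start D37) (orK (nat_lit 247) (fin (add (start D861) D42))))
noncomputable def D909 : OP := orK (nat_lit 168) D908
noncomputable def D905 : OP := orK (nat_lit 168) (fin (add (start D37) (orK (nat_lit 247) (fin (add (start D860) D42)))))
noncomputable def D853 : OP := orK (nat_lit 147) (fin (add (start D850) D851))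
noncomputable def D871 : OP := orK (nat_lit 189) (fin (add (start D316) (orK (nat_lit 166) (fin (add (start D866) D867)))))
noncomputable def D4995 : AP := fin (add (add (add (start (orK (nat_lit 187) D4976)) D4986) D4992) (orK (nat_lit 266) (fin (add (start D1715) D4842))))
noncomputable def D1416 : OP := orK (nat_lit 188) (fin (add (start D270) D905))
noncomputable def D1424 : OP := orK (nat_lit 170) (fin (add (start D30) (orK (nat_lit 169) (fin (add (start D260) (orK (nat_lit 171) (fin (add (start D45) (orK (nat_lit 172) (fin (add (start D981) D1416)))))))))))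
noncomputable def D5791 : OP := orK (nat_lit 190) (fin (add (start D11) D1424))
noncomputable def D5793 : OP := orK (nat_lit 209) (fin (add (start D0) D5791))
noncomputable def D3963 : OP := win (nat_lit 2) (nat_lit 6) (nat_lit 9) (nat_lit 1)
noncomputable def D5519 : OP := orK (nat_lit 186) (fin (add (start D3963) D140))
noncomputable def D5591 : OP := orK (nat_lit 247) (fin (add (add (start D5422) (orK (nat_lit 187) (fin (add (start D5519) D1477)))) D5436))
noncomputable def D4028 : OP := orK (nat_lit 166) D4027
noncomputable def D4330 : OP := win (nat_lit 7) (nat_lit 7) (nat_lit 9) (nat_lit 1)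
noncomputable def D3184 : AP := fin (add (start D570) D572)
noncomputable def D3185 : OP := orK (nat_lit 267) D3184
noncomputable def D2722 : OP := win (nat_lit 0) (nat_lit 7) (nat_lit 10) (nat_lit 2)
noncomputable def D5537 : OP := orK (nat_lit 228) (fin (add (add (add (start (orK (nat_lit 231) (fin (add (start D2722) D200)))) (orK (nat_lit 229) (fin (add (start D61) (orK (nat_lit 247) (fin (add (start D86) D5430))))))) (orK (nat_lit 209) (fin (add (start D0) (orK (nat_lit 187) (fin (add (start D19) D566))))))) (orK (nat_lit 268) (fin (add (add (add (start (orK (nat_lit 248) D2202)) (orK (nat_lit 267) (fin (add (add (add (start (orK (nat_lit 247) D3184)) (orK (nat_lit 248) D3563)) D3568) D3572)))) (orK (nat_lit 247) (fin (add (start D3185) (orK (nat_lit 246) (fin (add (start D567) (orK (nat_lit 187) (fin (add (start D134) D5519)))))))))) (orK (nat_lit 187) (fin (add (start D4330) (orK (nat_lit 186) (fin (add (start D3963) (orK (nat_lit 167) (fin (add (start D31) (orK (nat_lit 184) (fin (add (start D4794) D4028)))))))))))))))))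
noncomputable def D6154 : AP := fin (add (start D134) (orK (nat_lit 229) (fin (add (start D1152) (orK (nat_lit 188) (fin (add (start D41) (orK (nat_lit 186) (fin (add (start D140) (orK (nat_lit 189) (fin (add (start D6124) (orK (nat_lit 170) (fin (add (start D6125) (orK (nat_lit 190) (fin (add (start D28) D6089)))))))))))))))))))
noncomputable def D5952 : OP := orK (nat_lit 188) (fin (add (start D1538) D5950))
noncomputable def D5908 : OP := orK (nat_lit 165) (fin (add (start D5906) D444))
noncomputable def D6122 : AP := fin (add (add (add (add (start D3945) (orK (nat_lit 226) (fin (add (start D2035) (orK (nat_lit 168) (fin (add (start D1307) (orK (nat_lit 248) (fin (add (start D1368) (orK (nat_lit 169) (fin (add (add (add (start D5896) D5901) (orK (nat_lit 185) (fin (add (add (add (start (orK (nat_lit 186) D5898)) (orK (nat_lit 186) D5904)) (orK (nat_lit 189) (fin (add (add (add (start (orK (nat_lit 166) (fin (add (start D502) D5908)))) (orK (nat_lit 190) (fin (add (start D5913) D5919)))) (orK (nat_lit 149) (fin (add (start D5917) (orK (nat_lit 166) (fin (add (start D502) D1485))))))) (orK (nat_lit 166) (fin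 (add (start D5908) (orK (nat_lit 149) (fin (add (start D1485) D5917)))))))))) (orK (nat_lit 186) D5932))))) D5941))))))))))))) (orK (nat_lit 166) (fin (add (start D1484) (orK (nat_lit 226) (fin (add (start D2035) (orK (nat_lit 228) (fin (add (start D32) (orK (nat_lit 209) (fin (add (start D2036) (orK (nat_lit 189) (fin (add (add (add (start D5952) (orK (nat_lit 190) (fin (add (start D5953) (orK (nat_lit 169) (fin (add (start D5954) D1507))))))) (orK (nat_lit 169) (fin (add (start D1507) (orK (nat_lit 168) (fin (add (start D502) D5960))))))) (orK (nat_lit 188) (fin (add (start D1538) D5967))))))))))))))))))) (orK (nat_lit 228) (fin (add (start D32) (orK (nat_lit 246) (fin (add (start D872) (orK (nat_lit 170) (fin (add (add (add (start (orK (nat_lit 168) (fin (add (start D1307) (orK (nat_lit 169) D5895))))) (orK (nat_lit 190) D5997)) (orK (nat_lit 168) (fin (add (start D1307) (orK (nat_lit 169) (fin (add (start D1063) (orK (nat_lit 147) (fin (add (start D985) D5939)))))))))) (orK (nat_lit 148) (fin (add (start D1382) (orK (nat_lit 147) (fin (add (start D1381) (orK (nat_lit 150) (fin (add (start (orK (nat_lit 190)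 D6012)) (orK (nat_lit 126) (fin (add (start D4208) (orK (nat_lit 127) (fin (add (start (win (nat_lit 2) (nat_lit 6) (nat_lit 6) (nat_lit 1))) D4207))))))))))))))))))))))))) (orK (nat_lit 228) (fin (add (start D32) (orK (nat_lit 226) (fin (add (start D2035) (orK (nat_lit 209) (fin (add (start D2036) (orK (nat_lit 147) (fin (add (add (add (start D1378) (orK (nat_lit 166) (fin (add (start D1484) (orK (nat_lit 148) (fin (add (start D1381) (orK (nat_lit 164) (fin (add (start D6036) (orK (nat_lit 149) (fin (add (start D6037) (orK (nat_lit 189) (fin (add (start D6038) D5952)))))))))))))))) (orK (nat_lit 149) (fin (add (add (add (start (orK (nat_lit 148) (fin (add (start D1381) (orK (nat_lit 150) (fin (add (start D1229) D6066))))))) (orK (nat_lit 128) (fin (add (start D6071) (orK (nat_lit 127) (fin (add (start D6072) (orK (nat_lit 189) (fin (add (start D6038) (orK (nat_lit 186) (fin (add (start D6073) D6080))))))))))))) (orK (nat_lit 189) (fin (add (start D6038) (orK (nat_lit 188) (fin (add (start D1538) (orK (nat_lit 190) (fin (add (start D352) (orK (nat_lit 170) (fin (add (start D6089) (orK (nat_lit 150) (fin (add (start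 D1011) D252)))))))))))))))) (orK (nat_lit 148) (fin (add (start D1381) (orK (nat_lit 169) (fin (add (start D1552) (orK (nat_lit 170) (fin (add (start D1553) D6101))))))))))))) D6113)))))))))))))
noncomputable def D1500 : OP := orK (nat_lit 228) (fin (add (start D578) (orK (nat_lit 167) (fin (add (start D31) (orK (nat_lit 190) (fin (add (start D11) (orK (nat_lit 168) (fin (add (start D1307) (orK (nat_lit 166) (fin (add (start D1484) (orK (nat_lit 169) (fin (add (start D1116) (orK (nat_lit 149) (fin (add (start D1485) D1486))))))))))))))))))))
noncomputable def D3977 : OP := orK (nat_lit 228) (fin (add (start D570) D3975))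
noncomputable def D4024 : OP := orK (nat_lit 148) (fin (add (start D1382) (orK (nat_lit 147) D4021)))
noncomputable def D2317 : OP := orK (nat_lit 249) (fin (add (start D75) D2315))
noncomputable def D897 : OP := orK (nat_lit 186) (fin (add (start D140) (orK (nat_lit 185) (fin (add (start D356) (orK (nat_lit 165) (fin (add (start D357) (orK (nat_lit 246) (fin (add (start D134) (orK (nat_lit 205) (fin (add (start D364) (orK (nat_lit 228) (fin (add (start D567) D885)))))))))))))))))
noncomputable def D878 : OP := orK (nat_lit 246) (fin (add (start D134) (orK (nat_lit 167) (fin (add (start D872) (orK (nat_lit 228) (fin (add (start D567) D31))))))))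
noncomputable def D7058 : AP := fin (add (add (add (add (add (add (add (add (add (add (add (add (add (add (add (start (orK (nat_lit 208) (fin (add (add (start D3558) (orK (nat_lit 247) (fin (add (add (add (start (orK (nat_lit 267) (fin (add (start D580) D5483)))) D5497) (orK (nat_lit 267) (fin (add (start D580) (orK (nat_lit 266) (fin (add (start D1302) (orK (nat_lit 187) (fin (add (start D1301) D574)))))))))) (orK (nat_lit 267) D5504))))) D5537)))) (orK (nat_lit 208) (fin (add (add (add (start D3558) (orK (nat_lit 188) (fin (add (add (add (start (orK (nat_lit 247) (fin (add (start D42) (orK (nat_lit 187) (fin (add (add (add (start D878) (orK (nat_lit 166) (fin (add (start D867) (orK (nat_lit 167) (fin (add (start D1484) D853))))))) D897) D4866))))))) D905) D909) (orK (nat_lit 168) (fin (add (start D37) (orK (nat_lit 228) (fin (add (start D5549) (orK (nat_lit 167) (fin (add (start D342) D5562))))))))))))) D5584) D5585)))) (orK (nat_lit 208) (fin (add (add (start D3558) D5591) (orK (nat_lit 188) (fin (add (add (add (start (orK (nat_lit 247) (fin (add (start D42) (orK (nat_lit 228) (fin (add (add (start D3975) (orK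 (nat_lit 248) (fin (add (start D5593) D2317)))) (orK (nat_lit 229) (fin (add (start D61) D5609)))))))))) D905) D909) (orK (nat_lit 168) D5622)))))))) (orK (nat_lit 208) (fin (add (add (start D3558) (orK (nat_lit 247) (fin (add (add (start D5422) D4862) D5657)))) D5661)))) D5734) (orK (nat_lit 208) (fin (add (add (add (start D3558) (orK (nat_lit 228) D5788)) D5793) (orK (nat_lit 209) (fin (add (start D18) D5791))))))) (orK (nat_lit 208) (fin (add (add (add (start D3558) (orK (nat_lit 247) (fin (add (add (add (add (add (add (start D5432) D5799) D5497) (orK (nat_lit 267) (fin (add (add (add (start D5483) D3965) D4906) (orK (nat_lit 268) (fin (add (start D572) (orK (nat_lit 266) (fin (add (start D1302) D5724)))))))))) D5821) (orK (nat_lit 187) (fin (add (add (start (orK (nat_lit 266) (fin (add (start D1301) (orK (nat_lit 267) (fin (add (start D1302) D3965))))))) (orK (nat_lit 166) (fin (add (start D867) (orK (nat_lit 167) (fin (add (start D1484) D4024))))))) D4866)))) (orK (nat_lit 267) (fin (add (add (add (start D5483) D3977) D5860) (orK (nat_lit 266) (fin (add (start D1302) (orK (nat_lit 187) (fin (add (start D1301)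 (orK (nat_lit 166) (fin (add (start D867) (orK (nat_lit 167) (fin (add (start D1484) D34))))))))))))))))))) D5537) (orK (nat_lit 209) (fin (add (start D18) (orK (nat_lit 187) (fin (add (start D19) D1500)))))))))) (orK (nat_lit 187) (fin (add (add (add (add (add (add (start D5881) D5882) D5892) (orK (nat_lit 167) D6122)) (orK (nat_lit 247) (fin (add (add (start D3218) (orK (nat_lit 248) (fin (add (start D1369) (orK (nat_lit 186) (fin (add (start D140) (orK (nat_lit 188) (fin (add (start D41) (orK (nat_lit 189) (fin (add (start D6124) (orK (nat_lit 170) (fin (add (start D6125) (orK (nat_lit 190) (fin (add (start D6089) (orK (nat_lit 229) (fin (add (start D28) (orK (nat_lit 231) (fin (add (start D2889) D752))))))))))))))))))))))))) (orK (nat_lit 246) D6154))))) (orK (nat_lit 166) (fin (add (add (start D6164) (orK (nat_lit 167) (fin (add (start D1484) D6168)))) (orK (nat_lit 167) D6194))))) (orK (nat_lit 246) (fin (add (add (start D3940) (orK (nat_lit 247) D6154)) D3947))))))) (orK (nat_lit 208) (fin (add (add (add (add (add (start D5537) D5661) D5591) D5793) (orK (nat_lit 188) (fin (add (add (add (start (orK (nat_lit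 247) (fin (add (start D42) (orK (nat_lit 248) (fin (add (add (add (start (orK (nat_lit 268) (fin (add (start D1770) D5439)))) (orK (nat_lit 246) D4995)) (orK (nat_lit 228) (fin (add (start D3975) (orK (nat_lit 268) (fin (add (start D402) D114))))))) (orK (nat_lit 229) (fin (add (add (start (orK (nat_lit 228) D3974)) (orK (nat_lit 190) (fin (add (add (start (orK (nat_lit 249) (fin (add (start D317) D176)))) (orK (nat_lit 189) (fin (add (start D316) (orK (nat_lit 170) (fin (add (add (start (orK (nat_lit 171) (fin (add (start D45) D953)))) D6228) (orK (nat_lit 187) D6232)))))))) (orK (nat_lit 246) (fin (add (start D80) (orK (nat_lit 187) (fin (add (start D134) D871)))))))))) (orK (nat_lit 231) (fin (add (start D1191) D6245))))))))))))) D905) D909) (orK (nat_lit 168) (fin (add (add (start (orK (nat_lit 228) (fin (add (start D5549) (orK (nat_lit 169) (fin (add (start D308) (orK (nat_lit 248) (fin (add (start D307) D345)))))))))) (orK (nat_lit 148) (fin (add (start D330) D528)))) (orK (nat_lit 148) (fin (add (start D330) (orK (nat_lit 149) (fin (add (start D159) (orK (nat_lit 228) (fin (add (start D160) D5549))))))))))))))))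 D6281)))) (orK (nat_lit 208) (fin (add (add (start D3558) (orK (nat_lit 247) (fin (add (add (add (start D5436) (orK (nat_lit 267) (fin (add (start D580) D4906)))) D5821) (orK (nat_lit 187) (fin (add (add (add (start D6287) D4866) D6291) (orK (nat_lit 188) (fin (add (start D41) (orK (nat_lit 186) (fin (add (start D140) (orK (nat_lit 248) (fin (add (start D1369) (orK (nat_lit 185) (fin (add (start D356) (orK (nat_lit 246) (fin (add (start D134) (orK (nat_lit 249) (fin (add (start D4840) (orK (nat_lit 225) (fin (add (start D624) (orK (nat_lit 245) (fin (add (start D136) (orK (nat_lit 205) (fin (add (start D364) (orK (nat_lit 264) (fin (add (start D4481) D627))))))))))))))))))))))))))))))))))))) D5584)))) (orK (nat_lit 208) (fin (add (add (start D3558) (orK (nat_lit 188) (fin (add (add (add (start (orK (nat_lit 187) (fin (add (add (add (start (orK (nat_lit 247) (fin (add (start D42) (orK (nat_lit 246) (fin (add (start D134) (orK (nat_lit 167) (fin (add (start D872) D853)))))))))) (orK (nat_lit 167) (fin (add (start D853) (orK (nat_lit 166) (fin (add (start D1484) (orK (nat_lit 165) D6327)))))))) (orK (nat_lit 247)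 (fin (add (start D42) (orK (nat_lit 248) (fin (add (start D1369) (orK (nat_lit 186) (fin (add (start D140) (orK (nat_lit 246) (fin (add (start D134) (orK (nat_lit 245) (fin (add (add (start D4241) D5636) (orK (nat_lit 249) (fin (add (start (orK (nat_lit 269) (fin (add (start D2459) (win (nat_lit 6) (nat_lit 8) (nat_lit 9) (nat_lit 2)))))) D5002))))))))))))))))))) (orK (nat_lit 247) (fin (add (start D42) (orK (nat_lit 246) (fin (add (start D134) (orK (nat_lit 167) (fin (add (start D872) (orK (nat_lit 147) (fin (add (start D850) D1378)))))))))))))))) D905) D909) (orK (nat_lit 168) (fin (add (start D37) (orK (nat_lit 167) (fin (add (add (add (start D924) (orK (nat_lit 169) (fin (add (add (start D5560) (orK (nat_lit 149) (fin (add (start D6367) (orK (nat_lit 129) (fin (add (start D6368) (win (nat_lit 1) (nat_lit 8) (nat_lit 6) (nat_lit 3))))))))) (orK (nat_lit 228) (fin (add (start D308) (orK (nat_lit 187) (fin (add (start D32) D5558)))))))))) (orK (nat_lit 228) (fin (add (start D342) D5748)))) (orK (nat_lit 166) (fin (add (add (start (orK (nat_lit 146) (fin (add (start (orK (nat_lit 187) D6390)) D6403)))) (orK (nat_lit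 189) (fin (add (start D501) (orK (nat_lit 190) (fin (add (start D541) D910))))))) D6413))))))))))))) D6281)))) (orK (nat_lit 208) (fin (add (add (start D3558) (orK (nat_lit 247) (fin (add (add (add (start D5422) D5799) D5436) (orK (nat_lit 168) (fin (add (add (add (start (orK (nat_lit 188) D5419)) (orK (nat_lit 188) (fin (add (start D860) D861)))) (orK (nat_lit 167) (fin (add (add (add (start D6427) (orK (nat_lit 187) D6288)) (orK (nat_lit 187) (fin (add (start D34) D1743)))) D6533)))) (orK (nat_lit 188) D5433)))))))) D5477)))) (orK (nat_lit 208) (fin (add (add (add (start D3558) (orK (nat_lit 168) D6838)) D5584) D5585)))) (orK (nat_lit 208) (fin (add (add (add (start D3558) (orK (nat_lit 247) (fin (add (add (add (start D5422) D5432) D5436) (orK (nat_lit 228) (fin (add (add (start D3975) (orK (nat_lit 187) (fin (add (add (start (orK (nat_lit 246) (fin (add (start D134) (orK (nat_lit 167) (fin (add (start D872) D31))))))) (orK (nat_lit 168) (fin (add (start D2528) (orK (nat_lit 167) (fin (add (start D1307) D31))))))) (orK (nat_lit 246) (fin (add (start D134) (orK (nat_lit 188) (fin (add (start D85) D6857))))))))))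 (orK (nat_lit 231) (fin (add (start D200) (orK (nat_lit 248) (fin (add (add (start D4768) (orK (nat_lit 188) (fin (add (start D85) (orK (nat_lit 268) (fin (add (start D402) (orK (nat_lit 189) (fin (add (start D127) (orK (nat_lit 190) (fin (add (start D316) (orK (nat_lit 269) (fin (add (start D112) (orK (nat_lit 271) (fin (add (start D2888) (orK (nat_lit 251) (fin (add (start D6864) D6865)))))))))))))))))))))) (orK (nat_lit 188) (fin (add (start D85) (orK (nat_lit 189) (fin (add (start D127) (orK (nat_lit 190) (fin (add (start D316) (orK (nat_lit 187) (fin (add (start D2197) (orK (nat_lit 170) (fin (add (start D6089) D752)))))))))))))))))))))))))))) D6281) (orK (nat_lit 209) (fin (add (start D18) D592))))))) (orK (nat_lit 208) (fin (add (add (add (start D3558) (orK (nat_lit 247) (fin (add (add (add (start D5422) D5432) D5436) (orK (nat_lit 228) (fin (add (add (start D3975) (orK (nat_lit 188) (fin (add (start D85) (orK (nat_lit 187) (fin (add (add (start D566) (orK (nat_lit 186) (fin (add (start D140) (orK (nat_lit 185) (fin (add (start D356) (orK (nat_lit 165) (fin (add (start D357) (orK (nat_lit 248) (fin (add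 (start D1369) (orK (nat_lit 189) (fin (add (start D127) (orK (nat_lit 190) (fin (add (start D316) (orK (nat_lit 249) (fin (add (start D75) (orK (nat_lit 225) (fin (add (start D649) (orK (nat_lit 205) (fin (add (start D364) (orK (nat_lit 244) (fin (add (start D880) (orK (nat_lit 245) (fin (add (start D3070) (win (nat_lit 4) (nat_lit 4) (nat_lit 11) (nat_lit 2)))))))))))))))))))))))))))))))))))) D5424))))))) (orK (nat_lit 188) (fin (add (start D85) (orK (nat_lit 248) (fin (add (add (start D2199) D427) (orK (nat_lit 189) (fin (add (start D127) (orK (nat_lit 187) (fin (add (start D2197) (orK (nat_lit 190) (fin (add (start D316) (orK (nat_lit 170) (fin (add (start D6089) (orK (nat_lit 249) (fin (add (start D1395) D75)))))))))))))))))))))))))))) (orK (nat_lit 209) (fin (add (start D0) D5473)))) D5477)))) (orK (nat_lit 209) (fin (add (add (add (start D3258) (orK (nat_lit 229) (fin (add (start (orK (nat_lit 228) (fin (add (start D1508) (orK (nat_lit 247) (fin (add (start D86) D3991))))))) (orK (nat_lit 170) (fin (add (add (add (start D1660) (orK (nat_lit 190) (fin (add (start D28) (orK (nat_lit 171) (fin (add (start D45)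 (orK (nat_lit 169) (fin (add (start D260) D964)))))))))) (orK (nat_lit 169) (fin (add (add (add (start D6959) D1847) (orK (nat_lit 189) (fin (add (start D1507) D1845)))) D7021)))) (orK (nat_lit 190) (fin (add (add (start D26) D1074) (orK (nat_lit 150) (fin (add (start D20) D255))))))))))))) (orK (nat_lit 231) (fin (add (start D1106) (orK (nat_lit 232) (fin (add (start D789) (orK (nat_lit 229) (fin (add (start (orK (nat_lit 249) (fin (add (start D2664) D1762)))) (orK (nat_lit 252) (fin (add (start D791) (orK (nat_lit 251) (fin (add (start D7034) (orK (nat_lit 212) (fin (add (start D790) D7036))))))))))))))))))) (orK (nat_lit 226) (fin (add (start D3997) (orK (nat_lit 228) (fin (add (start D2036) (orK (nat_lit 187) (fin (add (add (start D4329) D4410) D7049)))))))))))))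
noncomputable def D3177 : OP := win (nat_lit 3) (nat_lit 7) (nat_lit 10) (nat_lit 5)
noncomputable def D3181 : OP := orK (nat_lit 286) (fin (add (start D1693) (orK (nat_lit 287) (fin (add (start D1694) D3177)))))
noncomputable def D4319 : OP := win (nat_lit 5) (nat_lit 6) (nat_lit 10) (nat_lit 1)
noncomputable def D4372 : OP := orK (nat_lit 184) (fin (add (start D4369) D4370))
noncomputable def D4534 : OP := orK (nat_lit 185) (fin (add (start D4373) D4372))
noncomputable def D5169 : OP := orK (nat_lit 167) (fin (add (start D31) (orK (nat_lit 168) (fin (add (start D1307) D4025)))))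
noncomputable def D4598 : OP := orK (nat_lit 165) (fin (add (start D4586) D3076))
noncomputable def D3998 : AP := fin (add (start D2036) D3997)
noncomputable def D4766 : OP := orK (nat_lit 229) (fin (add (start D1169) (orK (nat_lit 231) (fin (add (start D1168) D4762)))))
noncomputable def D5413 : AP := fin (add (add (add (start D4766) (orK (nat_lit 226) (fin (add (add (add (start (orK (nat_lit 209) D3998)) (orK (nat_lit 229) D4274)) (orK (nat_lit 225) (fin (add (add (start D4300) D5133) (orK (nat_lit 245) (fin (add (start D2535) (orK (nat_lit 246) (fin (add (start (win (nat_lit 5) (nat_lit 5) (nat_lit 11) (nat_lit 0))) D5138)))))))))) (orK (nat_lit 208) (fin (add (start D4319) (orK (nat_lit 225) (fin (add (start D2230) (orK (nat_lit 245) (fin (add (start D2535) (orK (nat_lit 205) (fin (add (start D2466) (orK (nat_lit 185) (fin (add (add (start D4375) (orK (nat_lit 187) (fin (add (start (orK (nat_lit 186) (fin (add (start D356) D4578)))) (orK (nat_lit 246) (fin (add (start D3935) D3040))))))) D4598))))))))))))))))))) D3254) (orK (nat_lit 247) (fin (add (add (add (add (add (start D1813) (orK (nat_lit 208) (fin (add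 (start D3558) (orK (nat_lit 267) (fin (add (start D570) (orK (nat_lit 186) (fin (add (start D1803) (orK (nat_lit 187) (fin (add (start D140) D5169))))))))))))) (orK (nat_lit 208) (fin (add (start D3558) (orK (nat_lit 267) (fin (add (start D570) (orK (nat_lit 266) (fin (add (start D1302) (orK (nat_lit 246) (fin (add (start D1715) (orK (nat_lit 245) (fin (add (start D135) (orK (nat_lit 268) (fin (add (start D3605) D572))))))))))))))))))) (orK (nat_lit 246) (fin (add (add (add (start D1817) (orK (nat_lit 187) (fin (add (start D134) (orK (nat_lit 186) (fin (add (start D140) (orK (nat_lit 208) (fin (add (start D3963) D5169)))))))))) D5318) (orK (nat_lit 245) (fin (add (start D135) (orK (nat_lit 226) (fin (add (add (add (add (start (orK (nat_lit 187) (fin (add (start D3935) (orK (nat_lit 208) (fin (add (start D4319) (orK (nat_lit 186) (fin (add (start D140) (orK (nat_lit 185) (fin (add (start D356) (orK (nat_lit 206) D5319)))))))))))))) (orK (nat_lit 208) (fin (add (start D4319) (orK (nat_lit 225) (fin (add (start D2230) (orK (nat_lit 205) (fin (add (start D2466) D4534)))))))))) (orK (nat_lit 208) (fin (add (start D4319)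 (orK (nat_lit 225) (fin (add (start D2230) (orK (nat_lit 187) (fin (add (start D3935) (orK (nat_lit 205) (fin (add (start D2466) (orK (nat_lit 186) (fin (add (start D140) (orK (nat_lit 265) (fin (add (start D139) (orK (nat_lit 284) (fin (add (start D4634) (orK (nat_lit 285) (fin (add (start D4635) D3789))))))))))))))))))))))))) (orK (nat_lit 187) (fin (add (start D3935) (orK (nat_lit 186) (fin (add (start D140) (orK (nat_lit 206) (fin (add (start D2417) (orK (nat_lit 204) (fin (add (start D5351) D5356))))))))))))) (orK (nat_lit 208) (fin (add (start D4319) (orK (nat_lit 187) (fin (add (start D3935) (orK (nat_lit 225) (fin (add (start D2230) (orK (nat_lit 205) (fin (add (start D2466) (orK (nat_lit 185) (fin (add (start D4373) (orK (nat_lit 184) (fin (add (start D5147) D4370)))))))))))))))))))))))))))) (orK (nat_lit 206) (fin (add (add (add (start D3250) (orK (nat_lit 205) (fin (add (start D3009) (orK (nat_lit 208) (fin (add (start D3558) (orK (nat_lit 185) (fin (add (start D3060) (orK (nat_lit 225) (fin (add (start D3061) (orK (nat_lit 267) (fin (add (start D570) (orK (nat_lit 266) (fin (add (start D1302) (orK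 (nat_lit 245) (fin (add (start D4482) (orK (nat_lit 244) (fin (add (start D3070) (orK (nat_lit 268) (fin (add (start D3607) D572)))))))))))))))))))))))))))) (orK (nat_lit 267) (fin (add (start D1791) D3181)))) D3152)))) (orK (nat_lit 267) (fin (add (start (orK (nat_lit 287) (fin (add (start D3177) D1788)))) D4898)))))))
noncomputable def D4065 : OP := orK (nat_lit 148) (fin (add (start D1382) (orK (nat_lit 147) (fin (add (start D1381) (orK (nat_lit 146) (fin (add (start D1376) (orK (nat_lit 149) (fin (add (start D4050) (orK (nat_lit 150) (fin (add (start D4051) D4055))))))))))))))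
noncomputable def D4089 : OP := orK (nat_lit 167) (fin (add (add (start D1743) D4065) (orK (nat_lit 168) (fin (add (start D1307) (orK (nat_lit 186) (fin (add (start D4025) D140))))))))
noncomputable def D4873 : AP := fin (add (start D571) D4089)
noncomputable def D4942 : OP := orK (nat_lit 226) (fin (add (start D4940) D4139))
noncomputable def D3183 : OP := orK (nat_lit 267) (fin (add (start D572) D3181))
noncomputable def D3169 : OP := orK (nat_lit 166) (fin (add (start D867) (orK (nat_lit 167) (fin (add (start D1484) D3165)))))
noncomputable def D681 : OP := orK (nat_lit 246) (fin (add (start D678) D679))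
noncomputable def D3912 : OP := orK (nat_lit 269) (fin (add (start D112) (orK (nat_lit 267) (fin (add (start D109) (orK (nat_lit 247) (fin (add (start D681) (orK (nat_lit 266) (fin (add (start (orK (nat_lit 286) (fin (add (start (win (nat_lit 1) (nat_lit 6) (nat_lit 10) (nat_lit 1))) D3623)))) D3904)))))))))))
noncomputable def D4749 : OP := orK (nat_lit 206) (fin (add (start D1) (orK (nat_lit 185) (fin (add (start (win (nat_lit 2) (nat_lit 5) (nat_lit 9) (nat_lit 4))) (orK (nat_lit 205) (fin (add (start D3060) (orK (nat_lit 204) (fin (add (start D4737) D4741)))))))))))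
noncomputable def D4609 : OP := orK (nat_lit 204) (fin (add (start D3782) (orK (nat_lit 184) (fin (add (start D4601) (orK (nat_lit 164) (fin (add (start D4602) D4603))))))))
noncomputable def D4584 : OP := orK (nat_lit 206) (fin (add (start D3061) (orK (nat_lit 185) (fin (add (start D3060) D4580)))))
noncomputable def D4423 : AP := fin (add (start D3009) D3061)
noncomputable def D4424 : OP := orK (nat_lit 206) D4423
noncomputable def D4433 : OP := win (nat_lit 0) (nat_lit 5) (nat_lit 12) (nat_lit 2)
noncomputable def D4381 : OP := orK (nat_lit 205) (fin (add (start D2466) (orK (nat_lit 245) (fin (add (start D2535) (orK (nat_lit 185) (fin (add (start D4372) D4375))))))))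
noncomputable def D4657 : AP := fin (add (add (add (start (orK (nat_lit 205) (fin (add (add (add (start D4424) D4428) (orK (nat_lit 226) (fin (add (start D2466) D2230)))) (orK (nat_lit 204) (fin (add (start D3782) D3783))))))) (orK (nat_lit 226) (fin (add (start D2230) (orK (nat_lit 245) (fin (add (start D2535) (orK (nat_lit 248) (fin (add (start D137) (orK (nat_lit 268) (fin (add (start D402) (orK (nat_lit 267) (fin (add (start D109) (orK (nat_lit 269) (fin (add (start D112) (orK (nat_lit 246) (fin (add (start D4433) D4434)))))))))))))))))))))) (orK (nat_lit 248) (fin (add (add (add (add (start (orK (nat_lit 226) (fin (add (start D137) D4381)))) (orK (nat_lit 268) (fin (add (start D402) (orK (nat_lit 267) (fin (add (start D109) (orK (nat_lit 249) (fin (add (start D649) (orK (nat_lit 266) (fin (add (start D1778) D4468))))))))))))) (orK (nat_lit 268) (fin (add (add (add (start D108) D124) D207) D3912)))) (orK (nat_lit 267) (fin (add (add (start D4479) (orK (nat_lit 247) (fin (add (start D570) (orK (nat_lit 266) (fin (add (start D1302) (orK (nat_lit 206) (fin (add (start D1791) (orK (nat_lit 205) (fin (add (start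 D3009) (orK (nat_lit 185) (fin (add (start D3060) (orK (nat_lit 264) (fin (add (start (win (nat_lit 4) (nat_lit 4) (nat_lit 12) (nat_lit 1))) (orK (nat_lit 245) (fin (add (start D4481) D4482)))))))))))))))))))))) (orK (nat_lit 247) (fin (add (add (start (orK (nat_lit 266) (fin (add (start D1302) (orK (nat_lit 206) (fin (add (start D1791) (orK (nat_lit 205) (fin (add (start D3009) (orK (nat_lit 185) (fin (add (start D3060) (orK (nat_lit 246) (fin (add (start D4501) D4502)))))))))))))))) (orK (nat_lit 268) (fin (add (start D572) (orK (nat_lit 269) (fin (add (start D112) D3898))))))) (orK (nat_lit 268) (fin (add (start D572) (orK (nat_lit 266) (fin (add (start D1302) (orK (nat_lit 265) (fin (add (start D3901) (orK (nat_lit 245) (fin (add (start D3589) (orK (nat_lit 285) (fin (add (start D3595) (orK (nat_lit 206) (fin (add (start D3811) D1791))))))))))))))))))))))))) (orK (nat_lit 226) (fin (add (start D137) (orK (nat_lit 205) (fin (add (start D2466) (orK (nat_lit 245) (fin (add (start D2535) (orK (nat_lit 268) (fin (add (start D402) (orK (nat_lit 269) (fin (add (start D112) (orK (nat_lit 246) (fin (add (start D4433)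 D4534)))))))))))))))))))))) (orK (nat_lit 247) (fin (add (add (start (orK (nat_lit 267) (fin (add (start D570) (orK (nat_lit 206) (fin (add (start D1791) (orK (nat_lit 205) D4423)))))))) (orK (nat_lit 267) (fin (add (start D570) (orK (nat_lit 268) (fin (add (start D572) (orK (nat_lit 266) (fin (add (start D1302) (orK (nat_lit 245) (fin (add (add (start (orK (nat_lit 246) D3880)) (orK (nat_lit 269) (fin (add (start D3590) (orK (nat_lit 289) (fin (add (start D3586) (win (nat_lit 6) (nat_lit 8) (nat_lit 10) (nat_lit 2))))))))) (orK (nat_lit 265) D4561)))))))))))))) (orK (nat_lit 245) (fin (add (add (add (start (orK (nat_lit 246) (fin (add (start D135) (orK (nat_lit 248) D4574))))) (orK (nat_lit 205) (fin (add (add (add (start D4424) D4584) (orK (nat_lit 185) (fin (add (add (start (orK (nat_lit 165) (fin (add (start D3072) D4586)))) D4596) D4598)))) D4609)))) (orK (nat_lit 246) (fin (add (start D135) (orK (nat_lit 248) (fin (add (start D4573) (orK (nat_lit 265) (fin (add (start D138) (orK (nat_lit 266) (fin (add (start D4612) D4615))))))))))))) (orK (nat_lit 205) (fin (add (add (add (start D4424) D4584) (orK (nat_lit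 265) (fin (add (add (start (orK (nat_lit 185) D4626)) (orK (nat_lit 246) (fin (add (start (orK (nat_lit 264) (fin (add (start D4589) D4628)))) D4631)))) (orK (nat_lit 285) (fin (add (start D4637) (orK (nat_lit 204) (fin (add (start D3814) D4644)))))))))) D4609))))))))))
noncomputable def D4333 : AP := fin (add (start D3936) D615)
noncomputable def D4120 : OP := orK (nat_lit 168) (fin (add (start D1307) (orK (nat_lit 169) (fin (add (start D1063) (orK (nat_lit 150) (fin (add (start D1998) (orK (nat_lit 166) (fin (add (start D1997) D1484)))))))))))
noncomputable def D1079 : OP := orK (nat_lit 208) D8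
noncomputable def D5415 : AP := fin (add (add (add (add (add (add (add (start (orK (nat_lit 209) (fin (add (add (start D3258) (orK (nat_lit 169) (fin (add (add (add (add (add (start (orK (nat_lit 189) D3263)) (orK (nat_lit 189) (fin (add (start D1507) (orK (nat_lit 168) (fin (add (add (add (start D3266) (orK (nat_lit 150) (fin (add (start D3267) D3273)))) (orK (nat_lit 148) (fin (add (start D1858) D3282)))) D3295))))))) (orK (nat_lit 229) (fin (add (start D1539) (orK (nat_lit 168) (fin (add (add (add (start (orK (nat_lit 189) D3265)) (orK (nat_lit 150) (fin (add (start D1646) D3273)))) D3304) (orK (nat_lit 167) (fin (add (add (start D3286) D3289) D3305)))))))))) (orK (nat_lit 189) (fin (add (start D1507) (orK (nat_lit 168) (fin (add (add (start (orK (nat_lit 229) (fin (add (start D1111) D3260)))) (orK (nat_lit 167) (fin (add (add (start D3286) D3289) D3317)))) (orK (nat_lit 228) (fin (add (add (start (orK (nat_lit 229) D3321)) (orK (nat_lit 167) (fin (add (add (start (orK (nat_lit 187) (fin (add (start D1063) D32)))) D3289) D3330)))) D3333)))))))))) (orK (nat_lit 228) (fin (add (start D3333) (orK (nat_lit 167)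 (fin (add (add (add (start (orK (nat_lit 187) (fin (add (start D32) (orK (nat_lit 168) D3285))))) (orK (nat_lit 187) D3350)) (orK (nat_lit 168) (fin (add (add (add (start D3355) (orK (nat_lit 151) (fin (add (start D1990) (orK (nat_lit 171) (fin (add (start D1584) D2065))))))) D3317) D3368)))) (orK (nat_lit 187) (fin (add (start D32) (orK (nat_lit 168) D3373))))))))))) (orK (nat_lit 171) (fin (add (add (add (add (start (orK (nat_lit 149) (fin (add (start D1552) D1560)))) (orK (nat_lit 149) (fin (add (start D1552) D3388)))) D3437) D3464) (orK (nat_lit 168) (fin (add (add (add (start (orK (nat_lit 148) (fin (add (start D265) (orK (nat_lit 167) (fin (add (start D3465) (orK (nat_lit 149) (fin (add (start D1552) (orK (nat_lit 166) (fin (add (start D3470) D3471))))))))))))) (orK (nat_lit 151) (fin (add (start D1584) (orK (nat_lit 149) (fin (add (start D1552) (orK (nat_lit 148) (fin (add (add (start D1558) (orK (nat_lit 131) (fin (add (add (add (add (start (orK (nat_lit 132) (fin (add (start D3480) D3486)))) (orK (nat_lit 150) (fin (add (start D1587) (orK (nat_lit 111) (fin (add (start D1588) (orK (nat_lit 128) (fin (add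 (start D1586) D3497)))))))))) (orK (nat_lit 150) (fin (add (start D1587) D3510)))) (orK (nat_lit 111) (fin (add (start D3519) (orK (nat_lit 191) (fin (add (start D3484) D3522))))))) (orK (nat_lit 191) (fin (add (start D3484) (orK (nat_lit 111) (fin (add (start D3529) D3522)))))))))) D1576)))))))))) (orK (nat_lit 151) (fin (add (start D1584) (orK (nat_lit 167) (fin (add (start D1990) D3286))))))) D3549)))))))))) D1079)))) (orK (nat_lit 187) (fin (add (add (add (add (add (add (start D3949) (orK (nat_lit 247) (fin (add (add (add (add (add (start D1477) D3218) (orK (nat_lit 268) (fin (add (start D571) (orK (nat_lit 267) (fin (add (start D572) (orK (nat_lit 286) (fin (add (start D1693) (orK (nat_lit 287) (fin (add (start D1694) (orK (nat_lit 208) (fin (add (start D3950) D3952)))))))))))))))) (orK (nat_lit 186) (fin (add (start D140) (orK (nat_lit 266) (fin (add (start D1301) (orK (nat_lit 267) (fin (add (start D1302) (orK (nat_lit 208) (fin (add (start D3963) D3965))))))))))))) (orK (nat_lit 268) (fin (add (start D571) (orK (nat_lit 186) (fin (add (start D140) (orK (nat_lit 208) (fin (add (start D3963) (orK (nat_lit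 267) (fin (add (start D572) D3977))))))))))))) (orK (nat_lit 166) (fin (add (start D867) (orK (nat_lit 228) (fin (add (add (start D569) (orK (nat_lit 209) (fin (add (add (add (start D3258) (orK (nat_lit 229) (fin (add (start D1508) D3991)))) (orK (nat_lit 231) (fin (add (start D1106) (orK (nat_lit 229) D3990))))) (orK (nat_lit 226) D3998))))) (orK (nat_lit 266) (fin (add (start D1301) (orK (nat_lit 267) (fin (add (start D1302) (orK (nat_lit 287) (fin (add (start D3177) D4008))))))))))))))))))) (orK (nat_lit 208) (fin (add (start (orK (nat_lit 167) (fin (add (add (start D4024) (orK (nat_lit 168) (fin (add (start D1307) (orK (nat_lit 186) (fin (add (start D4025) D4028))))))) D1380)))) D3558)))) (orK (nat_lit 208) (fin (add (start D3952) (orK (nat_lit 248) (fin (add (add (start (orK (nat_lit 268) (fin (add (start D3155) (win (nat_lit 7) (nat_lit 7) (nat_lit 9) (nat_lit 2)))))) (orK (nat_lit 247) (fin (add (start D1369) (orK (nat_lit 246) (fin (add (start D134) D4045))))))) (orK (nat_lit 167) (fin (add (start D1368) D4065)))))))))) (orK (nat_lit 248) (fin (add (add (start (orK (nat_lit 167) (fin (add (start D1368)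 (orK (nat_lit 168) D4074))))) (orK (nat_lit 247) (fin (add (start D1369) (orK (nat_lit 246) (fin (add (start D134) D4079))))))) (orK (nat_lit 247) (fin (add (start D1369) D4089))))))) (orK (nat_lit 209) (fin (add (add (start D4094) (orK (nat_lit 167) (fin (add (add (start D4098) D3945) (orK (nat_lit 246) (fin (add (start D872) (orK (nat_lit 168) (fin (add (start D1307) (orK (nat_lit 169) (fin (add (start D1063) (orK (nat_lit 150) (fin (add (start D1998) (orK (nat_lit 189) (fin (add (start D3267) D1507))))))))))))))))))) D3258)))) (orK (nat_lit 208) (fin (add (add (start D3952) (orK (nat_lit 167) (fin (add (start D34) (orK (nat_lit 226) (fin (add (start D2035) D4120))))))) D3558))))))) (orK (nat_lit 187) (fin (add (add (add (add (add (start (orK (nat_lit 167) (fin (add (start D4130) D1386)))) D4162) D4226) (orK (nat_lit 247) (fin (add (add (add (start D3218) D3222) D3226) (orK (nat_lit 186) (fin (add (start D140) D4250))))))) (orK (nat_lit 247) (fin (add (add (start D4255) D1306) D4256)))) (orK (nat_lit 167) (fin (add (add (start D4262) D4120) D4266))))))) (orK (nat_lit 228) (fin (add (add (add (add (start D3007)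 D4277) (orK (nat_lit 229) (fin (add (start D1169) (orK (nat_lit 231) (fin (add (start D1168) D4283))))))) D4318) (orK (nat_lit 226) (fin (add (add (add (start (orK (nat_lit 208) (fin (add (start D4319) (orK (nat_lit 225) (fin (add (start D2230) (orK (nat_lit 248) (fin (add (start D137) (orK (nat_lit 205) (fin (add (start D2466) D2199))))))))))))) (orK (nat_lit 187) (fin (add (add (add (start D4329) (orK (nat_lit 268) (fin (add (start (orK (nat_lit 208) (fin (add (start D4319) D4330)))) (orK (nat_lit 266) (fin (add (add (start (orK (nat_lit 246) D4333)) (orK (nat_lit 267) (fin (add (add (add (start (orK (nat_lit 247) (fin (add (start D1302) D572)))) D3759) (orK (nat_lit 288) (fin (add (start D3565) (orK (nat_lit 289) (fin (add (start D3835) (orK (nat_lit 290) (fin (add (start (win (nat_lit 0) (nat_lit 6) (nat_lit 13) (nat_lit 3))) D3836)))))))))) (orK (nat_lit 286) (fin (add (start D4344) (orK (nat_lit 285) (fin (add (start D3668) (orK (nat_lit 284) (fin (add (start D4345) (win (nat_lit 4) (nat_lit 4) (nat_lit 13) (nat_lit 3))))))))))))))) D4356))))))) (orK (nat_lit 208) (fin (add (start D4319) D566)))) (orK (nat_lit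 167) D4365))))) (orK (nat_lit 208) (fin (add (start D4319) (orK (nat_lit 225) (fin (add (start D2230) D4381))))))) (orK (nat_lit 187) (fin (add (add (add (start D4329) (orK (nat_lit 246) (fin (add (start D4410) D4411)))) D3196) (orK (nat_lit 246) (fin (add (start D3935) (orK (nat_lit 266) D4333)))))))))))))) (orK (nat_lit 208) (fin (add (add (add (start D3558) (orK (nat_lit 228) (fin (add (add (start (orK (nat_lit 229) (fin (add (start D1169) D61)))) (orK (nat_lit 225) D4657)) D4733)))) (orK (nat_lit 209) (fin (add (start D0) D4749)))) (orK (nat_lit 209) (fin (add (start D18) D4749))))))) (orK (nat_lit 228) (fin (add (add (add (add (start D4766) (orK (nat_lit 187) (fin (add (add (add (start (orK (nat_lit 247) (fin (add (start D569) D3169)))) (orK (nat_lit 268) (fin (add (add (add (start (orK (nat_lit 248) D3157)) (orK (nat_lit 248) D3173)) (orK (nat_lit 248) D3175)) (orK (nat_lit 247) (fin (add (add (start D569) D3183) (orK (nat_lit 229) (fin (add (start D86) (orK (nat_lit 208) (fin (add (start D61) D3185))))))))))))) D3196) D3199)))) D4774) (orK (nat_lit 248) (fin (add (add (add (start (orK (nat_lit 268) (fin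 (add (start D402) (orK (nat_lit 208) (fin (add (start (orK (nat_lit 209) (fin (add (start D0) (win (nat_lit 3) (nat_lit 8) (nat_lit 9) (nat_lit 5)))))) D3912))))))) D4315) D4316) (orK (nat_lit 187) (fin (add (start D2197) (orK (nat_lit 247) (fin (add (add (add (start (orK (nat_lit 266) (fin (add (start D1301) (orK (nat_lit 267) (fin (add (start D1302) (orK (nat_lit 287) (fin (add (start D3177) D189)))))))))) (orK (nat_lit 186) (fin (add (start D140) (orK (nat_lit 208) (fin (add (start D3963) (orK (nat_lit 267) (fin (add (start D570) D1803)))))))))) D3226) (orK (nat_lit 246) (fin (add (start D134) (orK (nat_lit 245) (fin (add (start D135) (orK (nat_lit 225) (fin (add (start D136) (orK (nat_lit 186) (fin (add (start D140) (orK (nat_lit 208) (fin (add (start D3963) (orK (nat_lit 265) (fin (add (start D138) (orK (nat_lit 184) (fin (add (start D4794) (orK (nat_lit 205) (fin (add (start D4795) D4592)))))))))))))))))))))))))))))))))) (orK (nat_lit 229) (fin (add (start D1169) (orK (nat_lit 247) (fin (add (start D86) (orK (nat_lit 187) (fin (add (add (start D4818) D3169) (orK (nat_lit 268) (fin (add (start D571) D3183))))))))))))))))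 (orK (nat_lit 208) (fin (add (add (start D3558) (orK (nat_lit 247) (fin (add (add (add (add (add (add (start D1809) D4862) (orK (nat_lit 187) (fin (add (add (add (start D3226) D4226) D4152) (orK (nat_lit 246) (fin (add (start D134) D3947))))))) (orK (nat_lit 268) (fin (add (add (start (orK (nat_lit 187) D4873)) (orK (nat_lit 267) (fin (add (start D572) (orK (nat_lit 266) (fin (add (start D1302) (orK (nat_lit 265) (fin (add (add (start D4560) D4878) (orK (nat_lit 245) (fin (add (start D3589) (orK (nat_lit 269) (fin (add (start D3590) (orK (nat_lit 289) (fin (add (start D3586) (orK (nat_lit 249) (fin (add (start (win (nat_lit 3) (nat_lit 9) (nat_lit 10) (nat_lit 3))) D4880)))))))))))))))))))))) (orK (nat_lit 267) (fin (add (start D572) D4898))))))) D4937) (orK (nat_lit 268) (fin (add (add (start (orK (nat_lit 248) D4871)) (orK (nat_lit 267) (fin (add (start D572) (orK (nat_lit 206) (fin (add (start D1791) (orK (nat_lit 205) (fin (add (add (add (start (orK (nat_lit 184) (fin (add (start D4938) (orK (nat_lit 204) (fin (add (start D4939) D4942))))))) (orK (nat_lit 224) (fin (add (start D4739) (orK (nat_lit 204) (fin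 (add (start D4738) D4942))))))) D4954) (orK (nat_lit 226) (fin (add (start D4139) (orK (nat_lit 185) (fin (add (start D3060) (orK (nat_lit 225) (fin (add (start D2230) D4955))))))))))))))))))) (orK (nat_lit 187) (fin (add (start D571) (orK (nat_lit 166) (fin (add (start D867) (orK (nat_lit 167) (fin (add (start D1484) D4262))))))))))))) (orK (nat_lit 246) (fin (add (add (add (start D1817) (orK (nat_lit 248) D4995)) D5097) (orK (nat_lit 187) (fin (add (add (add (start D4864) (orK (nat_lit 226) (fin (add (start D3935) (orK (nat_lit 225) (fin (add (start D2230) (orK (nat_lit 248) (fin (add (start D2341) D1369)))))))))) (orK (nat_lit 248) (fin (add (start D1369) (orK (nat_lit 249) (fin (add (start D4840) (orK (nat_lit 225) (fin (add (start D624) (orK (nat_lit 245) (fin (add (start D136) (orK (nat_lit 264) (fin (add (start D627) (orK (nat_lit 244) (fin (add (start D626) (orK (nat_lit 185) (fin (add (start (win (nat_lit 1) (nat_lit 4) (nat_lit 9) (nat_lit 1))) (orK (nat_lit 186) (fin (add (start D356) D140))))))))))))))))))))))))) (orK (nat_lit 268) D4873))))))))))) D9)))) (orK (nat_lit 228) D5413))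
noncomputable def D1147 : OP := orK (nat_lit 186) (fin (add (start D3) (orK (nat_lit 206) (fin (add (start D2) D10)))))
noncomputable def D1469 : OP := orK (nat_lit 208) (fin (add (start D11) D1147))
noncomputable def D2718 : OP := orK (nat_lit 190) (fin (add (start D30) D1469))
noncomputable def D2716 : OP := orK (nat_lit 208) D242
noncomputable def D1046 : OP := orK (nat_lit 231) (fin (add (start D752) (orK (nat_lit 149) (fin (add (start D253) (orK (nat_lit 150) (fin (add (start D252) D784))))))))
noncomputable def D977 : OP := win (nat_lit 2) (nat_lit 9) (nat_lit 10) (nat_lit 1)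
noncomputable def D1882 : OP := win (nat_lit 3) (nat_lit 8) (nat_lit 10) (nat_lit 0)
noncomputable def D2760 : OP := orK (nat_lit 169) (fin (add (start D260) D2758))
noncomputable def D2774 : OP := win (nat_lit 4) (nat_lit 9) (nat_lit 10) (nat_lit 0)
noncomputable def D2796 : OP := win (nat_lit 6) (nat_lit 12) (nat_lit 9) (nat_lit 5)
noncomputable def D2800 : OP := orK (nat_lit 172) (fin (add (start D2797) (win (nat_lit 6) (nat_lit 12) (nat_lit 8) (nat_lit 4))))
noncomputable def D2765 : OP := win (nat_lit 0) (nat_lit 9) (nat_lit 11) (nat_lit 0)
noncomputable def D2786 : AP := fin (add (start (win (nat_lit 2) (nat_lit 10) (nat_lit 11) (nat_lit 3))) (win (nat_lit 2) (nat_lit 11) (nat_lit 11) (nat_lit 0)))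
noncomputable def D2593 : AP := fin (add (start D259) (orK (nat_lit 229) (fin (add (start D28) (orK (nat_lit 231) (fin (add (start D752) (orK (nat_lit 228) (fin (add (start D1168) (orK (nat_lit 227) D2585)))))))))))
noncomputable def D5417 : AP := fin (add (add (add (add (add (add (start (orK (nat_lit 190) D2593)) (orK (nat_lit 231) (fin (add (add (start (orK (nat_lit 190) (fin (add (start D752) D2760)))) (orK (nat_lit 232) (fin (add (add (start (orK (nat_lit 209) (fin (add (start D1106) D789)))) (orK (nat_lit 253) (fin (add (add (add (start (orK (nat_lit 233) (fin (add (start D2772) (orK (nat_lit 213) (fin (add (start D2773) (orK (nat_lit 212) (fin (add (start D2774) (orK (nat_lit 192) (fin (add (start (win (nat_lit 6) (nat_lit 12) (nat_lit 8) (nat_lit 0))) (win (nat_lit 7) (nat_lit 12) (nat_lit 9) (nat_lit 0))))))))))))))) (orK (nat_lit 254) (fin (add (start (win (nat_lit 0) (nat_lit 10) (nat_lit 11) (nat_lit 3))) (orK (nat_lit 252) D2786))))) (orK (nat_lit 252) (fin (add (start D2765) (orK (nat_lit 254) D2786))))) (orK (nat_lit 212) (fin (add (add (add (start (orK (nat_lit 229) (fin (add (start D2793) D790))))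 (orK (nat_lit 252) (fin (add (start D2765) (orK (nat_lit 192) (fin (add (start D2796) D2800))))))) (orK (nat_lit 192) (fin (add (add (start D2800) (orK (nat_lit 273) (fin (add (start (win (nat_lit 6) (nat_lit 12) (nat_lit 9) (nat_lit 3))) (orK (nat_lit 233) (fin (add (start (win (nat_lit 7) (nat_lit 12) (nat_lit 9) (nat_lit 3))) (win (nat_lit 7) (nat_lit 12) (nat_lit 10) (nat_lit 0))))))))) (orK (nat_lit 251) (fin (add (start D2812) (orK (nat_lit 252) (fin (add (start D2813) D2796)))))))))) (orK (nat_lit 213) (fin (add (start D2774) (orK (nat_lit 214) (fin (add (start (win (nat_lit 4) (nat_lit 10) (nat_lit 10) (nat_lit 3))) (win (nat_lit 5) (nat_lit 11) (nat_lit 10) (nat_lit 0))))))))))))))) (orK (nat_lit 229) (fin (add (add (start (orK (nat_lit 208) (fin (add (start D2722) D1191)))) (orK (nat_lit 252) (fin (add (start D791) (orK (nat_lit 228) (fin (add (start D2680) D2834))))))) (orK (nat_lit 209) (fin (add (start D1106) (orK (nat_lit 249) (fin (add (start D2664) (orK (nat_lit 269) (fin (add (start D515) (orK (nat_lit 252) (fin (add (start D791) (orK (nat_lit 212) (fin (add (start D790) (orK (nat_lit 268) (fin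 (add (start D1528) (orK (nat_lit 270) (fin (add (start D2839) (orK (nat_lit 271) (fin (add (start (win (nat_lit 4) (nat_lit 8) (nat_lit 12) (nat_lit 4))) (orK (nat_lit 291) (fin (add (start D2841) (win (nat_lit 1) (nat_lit 11) (nat_lit 10) (nat_lit 3)))))))))))))))))))))))))))))))))))) (orK (nat_lit 208) (fin (add (start D2722) (orK (nat_lit 229) (fin (add (start D1191) (orK (nat_lit 249) (fin (add (start D1649) (orK (nat_lit 232) (fin (add (start D2664) D2871)))))))))))))))) (orK (nat_lit 190) (fin (add (add (start D940) D2760) D944)))) (orK (nat_lit 209) (fin (add (add (add (add (start D1079) (orK (nat_lit 208) (fin (add (start D0) (orK (nat_lit 190) (fin (add (start D11) D30))))))) (orK (nat_lit 229) (fin (add (add (add (start D1660) (orK (nat_lit 249) (fin (add (start D1649) (orK (nat_lit 269) (fin (add (start D515) (orK (nat_lit 268) (fin (add (start D1528) (orK (nat_lit 248) (fin (add (start D2673) (orK (nat_lit 247) (fin (add (start D176) (orK (nat_lit 271) (fin (add (start D2888) D2892))))))))))))))))))) (orK (nat_lit 228) (fin (add (start D1510) (orK (nat_lit 189) (fin (add (start (orK (nat_lit 231) (fin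 (add (start (orK (nat_lit 232) D2909)) (orK (nat_lit 248) (fin (add (start D2667) (orK (nat_lit 268) (fin (add (start (win (nat_lit 1) (nat_lit 8) (nat_lit 9) (nat_lit 3))) D1882)))))))))) (orK (nat_lit 169) D2918)))))))) (orK (nat_lit 190) (fin (add (start D27) (orK (nat_lit 169) (fin (add (start D260) (orK (nat_lit 231) (fin (add (start D752) (orK (nat_lit 228) (fin (add (start (orK (nat_lit 248) (fin (add (start D1881) D2667)))) D1510)))))))))))))))) D2716) D2718)))) (orK (nat_lit 209) (fin (add (add (add (start (orK (nat_lit 208) (fin (add (start D0) (orK (nat_lit 190) (fin (add (start D11) (orK (nat_lit 151) (fin (add (start D22) (orK (nat_lit 150) (fin (add (start D21) (orK (nat_lit 189) (fin (add (start D1011) (win (nat_lit 4) (nat_lit 6) (nat_lit 9) (nat_lit 0)))))))))))))))))) (orK (nat_lit 208) D2949)) (orK (nat_lit 190) (fin (add (add (add (add (start D259) (orK (nat_lit 169) (fin (add (start D260) (orK (nat_lit 231) (fin (add (start D752) (orK (nat_lit 233) (fin (add (start D977) D2758)))))))))) (orK (nat_lit 251) (fin (add (start D1010) D786)))) (orK (nat_lit 231) (fin (add (start D752) (orK (nat_lit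 150) (fin (add (add (start D255) D778) (orK (nat_lit 191) (fin (add (add (start (orK (nat_lit 130) (fin (add (start D753) D2962)))) (orK (nat_lit 192) (fin (add (start D2965) (orK (nat_lit 169) (fin (add (start D260) (orK (nat_lit 168) (fin (add (start D732) D2966)))))))))) (orK (nat_lit 189) (fin (add (start D1011) (orK (nat_lit 192) (fin (add (start D2965) (orK (nat_lit 169) (fin (add (start (win (nat_lit 2) (nat_lit 8) (nat_lit 8) (nat_lit 5))) D1507))))))))))))))))))) D1046)))) (orK (nat_lit 208) (fin (add (start (orK (nat_lit 190) (fin (add (start D11) (orK (nat_lit 151) (fin (add (start D22) (orK (nat_lit 150) (fin (add (start D21) (orK (nat_lit 130) (fin (add (start D753) D2700))))))))))))) D2166))))))) (orK (nat_lit 209) (fin (add (add (add (start D1079) (orK (nat_lit 190) D3000)) D2716) D2718)))) (orK (nat_lit 227) D5415))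
noncomputable def D746 : AP := fin (add (start D1) D10)
noncomputable def D747 : OP := orK (nat_lit 206) D746
noncomputable def D815 : AP := fin (add (start D11) D747)
noncomputable def D816 : OP := orK (nat_lit 208) D815
noncomputable def D748 : AP := fin (add (start D0) D747)
noncomputable def D749 : OP := orK (nat_lit 208) D748
noncomputable def D730 : AP := fin (add (start D0) D11)
noncomputable def D731 : OP := orK (nat_lit 208) D730
noncomputable def D1052 : OP := orK (nat_lit 209) (fin (add (add (add (start D731) (orK (nat_lit 208) (fin (add (start D0) D974)))) (orK (nat_lit 170) (fin (add (add (add (add (start D259) (orK (nat_lit 169) (fin (add (start D260) (orK (nat_lit 231) (fin (add (start D752) (orK (nat_lit 233) (fin (add (start D977) D999)))))))))) D1009) (orK (nat_lit 251) (fin (add (start D1010) (orK (nat_lit 150) (fin (add (add (start D255) D778) (orK (nat_lit 169) (fin (add (start D260) (orK (nat_lit 189) (fin (add (start D1011) (orK (nat_lit 168) (fin (add (add (start D947) (orK (nat_lit 171) (fin (add (start (orK (nat_lit 148) (fin (add (start D265) (orK (nat_lit 128) (fin (add (start D1013)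 D1014))))))) (orK (nat_lit 192) (fin (add (start D983) (orK (nat_lit 172) (fin (add (start D982) D262)))))))))) (orK (nat_lit 167) (fin (add (start D833) (orK (nat_lit 147) (fin (add (start D985) (orK (nat_lit 171) (fin (add (start D984) D1012))))))))))))))))))))))))) D1046)))) (orK (nat_lit 208) D1049)))
noncomputable def D1150 : OP := orK (nat_lit 170) D29
noncomputable def D933 : OP := orK (nat_lit 209) D815
noncomputable def D2596 : OP := orK (nat_lit 189) (fin (add (start D316) D497))
noncomputable def D2600 : OP := orK (nat_lit 189) (fin (add (start D316) (orK (nat_lit 248) (fin (add (start D127) D84)))))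
noncomputable def D311 : OP := orK (nat_lit 227) D310
noncomputable def D839 : OP := orK (nat_lit 168) (fin (add (start D311) D837))
noncomputable def D405 : OP := orK (nat_lit 227) (fin (add (start D402) D403))
noncomputable def D409 : OP := orK (nat_lit 269) (fin (add (start D111) (orK (nat_lit 268) (fin (add (start D112) D405)))))
noncomputable def D2616 : OP := orK (nat_lit 269) (fin (add (start D111) D2614))
noncomputable def D2321 : OP := orK (nat_lit 247) (fin (add (start D78) (orK (nat_lit 227) (fin (add (start D85) D2317)))))
noncomputable def D429 : OP := orK (nat_lit 227) (fin (add (start D309) D427))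
noncomputable def D2192 : OP := orK (nat_lit 168) (fin (add (start D521) D311))
noncomputable def D820 : OP := orK (nat_lit 209) D748
noncomputable def D819 : OP := orK (nat_lit 209) D730
noncomputable def D2461 : OP := orK (nat_lit 269) (fin (add (start D2459) D688))
noncomputable def D631 : OP := orK (nat_lit 244) (fin (add (start (win (nat_lit 4) (nat_lit 4) (nat_lit 11) (nat_lit 4))) D629))
noncomputable def D619 : OP := orK (nat_lit 226) (fin (add (start D614) (orK (nat_lit 266) (fin (add (start D615) D611)))))
noncomputable def D2463 : OP := orK (nat_lit 249) (fin (add (start D2461) D619))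
noncomputable def D610 : OP := win (nat_lit 1) (nat_lit 6) (nat_lit 9) (nat_lit 2)
noncomputable def D2351 : OP := orK (nat_lit 185) (fin (add (start D356) D2349))
noncomputable def D648 : OP := orK (nat_lit 225) (fin (add (start D624) (orK (nat_lit 245) (fin (add (start D136) D644)))))
noncomputable def D603 : OP := orK (nat_lit 267) (fin (add (start D187) (orK (nat_lit 287) (fin (add (start (win (nat_lit 3) (nat_lit 7) (nat_lit 10) (nat_lit 3))) D189)))))
noncomputable def D2516 : AP := fin (add (add (add (start D603) (orK (nat_lit 246) (fin (add (add (add (add (add (add (start (orK (nat_lit 226) (fin (add (start D2347) (orK (nat_lit 206) (fin (add (start D708) (orK (nat_lit 186) (fin (add (start D2348) D2351)))))))))) (orK (nat_lit 188) (fin (add (start D78) (orK (nat_lit 249) (fin (add (start D75) D648))))))) (orK (nat_lit 188) (fin (add (start D78) (orK (nat_lit 249) (fin (add (start D75) (orK (nat_lit 266) (fin (add (start D611) (orK (nat_lit 206) (fin (add (start D2362) D2366))))))))))))) (orK (nat_lit 245) (fin (add (add (add (start (orK (nat_lit 188) (fin (add (start D78) (orK (nat_lit 265) (fin (add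 (start D138) (orK (nat_lit 249) (fin (add (start D642) D75)))))))))) D2386) (orK (nat_lit 188) (fin (add (start D78) (orK (nat_lit 225) (fin (add (start D136) (orK (nat_lit 249) (fin (add (start D75) (orK (nat_lit 266) (fin (add (start D611) (orK (nat_lit 205) (fin (add (start D2387) D2388)))))))))))))))) (orK (nat_lit 267) (fin (add (start D187) (orK (nat_lit 224) (fin (add (start D2381) (orK (nat_lit 244) (fin (add (start D2382) (orK (nat_lit 243) (fin (add (start (win (nat_lit 0) (nat_lit 3) (nat_lit 12) (nat_lit 4))) D2403)))))))))))))))) (orK (nat_lit 206) (fin (add (start (orK (nat_lit 188) (fin (add (start D78) D2366)))) (orK (nat_lit 226) (fin (add (start D708) (orK (nat_lit 245) (fin (add (add (start (orK (nat_lit 225) (fin (add (start D136) (orK (nat_lit 265) (fin (add (start D2427) D138))))))) (orK (nat_lit 186) (fin (add (start D2417) D2351)))) (orK (nat_lit 186) (fin (add (start D2351) (orK (nat_lit 225) (fin (add (start D2416) D136)))))))))))))))) (orK (nat_lit 188) (fin (add (start D78) (orK (nat_lit 249) (fin (add (start D75) (orK (nat_lit 225) (fin (add (start D624) (orK (nat_lit 245) (fin (add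 (start D136) (orK (nat_lit 264) (fin (add (start D627) (orK (nat_lit 244) (fin (add (start D626) (orK (nat_lit 205) (fin (add (start D2444) D2388)))))))))))))))))))))) D2463)))) (orK (nat_lit 227) (fin (add (add (start D2236) D2238) D2476)))) (orK (nat_lit 246) (fin (add (add (add (add (start (orK (nat_lit 266) (fin (add (start D610) (orK (nat_lit 226) (fin (add (start D615) (orK (nat_lit 249) (fin (add (start D614) D611)))))))))) (orK (nat_lit 266) (fin (add (start D610) (orK (nat_lit 249) (fin (add (start D611) D2461))))))) (orK (nat_lit 227) (fin (add (start D134) (orK (nat_lit 186) (fin (add (start D140) (orK (nat_lit 188) (fin (add (start D41) (orK (nat_lit 185) (fin (add (start D356) (orK (nat_lit 165) (fin (add (start D357) (orK (nat_lit 205) (fin (add (start D364) (orK (nat_lit 206) (fin (add (start D2364) D2489)))))))))))))))))))))) D2463) (orK (nat_lit 245) (fin (add (start D631) (orK (nat_lit 225) (fin (add (start D136) (orK (nat_lit 249) (fin (add (start D624) D2461)))))))))))))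
noncomputable def D2267 : OP := orK (nat_lit 229) (fin (add (start D61) (orK (nat_lit 206) (fin (add (start D62) (orK (nat_lit 188) (fin (add (add (start D520) (orK (nat_lit 190) (fin (add (start D2255) D2257)))) (orK (nat_lit 189) (fin (add (start D391) D497)))))))))))
noncomputable def D2229 : OP := orK (nat_lit 268) (fin (add (start D201) (orK (nat_lit 267) (fin (add (start D109) (orK (nat_lit 188) (fin (add (start D110) (orK (nat_lit 189) (fin (add (start D127) D114)))))))))))
noncomputable def D2188 : OP := orK (nat_lit 186) (fin (add (start D3) (orK (nat_lit 190) (fin (add (start D11) (orK (nat_lit 170) (fin (add (add (start D30) D259) (orK (nat_lit 169) (fin (add (start D260) (orK (nat_lit 171) (fin (add (start D45) (orK (nat_lit 172) (fin (add (start D981) (orK (nat_lit 229) (fin (add (start D28) (orK (nat_lit 227) (fin (add (start D18) D1416)))))))))))))))))))))))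
noncomputable def D1896 : OP := orK (nat_lit 190) (fin (add (start D260) D30))
noncomputable def D739 : OP := orK (nat_lit 171) (fin (add (start D45) (orK (nat_lit 168) (fin (add (start D735) D275)))))
noncomputable def D1640 : AP := fin (add (start D1512) D1639)
noncomputable def D1522 : AP := fin (add (start D1512) (orK (nat_lit 170) (fin (add (start D1513) (orK (nat_lit 190) (fin (add (start D28) (orK (nat_lit 171) (fin (add (start D45) D1515))))))))))
noncomputable def D2161 : AP := fin (add (add (add (add (add (add (start (orK (nat_lit 189) (fin (add (start D1507) (orK (nat_lit 229) D1522))))) (orK (nat_lit 189) D1550)) (orK (nat_lit 149) (fin (add (start D1552) (orK (nat_lit 170) (fin (add (start D1553) (orK (nat_lit 171) (fin (add (add (add (start D1560) D1573) D1578) (orK (nat_lit 148) (fin (add (add (start D1558) D1625) D1576))))))))))))) (orK (nat_lit 189) (fin (add (start D1507) (orK (nat_lit 229) D1640))))) (orK (nat_lit 229) (fin (add (add (add (add (add (add (start (orK (nat_lit 189) D1522)) (orK (nat_lit 189) D1640)) (orK (nat_lit 249) (fin (add (start D1668) (orK (nat_lit 189) (fin (add (start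 D1651) D1512))))))) (orK (nat_lit 227) (fin (add (add (add (start D1539) (orK (nat_lit 228) (fin (add (start D1508) (orK (nat_lit 247) (fin (add (start D86) (orK (nat_lit 268) (fin (add (add (start (orK (nat_lit 288) (fin (add (start (win (nat_lit 3) (nat_lit 8) (nat_lit 10) (nat_lit 2))) D1680)))) (orK (nat_lit 187) (fin (add (start D571) (orK (nat_lit 168) (fin (add (start D1308) (orK (nat_lit 167) (fin (add (start D1307) (orK (nat_lit 170) (fin (add (start D1063) (orK (nat_lit 190) (fin (add (start D945) D27)))))))))))))))) (orK (nat_lit 267) (fin (add (start D572) (orK (nat_lit 286) (fin (add (start D1693) (orK (nat_lit 287) (fin (add (start D1694) (orK (nat_lit 269) (fin (add (start D1695) (orK (nat_lit 249) D1667))))))))))))))))))))))) (orK (nat_lit 190) (fin (add (add (start D1150) (orK (nat_lit 249) (fin (add (start D1711) (orK (nat_lit 247) (fin (add (add (start D1713) (orK (nat_lit 246) (fin (add (start D1714) D1721)))) D1733))))))) (orK (nat_lit 170) (fin (add (start D27) (orK (nat_lit 151) (fin (add (start D22) (orK (nat_lit 247) (fin (add (add (start D1713) (orK (nat_lit 187) (fin (add (start (orK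 (nat_lit 167) (fin (add (start (orK (nat_lit 168) (fin (add (start D945) D1307)))) D1743)))) D1306)))) D1733))))))))))))) (orK (nat_lit 249) (fin (add (start D1762) D1821))))))) (orK (nat_lit 228) (fin (add (start D1510) (orK (nat_lit 189) (fin (add (start D1444) (orK (nat_lit 168) (fin (add (start D1111) (orK (nat_lit 188) (fin (add (start D1537) (orK (nat_lit 187) (fin (add (start D1538) (orK (nat_lit 170) (fin (add (start D1513) D1826))))))))))))))))))) (orK (nat_lit 170) (fin (add (add (add (start D1648) (orK (nat_lit 190) (fin (add (start D28) D739)))) D1660) D1847)))) (orK (nat_lit 228) (fin (add (add (start D1510) (orK (nat_lit 189) (fin (add (start D1444) (orK (nat_lit 170) (fin (add (start D1513) (orK (nat_lit 190) (fin (add (add (start D1635) (orK (nat_lit 168) (fin (add (start D947) (orK (nat_lit 188) (fin (add (start (orK (nat_lit 187) (fin (add (start D1538) D353)))) (orK (nat_lit 148) D1859)))))))) (orK (nat_lit 171) (fin (add (start D45) (orK (nat_lit 172) (fin (add (start D262) (orK (nat_lit 192) (fin (add (start D982) (orK (nat_lit 168) (fin (add (start D983) D1866)))))))))))))))))))))) (orK (nat_lit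 248) (fin (add (start D1881) (orK (nat_lit 268) (fin (add (start D1882) (orK (nat_lit 227) (fin (add (start D1508) (orK (nat_lit 247) (fin (add (start D86) D1770))))))))))))))))))) (orK (nat_lit 170) (fin (add (add (add (start D1896) D1921) (orK (nat_lit 171) (fin (add (add (add (start (orK (nat_lit 190) (fin (add (start D45) D30)))) D1919) (orK (nat_lit 168) (fin (add (add (add (start (orK (nat_lit 191) (fin (add (start D733) (orK (nat_lit 167) (fin (add (start D1924) D1060))))))) (orK (nat_lit 191) (fin (add (start D733) (orK (nat_lit 167) (fin (add (start D1924) D1066))))))) D1131) (orK (nat_lit 148) (fin (add (start D265) (orK (nat_lit 187) (fin (add (start D1064) (orK (nat_lit 172) (fin (add (add (add (start D1054) D981) (orK (nat_lit 153) (fin (add (start D285) (orK (nat_lit 173) (fin (add (start D286) (orK (nat_lit 194) (fin (add (start D1933) (orK (nat_lit 174) (fin (add (start D1934) (orK (nat_lit 190) (fin (add (start D1935) D30)))))))))))))))) (orK (nat_lit 191) (fin (add (start D733) (orK (nat_lit 153) (fin (add (start D285) (orK (nat_lit 173) (fin (add (start D286) (orK (nat_lit 190) (fin (add (start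 D1946) D30))))))))))))))))))))))))) (orK (nat_lit 152) (fin (add (add (start (orK (nat_lit 168) (fin (add (start D1564) (orK (nat_lit 192) D1968))))) (orK (nat_lit 172) (fin (add (start D1565) D1974)))) D1980))))))) (orK (nat_lit 168) (fin (add (add (add (add (add (start D1996) D2019) (orK (nat_lit 187) (fin (add (add (start D2025) (orK (nat_lit 171) (fin (add (start D1064) (orK (nat_lit 192) (fin (add (start D983) (orK (nat_lit 172) (fin (add (start D982) (orK (nat_lit 149) (fin (add (start D2026) D1567))))))))))))) (orK (nat_lit 167) (fin (add (start D1063) (orK (nat_lit 227) (fin (add (start D1307) D2040)))))))))) D2061) D2070) D2134))))))) (orK (nat_lit 170) (fin (add (add (add (start (orK (nat_lit 149) (fin (add (start D1552) D1553)))) (orK (nat_lit 190) (fin (add (add (start D26) D1072) (orK (nat_lit 150) (fin (add (start D20) (orK (nat_lit 130) (fin (add (start D753) (orK (nat_lit 111) (fin (add (start D768) (orK (nat_lit 110) (fin (add (start D769) D759)))))))))))))))) D1896) (orK (nat_lit 189) (fin (add (start D1507) (orK (nat_lit 229) (fin (add (start D1513) (orK (nat_lit 248) (fin (add (start (win (nat_lit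 1) (nat_lit 8) (nat_lit 8) (nat_lit 4))) (orK (nat_lit 249) (fin (add (start D1670) D1651))))))))))))))))
noncomputable def D1428 : OP := orK (nat_lit 190) (fin (add (start D11) (orK (nat_lit 227) (fin (add (start D18) D1424)))))
noncomputable def D596 : OP := orK (nat_lit 227) (fin (add (start D18) (orK (nat_lit 191) (fin (add (start (win (nat_lit 4) (nat_lit 7) (nat_lit 9) (nat_lit 4))) D592)))))
noncomputable def D1103 : OP := orK (nat_lit 208) (fin (add (start D11) D7))
noncomputable def D726 : AP := fin (add (add (add (start D7) D15) D596) D247)
noncomputable def D1332 : OP := orK (nat_lit 168) (fin (add (add (add (start D345) (orK (nat_lit 149) (fin (add (start D160) (orK (nat_lit 148) (fin (add (start D159) (orK (nat_lit 187) (fin (add (start D158) D216)))))))))) D532) D423))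
noncomputable def D613 : OP := orK (nat_lit 266) (fin (add (start D610) D611))
noncomputable def D641 : OP := orK (nat_lit 249) (fin (add (start D75) (orK (nat_lit 247) (fin (add (start D78) (orK (nat_lit 246) (fin (add (add (add (start D613) D619) (orK (nat_lit 266) (fin (add (start D610) (orK (nat_lit 226) (fin (add (start D614) D615))))))) (orK (nat_lit 225) (fin (add (start D624) (orK (nat_lit 245) (fin (add (start D136) D631))))))))))))))
noncomputable def D480 : OP := orK (nat_lit 168) (fin (add (add (start D311) D423) (orK (nat_lit 167) (fin (add (start D342) (orK (nat_lit 169) (fin (add (start D308) (orK (nat_lit 166) (fin (add (add (add (start (orK (nat_lit 227) (fin (add (start D309) (orK (nat_lit 146) D438))))) D451) (orK (nat_lit 227) (fin (add (start D309) (orK (nat_lit 186) (fin (add (start D452) (orK (nat_lit 146) (fin (add (start D453) D437)))))))))) (orK (nat_lit 227) (fin (add (start D309) (orK (nat_lit 185) (fin (add (start D445) (orK (nat_lit 165) (fin (add (start D444) D466))))))))))))))))))))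
noncomputable def D1258 : AP := fin (add (add (add (add (add (add (add (start (orK (nat_lit 209) (fin (add (add (add (start D731) D749) (orK (nat_lit 170) (fin (add (add (start D30) (orK (nat_lit 231) (fin (add (start D752) D786)))) D812)))) D816)))) (orK (nat_lit 208) (fin (add (add (add (start D819) D820) (orK (nat_lit 188) (fin (add (add (add (add (start D824) (orK (nat_lit 228) (fin (add (add (start D67) (orK (nat_lit 229) (fin (add (start D61) (orK (nat_lit 168) (fin (add (start D521) D423))))))) D480)))) (orK (nat_lit 189) (fin (add (start D316) (orK (nat_lit 206) (fin (add (start D128) (orK (nat_lit 228) (fin (add (add (start (orK (nat_lit 229) (fin (add (start D63) D61)))) D839) D843)))))))))) (orK (nat_lit 189) (fin (add (start D316) (orK (nat_lit 187) (fin (add (start D353) (orK (nat_lit 167) (fin (add (start D352) D853)))))))))) (orK (nat_lit 227) (fin (add (add (add (start (orK (nat_lit 247) (fin (add (start D42) (orK (nat_lit 187) (fin (add (add (start D871) D878) D897))))))) D905) D909) (orK (nat_lit 168) (fin (add (start D37) (orK (nat_lit 167) (fin (add (start (orK (nat_lit 189) (fin (add (start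 D910) (orK (nat_lit 166) D543))))) D924))))))))))))) D933)))) (orK (nat_lit 170) (fin (add (add (add (start D940) D944) D259) (orK (nat_lit 169) (fin (add (start D260) (orK (nat_lit 171) (fin (add (start D45) (orK (nat_lit 229) (fin (add (start D28) D964))))))))))))) D1052) (orK (nat_lit 209) (fin (add (add (start D731) (orK (nat_lit 170) (fin (add (start D30) D1074)))) D749)))) (orK (nat_lit 209) (fin (add (add (add (start D731) D1079) (orK (nat_lit 170) (fin (add (add (start D30) D259) (orK (nat_lit 169) (fin (add (start D260) (orK (nat_lit 171) (fin (add (start D45) (orK (nat_lit 231) (fin (add (start D752) (orK (nat_lit 229) (fin (add (start D28) D1091)))))))))))))))) D1103)))) (orK (nat_lit 209) (fin (add (add (add (start D749) (orK (nat_lit 170) (fin (add (add (start D30) D259) (orK (nat_lit 229) (fin (add (start D28) (orK (nat_lit 171) (fin (add (start D45) (orK (nat_lit 169) (fin (add (start D260) (orK (nat_lit 231) (fin (add (start D752) (orK (nat_lit 168) (fin (add (add (add (start D275) (orK (nat_lit 188) (fin (add (start D269) (orK (nat_lit 189) (fin (add (start D954) D1111))))))) (orK (nat_lit 232)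 (fin (add (start D789) (orK (nat_lit 187) (fin (add (start D1064) (orK (nat_lit 167) (fin (add (start D1063) D1121)))))))))) D1131))))))))))))))))))) (orK (nat_lit 208) (fin (add (start D0) D1147)))) (orK (nat_lit 229) (fin (add (start D1150) (orK (nat_lit 208) (fin (add (start (win (nat_lit 0) (nat_lit 6) (nat_lit 10) (nat_lit 0))) (orK (nat_lit 227) (fin (add (start D18) (orK (nat_lit 187) (fin (add (start D19) (orK (nat_lit 247) (fin (add (start D1154) D1155))))))))))))))))))) (orK (nat_lit 170) (fin (add (add (add (start D259) (orK (nat_lit 169) (fin (add (start D260) (orK (nat_lit 229) (fin (add (start D28) (orK (nat_lit 231) (fin (add (start D752) (orK (nat_lit 228) (fin (add (start D1168) (orK (nat_lit 227) (fin (add (start D1169) (orK (nat_lit 246) (fin (add (start D1170) (orK (nat_lit 226) (fin (add (start D1171) (orK (nat_lit 167) (fin (add (start D1172) D1174))))))))))))))))))))))))) (orK (nat_lit 229) (fin (add (start D28) (orK (nat_lit 231) (fin (add (start D752) (orK (nat_lit 171) (fin (add (start D45) (orK (nat_lit 208) (fin (add (start D1191) (orK (nat_lit 188) (fin (add (add (add (start (orK (nat_lit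 189) (fin (add (start D953) D316)))) (orK (nat_lit 189) (fin (add (start D316) D1196)))) (orK (nat_lit 168) (fin (add (add (start D1205) (orK (nat_lit 227) D908)) (orK (nat_lit 148) (fin (add (start D330) D1209))))))) (orK (nat_lit 189) (fin (add (start D953) D1196))))))))))))))))))) (orK (nat_lit 151) (fin (add (start D22) (orK (nat_lit 150) (fin (add (start D21) (orK (nat_lit 149) (fin (add (start D252) (orK (nat_lit 229) (fin (add (start D28) (orK (nat_lit 231) (fin (add (start D752) (orK (nat_lit 228) (fin (add (start D1168) (orK (nat_lit 227) (fin (add (start D1169) (orK (nat_lit 246) (fin (add (start D1170) (orK (nat_lit 226) (fin (add (start D1171) (orK (nat_lit 167) (fin (add (start D1172) (orK (nat_lit 148) (fin (add (start D1226) (orK (nat_lit 127) (fin (add (start D1227) (orK (nat_lit 147) D1230)))))))))))))))))))))))))))))))))))))))))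
noncomputable def D304 : OP := orK (nat_lit 227) D303
noncomputable def D29884 : AP := fin (add (add (add (add (add (add (add (add (add (add (add (add (add (add (add (add (add (add (add (start (orK (nat_lit 208) (fin (add (add (add (add (add (start D9) D17) (orK (nat_lit 209) (fin (add (start D0) D304)))) (orK (nat_lit 228) (fin (add (add (add (start D67) (orK (nat_lit 248) (fin (add (add (start D73) (orK (nat_lit 229) (fin (add (start D61) (orK (nat_lit 188) (fin (add (add (start D77) (orK (nat_lit 169) (fin (add (start D307) (orK (nat_lit 168) (fin (add (start D308) D311))))))) D323))))))) D99)))) (orK (nat_lit 188) (fin (add (add (add (add (add (start (orK (nat_lit 187) (fin (add (add (start D337) D351) (orK (nat_lit 167) (fin (add (start D31) (orK (nat_lit 189) (fin (add (add (start D131) D379) (orK (nat_lit 190) (fin (add (start D352) D316))))))))))))) (orK (nat_lit 168) (fin (add (start D311) (orK (nat_lit 169) (fin (add (start D308) (orK (nat_lit 189) (fin (add (start D388) D393)))))))))) (orK (nat_lit 248) (fin (add (add (start D401) D409) (orK (nat_lit 167) (fin (add (start D343) (orK (nat_lit 168) (fin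 (add (start D342) D311)))))))))) (orK (nat_lit 168) (fin (add (add (start D311) D423) (orK (nat_lit 169) (fin (add (start D308) (orK (nat_lit 248) (fin (add (start D307) D429)))))))))) D480) (orK (nat_lit 167) (fin (add (add (add (start D484) (orK (nat_lit 189) (fin (add (start (orK (nat_lit 190) (fin (add (start D316) (orK (nat_lit 187) D354))))) D497)))) D500) D510))))))) D558)))) D243) (orK (nat_lit 209) (fin (add (add (add (start D7) D15) D304) D247))))))) (orK (nat_lit 208) (fin (add (add (add (add (add (start D9) D17) (orK (nat_lit 209) (fin (add (start D0) D596)))) (orK (nat_lit 228) (fin (add (add (add (start D67) (orK (nat_lit 248) (fin (add (add (start D73) (orK (nat_lit 229) (fin (add (start D61) (orK (nat_lit 247) (fin (add (start D82) D603))))))) D99)))) (orK (nat_lit 248) (fin (add (add (add (start D73) D126) D99) (orK (nat_lit 187) (fin (add (add (start D71) (orK (nat_lit 188) (fin (add (add (start D133) D641) (orK (nat_lit 247) (fin (add (start D78) (orK (nat_lit 249) (fin (add (start D75) (orK (nat_lit 246) (fin (add (add (add (start D613) D648) (orK (nat_lit 227) (fin (add (start D134) D653))))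 (orK (nat_lit 225) (fin (add (start D624) (orK (nat_lit 245) (fin (add (start D136) (orK (nat_lit 189) (fin (add (start D127) D631)))))))))))))))))))))) D97))))))) (orK (nat_lit 248) (fin (add (add (add (start D99) (orK (nat_lit 229) (fin (add (start D61) (orK (nat_lit 206) (fin (add (start D62) (orK (nat_lit 269) (fin (add (add (add (start (orK (nat_lit 289) (fin (add (start D674) D675)))) (orK (nat_lit 268) (fin (add (start D112) (orK (nat_lit 267) (fin (add (start D109) (orK (nat_lit 247) (fin (add (start D187) D681)))))))))) (orK (nat_lit 249) (fin (add (start D515) D688)))) (orK (nat_lit 247) (fin (add (add (start (orK (nat_lit 188) (fin (add (start D78) D111)))) D82) (orK (nat_lit 267) (fin (add (start D187) (orK (nat_lit 268) (fin (add (start D109) D681))))))))))))))))))) D211) (orK (nat_lit 229) (fin (add (start D61) (orK (nat_lit 206) (fin (add (start D62) (orK (nat_lit 187) (fin (add (add (start D97) (orK (nat_lit 188) (fin (add (start D218) D84)))) (orK (nat_lit 167) (fin (add (start D31) (orK (nat_lit 246) (fin (add (start (orK (nat_lit 226) D709)) (orK (nat_lit 247) D81))))))))))))))))))))))) D243)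 (orK (nat_lit 209) D726))))) (orK (nat_lit 190) D1258)) (orK (nat_lit 208) (fin (add (add (add (add (start D9) D1263) (orK (nat_lit 209) (fin (add (start D0) D1318)))) (orK (nat_lit 228) (fin (add (add (add (start D67) (orK (nat_lit 248) (fin (add (add (add (start D73) D126) D99) (orK (nat_lit 188) (fin (add (add (add (start D1332) (orK (nat_lit 187) (fin (add (start D216) D641)))) (orK (nat_lit 247) (fin (add (start D78) (orK (nat_lit 168) (fin (add (start D157) D532))))))) (orK (nat_lit 247) (fin (add (start D78) (orK (nat_lit 168) (fin (add (start D157) D423))))))))))))) D101) (orK (nat_lit 248) (fin (add (add (add (start D99) D199) D211) (orK (nat_lit 229) (fin (add (start D61) (orK (nat_lit 206) (fin (add (start D62) (orK (nat_lit 188) (fin (add (add (start D77) D84) (orK (nat_lit 267) (fin (add (start D110) D1332))))))))))))))))))) (orK (nat_lit 209) (fin (add (add (start D7) D1261) D1318))))))) (orK (nat_lit 209) (fin (add (add (add (add (add (add (add (start (orK (nat_lit 208) (fin (add (add (start D7) D1261) D1392)))) (orK (nat_lit 208) (fin (add (add (add (start D15) D1261) D1428) D1288)))) (orK (nat_lit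 208) D1433)) (orK (nat_lit 208) D726)) (orK (nat_lit 190) (fin (add (add (add (start (orK (nat_lit 170) (fin (add (add (start D30) D259) (orK (nat_lit 229) (fin (add (start D28) (orK (nat_lit 169) (fin (add (start D260) D739)))))))))) D1103) (orK (nat_lit 206) (fin (add (add (add (start (orK (nat_lit 208) D746)) (orK (nat_lit 208) D6)) (orK (nat_lit 170) (fin (add (add (start D30) D259) (orK (nat_lit 229) (fin (add (start D28) (orK (nat_lit 228) (fin (add (start D63) (orK (nat_lit 169) (fin (add (start D260) (orK (nat_lit 189) (fin (add (start D1444) (orK (nat_lit 168) (fin (add (start D1111) (orK (nat_lit 167) (fin (add (start D833) (orK (nat_lit 147) (fin (add (start D985) (orK (nat_lit 187) (fin (add (start D1445) D1063)))))))))))))))))))))))))))) (orK (nat_lit 208) (fin (add (start D10) D5))))))) D1469)))) (orK (nat_lit 208) (fin (add (add (add (add (start D302) D596) D1428) (orK (nat_lit 187) (fin (add (start D19) (orK (nat_lit 227) (fin (add (start D18) D1500))))))) D1392)))) (orK (nat_lit 169) D2161)) (orK (nat_lit 208) D2169))))) (orK (nat_lit 208) (fin (add (add (add (add (add (start D9) D17) (orK (nat_lit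 209) (fin (add (start D0) D2188)))) (orK (nat_lit 228) (fin (add (add (add (start D67) (orK (nat_lit 229) (fin (add (start D61) (orK (nat_lit 188) (fin (add (add (add (start D2192) (orK (nat_lit 248) (fin (add (start D401) D84)))) D520) (orK (nat_lit 248) (fin (add (start D401) (orK (nat_lit 168) (fin (add (start D311) D341))))))))))))) (orK (nat_lit 248) (fin (add (add (add (add (start (orK (nat_lit 187) D2218)) D126) D2221) D2229) (orK (nat_lit 187) (fin (add (add (add (start D2217) D170) D2248) D2250))))))) D2267)))) D243) (orK (nat_lit 209) (fin (add (add (add (start D7) D15) D2188) D247))))))) (orK (nat_lit 208) (fin (add (add (add (add (add (start D9) D17) D2275) (orK (nat_lit 228) (fin (add (add (add (start D67) (orK (nat_lit 229) (fin (add (start D61) (orK (nat_lit 227) (fin (add (add (start D2277) (orK (nat_lit 246) (fin (add (start D1170) (orK (nat_lit 226) (fin (add (start D1171) (orK (nat_lit 225) (fin (add (start D2230) (orK (nat_lit 248) (fin (add (start D137) D2203))))))))))))) D2293))))))) (orK (nat_lit 248) (fin (add (add (add (add (start D2221) (orK (nat_lit 188) (fin (add (start D2303) D2321))))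 D126) (orK (nat_lit 268) (fin (add (start D201) D124)))) D2229)))) D2267)))) D243) D2330)))) (orK (nat_lit 208) (fin (add (add (add (add (add (start D9) D17) D60) (orK (nat_lit 228) (fin (add (add (add (start D67) D101) (orK (nat_lit 187) (fin (add (add (add (start (orK (nat_lit 248) (fin (add (start D68) (orK (nat_lit 247) D2516))))) (orK (nat_lit 167) D2522)) (orK (nat_lit 167) D2526)) (orK (nat_lit 167) (fin (add (start D31) (orK (nat_lit 227) (fin (add (add (start (orK (nat_lit 246) (fin (add (start D872) (orK (nat_lit 247) (fin (add (start D134) (orK (nat_lit 168) (fin (add (start D2528) D1307)))))))))) D2549) (orK (nat_lit 168) (fin (add (start D1307) (orK (nat_lit 247) (fin (add (start D2528) D1743)))))))))))))))) (orK (nat_lit 248) (fin (add (add (start D99) (orK (nat_lit 229) (fin (add (start D61) (orK (nat_lit 206) (fin (add (start D62) (orK (nat_lit 247) (fin (add (add (start D82) (orK (nat_lit 188) (fin (add (start D78) D77)))) (orK (nat_lit 267) (fin (add (start D187) (orK (nat_lit 246) (fin (add (start D79) (orK (nat_lit 287) (fin (add (start D189) (orK (nat_lit 226) (fin (add (start (win (nat_lit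 6) (nat_lit 6) (nat_lit 9) (nat_lit 0))) (win (nat_lit 6) (nat_lit 6) (nat_lit 10) (nat_lit 3)))))))))))))))))))))))) D211))))))) D243) D249)))) (orK (nat_lit 190) (fin (add (add (add (add (add (start (orK (nat_lit 170) D2593)) (orK (nat_lit 208) (fin (add (add (add (start D819) D820) (orK (nat_lit 228) (fin (add (add (add (start D67) (orK (nat_lit 229) (fin (add (start D61) (orK (nat_lit 188) (fin (add (add (start D2192) D2596) D2600))))))) (orK (nat_lit 188) (fin (add (add (add (add (start D2596) (orK (nat_lit 189) (fin (add (start D316) D2610)))) (orK (nat_lit 168) (fin (add (add (start D311) D423) (orK (nat_lit 169) (fin (add (start D308) (orK (nat_lit 147) (fin (add (start D417) (orK (nat_lit 248) (fin (add (add (add (start (orK (nat_lit 247) (fin (add (start D157) D78)))) D2608) D2616) D429))))))))))))) (orK (nat_lit 191) (fin (add (start D2625) (orK (nat_lit 248) (fin (add (add (add (add (start D2608) D2321) (orK (nat_lit 268) (fin (add (add (start (orK (nat_lit 267) (fin (add (start D110) D109)))) D405) D108)))) D2616) D409))))))) (orK (nat_lit 189) (fin (add (start D316) (orK (nat_lit 205) (fin (add (start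 D363) D839)))))))))) (orK (nat_lit 229) (fin (add (start D61) (orK (nat_lit 205) (fin (add (start D175) (orK (nat_lit 188) (fin (add (add (add (start D520) D2600) (orK (nat_lit 168) (fin (add (start D521) (orK (nat_lit 149) (fin (add (start D160) (orK (nat_lit 148) (fin (add (start D159) (orK (nat_lit 191) (fin (add (start D2625) D419))))))))))))) D2596))))))))))))) D933)))) (orK (nat_lit 170) (fin (add (add (add (start D940) (orK (nat_lit 249) (fin (add (start D1395) (orK (nat_lit 169) (fin (add (start D260) D999))))))) D944) D259)))) (orK (nat_lit 209) (fin (add (add (add (start D731) D749) (orK (nat_lit 229) (fin (add (add (start D1150) (orK (nat_lit 249) (fin (add (start D1711) (orK (nat_lit 231) (fin (add (add (start (orK (nat_lit 232) (fin (add (start D789) D2664)))) (orK (nat_lit 228) (fin (add (start (orK (nat_lit 248) (fin (add (start D2667) (orK (nat_lit 189) (fin (add (start (win (nat_lit 1) (nat_lit 8) (nat_lit 8) (nat_lit 0))) D1670))))))) D1510)))) (orK (nat_lit 232) (fin (add (start D789) (orK (nat_lit 252) (fin (add (start D791) (orK (nat_lit 228) (fin (add (start D2680) D1510)))))))))))))))) (orK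 (nat_lit 170) (fin (add (start D27) D810))))))) D816)))) D1052) (orK (nat_lit 209) (fin (add (add (add (start D731) D749) D2710) D816))))))) (orK (nat_lit 170) D5417)) (orK (nat_lit 227) D7058)) (orK (nat_lit 169) D23934)) (orK (nat_lit 227) D25836)) (orK (nat_lit 208) (fin (add (add (add (add (add (start D9) D17) D60) (orK (nat_lit 228) (fin (add (add (add (start D67) D101) (orK (nat_lit 248) (fin (add (add (add (start D73) D126) D99) (orK (nat_lit 187) (fin (add (add (start D71) (orK (nat_lit 188) (fin (add (add (start D133) D168) (orK (nat_lit 247) (fin (add (start D78) (orK (nat_lit 227) (fin (add (start D85) (orK (nat_lit 246) (fin (add (start D134) (orK (nat_lit 245) (fin (add (start D135) (orK (nat_lit 186) (fin (add (start D140) (orK (nat_lit 265) (fin (add (start D138) (orK (nat_lit 206) (fin (add (start D13393) (orK (nat_lit 205) (fin (add (start D3009) D2364)))))))))))))))))))))))))))) D97))))))) D228)))) D25863) D249)))) (orK (nat_lit 208) (fin (add (add (add (add (add (start D9) D17) D5584) (orK (nat_lit 228) (fin (add (add (add (start D67) D101) (orK (nat_lit 248) (fin (add (add (add (start D73)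 D126) D99) (orK (nat_lit 187) (fin (add (add (start D71) (orK (nat_lit 188) (fin (add (add (start D133) D168) (orK (nat_lit 247) (fin (add (start D78) (orK (nat_lit 227) (fin (add (start D85) (orK (nat_lit 246) (fin (add (start D134) (orK (nat_lit 245) (fin (add (start D135) (orK (nat_lit 186) (fin (add (start D140) (orK (nat_lit 185) (fin (add (start D356) (orK (nat_lit 205) (fin (add (start D364) (orK (nat_lit 225) (fin (add (start D136) (orK (nat_lit 265) (fin (add (start D4795) D138))))))))))))))))))))))))))))))) D97))))))) D228)))) D25863) (orK (nat_lit 206) (fin (add (add (add (start (orK (nat_lit 209) D6)) (orK (nat_lit 209) D14)) (orK (nat_lit 228) (fin (add (add (add (start (orK (nat_lit 229) D64)) (orK (nat_lit 227) (fin (add (start D3008) (orK (nat_lit 187) (fin (add (add (start D566) (orK (nat_lit 248) (fin (add (start D68) (orK (nat_lit 188) (fin (add (start D403) D218))))))) (orK (nat_lit 167) (fin (add (start D31) (orK (nat_lit 168) (fin (add (start D1307) (orK (nat_lit 188) (fin (add (start D309) D6678)))))))))))))))) (orK (nat_lit 205) (fin (add (start D25909) (orK (nat_lit 184) (fin (add (start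 D4938) (orK (nat_lit 204) (fin (add (start D4939) (orK (nat_lit 187) (fin (add (start D17281) D4741))))))))))))) (orK (nat_lit 188) (fin (add (add (start (orK (nat_lit 248) (fin (add (add (start D401) D2608) (orK (nat_lit 247) (fin (add (start D78) (orK (nat_lit 168) (fin (add (start D157) D345)))))))))) (orK (nat_lit 205) (fin (add (start D2364) (orK (nat_lit 204) (fin (add (start (win (nat_lit 0) (nat_lit 4) (nat_lit 10) (nat_lit 4))) D24666))))))) D25929))))))) (orK (nat_lit 209) (fin (add (start D5) D13)))))))))) (orK (nat_lit 208) (fin (add (add (add (add (add (start D9) D17) D5661) (orK (nat_lit 188) D27266)) D25863) (orK (nat_lit 209) (fin (add (add (add (start D7) D15) D302) D247))))))) (orK (nat_lit 187) D28992)) (orK (nat_lit 208) (fin (add (add (add (add (add (start (orK (nat_lit 209) (fin (add (start D0) D2168)))) D1290) D25863) (orK (nat_lit 209) D2949)) (orK (nat_lit 187) D29681)) (orK (nat_lit 209) D2169))))) (orK (nat_lit 208) (fin (add (add (add (add (add (start D9) D17) D2275) (orK (nat_lit 228) (fin (add (add (add (start D67) (orK (nat_lit 229) D25818)) (orK (nat_lit 248) (fin (add (add (add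 (start D2221) (orK (nat_lit 269) (fin (add (add (start (orK (nat_lit 249) (fin (add (start D688) (orK (nat_lit 289) (fin (add (start D675) D24289))))))) D2614) (orK (nat_lit 188) (fin (add (start D111) D29696))))))) D99) (orK (nat_lit 188) (fin (add (add (start D2303) (orK (nat_lit 269) (fin (add (start D111) (orK (nat_lit 168) (fin (add (add (start D345) (orK (nat_lit 148) (fin (add (start D330) D6259)))) D29692))))))) D29696))))))) D558)))) D243) D2330)))) (orK (nat_lit 208) (fin (add (add (add (add (start D9) D17) (orK (nat_lit 209) (fin (add (start D0) D29714)))) (orK (nat_lit 228) D29878)) (orK (nat_lit 209) (fin (add (add (start D7) D15) D29714)))))))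

end Vale.Agent.Lib.P062.CT
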